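import Crest.Agent.R182.BCH0

/-!
Row 182: API of the Baker–Campbell–Hausdorff product (definitions in `BCH0.lean`).
-/

set_option autoImplicit false

namespace Crest.Agent.R182

open scoped BigOperators

/-! ### auxiliary facts on `IsNilpotent.exp` -/

section aux
variable {A : Type} [Ring A] [Algebra ℝ A] [Module ℚ A]

theorem bch2_exp_eq_sum {a : A} {k : ℕ} (h : a ^ k = 0) :
    IsNilpotent.exp a = ∑ i ∈ Finset.range k, ((i.factorial : ℝ)⁻¹) • a ^ i := by
  rw [IsNilpotent.exp_eq_sum h]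
  refine Finset.sum_congr rfl fun i _ => ?_
  exact inv_natCast_smul_eq ℚ ℝ _ _

omit [Algebra ℝ A] in
/-- conjugation by an invertible element commutes with `exp` -/
theorem bch2_exp_conj {g h b : A} (hgh : g * h = 1) (hhg : h * g = 1) (hb : IsNilpotent b) :
    IsNilpotent.exp (g * b * h) = g * IsNilpotent.exp b * h := by
  let φ : A →+* A :=
    { toFun := fun c => g * c * h
      map_one' := by simp [hgh]
      map_mul' := fun c d => by
        have : g * c * h * (g * d * h) = g * c * (h * g) * d * h := by noncomm_ring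
        rw [this, hhg]; noncomm_ring
      map_zero' := by simp
      map_add' := fun c d => by noncomm_ring }
  exact (IsNilpotent.map_exp hb φ).symm

end aux

/-- `exp a * b * exp (-a) = exp (ad a) b` -/
theorem bch2_exp_ad {n : ℕ} {a : Matrix (Fin n) (Fin n) ℝ} (ha : IsNilpotent a)
    (b : Matrix (Fin n) (Fin n) ℝ) {k : ℕ}
    (hk : ((LinearMap.mulLeft ℝ a - LinearMap.mulRight ℝ a) ^ k) b = 0) :
    IsNilpotent.exp a * b * IsNilpotent.exp (-a) =
      ∑ i ∈ Finset.range k, ((i.factorial : ℝ)⁻¹) •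
        ((LinearMap.mulLeft ℝ a - LinearMap.mulRight ℝ a) ^ i) b := by
  obtain ⟨m, hm⟩ := ha
  have hm' : (-a) ^ m = 0 := by rw [neg_pow, hm, mul_zero]
  have hL : (LinearMap.mulLeft ℝ a) ^ m = 0 := by
    rw [LinearMap.pow_mulLeft, hm, LinearMap.mulLeft_zero_eq_zero]
  have hR : (LinearMap.mulRight ℝ (-a)) ^ m = 0 := by
    rw [LinearMap.pow_mulRight, hm', LinearMap.mulRight_zero_eq_zero]
  have hc : Commute (LinearMap.mulLeft ℝ a) (LinearMap.mulRight ℝ (-a)) :=
    LinearMap.commute_mulLeft_right _ _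
  have hsub : LinearMap.mulLeft ℝ a - LinearMap.mulRight ℝ a =
      LinearMap.mulLeft ℝ a + LinearMap.mulRight ℝ (-a) := by
    ext c : 1
    simp [sub_eq_add_neg]
  have hn : IsNilpotent (LinearMap.mulLeft ℝ a + LinearMap.mulRight ℝ (-a)) :=
    hc.isNilpotent_add ⟨m, hL⟩ ⟨m, hR⟩
  have h1 := IsNilpotent.exp_add_of_commute hc ⟨m, hL⟩ ⟨m, hR⟩
  have h2 : IsNilpotent.exp (LinearMap.mulLeft ℝ a + LinearMap.mulRight ℝ (-a)) b =
      IsNilpotent.exp a * b * IsNilpotent.exp (-a) := by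
    rw [h1, Module.End.mul_apply, bch2_exp_eq_sum hL, bch2_exp_eq_sum hR, bch2_exp_eq_sum hm,
      bch2_exp_eq_sum hm', mul_assoc]
    have e : (∑ i ∈ Finset.range m, ((i.factorial : ℝ)⁻¹) • LinearMap.mulRight ℝ (-a) ^ i) b =
        b * ∑ i ∈ Finset.range m, ((i.factorial : ℝ)⁻¹) • (-a) ^ i := by
      simp only [LinearMap.sum_apply, LinearMap.smul_apply, LinearMap.pow_mulRight,
        LinearMap.mulRight_apply, Finset.mul_sum, mul_smul_comm]
    rw [e]
    generalize b * ∑ i ∈ Finset.range m, ((i.factorial : ℝ)⁻¹) • (-a) ^ i = c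
    simp only [LinearMap.sum_apply, LinearMap.smul_apply, LinearMap.pow_mulLeft,
      LinearMap.mulLeft_apply, Finset.sum_mul, smul_mul_assoc]
  rw [← h2, hsub]
  rw [hsub] at hk
  have h3 := IsNilpotent.exp_smul_eq_sum (m := b) (k := k) hk hn
  simp only [Module.End.smul_def] at h3
  rw [h3]
  refine Finset.sum_congr rfl fun i _ => ?_
  exact inv_natCast_smul_eq ℚ ℝ _ _

namespace NL

variable {E : Type} [AddCommGroup E] [Module ℝ E] (N : NL E)

theorem bch2_pow (x : E) : N.ρ x ^ N.m = 0 := by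
  have := N.nil (List.replicate N.m x) (by simp)
  simpa using this

theorem bch2_nilp (x : E) : IsNilpotent (N.ρ x) := ⟨_, N.bch2_pow x⟩

theorem bch2_exp_mul_neg (x : E) :
    IsNilpotent.exp (N.ρ x) * IsNilpotent.exp (N.ρ (-x)) = 1 := by
  rw [map_neg]; exact IsNilpotent.exp_mul_exp_neg_self (N.bch2_nilp x)

theorem bch2_exp_neg_mul (x : E) :
    IsNilpotent.exp (N.ρ (-x)) * IsNilpotent.exp (N.ρ x) = 1 := by
  rw [map_neg]; exact IsNilpotent.exp_neg_mul_exp_self (N.bch2_nilp x)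

theorem exp_mul (x y : E) :
    IsNilpotent.exp (N.ρ (N.mul x y)) = IsNilpotent.exp (N.ρ x) * IsNilpotent.exp (N.ρ y) := by
  obtain ⟨l, -, hl⟩ := exists_bch N.m
  exact Classical.epsilon_spec (p := fun z => IsNilpotent.exp (N.ρ z) =
    IsNilpotent.exp (N.ρ x) * IsNilpotent.exp (N.ρ y)) ⟨_, hl E N le_rfl x y⟩

theorem mul_formula : ∃ l : List (ℝ × LW), (∀ p ∈ l, 1 ≤ p.2.degX ∧ 1 ≤ p.2.degY) ∧
    ∀ x y : E, N.mul x y = x + y + (l.map fun p => p.1 • p.2.eval N.br x y).sum := by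
  obtain ⟨l, hl0, hl⟩ := exists_bch N.m
  exact ⟨l, hl0, fun x y => N.exp_inj ((N.exp_mul x y).trans (hl E N le_rfl x y).symm)⟩

theorem mul_assoc' (x y z : E) : N.mul (N.mul x y) z = N.mul x (N.mul y z) := by
  apply N.exp_inj
  simp only [N.exp_mul, mul_assoc]

@[simp] theorem zero_mul' (x : E) : N.mul 0 x = x := by
  apply N.exp_inj
  rw [N.exp_mul, map_zero, IsNilpotent.exp_zero, one_mul]

@[simp] theorem mul_zero' (x : E) : N.mul x 0 = x := by
  apply N.exp_inj
  rw [N.exp_mul, map_zero, IsNilpotent.exp_zero, mul_one]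

theorem mul_of_comm {x y : E} (h : N.br x y = 0) : N.mul x y = x + y := by
  apply N.exp_inj
  have hc : Commute (N.ρ x) (N.ρ y) := by
    have := N.map_br x y
    rw [h, map_zero] at this
    exact sub_eq_zero.1 this.symm
  rw [N.exp_mul, map_add, IsNilpotent.exp_add_of_commute hc (N.bch2_nilp x) (N.bch2_nilp y)]

@[simp] theorem neg_mul' (x : E) : N.mul (-x) x = 0 := by
  rw [N.mul_of_comm (by simp [N.br_self]), neg_add_cancel]

@[simp] theorem mul_neg' (x : E) : N.mul x (-x) = 0 := by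
  rw [N.mul_of_comm (by simp [N.br_self]), add_neg_cancel]

theorem smul_mul_smul (s t : ℝ) (x : E) : N.mul (s • x) (t • x) = (s + t) • x := by
  rw [N.mul_of_comm (by simp [N.br_self]), add_smul]

theorem neg_mul_rev (x y : E) : -N.mul x y = N.mul (-y) (-x) := by
  have h : N.mul (N.mul x y) (N.mul (-y) (-x)) = 0 := by
    rw [N.mul_assoc', ← N.mul_assoc' y, N.mul_neg', N.zero_mul', N.mul_neg']
  calc -N.mul x y = N.mul (-N.mul x y) (N.mul (N.mul x y) (N.mul (-y) (-x))) := by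
        rw [h, N.mul_zero']
    _ = N.mul (-y) (-x) := by rw [← N.mul_assoc', N.neg_mul', N.zero_mul']

@[simp] theorem prod_nil : N.prod [] = 0 := rfl

@[simp] theorem prod_cons (x : E) (l : List E) : N.prod (x :: l) = N.mul x (N.prod l) := rfl

theorem prod_append (l l' : List E) : N.prod (l ++ l') = N.mul (N.prod l) (N.prod l') := by
  induction l with
  | nil => simp
  | cons x l ih => rw [List.cons_append, N.prod_cons, N.prod_cons, ih, N.mul_assoc']

theorem bch2_map_eval {E' : Type} [AddCommGroup E'] [Module ℝ E'] (N' : NL E') (f : E →ₗ[ℝ] E')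
    (hf : ∀ x y, f (N.br x y) = N'.br (f x) (f y)) (x y : E) (w : LW) :
    f (w.eval N.br x y) = w.eval N'.br (f x) (f y) := by
  induction w with
  | X => rfl
  | Y => rfl
  | br a b iha ihb => simp only [LW.eval, hf, iha, ihb]

/-- naturality under homomorphisms of Lie algebras (use `exists_bch (max _ _)`) -/
theorem map_mul {E' : Type} [AddCommGroup E'] [Module ℝ E'] (N' : NL E') (f : E →ₗ[ℝ] E')
    (hf : ∀ x y, f (N.br x y) = N'.br (f x) (f y)) (x y : E) :
    f (N.mul x y) = N'.mul (f x) (f y) := by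
  obtain ⟨l, -, hl⟩ := exists_bch (max N.m N'.m)
  have h1 := N.exp_inj ((N.exp_mul x y).trans (hl E N (le_max_left _ _) x y).symm)
  have h2 := N'.exp_inj ((N'.exp_mul (f x) (f y)).trans
    (hl E' N' (le_max_right _ _) (f x) (f y)).symm)
  rw [h1, h2, map_add, map_add, map_list_sum, List.map_map]
  congr 2
  refine List.map_congr_left fun p _ => ?_
  simp only [Function.comp_apply, map_smul, N.bch2_map_eval N' f hf]

theorem sub_mul (S : Submodule ℝ E) (hS : ∀ x ∈ S, ∀ y ∈ S, N.br x y ∈ S) (x y : S) :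
    (((N.sub S hS).mul x y : S) : E) = N.mul x y := by
  apply N.exp_inj
  rw [N.exp_mul]
  exact (N.sub S hS).exp_mul x y

theorem mul_mem {S : Submodule ℝ E} (hS : ∀ x ∈ S, ∀ y ∈ S, N.br x y ∈ S) {x y : E}
    (hx : x ∈ S) (hy : y ∈ S) : N.mul x y ∈ S := by
  have := N.sub_mul S hS ⟨x, hx⟩ ⟨y, hy⟩
  rw [← this]
  exact Subtype.mem _

theorem bch2_br_sub (a b a' b' : E) :
    N.br a b - N.br a' b' = N.br a (b - b') - N.br b' (a - a') := by
  rw [N.br_anti b' (a - a')]
  simp only [map_sub, LinearMap.sub_apply]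
  abel

theorem bch2_eval_congr {I : Submodule ℝ E} (hI : ∀ x, ∀ y ∈ I, N.br x y ∈ I) {x x' y y' : E}
    (hx : x - x' ∈ I) (hy : y - y' ∈ I) (w : LW) :
    w.eval N.br x y - w.eval N.br x' y' ∈ I := by
  induction w with
  | X => exact hx
  | Y => exact hy
  | br a b iha ihb =>
    simp only [LW.eval]
    rw [N.bch2_br_sub]
    exact I.sub_mem (hI _ _ ihb) (hI _ _ iha)

theorem bch2_sum_sub_mem {I : Submodule ℝ E} {ι : Type} (l : List ι) (f g : ι → E)
    (h : ∀ p ∈ l, f p - g p ∈ I) : (l.map f).sum - (l.map g).sum ∈ I := by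
  induction l with
  | nil => simp
  | cons p l ih =>
    simp only [List.map_cons, List.sum_cons]
    have h1 := h p List.mem_cons_self
    have h2 := ih fun q hq => h q (List.mem_cons_of_mem _ hq)
    have := I.add_mem h1 h2
    convert this using 1
    abel

/-- the product respects congruence modulo an ideal -/
theorem mul_congr {I : Submodule ℝ E} (hI : ∀ x, ∀ y ∈ I, N.br x y ∈ I) {x x' y y' : E}
    (hx : x - x' ∈ I) (hy : y - y' ∈ I) : N.mul x y - N.mul x' y' ∈ I := by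
  obtain ⟨l, -, hl⟩ := N.mul_formula
  have h := bch2_sum_sub_mem (I := I) l (fun p => p.1 • p.2.eval N.br x y)
    (fun p => p.1 • p.2.eval N.br x' y') fun p _ => by
      rw [← smul_sub]; exact I.smul_mem _ (N.bch2_eval_congr hI hx hy _)
  rw [hl, hl]
  convert I.add_mem (I.add_mem hx hy) h using 1
  abel

/-- modulo an ideal `I` containing `[x, y]`-words: if `y ∈ I` then `x • y - x ∈ I` -/
theorem mul_sub_mem {I : Submodule ℝ E} (hI : ∀ x, ∀ y ∈ I, N.br x y ∈ I) (x : E) {y : E}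
    (hy : y ∈ I) : N.mul x y - x ∈ I ∧ N.mul y x - x ∈ I := by
  constructor
  · have := N.mul_congr hI (x := x) (x' := x) (y := y) (y' := 0) (by simp) (by simpa using hy)
    rwa [N.mul_zero'] at this
  · have := N.mul_congr hI (x := y) (x' := 0) (y := x) (y' := x) (by simpa using hy) (by simp)
    rwa [N.zero_mul'] at this

theorem bch2_br_mem_succ {i : ℕ} (x : E) {y : E} (hy : y ∈ N.lcs i) :
    N.br x y ∈ N.lcs (i + 1) :=
  Submodule.subset_span ⟨x, y, hy, rfl⟩

theorem bch2_lcs_ideal (i : ℕ) : ∀ x, ∀ y ∈ N.lcs i, N.br x y ∈ N.lcs i :=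
  fun x _ hy => N.lcs_succ_le i (N.bch2_br_mem_succ x hy)

theorem bch2_eval_congr_lcs {i : ℕ} {x x' y y' : E} (hx : x - x' ∈ N.lcs i)
    (hy : y - y' ∈ N.lcs i) {w : LW} (hw : 1 ≤ w.degX ∧ 1 ≤ w.degY) :
    w.eval N.br x y - w.eval N.br x' y' ∈ N.lcs (i + 1) := by
  cases w with
  | X => simp [LW.degY] at hw
  | Y => simp [LW.degX] at hw
  | br a b =>
    simp only [LW.eval]
    rw [N.bch2_br_sub]
    exact Submodule.sub_mem _
      (N.bch2_br_mem_succ _ (N.bch2_eval_congr (N.bch2_lcs_ideal i) hx hy b))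
      (N.bch2_br_mem_succ _ (N.bch2_eval_congr (N.bch2_lcs_ideal i) hx hy a))

/-- unitriangularity in both arguments -/
theorem mul_sub_mul_mem_lcs {i : ℕ} {x x' y y' : E} (hx : x - x' ∈ N.lcs i)
    (hy : y - y' ∈ N.lcs i) :
    N.mul x y - N.mul x' y' - ((x - x') + (y - y')) ∈ N.lcs (i + 1) := by
  obtain ⟨l, hl0, hl⟩ := N.mul_formula
  have h := bch2_sum_sub_mem (I := N.lcs (i + 1)) l (fun p => p.1 • p.2.eval N.br x y)
    (fun p => p.1 • p.2.eval N.br x' y') fun p hp => by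
      rw [← smul_sub]; exact Submodule.smul_mem _ _ (N.bch2_eval_congr_lcs hx hy (hl0 p hp))
  rw [hl, hl]
  convert h using 1
  abel

theorem mul_sub_add_mem_lcs (x y : E) : N.mul x y - (x + y) ∈ N.lcs 1 := by
  have := N.mul_sub_mul_mem_lcs (i := 0) (x := x) (x' := 0) (y := y) (y' := 0)
    Submodule.mem_top Submodule.mem_top
  simpa using this

/-- unitriangularity -/
theorem mul_add_sub_mem_lcs {i : ℕ} (x y : E) {z : E} (hz : z ∈ N.lcs i) :
    N.mul (x + z) y - N.mul x y - z ∈ N.lcs (i + 1) ∧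
      N.mul y (x + z) - N.mul y x - z ∈ N.lcs (i + 1) := by
  constructor
  · have := N.mul_sub_mul_mem_lcs (i := i) (x := x + z) (x' := x) (y := y) (y' := y)
      (by simpa using hz) (by simp)
    simpa using this
  · have := N.mul_sub_mul_mem_lcs (i := i) (x := y) (x' := y) (y := x + z) (y' := x)
      (by simp) (by simpa using hz)
    simpa using this

theorem bch2_pow_br_mem {i : ℕ} (x : E) {z : E} (hz : z ∈ N.lcs i) (k : ℕ) :
    (N.br x ^ k) z ∈ N.lcs (i + k) := by
  induction k with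
  | zero => simpa using hz
  | succ k ih =>
    rw [pow_succ', Module.End.mul_apply]
    exact N.bch2_br_mem_succ x ih

theorem bch2_ρ_pow_br (x y : E) (k : ℕ) : N.ρ ((N.br x ^ k) y) =
    ((LinearMap.mulLeft ℝ (N.ρ x) - LinearMap.mulRight ℝ (N.ρ x)) ^ k) (N.ρ y) := by
  induction k with
  | zero => simp
  | succ k ih =>
    rw [pow_succ', pow_succ', Module.End.mul_apply, Module.End.mul_apply, N.map_br, ih]
    simp

theorem Ad_apply (x y : E) :
    N.Ad x y = ∑ i ∈ Finset.range (N.m + 1), ((i.factorial : ℝ)⁻¹) • (N.br x ^ i) y := by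
  simp [Ad, LinearMap.sum_apply]

/-- `exp a * b * exp (-a) = exp (ad a) b` (left and right multiplications commute) -/
theorem ρ_Ad (x y : E) :
    N.ρ (N.Ad x y) = IsNilpotent.exp (N.ρ x) * N.ρ y * IsNilpotent.exp (N.ρ (-x)) := by
  have h0 : (N.br x ^ N.m) y = 0 := by
    have := N.bch2_pow_br_mem (i := 0) x (z := y) Submodule.mem_top N.m
    rwa [zero_add, N.lcs_eq_bot, Submodule.mem_bot] at this
  have h1 : (N.br x ^ (N.m + 1)) y = 0 := by
    rw [pow_succ', Module.End.mul_apply, h0, map_zero]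
  rw [map_neg, bch2_exp_ad (N.bch2_nilp x) (N.ρ y) (k := N.m + 1)
    (by rw [← N.bch2_ρ_pow_br, h1, map_zero]), N.Ad_apply, map_sum]
  refine Finset.sum_congr rfl fun i _ => ?_
  rw [map_smul, N.bch2_ρ_pow_br]

theorem mul_mul_neg (x y : E) : N.mul (N.mul x y) (-x) = N.Ad x y := by
  apply N.exp_inj
  rw [N.exp_mul, N.exp_mul, N.ρ_Ad,
    bch2_exp_conj (N.bch2_exp_mul_neg x) (N.bch2_exp_neg_mul x) (N.bch2_nilp y)]

theorem Ad_br (x y z : E) : N.Ad x (N.br y z) = N.br (N.Ad x y) (N.Ad x z) := by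
  apply N.inj
  rw [N.map_br, N.ρ_Ad, N.ρ_Ad, N.ρ_Ad, N.map_br]
  have h := N.bch2_exp_neg_mul x
  generalize IsNilpotent.exp (N.ρ x) = g at *
  generalize IsNilpotent.exp (N.ρ (-x)) = g' at *
  have e : ∀ a b : Matrix (Fin N.n) (Fin N.n) ℝ,
      g * a * g' * (g * b * g') = g * (a * b) * g' := fun a b => by
    have : g * a * g' * (g * b * g') = g * a * (g' * g) * b * g' := by noncomm_ring
    rw [this, h]; noncomm_ring
  rw [e, e]
  noncomm_ring

theorem Ad_mul (x y z : E) : N.Ad (N.mul x y) z = N.Ad x (N.Ad y z) := by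
  apply N.inj
  rw [N.ρ_Ad, N.ρ_Ad, N.ρ_Ad, N.neg_mul_rev, N.exp_mul, N.exp_mul]
  simp only [mul_assoc]

@[simp] theorem Ad_zero (z : E) : N.Ad 0 z = z := by
  apply N.inj
  rw [N.ρ_Ad, neg_zero, map_zero, IsNilpotent.exp_zero, one_mul, mul_one]

theorem Ad_sub_mem_lcs {i : ℕ} (x : E) {z : E} (hz : z ∈ N.lcs i) :
    N.Ad x z - z ∈ N.lcs (i + 1) := by
  rw [N.Ad_apply, Finset.sum_range_succ']
  simp only [Nat.factorial_zero, Nat.cast_one, inv_one, pow_zero, Module.End.one_apply, one_smul,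
    add_sub_cancel_right]
  refine Submodule.sum_mem _ fun k _ => Submodule.smul_mem _ _ ?_
  induction k with
  | zero => simpa using N.bch2_br_mem_succ x hz
  | succ k ih =>
    rw [pow_succ', Module.End.mul_apply]
    exact N.bch2_lcs_ideal _ _ _ (ih (by simp at *; omega))

theorem Ad_mem {I : Submodule ℝ E} {x : E} (hI : ∀ y ∈ I, N.br x y ∈ I) {y : E} (hy : y ∈ I) :
    N.Ad x y ∈ I := by
  rw [N.Ad_apply]
  refine Submodule.sum_mem _ fun k hk => Submodule.smul_mem _ _ ?_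
  clear hk
  induction k with
  | zero => simpa using hy
  | succ k ih =>
    rw [pow_succ', Module.End.mul_apply]
    exact hI _ ih

theorem sub_Ad (S : Submodule ℝ E) (hS : ∀ x ∈ S, ∀ y ∈ S, N.br x y ∈ S) (x y : S) :
    (((N.sub S hS).Ad x y : S) : E) = N.Ad x y := by
  apply N.inj
  rw [N.ρ_Ad]
  exact (N.sub S hS).ρ_Ad x y

end NL

end Crest.Agent.R182
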