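import Crest.Agent.R182.BCHb

/-!
Row 182: nilpotent Lie algebras given with a faithful nilpotent matrix representation, and the
Baker–Campbell–Hausdorff group law on them.  Definitions: DO NOT CHANGE (owner helper37).
This file: definitions, lower central series, injectivity of `exp`, universal BCH formula.
-/

set_option autoImplicit false

namespace Crest.Agent.R182

open scoped BigOperators

/-- Lie words in two letters -/
inductive LW : Type
  | X : LW
  | Y : LW
  | br : LW → LW → LW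

namespace LW

def degX : LW → ℕ
  | X => 1
  | Y => 0
  | br a b => a.degX + b.degX

def degY : LW → ℕ
  | X => 0
  | Y => 1
  | br a b => a.degY + b.degY

def eval {E : Type} [AddCommGroup E] [Module ℝ E] (B : E →ₗ[ℝ] E →ₗ[ℝ] E) (x y : E) : LW → E
  | X => x
  | Y => y
  | br a b => B (a.eval B x y) (b.eval B x y)

end LW

/-- a nilpotent Lie algebra structure on `E` with a faithful representation in which all products
of `m` elements vanish -/
structure NL (E : Type) [AddCommGroup E] [Module ℝ E] where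
  br : E →ₗ[ℝ] E →ₗ[ℝ] E
  n : ℕ
  ρ : E →ₗ[ℝ] Matrix (Fin n) (Fin n) ℝ
  inj : Function.Injective ρ
  map_br : ∀ x y, ρ (br x y) = ρ x * ρ y - ρ y * ρ x
  m : ℕ
  nil : ∀ l : List E, l.length = m → (l.map ρ).prod = 0

namespace NL

variable {E : Type} [AddCommGroup E] [Module ℝ E] (N : NL E)

/-- the BCH product: `exp (ρ (mul x y)) = exp (ρ x) * exp (ρ y)` -/
noncomputable def mul (x y : E) : E :=
  Classical.epsilon fun z => IsNilpotent.exp (N.ρ z) = IsNilpotent.exp (N.ρ x) * IsNilpotent.exp (N.ρ y)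

/-- product of a list -/
noncomputable def prod (l : List E) : E := l.foldr N.mul 0

/-- `Ad x = exp (ad x)` -/
noncomputable def Ad (x : E) : E →ₗ[ℝ] E :=
  ∑ i ∈ Finset.range (N.m + 1), ((i.factorial : ℝ)⁻¹) • (N.br x) ^ i

/-- lower central series: `lcs 0 = ⊤`, `lcs (i+1) = [E, lcs i]` -/
def lcs : ℕ → Submodule ℝ E
  | 0 => ⊤
  | i + 1 => Submodule.span ℝ {z | ∃ x, ∃ y ∈ lcs i, z = N.br x y}

/-- restriction to a subalgebra -/
def sub (S : Submodule ℝ E) (hS : ∀ x ∈ S, ∀ y ∈ S, N.br x y ∈ S) : NL S where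
  br := LinearMap.mk₂ ℝ (fun x y => ⟨N.br x y, hS _ x.2 _ y.2⟩)
    (fun _ _ _ => Subtype.ext (by simp)) (fun _ _ _ => Subtype.ext (by simp))
    (fun _ _ _ => Subtype.ext (by simp)) (fun _ _ _ => Subtype.ext (by simp))
  n := N.n
  ρ := N.ρ ∘ₗ S.subtype
  inj := N.inj.comp Subtype.val_injective
  map_br x y := N.map_br x y
  m := N.m
  nil l hl := by
    have := N.nil (l.map Subtype.val) (by simpa using hl)
    simpa [List.map_map, Function.comp_def] using this

@[simp] theorem sub_br (S : Submodule ℝ E) (hS : ∀ x ∈ S, ∀ y ∈ S, N.br x y ∈ S) (x y : S) :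
    ((N.sub S hS).br x y : E) = N.br x y := rfl

theorem br_self (x : E) : N.br x x = 0 := by
  apply N.inj
  rw [N.map_br, sub_self, map_zero]

theorem br_anti (x y : E) : N.br x y = -N.br y x := by
  apply N.inj
  rw [map_neg, N.map_br, N.map_br, neg_sub]

theorem br_jacobi (x y z : E) : N.br x (N.br y z) = N.br (N.br x y) z + N.br y (N.br x z) := by
  apply N.inj
  simp only [map_add, N.map_br]
  noncomm_ring

theorem br_mem_lcs_succ {i : ℕ} (x : E) {y : E} (hy : y ∈ N.lcs i) : N.br x y ∈ N.lcs (i + 1) :=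
  Submodule.subset_span ⟨x, y, hy, rfl⟩

theorem lcs_succ_le (i : ℕ) : N.lcs (i + 1) ≤ N.lcs i := by
  induction i with
  | zero => exact le_top
  | succ i ih =>
    refine Submodule.span_le.2 ?_
    rintro _ ⟨x, y, hy, rfl⟩
    exact N.br_mem_lcs_succ x (ih hy)

theorem br_mem_lcs {i j : ℕ} {x y : E} (hx : x ∈ N.lcs i) (hy : y ∈ N.lcs j) :
    N.br x y ∈ N.lcs (i + j + 1) := by
  induction i generalizing j x y with
  | zero => rw [Nat.zero_add]; exact N.br_mem_lcs_succ x hy
  | succ i ih =>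
    induction hx using Submodule.span_induction with
    | mem z hz =>
      obtain ⟨a, b, hb, rfl⟩ := hz
      have e : N.br (N.br a b) y = N.br a (N.br b y) - N.br b (N.br a y) := by
        rw [N.br_jacobi a b y, add_sub_cancel_right]
      rw [e]
      refine Submodule.sub_mem _ ?_ ?_
      · rw [show i + 1 + j + 1 = i + j + 1 + 1 by omega]
        exact N.br_mem_lcs_succ a (ih hb hy)
      · rw [show i + 1 + j + 1 = i + (j + 1) + 1 by omega]
        exact ih hb (N.br_mem_lcs_succ a hy)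
    | zero => simp
    | add a b _ _ ha hb => rw [map_add, LinearMap.add_apply]; exact Submodule.add_mem _ ha hb
    | smul c a _ ha => rw [map_smul, LinearMap.smul_apply]; exact Submodule.smul_mem _ _ ha

theorem prod_eq_zero {k : ℕ} (hk : N.m ≤ k) (l : List (Matrix (Fin N.n) (Fin N.n) ℝ))
    (hl : ∀ a ∈ l, a ∈ Set.range N.ρ) (hlen : l.length = k) : l.prod = 0 := by
  obtain ⟨l', rfl⟩ : ∃ l' : List E, l'.map N.ρ = l := by
    clear hlen
    induction l with
    | nil => exact ⟨[], rfl⟩
    | cons a l ih =>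
      obtain ⟨l', h⟩ := ih fun b hb => hl b (List.mem_cons_of_mem _ hb)
      obtain ⟨x, hx⟩ := hl a List.mem_cons_self
      exact ⟨x :: l', by rw [List.map_cons, h, hx]⟩
  rw [List.length_map] at hlen
  rw [← List.take_append_drop N.m l', List.map_append, List.prod_append,
    N.nil _ (by rw [List.length_take]; omega), zero_mul]

theorem range_pow : LinearMap.range N.ρ ^ N.m = ⊥ := by
  rw [← Submodule.span_eq (LinearMap.range N.ρ), Submodule.span_pow, Submodule.span_eq_bot]
  intro a ha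
  obtain ⟨f, rfl⟩ := Set.mem_pow.1 ha
  refine N.prod_eq_zero le_rfl _ (fun b hb => ?_) (by simp)
  obtain ⟨i, rfl⟩ := List.mem_ofFn.1 hb
  exact (f i).2

theorem isNilpotent_ρ (x : E) : IsNilpotent (N.ρ x) :=
  ⟨N.m, by simpa [N.range_pow] using
    Submodule.pow_mem_pow (LinearMap.range N.ρ) (LinearMap.mem_range_self _ x) N.m⟩

/-- `ρ` of an element of `lcs i` is a combination of products of `i + 1` matrices `ρ x` -/
theorem lcs_eq_bot : N.lcs N.m = ⊥ := by
  have key : ∀ i, ∀ x ∈ N.lcs i, N.ρ x ∈ LinearMap.range N.ρ ^ (i + 1) := by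
    intro i
    induction i with
    | zero => intro x _; rw [Nat.zero_add, pow_one]; exact LinearMap.mem_range_self _ x
    | succ i ih =>
      intro x hx
      refine (Submodule.span_le (p := (LinearMap.range N.ρ ^ (i + 1 + 1)).comap N.ρ)).2 ?_ hx
      rintro _ ⟨a, b, hb, rfl⟩
      change N.ρ (N.br a b) ∈ LinearMap.range N.ρ ^ (i + 1 + 1)
      rw [N.map_br]
      refine Submodule.sub_mem _ ?_ ?_
      · rw [pow_succ']
        exact Submodule.mul_mem_mul (LinearMap.mem_range_self _ a) (ih b hb)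
      · rw [pow_succ]
        exact Submodule.mul_mem_mul (ih b hb) (LinearMap.mem_range_self _ a)
  rw [Submodule.eq_bot_iff]
  intro x hx
  have h := key _ x hx
  rw [pow_succ, N.range_pow, Submodule.bot_mul, Submodule.mem_bot] at h
  exact N.inj (by rw [h, map_zero])

/-- `exp` is injective on the image of `ρ` (nilpotent matrices: `log` is a polynomial inverse, or:
`exp a = exp b` forces `a, b` to commute (polynomials in `exp a`), and `exp c = 1` forces `c = 0`). -/
theorem exp_inj {x y : E} (h : IsNilpotent.exp (N.ρ x) = IsNilpotent.exp (N.ρ y)) : x = y := by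
  exact N.inj (Bch.exp_injective (N.isNilpotent_ρ x) (N.isNilpotent_ρ y) h)

end NL

namespace Bch

/-- pairs of matrices in a nilpotent matrix Lie algebra -/
structure Idx (m : ℕ) where
  n : ℕ
  S : Set (Matrix (Fin n) (Fin n) ℝ)
  br : ∀ a ∈ S, ∀ b ∈ S, a * b - b * a ∈ S
  nil : ∀ l : List (Matrix (Fin n) (Fin n) ℝ), (∀ a ∈ l, a ∈ S) → l.length = m → l.prod = 0
  a : Matrix (Fin n) (Fin n) ℝ
  b : Matrix (Fin n) (Fin n) ℝ
  ha : a ∈ S
  hb : b ∈ S

/-- the universal algebra -/
abbrev Un (m : ℕ) : Type := ∀ i : Idx m, Matrix (Fin i.n) (Fin i.n) ℝ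

/-- Lie words in the universal algebra -/
def ev (m : ℕ) : LW → Un m
  | .X => fun i => i.a
  | .Y => fun i => i.b
  | .br u v => ev m u * ev m v - ev m v * ev m u

theorem ev_mem {m : ℕ} (i : Idx m) (w : LW) : ev m w i ∈ i.S := by
  induction w with
  | X => exact i.ha
  | Y => exact i.hb
  | br u v hu hv => exact i.br _ hu _ hv

theorem ev_X {m : ℕ} (w : LW) (h : w.degY = 0) : ∃ c : ℝ, ev m w = c • ev m .X := by
  induction w with
  | X => exact ⟨1, (one_smul _ _).symm⟩
  | Y => exact absurd h one_ne_zero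
  | br u v hu hv =>
    simp only [LW.degY, Nat.add_eq_zero_iff] at h
    obtain ⟨c, hc⟩ := hu h.1
    obtain ⟨c', hc'⟩ := hv h.2
    refine ⟨0, ?_⟩
    rw [zero_smul, ev, hc, hc', smul_mul_smul_comm, smul_mul_smul_comm, mul_comm c, sub_self]

theorem ev_Y {m : ℕ} (w : LW) (h : w.degX = 0) : ∃ c : ℝ, ev m w = c • ev m .Y := by
  induction w with
  | X => exact absurd h one_ne_zero
  | Y => exact ⟨1, (one_smul _ _).symm⟩
  | br u v hu hv =>
    simp only [LW.degX, Nat.add_eq_zero_iff] at h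
    obtain ⟨c, hc⟩ := hu h.1
    obtain ⟨c', hc'⟩ := hv h.2
    refine ⟨0, ?_⟩
    rw [zero_smul, ev, hc, hc', smul_mul_smul_comm, smul_mul_smul_comm, mul_comm c, sub_self]

theorem un_bch (m : ℕ) : ∃ z ∈ Submodule.span ℚ (Set.range (ev m)), IsNilpotent z ∧
    IsNilpotent (ev m .X) ∧ IsNilpotent (ev m .Y) ∧
    IsNilpotent.exp z = IsNilpotent.exp (ev m .X) * IsNilpotent.exp (ev m .Y) := by
  set L := Submodule.span ℚ (Set.range (ev m)) with hL
  have hm : L ^ m = ⊥ := by
    rw [hL, Submodule.span_pow, Submodule.span_eq_bot]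
    intro a ha
    obtain ⟨f, rfl⟩ := Set.mem_pow.1 ha
    funext i
    have h := map_list_prod (Pi.evalRingHom (fun i : Idx m => Matrix (Fin i.n) (Fin i.n) ℝ) i)
      (List.ofFn fun j => (f j : Un m))
    refine h.trans (i.nil _ (fun b hb => ?_) (by simp))
    obtain ⟨c, hc, rfl⟩ := List.mem_map.1 hb
    obtain ⟨j, rfl⟩ := List.mem_ofFn.1 hc
    obtain ⟨w, hw⟩ := (f j).2
    rw [← hw]
    exact ev_mem i w
  have hbr : ∀ a ∈ L, ∀ b ∈ L, a * b - b * a ∈ L := by
    intro a ha b hb
    induction ha, hb using Submodule.span_induction₂ with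
    | mem_mem a b ha hb =>
      obtain ⟨u, rfl⟩ := ha
      obtain ⟨v, rfl⟩ := hb
      exact Submodule.subset_span ⟨.br u v, rfl⟩
    | zero_left => simp
    | zero_right => simp
    | add_left a b c _ _ _ h1 h2 =>
      rw [add_mul, mul_add, add_sub_add_comm]; exact L.add_mem h1 h2
    | add_right a b c _ _ _ h1 h2 =>
      rw [add_mul, mul_add, add_sub_add_comm]; exact L.add_mem h1 h2
    | smul_left r a b _ _ h =>
      rw [smul_mul_assoc, mul_smul_comm, ← smul_sub]; exact L.smul_mem _ h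
    | smul_right r a b _ _ h =>
      rw [smul_mul_assoc, mul_smul_comm, ← smul_sub]; exact L.smul_mem _ h
  have nilL : ∀ a ∈ L, IsNilpotent a := fun a ha =>
    ⟨m, by simpa [hm] using Submodule.pow_mem_pow L ha m⟩
  have hX : ev m .X ∈ L := Submodule.subset_span ⟨_, rfl⟩
  have hY : ev m .Y ∈ L := Submodule.subset_span ⟨_, rfl⟩
  obtain ⟨z, hz, h⟩ := bch_core hbr hm hX hY
  exact ⟨z, hz, nilL z hz, nilL _ hX, nilL _ hY, h⟩

theorem span_list {m : ℕ} {z : Un m} (hz : z ∈ Submodule.span ℚ (Set.range (ev m))) :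
    ∃ (α β : ℝ) (l : List (ℝ × LW)), (∀ p ∈ l, 1 ≤ p.2.degX ∧ 1 ≤ p.2.degY) ∧
      z = α • ev m .X + β • ev m .Y + (l.map fun p => p.1 • ev m p.2).sum := by
  induction hz using Submodule.span_induction with
  | mem z hz =>
    obtain ⟨w, rfl⟩ := hz
    by_cases h1 : w.degY = 0
    · obtain ⟨c, hc⟩ := ev_X (m := m) w h1
      exact ⟨c, 0, [], by simp, by simp [hc]⟩
    by_cases h2 : w.degX = 0
    · obtain ⟨c, hc⟩ := ev_Y (m := m) w h2
      exact ⟨0, c, [], by simp, by simp [hc]⟩
    exact ⟨0, 0, [(1, w)], by simp; omega, by simp⟩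
  | zero => exact ⟨0, 0, [], by simp, by simp⟩
  | add a b _ _ ha hb =>
    obtain ⟨α, β, l, h1, rfl⟩ := ha
    obtain ⟨α', β', l', h2, rfl⟩ := hb
    refine ⟨α + α', β + β', l ++ l', fun p hp => ?_, ?_⟩
    · rcases List.mem_append.1 hp with h | h
      exacts [h1 p h, h2 p h]
    · rw [List.map_append, List.sum_append, add_smul, add_smul]; abel
  | smul c a _ ha =>
    obtain ⟨α, β, l, h1, rfl⟩ := ha
    refine ⟨c * α, c * β, l.map fun p => ((c : ℝ) * p.1, p.2), fun p hp => ?_, ?_⟩
    · obtain ⟨q, hq, rfl⟩ := List.mem_map.1 hp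
      exact h1 q hq
    · rw [← Rat.cast_smul_eq_qsmul ℝ, smul_add, smul_add, smul_smul, smul_smul, List.smul_sum,
        List.map_map, List.map_map]
      congr 2
      refine List.map_congr_left fun p _ => ?_
      simp [smul_smul]

theorem eval_zero_right {E : Type} [AddCommGroup E] [Module ℝ E] (B : E →ₗ[ℝ] E →ₗ[ℝ] E) (x : E)
    (w : LW) (h : 1 ≤ w.degY) : w.eval B x 0 = 0 := by
  induction w with
  | X => exact absurd h (by simp [LW.degY])
  | Y => rfl
  | br u v hu hv =>
    simp only [LW.degY] at h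
    rcases Nat.eq_zero_or_pos u.degY with h1 | h1
    · rw [LW.eval, hv (by omega), map_zero]
    · rw [LW.eval, hu h1, map_zero, LinearMap.zero_apply]

theorem eval_zero_left {E : Type} [AddCommGroup E] [Module ℝ E] (B : E →ₗ[ℝ] E →ₗ[ℝ] E) (y : E)
    (w : LW) (h : 1 ≤ w.degX) : w.eval B 0 y = 0 := by
  induction w with
  | X => rfl
  | Y => exact absurd h (by simp [LW.degX])
  | br u v hu hv =>
    simp only [LW.degX] at h
    rcases Nat.eq_zero_or_pos u.degX with h1 | h1
    · rw [LW.eval, hv (by omega), map_zero]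
    · rw [LW.eval, hu h1, map_zero, LinearMap.zero_apply]

end Bch

/-- **BCH**, universal form.  Proof: in the nilpotent algebra spanned by products of `ρ`'s,
`d/dt exp Z = exp Z · Φ(ad Z) Z'` with `Φ(s) = ∑ (-s)^k/(k+1)!` (both sides `F(σ) = d/dt exp (σ Z)`
solve `F' = Z F + Z' exp (σ Z)`, `F 0 = 0`).  Let `Ψ = 1/Φ` modulo `s^m` (rational coefficients).
Picard iteration on formal sums of Lie words, `Z₀ = X`, `Z_{k+1} = X + ∫₀ᵗ Ψ(ad Z_k) Y`, where
integrating divides the coefficient of a word `w` by `degY w` (since `w(x, t y) = t^{degY w} w(x,y)`),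
stabilises modulo `lcs k`; the limit `Z(t) = Z_m(x, t y)` solves `Z' = Ψ(ad Z) y`, so
`exp (Z t) exp (-t y)` is constant.  Words without `X` (resp. `Y`) sum to `y` (resp. `x`): evaluate
at `x = 0` (resp. `y = 0`) and use `exp_inj`; drop them from the list. -/
theorem exists_bch (m : ℕ) : ∃ l : List (ℝ × LW), (∀ p ∈ l, 1 ≤ p.2.degX ∧ 1 ≤ p.2.degY) ∧
    ∀ (E : Type) [AddCommGroup E] [Module ℝ E] (N : NL E), N.m ≤ m → ∀ x y : E,
      IsNilpotent.exp (N.ρ (x + y + (l.map fun p => p.1 • p.2.eval N.br x y).sum)) =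
        IsNilpotent.exp (N.ρ x) * IsNilpotent.exp (N.ρ y) := by
  obtain ⟨z, hz, nz, nX, nY, h⟩ := Bch.un_bch m
  obtain ⟨α, β, l, hl, rfl⟩ := Bch.span_list hz
  refine ⟨l, hl, fun E _ _ N hN => ?_⟩
  have key : ∀ x y : E,
      IsNilpotent.exp (N.ρ (α • x + β • y + (l.map fun p => p.1 • p.2.eval N.br x y).sum)) =
        IsNilpotent.exp (N.ρ x) * IsNilpotent.exp (N.ρ y) := by
    intro x y
    let i : Bch.Idx m :=
      { n := N.n
        S := Set.range N.ρ
        br := by
          rintro _ ⟨a, rfl⟩ _ ⟨b, rfl⟩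
          exact ⟨N.br a b, N.map_br a b⟩
        nil := N.prod_eq_zero hN
        a := N.ρ x
        b := N.ρ y
        ha := ⟨x, rfl⟩
        hb := ⟨y, rfl⟩ }
    let π : Bch.Un m →+* Matrix (Fin N.n) (Fin N.n) ℝ :=
      Pi.evalRingHom (fun i : Bch.Idx m => Matrix (Fin i.n) (Fin i.n) ℝ) i
    have hπ : ∀ w : LW, π (Bch.ev m w) = N.ρ (w.eval N.br x y) := by
      intro w
      induction w with
      | X => rfl
      | Y => rfl
      | br u v hu hv => rw [Bch.ev, map_sub, map_mul, map_mul, hu, hv, LW.eval, N.map_br]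
    have hs : ∀ (c : ℝ) (a : Bch.Un m), π (c • a) = c • π a := fun _ _ => rfl
    have h1 := congrArg π h
    rw [map_mul, IsNilpotent.map_exp nz, IsNilpotent.map_exp nX, IsNilpotent.map_exp nY, hπ, hπ,
      map_add, map_add, hs, hs, hπ, hπ, map_list_sum, List.map_map] at h1
    rw [map_add, map_add, map_smul, map_smul, map_list_sum, List.map_map]
    refine Eq.trans ?_ h1
    congr 3
    refine List.map_congr_left fun p _ => ?_
    simp only [Function.comp_apply, map_smul, hs, hπ]
  intro x y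
  have hx : α • x = x := by
    have h1 := key x 0
    rw [List.sum_eq_zero, smul_zero, add_zero, add_zero, map_zero, IsNilpotent.exp_zero,
      mul_one] at h1
    · exact N.exp_inj h1
    · intro a ha
      obtain ⟨p, hp, rfl⟩ := List.mem_map.1 ha
      rw [Bch.eval_zero_right _ _ _ (hl p hp).2, smul_zero]
  have hy : β • y = y := by
    have h1 := key 0 y
    rw [List.sum_eq_zero, smul_zero, zero_add, add_zero, map_zero, IsNilpotent.exp_zero,
      one_mul] at h1
    · exact N.exp_inj h1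
    · intro a ha
      obtain ⟨p, hp, rfl⟩ := List.mem_map.1 ha
      rw [Bch.eval_zero_left _ _ _ (hl p hp).1, smul_zero]
  have h2 := key x y
  rwa [hx, hy] at h2

end Crest.Agent.R182
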