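import Mathlib

/-!
Row 182: the exponential of nilpotent elements of a `ℚ`-algebra: injectivity, surjectivity onto
unipotent elements, derivative along a derivation.
-/

set_option autoImplicit false

namespace Crest.Agent.R182.Bch

open Finset
open IsNilpotent hiding pow_succ

section one
variable {B : Type*} [Ring B] [Module ℚ B]

/-- `(exp a - 1) / a`, truncated -/
noncomputable def ph (K : ℕ) (a : B) : B := ∑ k ∈ range K, (((k + 1).factorial : ℚ)⁻¹) • a ^ k

theorem exp_eq_ph {a : B} {K : ℕ} (h : a ^ K = 0) : exp a = 1 + ph K a * a := by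
  rw [exp_eq_sum (k := K + 1) (by rw [pow_succ, h, zero_mul]), sum_range_succ', ph, sum_mul,
    add_comm]
  simp only [smul_mul_assoc, ← pow_succ]
  simp

theorem ph_succ (K : ℕ) (a : B) :
    ph (K + 1) a = 1 + (∑ k ∈ range K, (((k + 2).factorial : ℚ)⁻¹) • a ^ k) * a := by
  rw [ph, sum_range_succ', sum_mul, add_comm]
  simp only [smul_mul_assoc, ← pow_succ]
  simp

theorem comm_sum {a c : B} (h : Commute c a) (K : ℕ) (f : ℕ → ℚ) :
    Commute c (∑ k ∈ range K, f k • a ^ k) :=
  Commute.sum_right _ _ _ fun k _ => (h.pow_right k).smul_right _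

theorem comm_exp {a c : B} (h : Commute c a) : Commute c (exp a) := comm_sum h _ _

theorem ph_unit {a : B} (h : IsNilpotent a) (K : ℕ) : IsUnit (ph (K + 1) a) := by
  rw [ph_succ]
  exact ((comm_sum (Commute.refl a) _ _).symm.isNilpotent_mul_left h).isUnit_one_add

theorem eq_zero_of_exp_mul {a c : B} (h : IsNilpotent a) (hc : exp a * c = c) : a * c = 0 := by
  obtain ⟨K, hK⟩ := id h
  rw [exp_eq_ph (K := K + 1) (by rw [pow_succ, hK, zero_mul]), add_mul, one_mul, mul_assoc,
    add_eq_left] at hc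
  exact (ph_unit h K).mul_right_eq_zero.1 hc

theorem exists_log (M : ℕ) : ∀ v : B, v ^ M = 0 →
    ∃ z, IsNilpotent z ∧ exp z = 1 + v ∧ ∀ c, Commute c v → Commute c z := by
  induction M with
  | zero =>
    intro v hv
    rw [pow_zero] at hv
    have : Subsingleton B := subsingleton_of_zero_eq_one hv.symm
    exact ⟨0, IsNilpotent.zero, Subsingleton.elim _ _, fun c _ => Commute.zero_right c⟩
  | succ M ih =>
    intro v hv
    rcases Nat.eq_zero_or_pos M with rfl | hM
    · rw [zero_add, pow_one] at hv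
      exact ⟨0, IsNilpotent.zero, by rw [exp_zero, hv, add_zero], fun c _ => Commute.zero_right c⟩
    have hn : IsNilpotent v := ⟨_, hv⟩
    set r : B := ∑ k ∈ range M, (((k + 2).factorial : ℚ)⁻¹) • (-v) ^ k with hr
    have hcr : ∀ c, Commute c v → Commute c r := fun c hc => comm_sum hc.neg_right _ _
    have hvr : Commute v r := hcr v (Commute.refl v)
    have he : exp (-v) = 1 + (1 + r * -v) * -v := by
      rw [exp_eq_ph (K := M + 1) (by rw [neg_pow, hv, mul_zero]), ph_succ]
    set q : B := r + r * v - 1 with hq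
    have hcq : ∀ c, Commute c v → Commute c q := fun c hc =>
      ((hcr c hc).add_right ((hcr c hc).mul_right hc)).sub_right (Commute.one_right c)
    have e1 : (1 + v) * exp (-v) = 1 + q * v ^ 2 := by
      have h1 : v * r = r * v := hvr.eq
      have h2 : v * (r * (v * v)) = r * (v * (v * v)) := by rw [← mul_assoc, h1, mul_assoc]
      rw [he, hq]
      noncomm_ring
      rw [h2]
    obtain ⟨z, h1, h2, h3⟩ := ih (q * v ^ 2) (by
      rw [((hcq v (Commute.refl v)).symm.pow_right 2).mul_pow, ← pow_mul,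
        pow_eq_zero_of_le (by omega) hv, mul_zero])
    have h4 : ∀ c, Commute c v → Commute c z := fun c hc =>
      h3 c ((hcq c hc).mul_right (hc.pow_right 2))
    have h5 : Commute z v := (h4 v (Commute.refl v)).symm
    refine ⟨z + v, h5.isNilpotent_add h1 hn, ?_, fun c hc => (h4 c hc).add_right hc⟩
    rw [exp_add_of_commute h5 h1 hn, h2, ← e1, mul_assoc, exp_neg_mul_exp_self hn, mul_one]

end one

section two
variable {B : Type*} [Ring B] [Algebra ℚ B]

/-- `W ↦ W Z - Z W` -/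
noncomputable def dl (Z : B) : Module.End ℚ B := LinearMap.mulRight ℚ Z + LinearMap.mulLeft ℚ (-Z)

theorem dl_apply (Z W : B) : dl Z W = W * Z - Z * W := by
  simp [dl, sub_eq_add_neg]

theorem dl_nil {Z : B} (h : IsNilpotent Z) : IsNilpotent (dl Z) :=
  (LinearMap.commute_mulLeft_right (-Z) Z).symm.isNilpotent_add
    ((LinearMap.isNilpotent_mulRight_iff ℚ Z).2 h) ((LinearMap.isNilpotent_mulLeft_iff ℚ _).2 h.neg)

theorem exp_mulRight {Z : B} (h : IsNilpotent Z) (W : B) :
    exp (LinearMap.mulRight ℚ Z : Module.End ℚ B) W = W * exp Z := by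
  obtain ⟨k, hk⟩ := h
  rw [exp_eq_sum hk, exp_eq_sum (k := k) (by rw [LinearMap.pow_mulRight, hk]; simp), mul_sum,
    LinearMap.sum_apply]
  simp

theorem exp_mulLeft {Z : B} (h : IsNilpotent Z) (W : B) :
    exp (LinearMap.mulLeft ℚ Z : Module.End ℚ B) W = exp Z * W := by
  obtain ⟨k, hk⟩ := h
  rw [exp_eq_sum hk, exp_eq_sum (k := k) (by rw [LinearMap.pow_mulLeft, hk]; simp), sum_mul,
    LinearMap.sum_apply]
  simp

theorem exp_dl {Z : B} (h : IsNilpotent Z) (W : B) : exp (dl Z) W = exp (-Z) * W * exp Z := by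
  rw [dl, exp_add_of_commute (LinearMap.commute_mulLeft_right (-Z) Z).symm
    ((LinearMap.isNilpotent_mulRight_iff ℚ Z).2 h) ((LinearMap.isNilpotent_mulLeft_iff ℚ _).2 h.neg),
    Module.End.mul_apply, exp_mulRight h, exp_mulLeft h.neg]

theorem exp_injective {a b : B} (ha : IsNilpotent a) (hb : IsNilpotent b) (h : exp a = exp b) :
    a = b := by
  have h1 : exp (dl a) b = b := by
    rw [exp_dl ha, mul_assoc, h, (comm_exp (Commute.refl b)).eq, ← h, ← mul_assoc,
      exp_neg_mul_exp_self ha, one_mul]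
  have h2 : dl a b = 0 := by
    obtain ⟨K, hK⟩ := dl_nil ha
    rw [exp_eq_ph (K := K + 1) (by rw [pow_succ, hK, zero_mul]), LinearMap.add_apply,
      Module.End.one_apply, add_eq_left, Module.End.mul_apply] at h1
    exact ((Module.End.isUnit_iff _).1 (ph_unit (dl_nil ha) K)).1 (by rw [h1, map_zero])
  rw [dl_apply, sub_eq_zero] at h2
  have hc : Commute a (-b) := (Commute.symm h2).neg_right
  have h3 : exp (a + -b) * 1 = 1 := by
    rw [exp_add_of_commute hc ha hb.neg, h, exp_mul_exp_neg_self hb, mul_one]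
  have h4 := eq_zero_of_exp_mul (hc.isNilpotent_add ha hb.neg) h3
  rwa [mul_one, ← sub_eq_add_neg, sub_eq_zero] at h4

theorem der_pow (D : B →ₗ[ℚ] B) (hD : ∀ a b, D (a * b) = D a * b + a * D b) (Z : B) (n : ℕ) :
    D (Z ^ (n + 1)) =
      ∑ p ∈ antidiagonal n, (((n + 1).choose (p.2 + 1) : ℕ) : ℚ) • (Z ^ p.1 * (dl Z ^ p.2) (D Z)) := by
  induction n with
  | zero => simp
  | succ n ih =>
    have e1 : ∑ p ∈ antidiagonal (n + 1), (((n + 1).choose (p.2 + 1) : ℕ) : ℚ) •
        (Z ^ p.1 * (dl Z ^ p.2) (D Z)) = ∑ p ∈ antidiagonal n,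
        (((n + 1).choose (p.2 + 1) : ℕ) : ℚ) • (Z ^ (p.1 + 1) * (dl Z ^ p.2) (D Z)) := by
      rw [Finset.Nat.sum_antidiagonal_succ, Nat.choose_succ_self]
      simp
    have e2 : ∑ p ∈ antidiagonal (n + 1), (((n + 1).choose p.2 : ℕ) : ℚ) •
        (Z ^ p.1 * (dl Z ^ p.2) (D Z)) = Z ^ (n + 1) * D Z + ∑ p ∈ antidiagonal n,
        (((n + 1).choose (p.2 + 1) : ℕ) : ℚ) • (Z ^ p.1 * (dl Z ^ (p.2 + 1)) (D Z)) := by
      rw [Finset.Nat.sum_antidiagonal_succ']
      simp
    have e3 : ∑ p ∈ antidiagonal (n + 1), (((n + 1 + 1).choose (p.2 + 1) : ℕ) : ℚ) •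
        (Z ^ p.1 * (dl Z ^ p.2) (D Z)) =
        ∑ p ∈ antidiagonal (n + 1), (((n + 1).choose p.2 : ℕ) : ℚ) •
        (Z ^ p.1 * (dl Z ^ p.2) (D Z)) +
        ∑ p ∈ antidiagonal (n + 1), (((n + 1).choose (p.2 + 1) : ℕ) : ℚ) •
        (Z ^ p.1 * (dl Z ^ p.2) (D Z)) := by
      rw [← sum_add_distrib]
      refine sum_congr rfl fun p _ => ?_
      rw [Nat.choose_succ_succ' (n + 1) p.2, Nat.cast_add, add_smul]
    rw [e3, e1, e2, pow_succ Z (n + 1), hD, ih, sum_mul, add_comm, add_assoc, ← sum_add_distrib]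
    congr 1
    refine sum_congr rfl fun p _ => ?_
    rw [← smul_add, smul_mul_assoc, pow_succ' (dl Z), Module.End.mul_apply, dl_apply, pow_succ]
    congr 1
    noncomm_ring

omit [Algebra ℚ B] in
theorem sum_antidiag {f : ℕ → ℕ → B} {K : ℕ} (h1 : ∀ j k, K ≤ j → f j k = 0)
    (h2 : ∀ j k, K ≤ k → f j k = 0) :
    ∑ n ∈ range (2 * K), ∑ p ∈ antidiagonal n, f p.1 p.2 = ∑ j ∈ range K, ∑ k ∈ range K, f j k := by
  simp only [Finset.Nat.sum_antidiagonal_eq_sum_range_succ_mk]
  rw [sum_range_diag_flip (2 * K) f]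
  symm
  refine sum_subset_zero_on_sdiff (range_subset_range.2 (by omega)) (fun j hj => ?_) fun j hj => ?_
  · simp only [mem_sdiff, mem_range, not_lt] at hj
    exact sum_eq_zero fun k _ => h1 j k hj.2
  · rw [mem_range] at hj
    refine sum_subset (range_subset_range.2 (by omega)) fun k _ hk => h2 j k ?_
    simpa using hk

theorem der_exp (D : B →ₗ[ℚ] B) (hD : ∀ a b, D (a * b) = D a * b + a * D b) {Z : B} {K : ℕ}
    (h1 : Z ^ K = 0) (h2 : dl Z ^ K = 0) : D (exp Z) = exp Z * ph K (dl Z) (D Z) := by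
  have hD1 : D 1 = 0 := by
    have := hD 1 1
    rw [mul_one, mul_one, one_mul] at this
    exact left_eq_add.1 this
  conv_lhs => rw [exp_eq_sum (k := 2 * K + 1) (pow_eq_zero_of_le (by omega) h1), sum_range_succ']
  rw [exp_eq_sum h1, ph, LinearMap.sum_apply, sum_mul_sum,
    ← sum_antidiag (f := fun j k => (((j.factorial : ℚ)⁻¹) • Z ^ j) *
      ((((k + 1).factorial : ℚ)⁻¹) • dl Z ^ k) (D Z))
      (fun j k hj => by rw [pow_eq_zero_of_le hj h1]; simp)
      (fun j k hk => by rw [pow_eq_zero_of_le hk h2]; simp),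
    map_add, map_smul, pow_zero, hD1, smul_zero, add_zero, map_sum]
  refine sum_congr rfl fun n _ => ?_
  rw [map_smul, der_pow D hD, smul_sum]
  refine sum_congr rfl fun p hp => ?_
  rw [HasAntidiagonal.mem_antidiagonal] at hp
  rw [LinearMap.smul_apply, smul_mul_smul_comm, smul_smul]
  congr 1
  rw [← hp, add_assoc, ← Nat.choose_symm_add, Nat.cast_add_choose]
  have := p.1.factorial_ne_zero
  have := (p.2 + 1).factorial_ne_zero
  have := (p.1 + (p.2 + 1)).factorial_ne_zero
  field_simp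

end two

end Crest.Agent.R182.Bch
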