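import Crest.Agent.R182.BCHa

/-!
Row 182: `exp L` is closed under multiplication for a nilpotent Lie subalgebra `L` of an
associative `ℚ`-algebra.
-/

set_option autoImplicit false

namespace Crest.Agent.R182.Bch

open Finset Polynomial
open IsNilpotent hiding pow_succ

variable {A : Type*} [Ring A] [Algebra ℚ A]

/-- polynomials with coefficients in `M` -/
def cf (M : Submodule ℚ A) : Submodule ℚ A[X] where
  carrier := {p | ∀ i, p.coeff i ∈ M}
  add_mem' hp hq i := by rw [coeff_add]; exact M.add_mem (hp i) (hq i)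
  zero_mem' i := by rw [coeff_zero]; exact M.zero_mem
  smul_mem' c p hp i := by rw [coeff_smul]; exact M.smul_mem c (hp i)

theorem mem_cf {M : Submodule ℚ A} {p : A[X]} : p ∈ cf M ↔ ∀ i, p.coeff i ∈ M := Iff.rfl

theorem cf_mul {M M' : Submodule ℚ A} {p q : A[X]} (hp : p ∈ cf M) (hq : q ∈ cf M') :
    p * q ∈ cf (M * M') := by
  intro i
  rw [coeff_mul]
  exact Submodule.sum_mem _ fun c _ => Submodule.mul_mem_mul (hp _) (hq _)

theorem cf_pow {M : Submodule ℚ A} {p : A[X]} (hp : p ∈ cf M) (k : ℕ) : p ^ k ∈ cf (M ^ k) := by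
  induction k with
  | zero =>
    intro i
    rw [pow_zero, pow_zero, coeff_one]
    split_ifs
    · exact Submodule.one_le.1 le_rfl
    · exact Submodule.zero_mem _
  | succ k ih => rw [pow_succ, pow_succ]; exact cf_mul ih hp

theorem cf_nil {M : Submodule ℚ A} {m : ℕ} (hm : M ^ m = ⊥) {p : A[X]} (hp : p ∈ cf M) :
    p ^ m = 0 := by
  ext i
  have := cf_pow hp m i
  rw [hm, Submodule.mem_bot] at this
  rw [this, coeff_zero]

theorem cf_monomial {M : Submodule ℚ A} {a : A} (ha : a ∈ M) (n : ℕ) : monomial n a ∈ cf M := by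
  intro i
  rw [coeff_monomial]
  split_ifs
  · exact ha
  · exact M.zero_mem

theorem exp_sub_one_mem {B : Type*} [Ring B] [Algebra ℚ B] {J : Submodule ℚ B}
    (hJ : ∀ a ∈ J, ∀ b ∈ J, a * b ∈ J) {a : B} (ha : a ∈ J) (hn : IsNilpotent a) :
    exp a - 1 ∈ J := by
  obtain ⟨K, hK⟩ := hn
  have h : ∀ k, a ^ k * a ∈ J := by
    intro k
    induction k with
    | zero => rwa [pow_zero, one_mul]
    | succ k ih => rw [pow_succ]; exact hJ _ ih _ ha
  rw [exp_eq_ph hK, add_sub_cancel_left, ph, sum_mul]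
  exact J.sum_mem fun k _ => by rw [smul_mul_assoc]; exact J.smul_mem _ (h k)

/-- the span of all products of at least `n` elements of `L` -/
noncomputable def fl (L : Submodule ℚ A) (n : ℕ) : Submodule ℚ A := ⨆ k : ℕ, L ^ (k + n)

theorem fl_mul (L : Submodule ℚ A) (n n' : ℕ) : fl L n * fl L n' ≤ fl L (n + n') := by
  unfold fl
  rw [Submodule.iSup_mul]
  refine iSup_le fun k => ?_
  rw [Submodule.mul_iSup]
  refine iSup_le fun k' => ?_
  rw [← pow_add]
  exact le_iSup_of_le (k + k') (le_of_eq (by congr 1; omega))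

theorem fl_anti (L : Submodule ℚ A) (n : ℕ) : fl L (n + 1) ≤ fl L n :=
  iSup_le fun k => le_iSup_of_le (k + 1) (le_of_eq (by congr 1; omega))

theorem fl_pow (L : Submodule ℚ A) (n : ℕ) : fl L 1 ^ n ≤ fl L n := by
  induction n with
  | zero => exact le_iSup_of_le 0 (le_of_eq (by rw [pow_zero, pow_zero]))
  | succ n ih => rw [pow_succ]; exact (mul_le_mul' ih le_rfl).trans (fl_mul L n 1)

theorem fl_eq_bot {L : Submodule ℚ A} {m : ℕ} (hm : L ^ m = ⊥) : fl L 1 ^ m = ⊥ := by
  refine le_bot_iff.1 ((fl_pow L m).trans (iSup_le fun k => ?_))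
  rw [pow_add, hm, Submodule.mul_bot]

theorem mem_of_ph {L : Submodule ℚ A} {d : Module.End ℚ A} (hd : IsNilpotent d)
    (hL : ∀ a ∈ L, d a ∈ L) {K : ℕ} {c : A} (hc : ph (K + 1) d c ∈ L) : c ∈ L := by
  obtain ⟨M, hM⟩ := hd
  have hp : ∀ k, ∀ a ∈ L, (d ^ k) a ∈ L := by
    intro k
    induction k with
    | zero => exact fun a ha => ha
    | succ k ih => exact fun a ha => by rw [pow_succ', Module.End.mul_apply]; exact hL _ (ih a ha)
  have key : ∀ j k, M ≤ j + k → (d ^ k) c ∈ L := by
    intro j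
    induction j with
    | zero => intro k hk; rw [pow_eq_zero_of_le (by omega) hM]; exact L.zero_mem
    | succ j ih =>
      intro k hk
      have h1 := hp k _ hc
      rw [ph, sum_range_succ', LinearMap.add_apply, map_add, LinearMap.sum_apply, map_sum] at h1
      have h2 : ∑ i ∈ range K, (d ^ k) (((((i + 1 + 1).factorial : ℚ)⁻¹) • d ^ (i + 1)) c) ∈ L := by
        refine L.sum_mem fun i _ => ?_
        rw [LinearMap.smul_apply, map_smul, ← Module.End.mul_apply, ← pow_add]
        exact L.smul_mem _ (ih _ (by omega))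
      simpa using (L.add_mem_iff_right h2).1 h1
  simpa using key M 0 le_rfl

theorem coeff_dl {L : Submodule ℚ A} (hL : ∀ a ∈ L, ∀ b ∈ L, a * b - b * a ∈ L) {Z W : A[X]}
    {n : ℕ} (hZ : ∀ i ≤ n, Z.coeff i ∈ L) (hW : ∀ i < n, W.coeff i ∈ L) (k : ℕ) :
    (∀ i < n, ((dl Z ^ k) W).coeff i ∈ L) ∧
      ((dl Z ^ k) W).coeff n - (dl (Z.coeff 0) ^ k) (W.coeff n) ∈ L := by
  have hc : ∀ (V : A[X]) (i : ℕ), (dl Z V).coeff i =
      ∑ p ∈ antidiagonal i, (V.coeff p.1 * Z.coeff p.2 - Z.coeff p.2 * V.coeff p.1) := by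
    intro V i
    rw [dl_apply, coeff_sub, coeff_mul, coeff_mul, sum_sub_distrib,
      ← Finset.Nat.sum_antidiagonal_swap (f := fun p => Z.coeff p.1 * V.coeff p.2)]
    rfl
  induction k with
  | zero => exact ⟨hW, by simp⟩
  | succ k ih =>
    obtain ⟨h1, h2⟩ := ih
    rw [pow_succ', pow_succ', Module.End.mul_apply, Module.End.mul_apply]
    set V := (dl Z ^ k) W
    constructor
    · intro i hi
      rw [hc]
      refine L.sum_mem fun p hp => ?_
      rw [HasAntidiagonal.mem_antidiagonal] at hp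
      exact hL _ (h1 _ (by omega)) _ (hZ _ (by omega))
    · rw [hc, ← add_sum_erase _ _ (a := (n, 0)) (by simp), ← dl_apply, add_sub_right_comm,
        ← map_sub]
      refine L.add_mem ?_ (L.sum_mem fun p hp => ?_)
      · rw [dl_apply]
        exact hL _ h2 _ (hZ 0 (Nat.zero_le _))
      · rw [mem_erase, HasAntidiagonal.mem_antidiagonal] at hp
        have : p.1 < n := by
          by_contra hc
          exact hp.1 (Prod.ext (by simp; omega) (by simp; omega))
        exact hL _ (h1 _ this) _ (hZ _ (by omega))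

/-- the derivative as a `ℚ`-linear map -/
noncomputable def der : A[X] →ₗ[ℚ] A[X] where
  toFun p := derivative p
  map_add' _ _ := derivative_add
  map_smul' c p := derivative_smul c p

theorem der_mul (p q : A[X]) : der (p * q) = der p * q + p * der q := derivative_mul

theorem bch_core {L : Submodule ℚ A} (hL : ∀ a ∈ L, ∀ b ∈ L, a * b - b * a ∈ L) {m : ℕ}
    (hm : L ^ m = ⊥) {x y : A} (hx : x ∈ L) (hy : y ∈ L) :
    ∃ z ∈ L, exp z = exp x * exp y := by
  have hJm := fl_eq_bot hm
  have hLJ : L ≤ fl L 1 := le_iSup_of_le 0 (le_of_eq (by rw [zero_add, pow_one]))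
  have hJ : ∀ a ∈ cf (fl L 1), ∀ b ∈ cf (fl L 1), a * b ∈ cf (fl L 1) := fun a ha b hb i =>
    fl_anti L 1 (fl_mul L 1 1 (cf_mul ha hb i))
  have nilL : ∀ a ∈ L, IsNilpotent a := fun a ha =>
    ⟨m, by simpa [hm] using Submodule.pow_mem_pow L ha m⟩
  have hx' : (monomial 0 x : A[X]) ∈ cf (fl L 1) := cf_monomial (hLJ hx) 0
  have hy' : (monomial 1 y : A[X]) ∈ cf (fl L 1) := cf_monomial (hLJ hy) 1
  have nx : IsNilpotent (monomial 0 x : A[X]) := ⟨m, cf_nil hJm hx'⟩
  have ny : IsNilpotent (monomial 1 y : A[X]) := ⟨m, cf_nil hJm hy'⟩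
  set g : A[X] := exp (monomial 0 x) * exp (monomial 1 y) with hg
  have hg1 : g - 1 ∈ cf (fl L 1) := by
    have h1 := exp_sub_one_mem hJ hx' nx
    have h2 := exp_sub_one_mem hJ hy' ny
    have e : g - 1 = (exp (monomial 0 x) - 1) * (exp (monomial 1 y) - 1) +
        (exp (monomial 0 x) - 1) + (exp (monomial 1 y) - 1) := by
      rw [hg]; noncomm_ring
    rw [e]
    exact add_mem (add_mem (hJ _ h1 _ h2) h1) h2
  obtain ⟨Z, nZ, hZ, -⟩ := exists_log m (g - 1) (cf_nil hJm hg1)
  rw [add_sub_cancel] at hZ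
  -- the derivative of an exponential whose argument commutes with its derivative
  have hde : ∀ {V : A[X]}, IsNilpotent V → dl V (der V) = 0 → der (exp V) = exp V * der V := by
    intro V hV h0
    obtain ⟨k, hk⟩ := id hV
    obtain ⟨k', hk'⟩ := dl_nil hV
    rw [der_exp der der_mul (K := k + k' + 1) (pow_eq_zero_of_le (by omega) hk)
      (pow_eq_zero_of_le (by omega) hk'), ph_succ, LinearMap.add_apply, Module.End.mul_apply, h0,
      map_zero, add_zero, Module.End.one_apply]
  have dx : der (monomial 0 x : A[X]) = 0 := by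
    change derivative _ = _
    simp
  have dy : der (monomial 1 y : A[X]) = monomial 0 y := by
    change derivative _ = _
    simp [derivative_monomial]
  have hdg : der g = g * monomial 0 y := by
    rw [hg, der_mul, hde nx (by rw [dx, map_zero]), dx, hde ny, dy, mul_zero, zero_mul, zero_add,
      mul_assoc]
    rw [dy, dl_apply, monomial_mul_monomial, monomial_mul_monomial, sub_self]
  obtain ⟨k, hk⟩ := id nZ
  obtain ⟨k', hk'⟩ := dl_nil nZ
  have hode : ph (k + k' + 1) (dl Z) (der Z) = monomial 0 y := by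
    have h1 := der_exp der der_mul (K := k + k' + 1) (pow_eq_zero_of_le (by omega) hk)
      (pow_eq_zero_of_le (by omega) hk')
    rw [hZ, hdg] at h1
    have hu : IsUnit g := hZ ▸ isUnit_exp nZ
    exact (hu.mul_left_cancel h1).symm
  have h0 : Z.coeff 0 = x := by
    have h1 := congrArg constantCoeff hZ
    rw [hg, map_mul, map_exp nZ, map_exp nx, map_exp ny] at h1
    simp only [constantCoeff_apply, coeff_monomial_same, coeff_monomial, one_ne_zero, if_false,
      if_true, exp_zero, mul_one] at h1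
    exact exp_injective (by simpa using nZ.map constantCoeff) (nilL x hx) h1
  have hall : ∀ n, ∀ i ≤ n, Z.coeff i ∈ L := by
    intro n
    induction n with
    | zero => intro i hi; rw [Nat.le_zero.1 hi, h0]; exact hx
    | succ n ih =>
      intro i hi
      rcases Nat.lt_or_ge i (n + 1) with h | h
      · exact ih i (by omega)
      obtain rfl : i = n + 1 := by omega
      have hc : ∀ j, (der Z).coeff j = ((j + 1 : ℕ) : ℚ) • Z.coeff (j + 1) := by
        intro j
        change (derivative Z).coeff j = _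
        rw [coeff_derivative, Nat.cast_smul_eq_nsmul, nsmul_eq_mul, Nat.cast_comm]
        simp
      have hW : ∀ j < n, (der Z).coeff j ∈ L := fun j hj => by
        rw [hc]; exact L.smul_mem _ (ih _ (by omega))
      have h1 : ph (k + k' + 1) (dl x) ((der Z).coeff n) ∈ L := by
        have h2 : (ph (k + k' + 1) (dl Z) (der Z)).coeff n ∈ L := by
          rw [hode]; exact cf_monomial hy 0 n
        have h3 : (ph (k + k' + 1) (dl Z) (der Z)).coeff n -
            ph (k + k' + 1) (dl x) ((der Z).coeff n) ∈ L := by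
          rw [ph, ph, LinearMap.sum_apply, LinearMap.sum_apply, finsetSum_coeff,
            ← sum_sub_distrib]
          refine L.sum_mem fun j _ => ?_
          rw [LinearMap.smul_apply, LinearMap.smul_apply, coeff_smul, ← smul_sub, ← h0]
          exact L.smul_mem _ (coeff_dl hL ih hW j).2
        simpa using L.sub_mem h2 h3
      have h4 := mem_of_ph (dl_nil (nilL x hx))
        (fun a ha => by rw [dl_apply]; exact hL _ ha _ hx) h1
      rw [hc] at h4
      have h5 := L.smul_mem (((n + 1 : ℕ) : ℚ)⁻¹) h4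
      rwa [smul_smul, inv_mul_cancel₀ (by positivity), one_smul] at h5
  let ev : A[X] →+* A := eval₂RingHom' (RingHom.id A) 1 fun a => Commute.one_right _
  have hev : ∀ (n : ℕ) (a : A), ev (monomial n a) = a := fun n a => by
    change eval₂ _ _ _ = _
    simp
  refine ⟨ev Z, ?_, ?_⟩
  · rw [Z.as_sum_support, map_sum]
    exact L.sum_mem fun i _ => by rw [hev]; exact hall i i le_rfl
  · rw [← map_exp nZ, hZ, hg, map_mul, map_exp nx, map_exp ny, hev, hev]

end Crest.Agent.R182.Bch
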