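import Crest.Agent.R182.BDefs

/-!
Row 182, part B, task `R182/BChar`: elementary lemmas on subgroups (finite generation,
characteristic subgroups of finite index, the character of an infinite cyclic step) and
poly-`ℤ` groups.  `Gro.poly_PC`, `Gro.poly_mem_sup`, `Gro.poly_finite_hom` are in `GroPoly.lean`.
-/

set_option autoImplicit false

namespace Crest.Agent.R182.B

open scoped BigOperators
open Polynomial

variable {G : Type*} [Group G]

/-- polycyclic groups are finitely generated (`Subgroup.FG.sup`, `zpowers g = closure {g}`) -/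
theorem pc_fg {H : Subgroup G} (h : Gro.poly_PC H) : H.FG := by
  induction h with
  | bot => exact ⟨∅, by simp⟩
  | step H g _ _ ih =>
    classical
    obtain ⟨S, rfl⟩ := ih
    refine ⟨insert g S, ?_⟩
    rw [Finset.coe_insert, Set.insert_eq, Subgroup.closure_union, ← Subgroup.zpowers_eq_closure,
      sup_comm]

/-- A finite-index subgroup `T` of a f.g. group `H` contains a finite-index subgroup normalised by
the whole normaliser of `H`.  As in `Gro.vpoly_ext_cyclic`: `Q = H ⧸ (T.subgroupOf H).normalCore`,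
`K₀ = ⨅ f : H →* Q, f.ker` (finite index by `Gro.poly_finite_hom`), `T₀ = K₀.map H.subtype`; an element
`g` of the normaliser gives an automorphism of `H` (`Subgroup.normalizerMonoidHom`, or by hand) and
`f.comp α` is again a homomorphism. -/
theorem exists_charSub {H T : Subgroup G} (hH : H.FG) (hT : T ≤ H) (hi : T.relIndex H ≠ 0) :
    ∃ T₀ : Subgroup G, T₀ ≤ T ∧ T₀.relIndex H ≠ 0 ∧
      ∀ g ∈ Subgroup.normalizer (H : Set G), g ∈ Subgroup.normalizer (T₀ : Set G) := by
  have hP : (T.subgroupOf H).FiniteIndex := ⟨hi⟩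
  have : Finite (H →* H ⧸ (T.subgroupOf H).normalCore) :=
    Gro.poly_finite_hom ((Group.fg_iff_subgroup_fg H).2 hH)
  let K₀ : Subgroup H := ⨅ f : H →* H ⧸ (T.subgroupOf H).normalCore, f.ker
  have hK₀ : K₀.FiniteIndex := Subgroup.finiteIndex_iInf fun f => Subgroup.finiteIndex_ker f
  have hle : K₀ ≤ T.subgroupOf H := by
    refine le_trans (iInf_le _ (QuotientGroup.mk' (T.subgroupOf H).normalCore)) ?_
    rw [QuotientGroup.ker_mk']
    exact (T.subgroupOf H).normalCore_le
  have key : ∀ g ∈ Subgroup.normalizer (H : Set G), ∀ x ∈ K₀.map H.subtype,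
      g * x * g⁻¹ ∈ K₀.map H.subtype := by
    rintro g hg _ ⟨k, hk, rfl⟩
    let α : H →* H :=
      { toFun := fun x => ⟨g * x * g⁻¹, (Subgroup.mem_normalizer_iff.1 hg x).1 x.2⟩
        map_one' := Subtype.ext (by simp)
        map_mul' := fun x y => Subtype.ext (by simp [mul_assoc]) }
    refine ⟨α k, ?_, rfl⟩
    simp only [K₀, SetLike.mem_coe, Subgroup.mem_iInf, MonoidHom.mem_ker] at hk ⊢
    intro f
    exact hk (f.comp α)
  refine ⟨K₀.map H.subtype, ?_, ?_, fun g hg => ?_⟩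
  · rintro _ ⟨k, hk, rfl⟩
    exact hle hk
  · unfold Subgroup.relIndex Subgroup.subgroupOf
    rw [Subgroup.comap_map_eq_self_of_injective H.subtype_injective]
    exact hK₀.index_ne_zero
  · refine Subgroup.mem_normalizer_iff.2 fun x => ⟨key g hg x, fun hx => ?_⟩
    have := key g⁻¹ (inv_mem hg) _ hx
    simpa [mul_assoc] using this

/-- Elements of `H ⊔ ⟨g⟩` are `h * g ^ i` (`Gro.poly_mem_sup`); write `i = r + j q`, `0 ≤ r < |j|`, and
`g^{-r} h g^r = h' t` with `h'` in a finite transversal of `T` in `H`: then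
`h g^i = g^r h' (t g^{j q})`.  So finitely many left cosets `g^r h' (T ⊔ ⟨g^j⟩)` cover `H ⊔ ⟨g⟩`. -/
theorem relIndex_sup {H T : Subgroup G} {g : G} (hT : T ≤ H) (hi : T.relIndex H ≠ 0)
    (hg : g ∈ Subgroup.normalizer (H : Set G)) {j : ℤ} (hj : j ≠ 0) :
    (T ⊔ Subgroup.zpowers (g ^ j)).relIndex (H ⊔ Subgroup.zpowers g) ≠ 0 := by
  have hP : (T.subgroupOf H).FiniteIndex := ⟨hi⟩
  have hfin : Finite (Set.Ico (0 : ℤ) |j|) := (Set.finite_Ico _ _).to_subtype
  have hgK : g ∈ H ⊔ Subgroup.zpowers g := Subgroup.mem_sup_right (Subgroup.mem_zpowers g)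
  have : Finite (↥(H ⊔ Subgroup.zpowers g) ⧸
      (T ⊔ Subgroup.zpowers (g ^ j)).subgroupOf (H ⊔ Subgroup.zpowers g)) := by
    refine Finite.of_surjective (fun q : (H ⧸ T.subgroupOf H) × Set.Ico (0 : ℤ) |j| =>
      ((⟨g ^ (q.2 : ℤ) * (q.1.out : H), mul_mem (zpow_mem hgK _)
        (Subgroup.mem_sup_left (q.1.out).2)⟩ : ↥(H ⊔ Subgroup.zpowers g)) :
          ↥(H ⊔ Subgroup.zpowers g) ⧸
            (T ⊔ Subgroup.zpowers (g ^ j)).subgroupOf (H ⊔ Subgroup.zpowers g))) fun q => ?_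
    obtain ⟨⟨x, hx⟩, rfl⟩ := QuotientGroup.mk_surjective q
    obtain ⟨h, hh, i, rfl⟩ := (Gro.poly_mem_sup hg).1 hx
    have hh' : g ^ (-(i % j)) * h * (g ^ (-(i % j)))⁻¹ ∈ H :=
      (Subgroup.mem_normalizer_iff.1 (zpow_mem hg _) h).1 hh
    refine ⟨(((⟨_, hh'⟩ : H) : H ⧸ T.subgroupOf H),
      ⟨i % j, Int.emod_nonneg _ hj, Int.emod_lt_abs _ hj⟩), ?_⟩
    obtain ⟨t, e⟩ := QuotientGroup.mk_out_eq_mul (T.subgroupOf H) (⟨_, hh'⟩ : H)
    simp only [e]
    rw [QuotientGroup.eq, Subgroup.mem_subgroupOf]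
    have h1 : ((t : H) : G)⁻¹ * (g ^ j) ^ (i / j) ∈ T ⊔ Subgroup.zpowers (g ^ j) :=
      mul_mem (Subgroup.mem_sup_left (inv_mem t.2))
        (Subgroup.mem_sup_right (zpow_mem (Subgroup.mem_zpowers _) _))
    have e2 : g ^ i = g ^ (i % j) * (g ^ j) ^ (i / j) := by
      rw [← zpow_mul, ← zpow_add, Int.emod_add_mul_ediv]
    convert h1 using 1
    simp only [Subgroup.coe_mul, Subgroup.coe_inv]
    rw [e2]
    group
  exact Subgroup.index_ne_zero_of_finite

/-- the character `h * g ^ j ↦ j` of an infinite cyclic step (`j` is unique) -/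
theorem exists_char {H : Subgroup G} {g : G} (hg : g ∈ Subgroup.normalizer (H : Set G))
    (hj : ∀ j : ℤ, g ^ j ∈ H → j = 0) :
    ∃ χ : ↥(H ⊔ Subgroup.zpowers g) →* Multiplicative ℤ,
      (∀ x : ↥(H ⊔ Subgroup.zpowers g), χ x = 1 ↔ (x : G) ∈ H) ∧
      ∀ x : ↥(H ⊔ Subgroup.zpowers g), (x : G) = g → χ x = Multiplicative.ofAdd 1 := by
  have huniq : ∀ (x : G) (a b : Multiplicative ℤ), (x, a) ∈ Gro.poly_R H g hg →
      (x, b) ∈ Gro.poly_R H g hg → a = b := by
    intro x a b ha hb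
    have h1 := (Gro.poly_R H g hg).mul_mem ((Gro.poly_R H g hg).inv_mem ha) hb
    have h2 : (1 : G) * (g ^ (a⁻¹ * b).toAdd)⁻¹ ∈ H := by
      have e : (x, a)⁻¹ * (x, b) = ((1 : G), a⁻¹ * b) := Prod.ext (by simp) rfl
      rw [e] at h1
      exact h1
    rw [one_mul, inv_mem_iff] at h2
    exact inv_mul_eq_one.1 (hj _ h2)
  have hex : ∀ x : ↥(H ⊔ Subgroup.zpowers g), ∃ a, ((x : G), a) ∈ Gro.poly_R H g hg := by
    intro x
    obtain ⟨h, hh, i, e⟩ := (Gro.poly_mem_sup hg).1 x.2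
    refine ⟨Multiplicative.ofAdd i, ?_⟩
    rw [Gro.poly_mem_R, e]
    simpa using hh
  choose χ hχ using hex
  refine ⟨MonoidHom.mk' χ fun x y => huniq _ _ _ (hχ _)
    ((Gro.poly_R H g hg).mul_mem (hχ x) (hχ y)), fun x => ?_, fun x hx => ?_⟩
  · change χ x = 1 ↔ _
    have e : ((x : G), (1 : Multiplicative ℤ)) ∈ Gro.poly_R H g hg ↔ (x : G) ∈ H := by
      change (x : G) * (g ^ (0 : ℤ))⁻¹ ∈ H ↔ _
      simp
    constructor
    · intro h1
      rw [← e, ← h1]
      exact hχ x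
    · intro h1
      exact huniq _ _ _ (hχ x) (e.2 h1)
  · refine huniq _ _ _ (hχ x) ?_
    rw [Gro.poly_mem_R, hx]
    simp

/-- Copy the proof of `Gro.poly_PC.comap`: if the generator `d` of the subgroup `S ≤ ℤ` is `0`, the
preimage of `H ⊔ ⟨g⟩` equals the preimage of `H`; otherwise `k₀ ^ j ∈ comap H` forces
`g ^ (d j) ∈ H`, so `j = 0`. -/
theorem PZ.comap {K : Type*} [Group K] {H : Subgroup G} (h : PZ H) (f : K →* G)
    (hf : Function.Injective f) : PZ (H.comap f) := by
  induction h with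
  | bot =>
    rw [MonoidHom.comap_bot, (MonoidHom.ker_eq_bot_iff f).2 hf]
    exact PZ.bot
  | step H g _ hg hj ih =>
    let S : AddSubgroup ℤ :=
      { carrier := {j | ∃ k, (f k, Multiplicative.ofAdd j) ∈ Gro.poly_R H g hg}
        zero_mem' := ⟨1, by rw [map_one]; exact (Gro.poly_R H g hg).one_mem⟩
        add_mem' := by
          rintro i j ⟨k, hk⟩ ⟨l, hl⟩
          exact ⟨k * l, by rw [map_mul]; exact (Gro.poly_R H g hg).mul_mem hk hl⟩
        neg_mem' := by
          rintro i ⟨k, hk⟩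
          exact ⟨k⁻¹, by rw [map_inv]; exact (Gro.poly_R H g hg).inv_mem hk⟩ }
    obtain ⟨d, hd⟩ := Int.subgroup_cyclic S
    have hdS : d ∈ S := by
      rw [hd]
      exact AddSubgroup.subset_closure rfl
    obtain ⟨k₀, hk₀⟩ := hdS
    have hk₀' : f k₀ * (g ^ d)⁻¹ ∈ H := Gro.poly_mem_R.1 hk₀
    have hn : k₀ ∈ Subgroup.normalizer ((H.comap f : Subgroup K) : Set K) := by
      refine Subgroup.le_normalizer_comap f ?_
      have := (Subgroup.normalizer (H : Set G)).mul_mem (Subgroup.le_normalizer hk₀')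
        (zpow_mem hg d)
      simpa using this
    have e : (H ⊔ Subgroup.zpowers g).comap f = H.comap f ⊔ Subgroup.zpowers k₀ := by
      apply le_antisymm
      · intro k hk
        obtain ⟨h, hh, j, e⟩ := (Gro.poly_mem_sup hg).1 hk
        have hkR : (f k, Multiplicative.ofAdd j) ∈ Gro.poly_R H g hg := by
          rw [Gro.poly_mem_R, e]
          simpa using hh
        have hj : j ∈ S := ⟨k, hkR⟩
        rw [hd, AddSubgroup.mem_closure_singleton] at hj
        obtain ⟨m, rfl⟩ := hj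
        have h1 := (Gro.poly_R H g hg).mul_mem hkR
          ((Gro.poly_R H g hg).inv_mem ((Gro.poly_R H g hg).zpow_mem hk₀ m))
        have h2 : (f k, Multiplicative.ofAdd (m • d)) * ((f k₀, Multiplicative.ofAdd d) ^ m)⁻¹ =
            (f (k * (k₀ ^ m)⁻¹), Multiplicative.ofAdd 0) := by
          refine Prod.ext (by simp) ?_
          change Multiplicative.ofAdd (m • d) * (Multiplicative.ofAdd d ^ m)⁻¹ = 1
          rw [ofAdd_zsmul, mul_inv_cancel]
        rw [h2, Gro.poly_mem_R] at h1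
        refine (Gro.poly_mem_sup hn).2 ⟨k * (k₀ ^ m)⁻¹, ?_, m, by simp⟩
        simpa using h1
      · refine sup_le (Subgroup.comap_mono le_sup_left) (Subgroup.zpowers_le.2 ?_)
        exact (Gro.poly_mem_sup hg).2 ⟨_, hk₀', d, by simp⟩
    rw [e]
    by_cases hd0 : d = 0
    · have : k₀ ∈ H.comap f := by
        rw [hd0] at hk₀'
        simpa using hk₀'
      rw [sup_eq_left.2 (Subgroup.zpowers_le.2 this)]
      exact ih
    · refine PZ.step _ _ ih hn fun j hjk => ?_
      have h1 := (Gro.poly_R H g hg).zpow_mem hk₀ j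
      have h2 : (f k₀, Multiplicative.ofAdd d) ^ j = (f (k₀ ^ j), Multiplicative.ofAdd (j • d)) :=
        Prod.ext (by simp) (ofAdd_zsmul j d).symm
      rw [h2, Gro.poly_mem_R, mul_mem_cancel_left (show f (k₀ ^ j) ∈ H from hjk),
        inv_mem_iff] at h1
      have h3 := hj _ h1
      rw [smul_eq_mul] at h3
      exact (mul_eq_zero.1 h3).resolve_right hd0

theorem PZ.map {K : Type*} [Group K] {H : Subgroup G} (h : PZ H) (f : G →* K)
    (hf : Function.Injective f) : PZ (H.map f) := by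
  induction h with
  | bot => rw [Subgroup.map_bot]; exact PZ.bot
  | step H g _ hg hj ih =>
    rw [Subgroup.map_sup, MonoidHom.map_zpowers]
    refine PZ.step _ _ ih (Subgroup.le_normalizer_map f ⟨g, hg, rfl⟩) fun j h1 => hj j ?_
    rw [← map_zpow] at h1
    exact (Subgroup.mem_map_iff_mem hf).1 h1

theorem PZ.of_le {H M : Subgroup G} (h : PZ H) (hM : M ≤ H) : PZ M := by
  have := (h.comap M.subtype M.subtype_injective).map M.subtype M.subtype_injective
  rwa [Subgroup.comap_subtype, Subgroup.subgroupOf_map_subtype, inf_eq_right.2 hM] at this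

theorem PZ.top {H : Subgroup G} (h : PZ H) : PZ (⊤ : Subgroup H) := by
  have := h.comap H.subtype H.subtype_injective
  rwa [Subgroup.comap_subtype, Subgroup.subgroupOf_self] at this

/-- **B1**: a polycyclic group has a poly-`ℤ` subgroup of finite index.  Induction; step
`K = H ⊔ ⟨g⟩`, `T ≤ H` poly-`ℤ` of finite index.  If `g ^ j ∈ H` for some `j ≠ 0` then `H` has finite
index in `K` (`relIndex_sup` with `T := H`, `H ⊔ ⟨g^j⟩ = H`), keep `T`
(`Subgroup.relIndex_mul_relIndex`).  Otherwise take `T₀ ⊔ ⟨g⟩` with `T₀` from `exists_charSub`. -/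
theorem exists_PZ {H : Subgroup G} (h : Gro.poly_PC H) :
    ∃ T : Subgroup G, T ≤ H ∧ T.relIndex H ≠ 0 ∧ PZ T := by
  induction h with
  | bot => exact ⟨⊥, le_rfl, by simp, PZ.bot⟩
  | step H g hH hg ih =>
    obtain ⟨T, hT, hi, hPZ⟩ := ih
    by_cases hj : ∀ j : ℤ, g ^ j ∈ H → j = 0
    · obtain ⟨T₀, h0, hi0, hn⟩ := exists_charSub (pc_fg hH) hT hi
      refine ⟨T₀ ⊔ Subgroup.zpowers g, sup_le_sup_right (h0.trans hT) _, ?_,
        PZ.step _ _ (hPZ.of_le h0) (hn g hg) fun j h1 => hj j (hT (h0 h1))⟩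
      have := relIndex_sup (h0.trans hT) hi0 hg one_ne_zero
      rwa [zpow_one] at this
    · push Not at hj
      obtain ⟨j, hj, hj0⟩ := hj
      refine ⟨T, hT.trans le_sup_left, ?_, hPZ⟩
      have h1 := relIndex_sup (le_refl H) (by simp) hg hj0
      rw [sup_eq_left.2 (Subgroup.zpowers_le.2 hj)] at h1
      rw [← Subgroup.relIndex_mul_relIndex T H _ hT le_sup_left]
      exact mul_ne_zero hi h1

end Crest.Agent.R182.B
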