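import Mathlib

/-! Row 182, task `R182/Unitri`: unitriangular maps preserve Lebesgue measure. -/

set_option autoImplicit false

namespace Crest.Agent.R182

open MeasureTheory

/-- A continuous map which is unitriangular for a flag preserves Haar measure.
Proof: induction on `r` (or on the dimension).  Refine the flag / choose a basis adapted to it; in
these coordinates `T x = (x_i + f_i (x_1, …, x_{i-1}))_i`, which is measure preserving by Fubini
(`MeasurePreserving.skew_product`, translation invariance).  One way: let `F = Fl (r-1)` be the last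
term, `E ≃ (E ⧸ F) × F` linearly (any Haar measure is a multiple of the product measure); `T` induces
`T'` on `E ⧸ F` (unitriangular for the shorter flag) and `T (a, z) = (T' a, z + g a)`. -/
theorem unitri_preserving {E : Type} [NormedAddCommGroup E] [NormedSpace ℝ E]
    [FiniteDimensional ℝ E] [MeasurableSpace E] [BorelSpace E] (μ : Measure E)
    [μ.IsAddHaarMeasure] (T : E → E) (hT : Continuous T) (Fl : ℕ → Submodule ℝ E) (r : ℕ)
    (h0 : Fl 0 = ⊤) (hr : Fl r = ⊥) (hanti : ∀ i, Fl (i + 1) ≤ Fl i)
    (h : ∀ i x z, z ∈ Fl i → T (x + z) - T x - z ∈ Fl (i + 1)) : MeasurePreserving T μ μ := by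
  induction r generalizing E with
  | zero =>
    have hs : ∀ x : E, x = 0 := fun x => by
      have : x ∈ Fl 0 := h0 ▸ Submodule.mem_top
      rwa [hr, Submodule.mem_bot] at this
    have : T = id := funext fun x => (hs _).trans (hs _).symm
    rw [this]
    exact MeasurePreserving.id μ
  | succ r ih =>
    obtain ⟨G, hG⟩ := Submodule.exists_isCompl (Fl r)
    have hG' := hG.symm
    set F := Fl r with hF
    borelize ↥G ↥F
    let e : (G × F) ≃L[ℝ] E := (Submodule.prodEquivOfIsCompl G F hG').toContinuousLinearEquiv
    have he : ∀ (a : G) (f : F), e (a, f) = (a : E) + f := fun a f => rfl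
    let p : E →L[ℝ] G := (ContinuousLinearMap.fst ℝ G F).comp (e.symm : E →L[ℝ] G × F)
    let q : E →L[ℝ] F := (ContinuousLinearMap.snd ℝ G F).comp (e.symm : E →L[ℝ] G × F)
    have hpq : ∀ x : E, (p x : E) + q x = x := fun x => e.apply_symm_apply x
    have hp : ∀ (a : G) (f : F), p (a + f) = a := fun a f =>
      congrArg Prod.fst (e.symm_apply_apply (a, f))
    have hpF : ∀ f : F, p f = 0 := fun f => by simpa using hp 0 f
    have hpG : ∀ a : G, p a = a := fun a => by simpa using hp a 0
    have hTF : ∀ (x : E) (f : F), T (x + f) = T x + f := fun x f => by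
      have := h r x f f.2
      rw [hr, Submodule.mem_bot, sub_sub, sub_eq_zero] at this
      exact this
    let μG : Measure G := Measure.addHaar
    let μF : Measure F := Measure.addHaar
    have hT' : Continuous fun a : G => p (T a) :=
      p.continuous.comp (hT.comp continuous_subtype_val)
    have h1 : MeasurePreserving (fun a : G => p (T a)) μG μG := by
      refine ih μG _ hT' (fun i => (Fl i).map (p : E →ₗ[ℝ] G)) ?_ ?_
        (fun i => Submodule.map_mono (hanti i)) ?_
      · rw [h0, Submodule.map_top, LinearMap.range_eq_top]
        exact fun a => ⟨a, hpG a⟩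
      · rw [eq_bot_iff]
        rintro _ ⟨z, hz, rfl⟩
        exact hpF ⟨z, hz⟩
      · rintro i x _ ⟨z, hz, rfl⟩
        refine ⟨_, h i x z hz, ?_⟩
        have e1 : T (x + z) = T (x + p z) + q z := by
          rw [← hTF, add_assoc, hpq]
        change p (T (x + z) - T x - z) = p (T ((x : E) + p z)) - p (T x) - p z
        rw [e1, map_sub, map_sub, map_add, hpF, add_zero]
    have h2 : MeasurePreserving (fun w : G × F => (p (T w.1), q (T w.1) + w.2))
        (μG.prod μF) (μG.prod μF) := by
      refine h1.skew_product (g := fun a f => q (T a) + f) ?_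
        (Filter.Eventually.of_forall fun a => map_add_left_eq_self μF _)
      exact (((q.continuous.comp (hT.comp continuous_subtype_val)).comp continuous_fst).add
        continuous_snd).measurable
    have h3 : MeasurePreserving e (μG.prod μF) ((μG.prod μF).map e) :=
      ⟨e.continuous.measurable, rfl⟩
    have h4 : MeasurePreserving T ((μG.prod μF).map e) ((μG.prod μF).map e) := by
      refine ⟨hT.measurable, ?_⟩
      have e2 : T ∘ e = e ∘ fun w : G × F => (p (T w.1), q (T w.1) + w.2) := by
        funext w
        change T (e (w.1, w.2)) = e (p (T w.1), q (T w.1) + w.2)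
        rw [he, he, hTF, Submodule.coe_add, ← add_assoc, hpq]
      rw [Measure.map_map hT.measurable h3.measurable, e2, (h3.comp h2).map_eq]
    rw [Measure.isAddLeftInvariant_eq_smul μ ((μG.prod μF).map e)]
    exact h4.smul_measure _

end Crest.Agent.R182
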