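import Crest.Agent.R182.Model
import Crest.Agent.R182.Unitri

/-! Row 182, task `R182/ModelAPI`: basic facts on the model groups (topology, length, measure). -/

set_option autoImplicit false

namespace Crest.Agent.R182

open scoped BigOperators Topology
open MeasureTheory

namespace NL

variable {E : Type} [NormedAddCommGroup E] [NormedSpace ℝ E] [FiniteDimensional ℝ E] (N : NL E)

theorem api_continuous_eval (w : LW) : Continuous fun p : E × E => w.eval N.br p.1 p.2 := by
  induction w with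
  | X => exact continuous_fst
  | Y => exact continuous_snd
  | br a b ha hb => exact N.br.toContinuousBilinearMap.continuous₂.comp (ha.prodMk hb)

theorem api_eval_le (w : LW) : ∃ K : ℝ, 1 ≤ K ∧ ∀ t : ℝ, 1 ≤ t → ∀ x y : E, ‖x‖ ≤ Real.exp t →
    ‖y‖ ≤ Real.exp t → ‖w.eval N.br x y‖ ≤ Real.exp (K * t) := by
  induction w with
  | X => exact ⟨1, le_rfl, fun t _ x y hx _ => by rw [one_mul]; exact hx⟩
  | Y => exact ⟨1, le_rfl, fun t _ x y _ hy => by rw [one_mul]; exact hy⟩
  | br a b ha hb =>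
    obtain ⟨K, hK, ha⟩ := ha
    obtain ⟨K', hK', hb⟩ := hb
    have hB := norm_nonneg N.br.toContinuousBilinearMap
    refine ⟨‖N.br.toContinuousBilinearMap‖ + K + K', by linarith, fun t ht x y hx hy => ?_⟩
    have h1 := N.br.toContinuousBilinearMap.le_opNorm₂ (a.eval N.br x y) (b.eval N.br x y)
    have h2 : ‖N.br.toContinuousBilinearMap‖ ≤ Real.exp (‖N.br.toContinuousBilinearMap‖ * t) := by
      have := Real.add_one_le_exp (‖N.br.toContinuousBilinearMap‖ * t)
      nlinarith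
    rw [add_mul, add_mul, Real.exp_add, Real.exp_add]
    refine le_trans h1 ?_
    have h3 := ha t ht x y hx hy
    have h4 := hb t ht x y hx hy
    gcongr

theorem api_exp_add {a b t : ℝ} (ha : 0 ≤ a) (hb : 0 ≤ b) (ht : 1 ≤ t) :
    Real.exp (a * t) + Real.exp (b * t) ≤ Real.exp ((a + b + 1) * t) := by
  have h1 : Real.exp (a * t) ≤ Real.exp ((a + b) * t) := Real.exp_le_exp.2 (by nlinarith)
  have h2 : Real.exp (b * t) ≤ Real.exp ((a + b) * t) := Real.exp_le_exp.2 (by nlinarith)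
  have h3 := Real.add_one_le_exp t
  rw [add_mul (a + b), Real.exp_add, one_mul]
  nlinarith [Real.exp_pos ((a + b) * t)]

theorem api_mul_le : ∃ K : ℝ, 1 ≤ K ∧ ∀ t : ℝ, 1 ≤ t → ∀ x y : E, ‖x‖ ≤ Real.exp t →
    ‖y‖ ≤ Real.exp t → ‖N.mul x y‖ ≤ Real.exp (K * t) := by
  obtain ⟨l, -, hl⟩ := N.mul_formula
  have key : ∃ K : ℝ, 0 ≤ K ∧ ∀ t : ℝ, 1 ≤ t → ∀ x y : E, ‖x‖ ≤ Real.exp t → ‖y‖ ≤ Real.exp t →
      ‖(l.map fun p => p.1 • p.2.eval N.br x y).sum‖ ≤ Real.exp (K * t) := by
    clear hl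
    induction l with
    | nil => exact ⟨0, le_rfl, fun t _ x y _ _ => by simp⟩
    | cons p l ih =>
      obtain ⟨K, hK, ih⟩ := ih
      obtain ⟨K', hK', h⟩ := N.api_eval_le p.2
      have hp := norm_nonneg p.1
      refine ⟨‖p.1‖ + K' + K + 1, by linarith, fun t ht x y hx hy => ?_⟩
      rw [List.map_cons, List.sum_cons]
      refine (norm_add_le _ _).trans (le_trans (add_le_add ?_ (ih t ht x y hx hy))
        (api_exp_add (by linarith) hK ht))
      have h2 : ‖p.1‖ ≤ Real.exp (‖p.1‖ * t) := by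
        have := Real.add_one_le_exp (‖p.1‖ * t)
        nlinarith
      have h3 := h t ht x y hx hy
      rw [norm_smul, add_mul, Real.exp_add]
      gcongr
  obtain ⟨K, hK, key⟩ := key
  refine ⟨1 + 1 + 1 + K + 1, by linarith, fun t ht x y hx hy => ?_⟩
  rw [hl]
  refine (norm_add_le _ _).trans (le_trans (add_le_add ?_ (key t ht x y hx hy))
    (api_exp_add (by norm_num) hK ht))
  refine (norm_add_le _ _).trans (le_trans ?_ (api_exp_add zero_le_one zero_le_one ht))
  rw [one_mul]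
  exact add_le_add hx hy

/-- `mul_formula`; Lie words are continuous (bilinear maps in finite dimension) -/
theorem continuous_mul : Continuous fun p : E × E => N.mul p.1 p.2 := by
  obtain ⟨l, -, hl⟩ := N.mul_formula
  simp only [hl]
  refine (continuous_fst.add continuous_snd).add ?_
  exact continuous_list_sum l fun p _ => (N.api_continuous_eval p.2).const_smul _

theorem api_cont_mul {X : Type} [TopologicalSpace X] {f g : X → E} (hf : Continuous f)
    (hg : Continuous g) : Continuous fun x => N.mul (f x) (g x) :=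
  Continuous.comp (g := fun p : E × E => N.mul p.1 p.2) (f := fun x => (f x, g x))
    N.continuous_mul (hf.prodMk hg)

theorem continuous_Ad : Continuous fun p : E × E => N.Ad p.1 p.2 := by
  simp only [← N.mul_mul_neg]
  exact N.api_cont_mul (N.api_cont_mul continuous_fst continuous_snd) continuous_fst.neg

end NL

namespace Model

variable {d k : ℕ} (M : Model d k)

theorem continuous_τ : Continuous fun p : (Fin k → ℝ) × (Fin d → ℝ) => M.τ p.1 p.2 := by
  refine continuous_pi fun i => ?_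
  have := (M.wt i).continuous_of_finiteDimensional
  simp only [τ_apply]
  fun_prop

theorem api_cont_τ {X : Type} [TopologicalSpace X] {f : X → Fin k → ℝ} {g : X → Fin d → ℝ}
    (hf : Continuous f) (hg : Continuous g) : Continuous fun x => M.τ (f x) (g x) :=
  Continuous.comp (g := fun p : (Fin k → ℝ) × (Fin d → ℝ) => M.τ p.1 p.2)
    (f := fun x => (f x, g x)) M.continuous_τ (hf.prodMk hg)

instance : IsTopologicalGroup M.G where
  continuous_mul :=
    M.nl.continuous_mul.comp (continuous_fst.prodMk (M.continuous_τ.comp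
      ((M.φ.continuous_of_finiteDimensional.comp continuous_fst).prodMk continuous_snd)))
  continuous_inv :=
    M.continuous_τ.comp ((M.φ.continuous_of_finiteDimensional.comp M.continuous_toE).neg.prodMk
      M.continuous_toE.neg)

theorem continuous_ht : Continuous M.ht := by
  exact M.φ.continuous_of_finiteDimensional.comp M.continuous_toE

theorem ofE_mul_ofE (x y : Fin d → ℝ) :
    M.ofE x * M.ofE y = M.ofE (M.nl.mul x (M.τ (M.φ x) y)) := rfl

theorem ofE_mul_of_φ {x : Fin d → ℝ} (hx : M.φ x = 0) (y : Fin d → ℝ) :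
    M.ofE x * M.ofE y = M.ofE (M.nl.mul x y) := by
  rw [ofE_mul_ofE, hx, τ_zero]

theorem ofE_mul_of_fix (x : Fin d → ℝ) {y : Fin d → ℝ} (hy : ∀ v, M.τ v y = y) :
    M.ofE x * M.ofE y = M.ofE (M.nl.mul x y) := by
  rw [ofE_mul_ofE, hy]

theorem ofE_inv_of_φ {x : Fin d → ℝ} (hx : M.φ x = 0) : (M.ofE x)⁻¹ = M.ofE (-x) := by
  apply M.toE_injective
  rw [toE_inv, toE_ofE, hx, neg_zero, τ_zero, toE_ofE]

theorem ofE_inv_of_fix {x : Fin d → ℝ} (hx : ∀ v, M.τ v x = x) : (M.ofE x)⁻¹ = M.ofE (-x) := by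
  apply M.toE_injective
  rw [toE_inv, toE_ofE, map_neg, hx, toE_ofE]

/-- conjugation of an element of `ker φ` -/
theorem conj_ofE (g : M.G) {y : Fin d → ℝ} (hy : M.φ y = 0) :
    g * M.ofE y * g⁻¹ = M.ofE (M.nl.Ad (M.toE g) (M.τ (M.ht g) y)) := by
  apply M.toE_injective
  rw [toE_mul, toE_mul, toE_inv, toE_ofE, toE_ofE, φ_mul, φ_τ', hy, add_zero, ← τ_add,
    add_neg_cancel, τ_zero, M.nl.mul_mul_neg]
  rfl

theorem τ_Ad (v : Fin k → ℝ) (x y : Fin d → ℝ) :
    M.τ v (M.nl.Ad x y) = M.nl.Ad (M.τ v x) (M.τ v y) := by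
  rw [← M.nl.mul_mul_neg, ← M.nl.mul_mul_neg, τ_mul, τ_mul, map_neg]

theorem norm_τ_le : ∃ C : ℝ, 0 < C ∧ ∀ v x, ‖M.τ v x‖ ≤ Real.exp (C * ‖v‖) * ‖x‖ := by
  have hs : 0 ≤ ∑ i, ‖LinearMap.toContinuousLinearMap (M.wt i)‖ :=
    Finset.sum_nonneg fun _ _ => norm_nonneg _
  refine ⟨∑ i, ‖LinearMap.toContinuousLinearMap (M.wt i)‖ + 1, by linarith, fun v x => ?_⟩
  refine (pi_norm_le_iff_of_nonneg (by positivity)).2 fun i => ?_
  rw [τ_apply, norm_mul, Real.norm_of_nonneg (Real.exp_pos _).le]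
  refine mul_le_mul (Real.exp_le_exp.2 ?_) (norm_le_pi_norm x i) (norm_nonneg _) (by positivity)
  have h1 := (LinearMap.toContinuousLinearMap (M.wt i)).le_opNorm v
  have h2 : ‖LinearMap.toContinuousLinearMap (M.wt i)‖ ≤
      ∑ i, ‖LinearMap.toContinuousLinearMap (M.wt i)‖ :=
    Finset.single_le_sum (f := fun i => ‖LinearMap.toContinuousLinearMap (M.wt i)‖)
      (fun _ _ => norm_nonneg _) (Finset.mem_univ i)
  calc M.wt i v ≤ ‖LinearMap.toContinuousLinearMap (M.wt i) v‖ := le_abs_self _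
    _ ≤ _ := h1
    _ ≤ _ := mul_le_mul_of_nonneg_right (by linarith) (norm_nonneg _)

theorem api_isCompact_norm (R : ℝ) : IsCompact {g : M.G | ‖M.toE g‖ ≤ R} := by
  have h : IsCompact (Metric.closedBall (0 : Fin d → ℝ) R) := isCompact_closedBall _ _
  have e : Metric.closedBall (0 : Fin d → ℝ) R = {x | ‖x‖ ≤ R} := by
    ext x; exact mem_closedBall_zero_iff
  rw [e] at h
  exact h

theorem one_mem_Q : (1 : M.G) ∈ M.Q := by
  simp [Q]

theorem inv_mem_Q {g : M.G} : g⁻¹ ∈ M.Q ↔ g ∈ M.Q := by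
  simp only [Q, Set.mem_ofPred_eq, inv_inv]
  exact and_comm

theorem isCompact_Q : IsCompact M.Q := by
  have h1 : IsCompact {g : M.G | ‖M.toE g‖ ≤ 1} := M.api_isCompact_norm 1
  refine h1.inter_right (t := {g : M.G | ‖M.toE g⁻¹‖ ≤ 1}) ?_
  exact isClosed_le (M.continuous_toE.comp continuous_inv).norm continuous_const

theorem Q_mem_nhds : M.Q ∈ 𝓝 (1 : M.G) := by
  refine Filter.inter_mem (s := {g : M.G | ‖M.toE g‖ ≤ 1}) (t := {g : M.G | ‖M.toE g⁻¹‖ ≤ 1}) ?_ ?_
  · refine Filter.mem_of_superset ((isOpen_lt M.continuous_toE.norm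
      (continuous_const (y := (1 : ℝ)))).mem_nhds (by simp)) fun g hg =>
        show ‖M.toE g‖ ≤ 1 from le_of_lt hg
  · refine Filter.mem_of_superset ((isOpen_lt (M.continuous_toE.comp continuous_inv).norm
      (continuous_const (y := (1 : ℝ)))).mem_nhds (by simp)) fun g hg =>
        show ‖M.toE g⁻¹‖ ≤ 1 from le_of_lt hg

theorem exists_ball_subset_Q : ∃ c : ℝ, 0 < c ∧ ∀ x, ‖x‖ ≤ c → M.ofE x ∈ M.Q := by
  have h : M.ofE ⁻¹' M.Q ∈ 𝓝 (0 : Fin d → ℝ) := M.Q_mem_nhds
  obtain ⟨c, hc, h⟩ := Metric.nhds_basis_closedBall.mem_iff.1 h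
  exact ⟨c, hc, fun x hx => h (mem_closedBall_zero_iff.2 hx)⟩

/-- an open subgroup of a connected group -/
theorem closure_Q : Subgroup.closure M.Q = ⊤ := by
  have : PreconnectedSpace M.G := inferInstanceAs (PreconnectedSpace (Fin d → ℝ))
  have ho : IsOpen (Subgroup.closure M.Q : Set M.G) :=
    Subgroup.isOpen_of_mem_nhds _ (Filter.mem_of_superset M.Q_mem_nhds Subgroup.subset_closure)
  have hc := Subgroup.isClosed_of_isOpen _ ho
  rw [← Subgroup.coe_eq_univ]
  exact IsClopen.eq_univ ⟨hc, ho⟩ ⟨1, Subgroup.one_mem _⟩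

theorem len_nonneg (g : M.G) : 0 ≤ M.len g := Nat.cast_nonneg _

theorem api_len_le (l : List M.G) (h : ∀ x ∈ l, x ∈ M.Q) : M.len l.prod ≤ l.length := by
  rw [len, Nat.cast_le]
  exact Nat.sInf_le ⟨l, rfl, fun x hx => Or.inl (h x hx), rfl⟩

theorem api_exists (g : M.G) :
    ∃ l : List M.G, (l.length : ℝ) = M.len g ∧ (∀ x ∈ l, x ∈ M.Q) ∧ l.prod = g := by
  have hg : g ∈ Submonoid.closure (M.Q ∪ M.Q⁻¹) := by
    rw [← Subgroup.closure_toSubmonoid, M.closure_Q]
    trivial
  obtain ⟨l, h1, h2⟩ := Submonoid.exists_list_of_mem_closure hg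
  have hne : {n : ℕ | ∃ l : List M.G, l.length = n ∧ (∀ x ∈ l, x ∈ M.Q ∨ x⁻¹ ∈ M.Q) ∧
      l.prod = g}.Nonempty := ⟨l.length, l, rfl, h1, h2⟩
  obtain ⟨l', a1, a2, a3⟩ := Nat.sInf_mem hne
  exact ⟨l', by rw [a1]; rfl, fun x hx => (a2 x hx).elim id M.inv_mem_Q.1, a3⟩

theorem api_eq_one {g : M.G} (h : M.len g ≤ 0) : g = 1 := by
  obtain ⟨l, h1, -, rfl⟩ := M.api_exists g
  rw [← h1] at h
  have : l.length = 0 := by exact_mod_cast le_antisymm h (Nat.cast_nonneg _)
  rw [List.length_eq_zero_iff.1 this, List.prod_nil]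

theorem api_ht : ∃ C : ℝ, 0 < C ∧ ∀ l : List M.G, (∀ x ∈ l, x ∈ M.Q) →
    ‖M.ht l.prod‖ ≤ C * l.length := by
  have h0 := norm_nonneg (LinearMap.toContinuousLinearMap M.φ)
  refine ⟨‖LinearMap.toContinuousLinearMap M.φ‖ + 1, by linarith, fun l hl => ?_⟩
  induction l with
  | nil => simp
  | cons x l ih =>
    have h1 := ih fun y hy => hl y (List.mem_cons_of_mem _ hy)
    have h2 : ‖M.ht x‖ ≤ ‖LinearMap.toContinuousLinearMap M.φ‖ * ‖M.toE x‖ :=
      (LinearMap.toContinuousLinearMap M.φ).le_opNorm _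
    have h3 := (hl x List.mem_cons_self).1
    have h4 := norm_add_le (M.ht x) (M.ht l.prod)
    rw [List.prod_cons, ht_mul, List.length_cons]
    push_cast
    nlinarith

theorem api_approx (i : ℕ) : ∃ K : ℝ, 1 ≤ K ∧ ∀ l : List M.G, (∀ x ∈ l, x ∈ M.Q) →
    ∃ z, M.toE l.prod - z ∈ M.nl.lcs i ∧ ‖z‖ ≤ Real.exp (K * (l.length + 1)) := by
  induction i with
  | zero => exact ⟨1, le_rfl, fun l _ => ⟨0, Submodule.mem_top, by simp; positivity⟩⟩
  | succ i ih =>
    obtain ⟨K, hK, ih⟩ := ih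
    obtain ⟨K₀, hK₀, hmul⟩ := M.nl.api_mul_le
    obtain ⟨C, hC, hτ⟩ := M.norm_τ_le
    obtain ⟨C', hC', hht⟩ := M.api_ht
    have hCC : 0 < C * C' := mul_pos hC hC'
    obtain ⟨K₁, hK₁⟩ : ∃ K₁, K₁ = K + C * C' := ⟨_, rfl⟩
    have hK₁1 : 1 ≤ K₁ := by linarith
    have hKK : 1 ≤ K₀ * K₁ := by nlinarith
    refine ⟨K₀ * K₁ + K + 1, by linarith, fun l hl => ?_⟩
    induction l using List.reverseRecOn with
    | nil => exact ⟨0, by simp, by simp; positivity⟩
    | append_singleton l q ih' =>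
      have hl' : ∀ x ∈ l, x ∈ M.Q := fun x hx => hl x (List.mem_append_left _ hx)
      have hq : q ∈ M.Q := hl q (by simp)
      obtain ⟨z, hz1, hz2⟩ := ih' hl'
      obtain ⟨w, hw1, hw2⟩ := ih l hl'
      have hn : (0 : ℝ) ≤ l.length := Nat.cast_nonneg _
      have hy : ‖M.τ (M.ht l.prod) (M.toE q)‖ ≤ Real.exp (K₁ * (l.length + 1)) := by
        refine (hτ _ _).trans ?_
        have h1 := hht l hl'
        calc _ ≤ Real.exp (C * ‖M.ht l.prod‖) * 1 := by gcongr; exact hq.1
          _ ≤ _ := by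
            rw [mul_one]
            refine Real.exp_le_exp.2 ?_
            have : C * ‖M.ht l.prod‖ ≤ C * (C' * l.length) := by gcongr
            rw [hK₁]
            nlinarith
      have hw3 : ‖w‖ ≤ Real.exp (K₁ * (l.length + 1)) :=
        hw2.trans (Real.exp_le_exp.2 (by rw [hK₁]; nlinarith))
      have hm := hmul (K₁ * (l.length + 1)) (by nlinarith) _ _ hw3 hy
      refine ⟨z + (M.nl.mul w (M.τ (M.ht l.prod) (M.toE q)) - w), ?_, ?_⟩
      · have h1 := M.nl.mul_sub_mul_mem_lcs (i := i) hw1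
          (y := M.τ (M.ht l.prod) (M.toE q)) (y' := M.τ (M.ht l.prod) (M.toE q)) (by simp)
        have h2 := Submodule.add_mem _ h1 hz1
        rw [List.prod_append, List.prod_singleton, toE_mul]
        convert h2 using 1
        simp only [ht]
        abel
      · rw [← mul_assoc] at hm
        have h1 : ‖M.nl.mul w (M.τ (M.ht l.prod) (M.toE q)) - w‖ ≤
            Real.exp ((K₀ * K₁ + K + 1) * (l.length + 1)) :=
          (norm_sub_le _ _).trans ((add_le_add hm hw2).trans
            (NL.api_exp_add (by linarith) (by linarith) (by linarith)))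
        refine (norm_add_le _ _).trans ((add_le_add hz2 h1).trans ?_)
        rw [List.length_append, List.length_singleton]
        push_cast
        rw [mul_add (K₀ * K₁ + K + 1) (l.length + 1) 1, Real.exp_add, mul_one]
        have h2 := Real.add_one_le_exp (K₀ * K₁ + K + 1)
        nlinarith [Real.exp_pos ((K₀ * K₁ + K + 1) * (l.length + 1))]

@[simp] theorem len_one : M.len 1 = 0 := by
  exact le_antisymm (by simpa using M.api_len_le [] (by simp)) (M.len_nonneg _)

@[simp] theorem len_inv (g : M.G) : M.len g⁻¹ = M.len g := by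
  have key : ∀ g : M.G, M.len g⁻¹ ≤ M.len g := by
    intro g
    obtain ⟨l, h1, h2, rfl⟩ := M.api_exists g
    rw [← h1, List.prod_inv_reverse]
    refine (M.api_len_le _ fun x hx => ?_).trans (by simp)
    obtain ⟨y, hy, rfl⟩ := List.mem_map.1 (List.mem_reverse.1 hx)
    exact M.inv_mem_Q.2 (h2 y hy)
  exact le_antisymm (key g) (by simpa using key g⁻¹)

theorem len_mul_le (g h : M.G) : M.len (g * h) ≤ M.len g + M.len h := by
  obtain ⟨l, h1, h2, rfl⟩ := M.api_exists g
  obtain ⟨l', h1', h2', rfl⟩ := M.api_exists h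
  rw [← h1, ← h1', ← List.prod_append]
  refine (M.api_len_le _ fun x hx => ?_).trans (by simp)
  exact (List.mem_append.1 hx).elim (h2 x) (h2' x)

theorem len_le_one {g : M.G} (hg : g ∈ M.Q) : M.len g ≤ 1 := by
  simpa using M.api_len_le [g] (by simpa using hg)

theorem len_list_prod_le (l : List M.G) : M.len l.prod ≤ (l.map M.len).sum := by
  induction l with
  | nil => simp
  | cons x l ih =>
    rw [List.prod_cons, List.map_cons, List.sum_cons]
    linarith [M.len_mul_le x l.prod]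

/-- geodesics -/
theorem exists_list (g : M.G) :
    ∃ l : List M.G, (l.length : ℝ) = M.len g ∧ (∀ x ∈ l, x ∈ M.Q) ∧ l.prod = g := by
  exact M.api_exists g

theorem dd_self (x : M.G) : M.dd x x = 0 := by simp [dd]

theorem dd_comm (x y : M.G) : M.dd x y = M.dd y x := by
  rw [dd, dd, ← M.len_inv, mul_inv_rev, inv_inv]

theorem dd_triangle (x y z : M.G) : M.dd x z ≤ M.dd x y + M.dd y z := by
  have := M.len_mul_le (x⁻¹ * y) (y⁻¹ * z)
  rwa [mul_assoc, mul_inv_cancel_left] at this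

@[simp] theorem dd_mul_right (x g : M.G) : M.dd x (x * g) = M.len g := by simp [dd]

@[simp] theorem dd_mul_left (g x y : M.G) : M.dd (g * x) (g * y) = M.dd x y := by
  simp [dd, mul_assoc]

theorem dd_mul_mul (x g h : M.G) : M.dd (x * g) (x * h) = M.len (g⁻¹ * h) := by
  simp [dd, mul_assoc]

theorem isCompact_ball (r : ℝ) : IsCompact {g : M.G | M.len g ≤ r} := by
  have key : ∀ n : ℕ, IsCompact {g : M.G | M.len g ≤ n} := by
    intro n
    induction n with
    | zero =>
      refine (isCompact_singleton (x := (1 : M.G))).of_isClosed_subset ?_ ?_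
      · convert isClosed_singleton (x := (1 : M.G)) using 1
        ext g
        exact ⟨fun h => M.api_eq_one (by simpa using h), fun h => by
          rw [Set.mem_singleton_iff.1 h]; simp⟩
      · exact fun g h => M.api_eq_one (by simpa using h)
    | succ n ih =>
      convert M.isCompact_Q.mul ih using 1
      ext g
      constructor
      · intro hg
        obtain ⟨l, h1, h2, rfl⟩ := M.api_exists g
        cases l with
        | nil => exact ⟨1, M.one_mem_Q, 1, by simp, by simp⟩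
        | cons x l =>
          refine ⟨x, h2 x List.mem_cons_self, l.prod, ?_, by simp⟩
          have h3 := M.api_len_le l fun y hy => h2 y (List.mem_cons_of_mem _ hy)
          simp only [Set.mem_ofPred_eq, ← h1, List.length_cons] at hg ⊢
          push_cast at hg
          linarith
      · rintro ⟨x, hx, y, hy, rfl⟩
        have h1 := M.len_mul_le x y
        have h2 := M.len_le_one hx
        simp only [Set.mem_ofPred_eq] at hy ⊢
        push_cast
        linarith
  rcases lt_or_ge r 0 with hr | hr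
  · convert isCompact_empty
    exact Set.eq_empty_of_forall_notMem fun g hg => by
      linarith [M.len_nonneg g, show M.len g ≤ r from hg]
  · convert key ⌊r⌋₊ using 3 with g
    rw [len, Nat.cast_le, Nat.le_floor_iff hr]

theorem measurable_len : Measurable M.len := by
  exact measurable_of_Iic fun r => (M.isCompact_ball r).isClosed.measurableSet

theorem measurable_dd : Measurable fun p : M.G × M.G => M.dd p.1 p.2 := by
  exact M.measurable_len.comp (continuous_fst.inv.mul continuous_snd).measurable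

/-- compact sets have bounded length (cover by the interiors of the balls) -/
theorem len_le_of_norm (R : ℝ) : ∃ C : ℝ, ∀ g, ‖M.toE g‖ ≤ R → M.len g ≤ C := by
  refine (M.api_isCompact_norm R).induction_on (p := fun s => ∃ C : ℝ, ∀ g ∈ s, M.len g ≤ C)
    ⟨0, by simp⟩ (fun s t hst ⟨C, h⟩ => ⟨C, fun g hg => h g (hst hg)⟩)
    (fun s t ⟨C, h⟩ ⟨C', h'⟩ => ⟨max C C', fun g hg =>
      hg.elim (fun hg => (h g hg).trans (le_max_left _ _))
        fun hg => (h' g hg).trans (le_max_right _ _)⟩) fun x _ => ?_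
  refine ⟨(fun g => x⁻¹ * g) ⁻¹' M.Q, mem_nhdsWithin_of_mem_nhds ?_, M.len x + 1, fun g hg => ?_⟩
  · refine (continuous_const.mul continuous_id).continuousAt.preimage_mem_nhds ?_
    simpa using M.Q_mem_nhds
  · have h1 := M.len_mul_le x (x⁻¹ * g)
    rw [mul_inv_cancel_left] at h1
    linarith [M.len_le_one hg]

theorem norm_ht_le : ∃ C : ℝ, 0 < C ∧ ∀ g, ‖M.ht g‖ ≤ C * M.len g := by
  obtain ⟨C, hC, h⟩ := M.api_ht
  refine ⟨C, hC, fun g => ?_⟩
  obtain ⟨l, h1, h2, rfl⟩ := M.api_exists g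
  rw [← h1]
  exact h l h2

/-- on `ker φ` and on `τ`-fixed vectors straight lines are one-parameter subgroups -/
theorem len_ofE_le : ∃ C : ℝ, 0 < C ∧ ∀ x, (M.φ x = 0 ∨ ∀ v, M.τ v x = x) →
    M.len (M.ofE x) ≤ C * (1 + ‖x‖) := by
  obtain ⟨c, hc, h⟩ := M.exists_ball_subset_Q
  refine ⟨c⁻¹ + 2, by positivity, fun x hx => ?_⟩
  have hm : ∀ s t : ℝ, M.ofE (s • x) * M.ofE (t • x) = M.ofE ((s + t) • x) := by
    intro s t
    rw [← M.nl.smul_mul_smul]
    rcases hx with hx | hx
    · exact M.ofE_mul_of_φ (by rw [map_smul, hx, smul_zero]) _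
    · exact M.ofE_mul_of_fix _ fun v => by rw [map_smul, hx]
  obtain ⟨n, hn⟩ : ∃ n : ℕ, n = ⌈‖x‖ / c⌉₊ + 1 := ⟨_, rfl⟩
  have hn0 : (0 : ℝ) < n := by rw [hn]; positivity
  have hn1 : ‖x‖ / c ≤ n := by
    rw [hn]; push_cast; linarith [Nat.le_ceil (‖x‖ / c)]
  have hn2 : (n : ℝ) ≤ ‖x‖ / c + 2 := by
    rw [hn]; push_cast; linarith [Nat.ceil_lt_add_one (show 0 ≤ ‖x‖ / c by positivity)]
  have hq : M.ofE ((n : ℝ)⁻¹ • x) ∈ M.Q := by
    refine h _ ?_
    rw [norm_smul, norm_inv, Real.norm_of_nonneg hn0.le, inv_mul_le_iff₀ hn0]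
    exact (div_le_iff₀ hc).1 hn1
  have key : ∀ j : ℕ, M.len (M.ofE (((j : ℝ) * (n : ℝ)⁻¹) • x)) ≤ j := by
    intro j
    induction j with
    | zero => simp
    | succ j ih =>
      have e : ((j + 1 : ℕ) : ℝ) * (n : ℝ)⁻¹ = (j : ℝ) * (n : ℝ)⁻¹ + (n : ℝ)⁻¹ := by
        push_cast; ring
      rw [e, ← hm]
      have h1 := M.len_mul_le (M.ofE (((j : ℝ) * (n : ℝ)⁻¹) • x)) (M.ofE ((n : ℝ)⁻¹ • x))
      have h2 := M.len_le_one hq
      push_cast
      linarith
  have h1 := key n
  rw [mul_inv_cancel₀ hn0.ne', one_smul] at h1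
  have h2 : 0 < c⁻¹ := inv_pos.2 hc
  rw [div_eq_mul_inv] at hn2
  nlinarith [norm_nonneg x]

/-- For a geodesic `q_1 ⋯ q_n`, `toE (∏ q_i) = prod (y_i)` (BCH product, `y_i = τ (ht (q_1 ⋯ q_{i-1})) q_i`)
with `‖y_i‖ ≤ exp (C n)`.  `exp (ρ y_1) ⋯ exp (ρ y_n)` expands into products of fewer than `m` matrices
`ρ y_i`, so it is bounded by `(C n exp (C n))^m`; then take the polynomial `log`.
(Alternatively `R182/LN`: `IsLN.prod_le` applied to the norm `c exp (-C n) ‖·‖ / n`.) -/
theorem norm_toE_le : ∃ C : ℝ, 0 < C ∧ ∀ g, ‖M.toE g‖ ≤ Real.exp (C * (M.len g + 1)) := by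
  obtain ⟨K, hK, h⟩ := M.api_approx M.nl.m
  refine ⟨K, by linarith, fun g => ?_⟩
  obtain ⟨l, h1, h2, rfl⟩ := M.api_exists g
  obtain ⟨z, hz, hz'⟩ := h l h2
  rw [M.nl.lcs_eq_bot, Submodule.mem_bot, sub_eq_zero] at hz
  rw [hz, ← h1]
  exact hz'

instance : M.μG.IsOpenPosMeasure :=
  inferInstanceAs ((volume : Measure (Fin d → ℝ)).IsOpenPosMeasure)

instance : IsFiniteMeasureOnCompacts M.μG :=
  inferInstanceAs (IsFiniteMeasureOnCompacts (volume : Measure (Fin d → ℝ)))

instance : SigmaFinite M.μG := inferInstanceAs (SigmaFinite (volume : Measure (Fin d → ℝ)))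

/-- `x ↦ g • τ x`; `det τ = exp (∑ wt) = 1` and `unitri_preserving` for the flag `lcs` -/
instance : M.μG.IsMulLeftInvariant := by
  refine ⟨fun g => ?_⟩
  have h1 : MeasurePreserving (M.nl.mul (M.toE g)) volume volume :=
    unitri_preserving volume (fun x => M.nl.mul (M.toE g) x)
      (M.nl.api_cont_mul continuous_const continuous_id)
      M.nl.lcs M.nl.m rfl M.nl.lcs_eq_bot M.nl.lcs_succ_le
      fun i x z hz => (M.nl.mul_add_sub_mem_lcs x _ hz).2
  have hdet : LinearMap.det (M.τ (M.ht g)) = 1 := by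
    have e : M.τ (M.ht g) =
        Matrix.toLin' (Matrix.diagonal fun i => Real.exp (M.wt i (M.ht g))) := by
      refine LinearMap.ext fun x => funext fun i => ?_
      rw [Matrix.toLin'_apply, Matrix.mulVec_diagonal, τ_apply]
    rw [e, LinearMap.det_toLin', Matrix.det_diagonal, ← Real.exp_sum, ← LinearMap.sum_apply,
      M.sum_wt, LinearMap.zero_apply, Real.exp_zero]
  have h2 : MeasurePreserving (M.τ (M.ht g)) volume volume := by
    refine ⟨(M.τ (M.ht g)).continuous_of_finiteDimensional.measurable, ?_⟩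
    rw [Real.map_linearMap_volume_pi_eq_smul_volume_pi (by rw [hdet]; exact one_ne_zero), hdet]
    simp
  exact (h1.comp h2).map_eq

/-- `unitri_preserving` for the flag `⊤ ⊇ ker φ ⊇ lcs 1 ⊇ lcs 2 ⊇ ⋯` -/
instance : M.μG.IsMulRightInvariant := by
  refine ⟨fun g => ?_⟩
  let Fl : ℕ → Submodule ℝ (Fin d → ℝ) := fun i =>
    match i with
    | 0 => ⊤
    | 1 => LinearMap.ker M.φ
    | i + 2 => M.nl.lcs (i + 1)
  have hle : ∀ i, M.nl.lcs (i + 1) ≤ LinearMap.ker M.φ := by
    intro i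
    induction i with
    | zero => exact fun x hx => M.φ_lcs hx
    | succ i ih => exact (M.nl.lcs_succ_le _).trans ih
  have h1 : MeasurePreserving (fun x => M.nl.mul x (M.τ (M.φ x) (M.toE g))) volume volume := by
    refine unitri_preserving volume _ (M.nl.api_cont_mul continuous_id
      (M.api_cont_τ M.φ.continuous_of_finiteDimensional continuous_const))
      Fl (M.nl.m + 2) rfl ?_ ?_ ?_
    · exact le_bot_iff.1 ((M.nl.lcs_succ_le _).trans M.nl.lcs_eq_bot.le)
    · intro i
      rcases i with _ | _ | i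
      · exact le_top
      · exact hle 0
      · exact M.nl.lcs_succ_le _
    · intro i x z hz
      rcases i with _ | _ | i
      · change M.φ _ = 0
        simp
      · have hz' : M.φ z = 0 := hz
        rw [map_add, hz', add_zero]
        exact (M.nl.mul_add_sub_mem_lcs (i := 0) x _ Submodule.mem_top).1
      · have hz' : M.φ z = 0 := hle i hz
        rw [map_add, hz', add_zero]
        exact (M.nl.mul_add_sub_mem_lcs (i := i + 1) x _ hz).1
  exact h1.map_eq

end Model

end Crest.Agent.R182
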