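import Crest.Agent.R182.BDefs
import Crest.Agent.R182.ModelAPI

/-!
Row 182, part B, task `R182/BCoc`: a subgroup of a nilpotent Lie group which generates the Lie
algebra spans it and is cocompact.
-/

set_option autoImplicit false

namespace Crest.Agent.R182.B

open scoped BigOperators
open Polynomial

/-- the group commutator is the Lie bracket modulo higher terms:
`(a • b • (-a)) • (-b) = Ad a b • (-b)` (`NL.mul_mul_neg`), `Ad a b - b - br a b ∈ lcs (j+2)`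
(`NL.Ad_apply`; if `N.m = 0` everything is trivial by `lcs_eq_bot`), `NL.mul_add_sub_mem_lcs`. -/
theorem comm_sub_br_mem {E : Type} [AddCommGroup E] [Module ℝ E] (N : NL E) (a : E) {j : ℕ} {b : E}
    (hb : b ∈ N.lcs j) : N.mul (N.mul (N.mul a b) (-a)) (-b) - N.br a b ∈ N.lcs (j + 2) := by
  have hanti : Antitone N.lcs := antitone_nat_of_succ_le N.lcs_succ_le
  have h1 : N.Ad a b - b - N.br a b ∈ N.lcs (j + 2) := by
    rcases Nat.eq_zero_or_pos N.m with hm | hm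
    · have h := N.lcs_eq_bot
      rw [hm] at h
      have h2 : N.Ad a b - b - N.br a b ∈ N.lcs 0 := Submodule.mem_top
      rw [h, Submodule.mem_bot] at h2
      rw [h2]
      exact Submodule.zero_mem _
    · obtain ⟨m, hm'⟩ := Nat.exists_eq_add_of_lt hm
      rw [N.Ad_apply, hm', zero_add, Finset.sum_range_succ', Finset.sum_range_succ']
      simp only [Nat.factorial_zero, Nat.cast_one, inv_one, pow_zero, Module.End.one_apply, one_smul,
        add_sub_cancel_right, zero_add, Nat.factorial_one, pow_one]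
      refine Submodule.sum_mem _ fun k _ => Submodule.smul_mem _ _ ?_
      exact hanti (by omega) (N.bch2_pow_br_mem a hb (k + 1 + 1))
  have h2 := (N.mul_add_sub_mem_lcs b (-b) (N.Ad_sub_mem_lcs a hb)).1
  rw [N.mul_neg', add_sub_cancel, sub_zero] at h2
  rw [N.mul_mul_neg]
  convert Submodule.add_mem _ h1 h2 using 1
  abel

/-- Induction on `j`.  `j = 0`: `span Λ ⊔ lcs 1` contains `Λ` and all brackets.  Step: `lcs (j+1)` is
spanned by the `br x y`, `y ∈ lcs j`; write `x = a + x₁`, `y = b + y₁` with `a ∈ span Λ`, `x₁ ∈ lcs 1`,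
`b ∈ span (Λ ∩ lcs j)`, `y₁ ∈ lcs (j+1)` (`NL.br_mem_lcs`); for `a ∈ Λ`, `b ∈ Λ ∩ lcs j` use
`comm_sub_br_mem`. -/
theorem lcs_le_span {E : Type} [AddCommGroup E] [Module ℝ E] (N : NL E) (Λ : Set E)
    (hmul : ∀ a ∈ Λ, ∀ b ∈ Λ, N.mul a b ∈ Λ) (hneg : ∀ a ∈ Λ, -a ∈ Λ)
    (hgen : ∀ T : Submodule ℝ E, Λ ⊆ T → (∀ x ∈ T, ∀ y ∈ T, N.br x y ∈ T) → T = ⊤) (j : ℕ) :
    N.lcs j ≤ Submodule.span ℝ (Λ ∩ N.lcs j) ⊔ N.lcs (j + 1) := by
  have h0 : N.lcs 0 ≤ Submodule.span ℝ (Λ ∩ N.lcs 0) ⊔ N.lcs (0 + 1) := by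
    refine le_top.trans (hgen _ (fun a ha => ?_) fun x _ y _ => ?_).ge
    · exact Submodule.mem_sup_left (Submodule.subset_span ⟨ha, Submodule.mem_top⟩)
    · exact Submodule.mem_sup_right (N.br_mem_lcs_succ x (Submodule.mem_top : y ∈ N.lcs 0))
  induction j with
  | zero => exact h0
  | succ j ih =>
    set U := Submodule.span ℝ (Λ ∩ N.lcs (j + 1)) ⊔ N.lcs (j + 1 + 1) with hU
    have ha : ∀ a ∈ Λ, ∀ b ∈ Λ, b ∈ N.lcs j → N.br a b ∈ U := by
      intro a ha b hb hbj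
      have h1 := comm_sub_br_mem N a hbj
      set c := N.mul (N.mul (N.mul a b) (-a)) (-b) with hc
      have h2 : c ∈ Λ := hmul _ (hmul _ (hmul _ ha _ hb) _ (hneg _ ha)) _ (hneg _ hb)
      have h3 : c ∈ N.lcs (j + 1) := by
        have := Submodule.add_mem _ (N.lcs_succ_le _ h1) (N.br_mem_lcs_succ a hbj)
        rwa [sub_add_cancel] at this
      have h4 := U.sub_mem (Submodule.mem_sup_left (Submodule.subset_span ⟨h2, h3⟩))
        (Submodule.mem_sup_right h1)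
      rwa [sub_sub_cancel] at h4
    have hb : ∀ x, ∀ b ∈ Λ, b ∈ N.lcs j → N.br x b ∈ U := by
      intro x b hb hbj
      have : Submodule.span ℝ (Λ ∩ N.lcs 0) ⊔ N.lcs (0 + 1) ≤ U.comap (N.br.flip b) := by
        refine sup_le (Submodule.span_le.2 fun a ha' => ha a ha'.1 b hb hbj) fun y hy => ?_
        have h1 := N.br_mem_lcs hy hbj
        rw [show 0 + 1 + j + 1 = j + 1 + 1 by omega] at h1
        exact Submodule.mem_sup_right h1
      exact this (h0 Submodule.mem_top)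
    refine Submodule.span_le.2 ?_
    rintro _ ⟨x, y, hy, rfl⟩
    have : Submodule.span ℝ (Λ ∩ N.lcs j) ⊔ N.lcs (j + 1) ≤ U.comap (N.br x) :=
      sup_le (Submodule.span_le.2 fun b hb' => hb x b hb'.1 hb'.2)
        fun z hz => Submodule.mem_sup_right (N.br_mem_lcs_succ x hz)
    exact this (ih hy)

/-- an additive subgroup is cocompact in its span -/
theorem bcoc_addSubgroup {E : Type} [NormedAddCommGroup E] [NormedSpace ℝ E]
    [FiniteDimensional ℝ E] (A : AddSubgroup E) :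
    ∃ C : ℝ, ∀ x ∈ Submodule.span ℝ (A : Set E), ∃ u ∈ A, ‖x - u‖ ≤ C := by
  obtain ⟨b, hb, hsp, hli⟩ := exists_linearIndependent ℝ (A : Set E)
  have hfin : b.Finite := hli.setFinite
  lift b to Finset E using hfin
  refine ⟨∑ a ∈ b, ‖a‖, fun x hx => ?_⟩
  rw [← hsp, Submodule.mem_span_finset] at hx
  obtain ⟨f, -, rfl⟩ := hx
  refine ⟨∑ a ∈ b, ⌊f a⌋ • a, A.sum_mem fun a ha => A.zsmul_mem (hb ha) _, ?_⟩
  rw [← Finset.sum_sub_distrib]
  refine (norm_sum_le _ _).trans (Finset.sum_le_sum fun a _ => ?_)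
  rw [← Int.cast_smul_eq_zsmul ℝ, ← sub_smul, norm_smul, Real.norm_eq_abs, Int.self_sub_floor,
    abs_of_nonneg (Int.fract_nonneg _)]
  exact mul_le_of_le_one_left (norm_nonneg _) (Int.fract_lt_one _).le

theorem bcoc_top {E : Type} [NormedAddCommGroup E] [NormedSpace ℝ E]
    [FiniteDimensional ℝ E] (N : NL E) (Λ : Set E) (h0 : (0 : E) ∈ Λ)
    (hmul : ∀ a ∈ Λ, ∀ b ∈ Λ, N.mul a b ∈ Λ) (hneg : ∀ a ∈ Λ, -a ∈ Λ)
    (hgen : ∀ T : Submodule ℝ E, Λ ⊆ T → (∀ x ∈ T, ∀ y ∈ T, N.br x y ∈ T) → T = ⊤) :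
    Submodule.span ℝ Λ = ⊤ ∧ ∃ C : ℝ, ∀ x, ∃ a ∈ Λ, ‖N.mul (-a) x‖ ≤ C := by
  have hl := lcs_le_span N Λ hmul hneg hgen
  have hadd : ∀ j, ∀ x ∈ N.lcs j, ∀ y ∈ N.lcs j, N.mul x y - (x + y) ∈ N.lcs (j + 1) := by
    intro j x hx y hy
    have := N.mul_sub_mul_mem_lcs (i := j) (x := x) (x' := 0) (y := y) (y' := 0)
      (by simpa using hx) (by simpa using hy)
    simpa using this
  have hmem : ∀ j, ∀ x ∈ N.lcs j, ∀ y ∈ N.lcs j, N.mul x y ∈ N.lcs j :=
    fun j x hx y hy => N.mul_mem (fun a _ b hb => N.bch2_lcs_ideal j a b hb) hx hy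
  constructor
  · have : ∀ j, ⊤ ≤ Submodule.span ℝ Λ ⊔ N.lcs j := by
      intro j
      induction j with
      | zero => exact le_sup_right
      | succ j ih =>
        refine ih.trans (sup_le le_sup_left ((hl j).trans ?_))
        exact sup_le_sup_right (Submodule.span_mono Set.inter_subset_left) _
    have h := this N.m
    rw [N.lcs_eq_bot, sup_bot_eq] at h
    exact top_le_iff.1 h
  · have step : ∀ j, ∃ C : ℝ, ∀ z ∈ N.lcs j, ∃ a ∈ Λ, ∃ w, ‖w‖ ≤ C ∧
        N.mul (N.mul (-a) z) (-w) ∈ N.lcs (j + 1) := by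
      intro j
      let A : AddSubgroup E :=
        { carrier := {u | ∃ a ∈ Λ, a ∈ N.lcs j ∧ a - u ∈ N.lcs (j + 1)}
          zero_mem' := ⟨0, h0, Submodule.zero_mem _, by simp⟩
          add_mem' := by
            rintro u v ⟨a, ha, ha1, ha2⟩ ⟨b, hb, hb1, hb2⟩
            refine ⟨N.mul a b, hmul _ ha _ hb, hmem j _ ha1 _ hb1, ?_⟩
            convert Submodule.add_mem _ (hadd j _ ha1 _ hb1) (Submodule.add_mem _ ha2 hb2) using 1
            abel
          neg_mem' := by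
            rintro u ⟨a, ha, ha1, ha2⟩
            refine ⟨-a, hneg _ ha, Submodule.neg_mem _ ha1, ?_⟩
            convert Submodule.neg_mem _ ha2 using 1
            abel }
      obtain ⟨C, hC⟩ := bcoc_addSubgroup A
      refine ⟨C, fun z hz => ?_⟩
      have hz' : z ∈ Submodule.span ℝ (A : Set E) := by
        refine (sup_le (Submodule.span_mono ?_) ?_ : _ ≤ Submodule.span ℝ (A : Set E)) (hl j hz)
        · exact fun a ha => ⟨a, ha.1, ha.2, by simp⟩
        · exact fun y hy => Submodule.subset_span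
            ⟨0, h0, Submodule.zero_mem _, by simpa using hy⟩
      obtain ⟨u, ⟨a, ha, ha1, ha2⟩, hu⟩ := hC z hz'
      refine ⟨a, ha, z - u, hu, ?_⟩
      have hu1 : u ∈ N.lcs j := by
        have := Submodule.sub_mem _ ha1 (N.lcs_succ_le j ha2)
        rwa [sub_sub_cancel] at this
      have e1 := hadd j _ (Submodule.neg_mem _ ha1) _ hz
      have e2 := hadd j _ (hmem j _ (Submodule.neg_mem _ ha1) _ hz) _
        (Submodule.neg_mem _ (Submodule.sub_mem _ hz hu1))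
      convert Submodule.sub_mem _ (Submodule.add_mem _ e1 e2) ha2 using 1
      abel
    have main : ∀ j, ∃ C : ℝ, ∀ x, ∃ a ∈ Λ, ∃ w, ‖w‖ ≤ C ∧ ∃ z ∈ N.lcs j,
        N.mul (-a) x = N.mul z w := by
      intro j
      induction j with
      | zero => exact ⟨0, fun x => ⟨0, h0, 0, by simp, x, Submodule.mem_top, by simp⟩⟩
      | succ j ih =>
        obtain ⟨C, hC⟩ := ih
        obtain ⟨C', hC'⟩ := step j
        obtain ⟨D, hD⟩ := ((isCompact_closedBall (0 : E) C').prod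
          (isCompact_closedBall (0 : E) C)).exists_bound_of_continuousOn
            N.continuous_mul.continuousOn
        refine ⟨D, fun x => ?_⟩
        obtain ⟨a, ha, w, hw, z, hz, e⟩ := hC x
        obtain ⟨a', ha', w', hw', hz'⟩ := hC' z hz
        refine ⟨N.mul a a', hmul _ ha _ ha', N.mul w' w,
          hD (w', w) ⟨mem_closedBall_zero_iff.2 hw', mem_closedBall_zero_iff.2 hw⟩, _, hz', ?_⟩
        rw [N.neg_mul_rev, N.mul_assoc', e, N.mul_assoc', N.mul_assoc', ← N.mul_assoc' (-w'),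
          N.neg_mul', N.zero_mul']
    obtain ⟨C, hC⟩ := main N.m
    refine ⟨C, fun x => ?_⟩
    obtain ⟨a, ha, w, hw, z, hz, e⟩ := hC x
    rw [N.lcs_eq_bot, Submodule.mem_bot] at hz
    exact ⟨a, ha, by rwa [e, hz, N.zero_mul']⟩

/-- First for `K = ⊤`.  Span: descending induction with `lcs_le_span`, `lcs N.m = ⊥`.  Cocompactness,
descending induction on `j`: `∃ C, ∀ x ∈ lcs j, ∃ a ∈ Λ, ‖(-a) • x‖ ≤ C`.  `span (Λ ∩ lcs j)` is spanned
by a finite subset `b_1, …, b_r` (`Submodule.mem_span_finite_of_mem_span` for a finite spanning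
set, or `exists_linearIndependent`).  `x ≡ ∑ t_i b_i mod lcs (j+1)`; `n • b ∈ Λ` for `n : ℤ`
(`NL.smul_mul_smul`), so there is `a₁ ∈ Λ ∩ lcs j` with `a₁ ≡ ∑ ⌊t_i⌋ b_i mod lcs (j+1)` (for
`u, v ∈ lcs j`: `u • v - (u + v) ∈ lcs (j+1)` by `mul_sub_mul_mem_lcs` with `x' = y' = 0`).  With
`w = ∑ fract (t_i) b_i` (bounded), `z = ((-a₁) • x) • (-w) ∈ lcs (j+1)`; take `a₂` for `z`,
`a = a₁ • a₂`: `(-a) • x = ((-a₂) • z) • w` is bounded as `mul` is continuous (`NL.continuous_mul`) and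
closed balls are compact.  For general `K` apply this to `N.sub K hK` (`NL.sub_mul`) and the
preimage of `Λ` in `K`. -/
theorem span_and_cocompact {E : Type} [NormedAddCommGroup E] [NormedSpace ℝ E]
    [FiniteDimensional ℝ E] (N : NL E) (K : Submodule ℝ E) (hK : ∀ x ∈ K, ∀ y ∈ K, N.br x y ∈ K)
    (Λ : Set E) (hΛ : Λ ⊆ K) (h0 : (0 : E) ∈ Λ) (hmul : ∀ a ∈ Λ, ∀ b ∈ Λ, N.mul a b ∈ Λ)
    (hneg : ∀ a ∈ Λ, -a ∈ Λ)
    (hgen : ∀ T : Submodule ℝ E, Λ ⊆ T → (∀ x ∈ T, ∀ y ∈ T, N.br x y ∈ T) → K ≤ T) :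
    Submodule.span ℝ Λ = K ∧ ∃ C : ℝ, ∀ x ∈ K, ∃ a ∈ Λ, ‖N.mul (-a) x‖ ≤ C := by
  obtain ⟨h1, C, h2⟩ := bcoc_top (N.sub K hK) (Subtype.val ⁻¹' Λ) h0
    (fun a ha b hb => by
      change (((N.sub K hK).mul a b : K) : E) ∈ Λ
      rw [N.sub_mul]
      exact hmul _ ha _ hb)
    (fun a ha => hneg _ ha)
    (fun T hT hbr => by
      have h := hgen (T.map K.subtype) (fun a ha => ⟨⟨a, hΛ ha⟩, hT ha, rfl⟩) (by
        rintro _ ⟨x, hx, rfl⟩ _ ⟨y, hy, rfl⟩
        exact ⟨_, hbr x hx y hy, rfl⟩)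
      rw [eq_top_iff]
      intro x _
      obtain ⟨y, hy, e⟩ := h x.2
      rwa [← (Subtype.ext e : y = x)])
  refine ⟨le_antisymm (Submodule.span_le.2 hΛ) fun x hx => ?_, C, fun x hx => ?_⟩
  · have h3 : (⟨x, hx⟩ : K) ∈ Submodule.span ℝ (Subtype.val ⁻¹' Λ : Set K) := by
      rw [h1]; trivial
    have h4 : Submodule.span ℝ (Subtype.val ⁻¹' Λ : Set K) ≤
        (Submodule.span ℝ Λ).comap K.subtype :=
      Submodule.span_le.2 fun a ha => Submodule.subset_span ha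
    exact h4 h3
  · obtain ⟨a, ha, hle⟩ := h2 ⟨x, hx⟩
    refine ⟨a, ha, ?_⟩
    have e := N.sub_mul K hK (-a) ⟨x, hx⟩
    rw [Submodule.coe_neg] at e
    rw [← e]
    exact hle

/-- the case that is used -/
theorem TW.span_and_cocompact {d k : ℕ} {Γ : Type*} [Group Γ] (T : TW (Fin d → ℝ) k Γ) :
    Submodule.span ℝ (T.X '' {h | T.π h = 1}) = LinearMap.ker T.φ ∧
      ∃ C : ℝ, ∀ x, T.φ x = 0 → ∃ h, T.π h = 1 ∧ ‖T.nl.mul (-T.X h) x‖ ≤ C := by
  obtain ⟨h1, C, h2⟩ := B.span_and_cocompact T.nl (LinearMap.ker T.φ)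
    (fun x _ y _ => T.φ_br x y) (T.X '' {h | T.π h = 1})
    (by
      rintro _ ⟨h, hh, rfl⟩
      simp only [Set.mem_ofPred_eq] at hh
      simp [T.φ_X, hh])
    ⟨1, map_one T.π, T.X_one⟩
    (by
      rintro _ ⟨h, hh, rfl⟩ _ ⟨h', hh', rfl⟩
      simp only [Set.mem_ofPred_eq] at hh hh'
      exact ⟨h * h', by simp [hh, hh'], T.X_mul_ker hh h'⟩)
    (by
      rintro _ ⟨h, hh, rfl⟩
      simp only [Set.mem_ofPred_eq] at hh
      exact ⟨h⁻¹, by simp [hh], T.X_inv_ker hh⟩)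
    (fun S hS hbr => T.gen S (fun h hh => hS ⟨h, hh, rfl⟩) hbr)
  refine ⟨h1, C, fun x hx => ?_⟩
  obtain ⟨_, ⟨h, hh, rfl⟩, ha⟩ := h2 x hx
  exact ⟨h, hh, ha⟩

end Crest.Agent.R182.B
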