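import Crest.Agent.R182.GroBasic

/-!
# R182, Gromov's theorem: polycyclic groups
-/

set_option autoImplicit false

namespace Crest.Agent.R182.Gro

open Pointwise Filter Topology Crest.GroupTheory

variable {G : Type*} [Group G]

/-- Polycyclic subgroups, inductively. -/
inductive poly_PC {G : Type*} [Group G] : Subgroup G → Prop
  | bot : poly_PC ⊥
  | step (H : Subgroup G) (g : G) : poly_PC H → g ∈ Subgroup.normalizer (H : Set G) →
      poly_PC (H ⊔ Subgroup.zpowers g)

theorem poly_mem_sup {H : Subgroup G} {g : G} (hg : g ∈ Subgroup.normalizer (H : Set G)) {x : G} :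
    x ∈ H ⊔ Subgroup.zpowers g ↔ ∃ h ∈ H, ∃ j : ℤ, x = h * g ^ j := by
  rw [← SetLike.mem_coe,
    Subgroup.coe_mul_of_right_le_normalizer_left H _ (Subgroup.zpowers_le.2 hg)]
  constructor
  · rintro ⟨h, hh, _, ⟨j, rfl⟩, rfl⟩
    exact ⟨h, hh, j, rfl⟩
  · rintro ⟨h, hh, j, rfl⟩
    exact ⟨h, hh, _, ⟨j, rfl⟩, rfl⟩

theorem poly_chain {H : Subgroup G} (h : poly_PC H) :
    ∃ (n : ℕ) (C : ℕ → Subgroup G), C 0 = ⊥ ∧ C n = H ∧ ∀ i < n, C i ≤ C (i + 1) ∧
      (∀ h ∈ C (i + 1), ∀ x ∈ C i, h * x * h⁻¹ ∈ C i) ∧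
      ∃ g ∈ C (i + 1), C (i + 1) = C i ⊔ Subgroup.zpowers g := by
  induction h with
  | bot => exact ⟨0, fun _ => ⊥, rfl, rfl, fun i hi => absurd hi (Nat.not_lt_zero i)⟩
  | step H g _ hg ih =>
    obtain ⟨n, C, h0, hn, hC⟩ := ih
    refine ⟨n + 1, fun i => if i ≤ n then C i else H ⊔ Subgroup.zpowers g, by simpa using h0,
      by simp, fun i hi => ?_⟩
    rcases Nat.lt_succ_iff_lt_or_eq.1 hi with hi | rfl
    · simp only [if_pos hi.le, if_pos (Nat.succ_le_of_lt hi)]
      exact hC i hi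
    · simp only [le_refl, if_true, if_neg (Nat.not_succ_le_self i), hn]
      refine ⟨le_sup_left, fun h hh x hx => ?_, g,
        Subgroup.mem_sup_right (Subgroup.mem_zpowers g), rfl⟩
      have : H ⊔ Subgroup.zpowers g ≤ Subgroup.normalizer (H : Set G) :=
        sup_le Subgroup.le_normalizer (Subgroup.zpowers_le.2 hg)
      exact (Subgroup.mem_normalizer_iff.1 (this hh) x).1 hx

theorem poly_top_iff : poly_PC (⊤ : Subgroup G) ↔ IsPolycyclic G := by
  constructor
  · intro h
    obtain ⟨n, C, h0, hn, hC⟩ := poly_chain h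
    exact ⟨n, fun i => C i, h0, hn, fun i => hC i i.2⟩
  · rintro ⟨n, H, h0, hn, hH⟩
    have : ∀ i, poly_PC (H i) := by
      intro i
      induction i using Fin.induction with
      | zero => rw [h0]; exact poly_PC.bot
      | succ i ih =>
        obtain ⟨-, h2, g, hg, e⟩ := hH i
        rw [e]
        refine poly_PC.step _ g ih (Subgroup.mem_normalizer_iff.2 fun x => ⟨h2 g hg x, fun hx => ?_⟩)
        have := h2 g⁻¹ (inv_mem hg) _ hx
        simpa [mul_assoc] using this
    rw [← hn]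
    exact this _

theorem poly_PC.map {K : Type*} [Group K] {H : Subgroup G} (h : poly_PC H) (f : G →* K) :
    poly_PC (H.map f) := by
  induction h with
  | bot => rw [Subgroup.map_bot]; exact poly_PC.bot
  | step H g _ hg ih =>
    rw [Subgroup.map_sup, MonoidHom.map_zpowers]
    exact poly_PC.step _ _ ih (Subgroup.le_normalizer_map f ⟨g, hg, rfl⟩)

/-- The pairs `(x, j)` with `x ∈ H g ^ j`. -/
def poly_R (H : Subgroup G) (g : G) (hg : g ∈ Subgroup.normalizer (H : Set G)) :
    Subgroup (G × Multiplicative ℤ) where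
  carrier := {p | p.1 * (g ^ p.2.toAdd)⁻¹ ∈ H}
  one_mem' := by simp
  mul_mem' := by
    rintro ⟨x, i⟩ ⟨y, j⟩ hx hy
    simp only [Set.mem_ofPred_eq, Prod.fst_mul, Prod.snd_mul, toAdd_mul] at hx hy ⊢
    have h1 := (Subgroup.mem_normalizer_iff.1 (zpow_mem hg i.toAdd) _).1 hy
    convert H.mul_mem hx h1 using 1
    group
  inv_mem' := by
    rintro ⟨x, i⟩ hx
    simp only [Set.mem_ofPred_eq, Prod.fst_inv, Prod.snd_inv, toAdd_inv] at hx ⊢
    have h1 := (Subgroup.mem_normalizer_iff.1 (zpow_mem hg (-i.toAdd)) _).1 (H.inv_mem hx)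
    convert h1 using 1
    group

theorem poly_mem_R {H : Subgroup G} {g : G} {hg : g ∈ Subgroup.normalizer (H : Set G)} {x : G}
    {j : ℤ} : (x, Multiplicative.ofAdd j) ∈ poly_R H g hg ↔ x * (g ^ j)⁻¹ ∈ H := Iff.rfl

theorem poly_PC.comap {K : Type*} [Group K] {H : Subgroup G} (h : poly_PC H) (f : K →* G)
    (hf : Function.Injective f) : poly_PC (H.comap f) := by
  induction h with
  | bot =>
    rw [MonoidHom.comap_bot, (MonoidHom.ker_eq_bot_iff f).2 hf]
    exact poly_PC.bot
  | step H g _ hg ih =>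
    let S : AddSubgroup ℤ :=
      { carrier := {j | ∃ k, (f k, Multiplicative.ofAdd j) ∈ poly_R H g hg}
        zero_mem' := ⟨1, by rw [map_one]; exact (poly_R H g hg).one_mem⟩
        add_mem' := by
          rintro i j ⟨k, hk⟩ ⟨l, hl⟩
          exact ⟨k * l, by rw [map_mul]; exact (poly_R H g hg).mul_mem hk hl⟩
        neg_mem' := by
          rintro i ⟨k, hk⟩
          exact ⟨k⁻¹, by rw [map_inv]; exact (poly_R H g hg).inv_mem hk⟩ }
    obtain ⟨d, hd⟩ := Int.subgroup_cyclic S
    have hdS : d ∈ S := by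
      rw [hd]
      exact AddSubgroup.subset_closure rfl
    obtain ⟨k₀, hk₀⟩ := hdS
    have hk₀' : f k₀ * (g ^ d)⁻¹ ∈ H := poly_mem_R.1 hk₀
    have hn : k₀ ∈ Subgroup.normalizer ((H.comap f : Subgroup K) : Set K) := by
      refine Subgroup.le_normalizer_comap f ?_
      have := (Subgroup.normalizer (H : Set G)).mul_mem (Subgroup.le_normalizer hk₀')
        (zpow_mem hg d)
      simpa using this
    have e : (H ⊔ Subgroup.zpowers g).comap f = H.comap f ⊔ Subgroup.zpowers k₀ := by
      apply le_antisymm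
      · intro k hk
        obtain ⟨h, hh, j, e⟩ := (poly_mem_sup hg).1 hk
        have hkR : (f k, Multiplicative.ofAdd j) ∈ poly_R H g hg := by
          rw [poly_mem_R, e]
          simpa using hh
        have hj : j ∈ S := ⟨k, hkR⟩
        rw [hd, AddSubgroup.mem_closure_singleton] at hj
        obtain ⟨m, rfl⟩ := hj
        have h1 := (poly_R H g hg).mul_mem hkR
          ((poly_R H g hg).inv_mem ((poly_R H g hg).zpow_mem hk₀ m))
        have h2 : (f k, Multiplicative.ofAdd (m • d)) * ((f k₀, Multiplicative.ofAdd d) ^ m)⁻¹ =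
            (f (k * (k₀ ^ m)⁻¹), Multiplicative.ofAdd 0) := by
          refine Prod.ext (by simp) ?_
          change Multiplicative.ofAdd (m • d) * (Multiplicative.ofAdd d ^ m)⁻¹ = 1
          rw [ofAdd_zsmul, mul_inv_cancel]
        rw [h2, poly_mem_R] at h1
        refine (poly_mem_sup hn).2 ⟨k * (k₀ ^ m)⁻¹, ?_, m, by simp⟩
        simpa using h1
      · refine sup_le (Subgroup.comap_mono le_sup_left) (Subgroup.zpowers_le.2 ?_)
        exact (poly_mem_sup hg).2 ⟨_, hk₀', d, by simp⟩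
    rw [e]
    exact poly_PC.step _ _ ih hn

theorem poly_iff {H : Subgroup G} : IsPolycyclic H ↔ poly_PC H := by
  rw [← poly_top_iff]
  constructor
  · intro h
    have := h.map H.subtype
    rwa [← MonoidHom.range_eq_map, Subgroup.range_subtype] at this
  · intro h
    have := h.comap H.subtype H.subtype_injective
    rwa [Subgroup.comap_subtype, Subgroup.subgroupOf_self] at this

theorem poly_PC.of_le {H M : Subgroup G} (h : poly_PC H) (hM : M ≤ H) : poly_PC M := by
  have := (h.comap M.subtype M.subtype_injective).map M.subtype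
  rwa [Subgroup.comap_subtype, Subgroup.subgroupOf_map_subtype, inf_eq_right.2 hM] at this

theorem poly_finite_hom {K Q : Type*} [Group K] [Group Q] [Finite Q] (hK : Group.FG K) :
    Finite (K →* Q) := by
  obtain ⟨S, hS⟩ := Group.fg_def.1 hK
  refine Finite.of_injective (fun (f : K →* Q) (s : S) => f s) fun f g hfg => ?_
  exact MonoidHom.eq_of_eqOn_dense hS fun x hx => congrFun hfg ⟨x, hx⟩

/-- Take `P = ⊥`, `n = 0`. -/
theorem vpoly_of_finite [Finite G] : IsVirtuallyPolycyclic G :=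
  ⟨⊥, inferInstance, poly_iff.2 poly_PC.bot⟩

/-- Passing to a finite-index overgroup.  Map the polycyclic subgroup `P ≤ K` along `K.subtype`
(`Subgroup.equivMapOfInjective`; `IsPolycyclic` is invariant under `≃*`; index:
`Subgroup.index_map_subtype` or `Subgroup.relIndex_mul_index`).

A convenient tool for the whole file: an inductive predicate on subgroups of a fixed group,
`PC ⊥` and `PC H → (∀ x ∈ H, g * x * g⁻¹ ∈ H) → (∀ x ∈ H, g⁻¹ * x * g ∈ H) → PC (H ⊔ zpowers g)`,
with `PC ⊤ ↔ IsPolycyclic G`, `PC H → PC (H.map f)` for any hom `f`,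
`PC H → PC (H.comap f)` for injective `f` (see the next docstring), hence
`IsPolycyclic H ↔ PC H`.  Elements of `H ⊔ zpowers g` are the `h * g ^ j`, `h ∈ H`, `j : ℤ`. -/
theorem vpoly_of_finiteIndex (K : Subgroup G) [K.FiniteIndex] (hv : IsVirtuallyPolycyclic K) :
    IsVirtuallyPolycyclic G := by
  obtain ⟨P, hP, hp⟩ := hv
  refine ⟨P.map K.subtype, ⟨?_⟩, poly_iff.2 ((poly_iff.1 hp).map _)⟩
  rw [Subgroup.index_map_subtype]
  exact mul_ne_zero hP.index_ne_zero Subgroup.FiniteIndex.index_ne_zero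

/-- An extension of a finitely generated virtually polycyclic group by a cyclic group.

Proof.  Let `P ≤ K` be polycyclic of finite index, `Q = K ⧸ P.normalCore` (finite),
`K₀ = ⨅ f : K →* Q, f.ker`.  There are finitely many `f` (determined by the values on a finite
generating set, `MonoidHom.eq_of_eqOn_dense`), so `K₀` has finite index
(`Subgroup.finiteIndex_iInf`), `K₀ ≤ P.normalCore ≤ P`, and `K₀` is stable under every
automorphism `α` of `K` (`f.comp α` is again a hom), in particular under conjugation by `t`, `t⁻¹`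
(`MulAut.conjNormal`).  Subgroups of polycyclic groups are polycyclic: `PC H → PC (H ⊓ M)`; in
the step `H ⊔ zpowers g`, the `j : ℤ` with `∃ h ∈ H, h * g ^ j ∈ M` form a subgroup of `ℤ`, equal
to `zmultiples d` (`Int.subgroup_cyclic`); with `g' = h₀ * g ^ d ∈ M`,
`(H ⊔ zpowers g) ⊓ M = (H ⊓ M) ⊔ zpowers g'`.  Finally `K₀.map K.subtype ⊔ zpowers t` is
polycyclic and of finite index (`g = k * t ^ j`, `k ∈ kᵢ K₀`). -/
theorem vpoly_ext_cyclic (K : Subgroup G) [K.Normal] (hK : K.FG)
    (hv : IsVirtuallyPolycyclic K) (t : G) (ht : K ⊔ Subgroup.zpowers t = ⊤) :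
    IsVirtuallyPolycyclic G := by
  obtain ⟨P, hP, hp⟩ := hv
  have : Finite (K →* K ⧸ P.normalCore) := poly_finite_hom ((Group.fg_iff_subgroup_fg K).2 hK)
  let K₀ : Subgroup K := ⨅ f : K →* K ⧸ P.normalCore, f.ker
  have hK₀ : K₀.FiniteIndex := Subgroup.finiteIndex_iInf fun f => Subgroup.finiteIndex_ker f
  have hle : K₀ ≤ P := by
    refine le_trans (iInf_le _ (QuotientGroup.mk' P.normalCore)) ?_
    rw [QuotientGroup.ker_mk']
    exact P.normalCore_le
  have hL : poly_PC (K₀.map K.subtype) := ((poly_iff.1 hp).of_le hle).map _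
  have hN : (K₀.map K.subtype).Normal := ⟨by
    rintro _ ⟨k, hk, rfl⟩ g
    refine ⟨MulAut.conjNormal g k, ?_, MulAut.conjNormal_apply g k⟩
    simp only [K₀, SetLike.mem_coe, Subgroup.mem_iInf, MonoidHom.mem_ker] at hk ⊢
    intro f
    exact hk (f.comp (MulAut.conjNormal g : K ≃* K).toMonoidHom)⟩
  have htn : t ∈ Subgroup.normalizer ((K₀.map K.subtype : Subgroup G) : Set G) := by
    rw [Subgroup.normalizer_eq_top]
    trivial
  have htK : t ∈ Subgroup.normalizer (K : Set G) := by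
    rw [Subgroup.normalizer_eq_top]
    trivial
  refine ⟨K₀.map K.subtype ⊔ Subgroup.zpowers t, ?_, poly_iff.2 (poly_PC.step _ t hL htn)⟩
  have : Finite (G ⧸ (K₀.map K.subtype ⊔ Subgroup.zpowers t)) := by
    refine Finite.of_surjective (fun q : K ⧸ K₀ =>
      (((q.out : K) : G) : G ⧸ (K₀.map K.subtype ⊔ Subgroup.zpowers t))) fun q => ?_
    obtain ⟨g, rfl⟩ := QuotientGroup.mk_surjective q
    have hg : g ∈ K ⊔ Subgroup.zpowers t := by
      rw [ht]
      trivial
    obtain ⟨k, hk, j, rfl⟩ := (poly_mem_sup htK).1 hg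
    refine ⟨((⟨k, hk⟩ : K) : K ⧸ K₀), ?_⟩
    obtain ⟨k₀, e⟩ := QuotientGroup.mk_out_eq_mul K₀ (⟨k, hk⟩ : K)
    simp only [e]
    rw [QuotientGroup.eq]
    refine (poly_mem_sup htn).2 ⟨((k₀ : K) : G)⁻¹, inv_mem ⟨k₀, k₀.2, rfl⟩, j, ?_⟩
    simp [mul_assoc]
  exact Subgroup.finiteIndex_of_finite_quotient

end Crest.Agent.R182.Gro
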