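import Mathlib
import Crest.Prelude.Def_WordHyperbolic
import Crest.Agent.R182.BCH

/-!
Row 182: the model solvable Lie groups.  `E = ℝ^d` carries a nilpotent Lie algebra structure graded
by real weights `wt i ∈ V^*`, `V = ℝ^k`; the group law is `x * y = x • τ_{φ x} y` (`•` = BCH product).
Definitions only (plus the group structure): DO NOT CHANGE (owner helper37).
-/

set_option autoImplicit false

namespace Crest.Agent.R182

open scoped BigOperators
open MeasureTheory

/-- the diagonal map `x ↦ (exp (wt i v) * x i)_i` -/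
noncomputable def diagτ {d k : ℕ} (wt : Fin d → (Fin k → ℝ) →ₗ[ℝ] ℝ) (v : Fin k → ℝ) :
    (Fin d → ℝ) →ₗ[ℝ] (Fin d → ℝ) where
  toFun x := fun i => Real.exp (wt i v) * x i
  map_add' x y := by ext i; simp [mul_add]
  map_smul' c x := by ext i; simp [mul_left_comm]

structure Model (d k : ℕ) where
  nl : NL (Fin d → ℝ)
  wt : Fin d → (Fin k → ℝ) →ₗ[ℝ] ℝ
  φ : (Fin d → ℝ) →ₗ[ℝ] (Fin k → ℝ)
  τ_br : ∀ v x y, nl.br (diagτ wt v x) (diagτ wt v y) = diagτ wt v (nl.br x y)
  φ_br : ∀ x y, φ (nl.br x y) = 0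
  φ_τ : ∀ v x, φ (diagτ wt v x) = φ x
  φ_surj : Function.Surjective φ
  sum_wt : ∑ i, wt i = 0
  wt_span : ∀ v, (∀ i, wt i v = 0) → v = 0

namespace Model

variable {d k : ℕ} (M : Model d k)

/-- the automorphisms `τ v` -/
noncomputable def τ (v : Fin k → ℝ) : (Fin d → ℝ) →ₗ[ℝ] (Fin d → ℝ) := diagτ M.wt v

theorem τ_apply (v : Fin k → ℝ) (x : Fin d → ℝ) (i : Fin d) :
    M.τ v x i = Real.exp (M.wt i v) * x i := rfl

theorem τ_br' (v : Fin k → ℝ) (x y : Fin d → ℝ) :
    M.τ v (M.nl.br x y) = M.nl.br (M.τ v x) (M.τ v y) := (M.τ_br v x y).symm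

@[simp] theorem φ_τ' (v : Fin k → ℝ) (x : Fin d → ℝ) : M.φ (M.τ v x) = M.φ x := M.φ_τ v x

@[simp] theorem τ_zero (x : Fin d → ℝ) : M.τ 0 x = x := by
  ext i; simp [τ_apply]

theorem τ_add (v w : Fin k → ℝ) (x : Fin d → ℝ) : M.τ (v + w) x = M.τ v (M.τ w x) := by
  ext i; simp [τ_apply, Real.exp_add, mul_assoc]

theorem τ_mul (v : Fin k → ℝ) (x y : Fin d → ℝ) :
    M.τ v (M.nl.mul x y) = M.nl.mul (M.τ v x) (M.τ v y) :=
  M.nl.map_mul M.nl (M.τ v) (M.τ_br' v) x y

theorem φ_lcs {x : Fin d → ℝ} (hx : x ∈ M.nl.lcs 1) : M.φ x = 0 := by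
  have : M.nl.lcs 1 ≤ LinearMap.ker M.φ := by
    rw [show M.nl.lcs 1 = Submodule.span ℝ {z | ∃ x, ∃ y ∈ M.nl.lcs 0, z = M.nl.br x y} from rfl,
      Submodule.span_le]
    rintro z ⟨x, y, -, rfl⟩
    exact M.φ_br x y
  exact this hx

@[simp] theorem φ_mul (x y : Fin d → ℝ) : M.φ (M.nl.mul x y) = M.φ x + M.φ y := by
  have := M.φ_lcs (M.nl.mul_sub_add_mem_lcs x y)
  rw [map_sub, map_add, sub_eq_zero] at this
  exact this

/-- the group (a type synonym of `ℝ^d`) -/
def G (_M : Model d k) : Type := Fin d → ℝ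

/-- coordinates of a group element -/
def toE (x : M.G) : Fin d → ℝ := x

/-- the group element with given coordinates -/
def ofE (x : Fin d → ℝ) : M.G := x

@[simp] theorem toE_ofE (x : Fin d → ℝ) : M.toE (M.ofE x) = x := rfl

@[simp] theorem ofE_toE (x : M.G) : M.ofE (M.toE x) = x := rfl

theorem toE_injective : Function.Injective M.toE := fun _ _ h => h

theorem ofE_injective : Function.Injective M.ofE := fun _ _ h => h

noncomputable instance : Mul M.G :=
  ⟨fun x y => M.ofE (M.nl.mul (M.toE x) (M.τ (M.φ (M.toE x)) (M.toE y)))⟩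

instance : One M.G := ⟨M.ofE 0⟩

noncomputable instance : Inv M.G := ⟨fun x => M.ofE (M.τ (-M.φ (M.toE x)) (-M.toE x))⟩

theorem toE_mul (x y : M.G) :
    M.toE (x * y) = M.nl.mul (M.toE x) (M.τ (M.φ (M.toE x)) (M.toE y)) := rfl

@[simp] theorem toE_one : M.toE 1 = 0 := rfl

@[simp] theorem ofE_zero : M.ofE 0 = 1 := rfl

theorem toE_inv (x : M.G) : M.toE x⁻¹ = M.τ (-M.φ (M.toE x)) (-M.toE x) := rfl

noncomputable instance : Group M.G :=
  Group.ofLeftAxioms
    (fun x y z => M.toE_injective <| by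
      simp only [toE_mul, φ_mul, φ_τ', τ_add, τ_mul, M.nl.mul_assoc'])
    (fun x => M.toE_injective <| by simp [toE_mul])
    (fun x => M.toE_injective <| by
      rw [toE_mul, toE_inv, φ_τ', map_neg M.φ, ← τ_mul]; simp)

instance : TopologicalSpace M.G := inferInstanceAs (TopologicalSpace (Fin d → ℝ))
instance : T2Space M.G := inferInstanceAs (T2Space (Fin d → ℝ))
instance : SecondCountableTopology M.G := inferInstanceAs (SecondCountableTopology (Fin d → ℝ))
instance : LocallyCompactSpace M.G := inferInstanceAs (LocallyCompactSpace (Fin d → ℝ))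
instance : MeasurableSpace M.G := inferInstanceAs (MeasurableSpace (Fin d → ℝ))
instance : BorelSpace M.G := inferInstanceAs (BorelSpace (Fin d → ℝ))

theorem continuous_toE : Continuous M.toE := continuous_id

theorem continuous_ofE : Continuous M.ofE := continuous_id

theorem measurable_toE : Measurable M.toE := measurable_id

theorem measurable_ofE : Measurable M.ofE := measurable_id

/-- Lebesgue measure, which is the (bi-invariant) Haar measure of `G` -/
noncomputable def μG : Measure M.G := (volume : Measure (Fin d → ℝ))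

/-- the height homomorphism `G → V` -/
def ht (x : M.G) : Fin k → ℝ := M.φ (M.toE x)

@[simp] theorem ht_mul (x y : M.G) : M.ht (x * y) = M.ht x + M.ht y := by
  simp [ht, toE_mul]

@[simp] theorem ht_one : M.ht 1 = 0 := by simp [ht]

@[simp] theorem ht_inv (x : M.G) : M.ht x⁻¹ = -M.ht x := by
  simp [ht, toE_inv]

@[simp] theorem ht_ofE (x : Fin d → ℝ) : M.ht (M.ofE x) = M.φ x := rfl

/-- a compact symmetric generating neighbourhood of `1` -/
def Q : Set M.G := {g | ‖M.toE g‖ ≤ 1 ∧ ‖M.toE g⁻¹‖ ≤ 1}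

/-- word length -/
noncomputable def len (g : M.G) : ℝ := (Crest.GroupTheory.wordLength M.Q g : ℝ)

/-- word metric -/
noncomputable def dd (x y : M.G) : ℝ := M.len (x⁻¹ * y)

theorem dd_eq (x y : M.G) : M.dd x y = Crest.GroupTheory.wordDist M.Q x y := rfl

end Model

end Crest.Agent.R182
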