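import Mathlib
import Crest.Agent.R182.GroPoly
import Crest.Agent.R182.Model

/-!
Row 182, part B (virtually polycyclic ⇒ quasi-isometric to a model group): definitions.
Owner helper68.  DO NOT CHANGE.
-/

set_option autoImplicit false

namespace Crest.Agent.R182.B

open scoped BigOperators
open Polynomial

/-! ### the group `ℤ^k` -/

/-- `ℤ^k`, multiplicatively -/
abbrev Zk (k : ℕ) : Type := Multiplicative (Fin k → ℤ)

/-- the basis vectors -/
def ee {k : ℕ} (i : Fin k) : Zk k := Multiplicative.ofAdd (Pi.single i 1)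

/-- the real vector of an integer vector -/
def toR {k : ℕ} (m : Zk k) : Fin k → ℝ := fun i => ((Multiplicative.toAdd m i : ℤ) : ℝ)

@[simp] theorem toR_one {k : ℕ} : toR (1 : Zk k) = 0 := by
  ext i; simp [toR]

@[simp] theorem toR_mul {k : ℕ} (m m' : Zk k) : toR (m * m') = toR m + toR m' := by
  ext i; simp [toR]

@[simp] theorem toR_inv {k : ℕ} (m : Zk k) : toR m⁻¹ = -toR m := by
  ext i; simp [toR]

theorem toR_zpow {k : ℕ} (m : Zk k) (j : ℤ) : toR (m ^ j) = (j : ℝ) • toR m := by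
  ext i; simp [toR]

theorem toR_ee {k : ℕ} (i : Fin k) : toR (ee i) = Pi.single i 1 := by
  ext j
  by_cases h : j = i
  · subst h; simp [toR, ee]
  · simp [toR, ee, Pi.single_eq_of_ne h]

theorem toR_injective {k : ℕ} : Function.Injective (toR (k := k)) := by
  intro m m' h
  apply Multiplicative.toAdd.injective
  ext i
  have := congrFun h i
  simp only [toR] at this
  exact_mod_cast this

theorem closure_ee (k : ℕ) : Subgroup.closure (Set.range (ee (k := k))) = ⊤ := by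
  rw [eq_top_iff]
  intro m _
  have : m = ∏ i, ee i ^ (Multiplicative.toAdd m i) := by
    apply Multiplicative.toAdd.injective
    ext j
    simp [ee, toAdd_prod, Finset.sum_apply, Pi.single_apply]
  rw [this]
  exact Subgroup.prod_mem _ fun i _ =>
    Subgroup.zpow_mem _ (Subgroup.subset_closure (Set.mem_range_self i)) _

/-- induction over `ℤ^k` -/
theorem Zk_induction {k : ℕ} {p : Zk k → Prop} (h1 : p 1) (he : ∀ i, p (ee i))
    (hmul : ∀ m m', p m → p m' → p (m * m')) (hinv : ∀ m, p m → p m⁻¹) (m : Zk k) : p m := by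
  have hm : m ∈ Subgroup.closure (Set.range (ee (k := k))) := by rw [closure_ee]; trivial
  induction hm using Subgroup.closure_induction with
  | mem x hx => obtain ⟨i, rfl⟩ := hx; exact he i
  | one => exact h1
  | mul x y _ _ hx hy => exact hmul x y hx hy
  | inv x _ hx => exact hinv x hx

/-- commuting elements define a homomorphism from `ℤ^k` -/
theorem exists_hom_of_commute {k : ℕ} {G : Type*} [Group G] (s : Fin k → G)
    (h : ∀ i j, Commute (s i) (s j)) : ∃ f : Zk k →* G, ∀ i, f (ee i) = s i := by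
  let ϕ : ∀ _ : Fin k, Multiplicative ℤ →* G := fun i => zpowersHom G (s i)
  have hc : Pairwise fun i j => ∀ x y, Commute (ϕ i x) (ϕ j y) := fun i j _ x y =>
    (h i j).zpow_zpow _ _
  refine ⟨(MonoidHom.noncommPiCoprod ϕ hc).comp
    (MulEquiv.piMultiplicative fun _ : Fin k => ℤ).toMonoidHom, fun i => ?_⟩
  have e : (MulEquiv.piMultiplicative fun _ : Fin k => ℤ).toMonoidHom (ee i) =
      Pi.mulSingle i (Multiplicative.ofAdd (1 : ℤ)) := by
    ext j
    by_cases hj : j = i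
    · subst hj; simp [ee]
    · simp [ee, Pi.single_eq_of_ne hj, Pi.mulSingle_eq_of_ne hj]
  rw [MonoidHom.comp_apply, e, MonoidHom.noncommPiCoprod_mulSingle]
  simp [ϕ]

/-! ### groups -/

/-- poly-`ℤ` subgroups -/
inductive PZ {G : Type*} [Group G] : Subgroup G → Prop
  | bot : PZ ⊥
  | step (H : Subgroup G) (g : G) : PZ H → g ∈ Subgroup.normalizer (H : Set G) →
      (∀ j : ℤ, g ^ j ∈ H → j = 0) → PZ (H ⊔ Subgroup.zpowers g)

theorem PZ.pc {G : Type*} [Group G] {H : Subgroup G} (h : PZ H) : Gro.poly_PC H := by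
  induction h with
  | bot => exact Gro.poly_PC.bot
  | step H g _ hg _ ih => exact Gro.poly_PC.step H g ih hg

/-- `t` is a bounded Engel element: `[t, [t, …, [t, a]]] = 1` -/
def Engel {G : Type*} [Group G] (t : G) : Prop :=
  ∃ e : ℕ, ∀ a : G, (fun b => t * b * t⁻¹ * b⁻¹)^[e] a = 1

/-- an integral representation of `G` which is faithful and unipotent on `N` -/
def URep (G : Type*) [Group G] (N : Subgroup G) : Prop :=
  ∃ (n : ℕ) (ρ : G →* Matrix (Fin n) (Fin n) ℤ) (c : ℕ), (∀ h ∈ N, ρ h = 1 → h = 1) ∧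
    ∀ l : List G, (∀ h ∈ l, h ∈ N) → l.length = c → (l.map fun h => ρ h - 1).prod = 0

theorem URep.comap {G G' : Type*} [Group G] [Group G'] {N : Subgroup G} (h : URep G N)
    (f : G' →* G) (hf : Function.Injective f) {N' : Subgroup G'} (hN : ∀ x ∈ N', f x ∈ N) :
    URep G' N' := by
  obtain ⟨n, ρ, c, h1, h2⟩ := h
  refine ⟨n, ρ.comp f, c, fun x hx e => hf ?_, fun l hl hc => ?_⟩
  · rw [map_one]; exact h1 _ (hN x hx) e
  · have := h2 (l.map f) (fun h hh => by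
      obtain ⟨x, hx, rfl⟩ := List.mem_map.1 hh
      exact hN x (hl x hx)) (by simpa using hc)
    simpa [List.map_map, Function.comp_def] using this

/-! ### matrices -/

/-- real matrices -/
abbrev Mat (n : ℕ) : Type := Matrix (Fin n) (Fin n) ℝ

/-- an integer matrix as a real matrix -/
def castM {n : ℕ} : Matrix (Fin n) (Fin n) ℤ →+* Mat n := (Int.castRingHom ℝ).mapMatrix

theorem castM_apply {n : ℕ} (a : Matrix (Fin n) (Fin n) ℤ) (i j : Fin n) :
    castM a i j = (a i j : ℝ) := rfl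

theorem castM_injective {n : ℕ} : Function.Injective (castM (n := n)) := by
  intro a b h
  ext i j
  have := congrFun (congrFun h i) j
  rw [castM_apply, castM_apply] at this
  exact_mod_cast this

/-- semisimple elements of a real algebra -/
def SS {A : Type*} [Ring A] [Algebra ℝ A] (a : A) : Prop :=
  ∃ p : ℝ[X], Squarefree p ∧ aeval a p = 0

/-- closed under commutators -/
def Lie {A : Type*} [Ring A] [Algebra ℝ A] (S : Submodule ℝ A) : Prop :=
  ∀ x ∈ S, ∀ y ∈ S, x * y - y * x ∈ S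

/-- long products vanish -/
def ANil {A : Type*} [Ring A] [Algebra ℝ A] (S : Submodule ℝ A) : Prop :=
  ∃ c : ℕ, ∀ l : List A, (∀ a ∈ l, a ∈ S) → l.length = c → l.prod = 0

theorem ANil.mono {A : Type*} [Ring A] [Algebra ℝ A] {S T : Submodule ℝ A} (h : ANil T)
    (hST : S ≤ T) : ANil S := by
  obtain ⟨c, hc⟩ := h
  exact ⟨c, fun l hl => hc l fun a ha => hST (hl a ha)⟩

theorem ANil.isNilpotent {A : Type*} [Ring A] [Algebra ℝ A] {S : Submodule ℝ A} (h : ANil S)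
    {x : A} (hx : x ∈ S) : IsNilpotent x := by
  obtain ⟨c, hc⟩ := h
  exact ⟨c, by simpa using hc (List.replicate c x) (fun a ha => by
    rw [List.eq_of_mem_replicate ha]; exact hx) (by simp)⟩

theorem anil_iff_pow {A : Type*} [Ring A] [Algebra ℝ A] {S : Submodule ℝ A} :
    ANil S ↔ ∃ c : ℕ, S ^ c = ⊥ := by
  constructor
  · rintro ⟨c, hc⟩
    refine ⟨c, ?_⟩
    rw [← Submodule.span_eq S, Submodule.span_pow, Submodule.span_eq_bot]
    intro a ha
    obtain ⟨f, rfl⟩ := Set.mem_pow.1 ha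
    refine hc _ (fun b hb => ?_) (by simp)
    obtain ⟨i, rfl⟩ := List.mem_ofFn.1 hb
    exact (f i).2
  · rintro ⟨c, hc⟩
    have key : ∀ l : List A, (∀ a ∈ l, a ∈ S) → l.prod ∈ S ^ l.length := by
      intro l
      induction l with
      | nil => intro _; simpa using Submodule.one_le.1 (le_refl (1 : Submodule ℝ A))
      | cons a l ih =>
        intro hl
        rw [List.prod_cons, List.length_cons, pow_succ']
        exact Submodule.mul_mem_mul (hl a List.mem_cons_self)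
          (ih fun b hb => hl b (List.mem_cons_of_mem _ hb))
    refine ⟨c, fun l hl hlen => ?_⟩
    have := key l hl
    rwa [hlen, hc, Submodule.mem_bot] at this

/-- a nilpotent matrix Lie algebra as an `NL` -/
noncomputable def subNL {n : ℕ} (S : Submodule ℝ (Mat n)) (hL : Lie S) (hN : ANil S) : NL S where
  br := LinearMap.mk₂ ℝ (fun x y => ⟨(x : Mat n) * y - (y : Mat n) * x, hL _ x.2 _ y.2⟩)
    (fun _ _ _ => Subtype.ext (by simp [add_mul, mul_add]; abel))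
    (fun _ _ _ => Subtype.ext (by simp [smul_sub]))
    (fun _ _ _ => Subtype.ext (by simp [add_mul, mul_add]; abel))
    (fun _ _ _ => Subtype.ext (by simp [smul_sub]))
  n := n
  ρ := S.subtype
  inj := Subtype.val_injective
  map_br _ _ := rfl
  m := hN.choose
  nil l hl := hN.choose_spec (l.map S.subtype) (fun a ha => by
    obtain ⟨x, -, rfl⟩ := List.mem_map.1 ha
    exact x.2) (by simpa using hl)

@[simp] theorem subNL_br {n : ℕ} (S : Submodule ℝ (Mat n)) (hL : Lie S) (hN : ANil S) (x y : S) :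
    (((subNL S hL hN).br x y : S) : Mat n) = (x : Mat n) * y - (y : Mat n) * x := rfl

theorem subNL_exp_mul {n : ℕ} (S : Submodule ℝ (Mat n)) (hL : Lie S) (hN : ANil S) (x y : S) :
    IsNilpotent.exp (((subNL S hL hN).mul x y : S) : Mat n) =
      IsNilpotent.exp (x : Mat n) * IsNilpotent.exp (y : Mat n) :=
  (subNL S hL hN).exp_mul x y

theorem exists_exp_mul {n : ℕ} {S : Submodule ℝ (Mat n)} (hL : Lie S) (hN : ANil S) {x y : Mat n}
    (hx : x ∈ S) (hy : y ∈ S) :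
    ∃ z ∈ S, IsNilpotent.exp z = IsNilpotent.exp x * IsNilpotent.exp y :=
  ⟨_, ((subNL S hL hN).mul ⟨x, hx⟩ ⟨y, hy⟩).2, subNL_exp_mul S hL hN ⟨x, hx⟩ ⟨y, hy⟩⟩

/-- conjugation by a unit as a linear endomorphism -/
noncomputable def conjE {n : ℕ} (c : (Mat n)ˣ) : Module.End ℝ (Mat n) :=
  LinearMap.mulLeft ℝ (c : Mat n) * LinearMap.mulRight ℝ ((c⁻¹ : (Mat n)ˣ) : Mat n)

theorem conjE_apply {n : ℕ} (c : (Mat n)ˣ) (x : Mat n) :
    conjE c x = (c : Mat n) * x * ((c⁻¹ : (Mat n)ˣ) : Mat n) := by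
  simp [conjE, mul_assoc]

theorem exp_conj {n : ℕ} (c : (Mat n)ˣ) {x : Mat n} (hx : IsNilpotent x) :
    IsNilpotent.exp ((c : Mat n) * x * ((c⁻¹ : (Mat n)ˣ) : Mat n)) =
      (c : Mat n) * IsNilpotent.exp x * ((c⁻¹ : (Mat n)ˣ) : Mat n) :=
  bch2_exp_conj c.mul_inv c.inv_mul hx

/-- `exp x` as a unit -/
noncomputable def expU {n : ℕ} (x : Mat n) (hx : IsNilpotent x) : (Mat n)ˣ :=
  ⟨IsNilpotent.exp x, IsNilpotent.exp (-x), IsNilpotent.exp_mul_exp_neg_self hx,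
    IsNilpotent.exp_neg_mul_exp_self hx⟩

@[simp] theorem coe_expU {n : ℕ} (x : Mat n) (hx : IsNilpotent x) :
    (expU x hx : Mat n) = IsNilpotent.exp x := rfl

@[simp] theorem coe_expU_inv {n : ℕ} (x : Mat n) (hx : IsNilpotent x) :
    (((expU x hx)⁻¹ : (Mat n)ˣ) : Mat n) = IsNilpotent.exp (-x) := rfl

/-- A linear group `G` (graded by `ℤ^k`) whose degree `0` part is `exp 𝔫`. -/
structure Hull (n k : ℕ) where
  G : Subgroup ((Mat n)ˣ × Zk k)
  nn : Submodule ℝ (Mat n)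
  lie : Lie nn
  nil : ANil nn
  conj : ∀ g ∈ G, ∀ x ∈ nn, (g.1 : Mat n) * x * ((g.1⁻¹ : (Mat n)ˣ) : Mat n) ∈ nn
  ker : ∀ g : (Mat n)ˣ × Zk k, g.2 = 1 → (g ∈ G ↔ ∃ x ∈ nn, (g.1 : Mat n) = IsNilpotent.exp x)
  surj : ∀ m : Zk k, ∃ g ∈ G, g.2 = m

/-- `s` is the semisimple part of `c` (the properties that are used) -/
structure Jor {n : ℕ} (c s : (Mat n)ˣ) : Prop where
  ss : SS (s : Mat n)
  comm : ∀ a : Mat n, Commute a (c : Mat n) → Commute a (s : Mat n)
  unip : IsNilpotent (((s⁻¹ : (Mat n)ˣ) : Mat n) * (c : Mat n) - 1)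
  inv : ∀ T : Submodule ℝ (Mat n),
    (∀ x ∈ T, (c : Mat n) * x * ((c⁻¹ : (Mat n)ˣ) : Mat n) ∈ T) → ∀ x ∈ T,
      (s : Mat n) * x * ((s⁻¹ : (Mat n)ˣ) : Mat n) ∈ T ∧
        ((s⁻¹ : (Mat n)ˣ) : Mat n) * x * (s : Mat n) ∈ T
  fix : ∀ (w : Mat n) (K : ℕ), ((conjE c - 1) ^ K) w = 0 → Commute w (s : Mat n)

/-! ### twisted cocycles into a nilpotent Lie algebra -/

/-- The abstract data extracted from the linear picture: `X γ ∈ E` is the logarithm of the
unipotent part of `γ` in the nilshadow. -/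
structure TW (E : Type) [AddCommGroup E] [Module ℝ E] (k : ℕ) (Γ : Type*) [Group Γ] where
  nl : NL E
  φ : E →ₗ[ℝ] (Fin k → ℝ)
  S : Zk k →* Module.End ℝ E
  π : Γ →* Zk k
  X : Γ → E
  bf : E →ₗ[ℝ] E →ₗ[ℝ] ℝ
  φ_br : ∀ x y, φ (nl.br x y) = 0
  φ_surj : Function.Surjective φ
  φ_S : ∀ m x, φ (S m x) = φ x
  S_br : ∀ m x y, S m (nl.br x y) = nl.br (S m x) (S m y)
  S_ss : ∀ i, SS (S (ee i))
  π_surj : Function.Surjective π
  φ_X : ∀ γ, φ (X γ) = toR (π γ)
  X_mul : ∀ γ γ', X (γ * γ') = nl.mul (X γ) (S (π γ) (X γ'))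
  X_inj : ∀ h, π h = 1 → X h = 0 → h = 1
  bf_pos : ∀ x, φ x = 0 → x ≠ 0 → 0 < bf x x
  bf_int : ∀ h h', π h = 1 → π h' = 1 → ∃ z : ℤ, bf (X h) (X h') = z
  gen : ∀ T : Submodule ℝ E, (∀ h, π h = 1 → X h ∈ T) → (∀ x ∈ T, ∀ y ∈ T, nl.br x y ∈ T) →
    LinearMap.ker φ ≤ T

namespace TW

variable {E : Type} [AddCommGroup E] [Module ℝ E] {k : ℕ} {Γ : Type*} [Group Γ] (T : TW E k Γ)

theorem X_one : T.X 1 = 0 := by
  have h := T.X_mul 1 1
  rw [mul_one, map_one, map_one, Module.End.one_apply] at h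
  have h2 : T.nl.mul (-T.X 1) (T.X 1) = T.nl.mul (-T.X 1) (T.nl.mul (T.X 1) (T.X 1)) := by
    rw [← h]
  rw [← T.nl.mul_assoc', T.nl.neg_mul', T.nl.zero_mul'] at h2
  exact h2.symm

theorem S_X_inv (γ : Γ) : T.S (T.π γ) (T.X γ⁻¹) = -T.X γ := by
  have h := T.X_mul γ γ⁻¹
  rw [mul_inv_cancel, T.X_one] at h
  have h2 : T.nl.mul (-T.X γ) 0 =
      T.nl.mul (-T.X γ) (T.nl.mul (T.X γ) (T.S (T.π γ) (T.X γ⁻¹))) := by rw [← h]
  rw [← T.nl.mul_assoc', T.nl.neg_mul', T.nl.zero_mul', T.nl.mul_zero'] at h2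
  exact h2.symm

theorem X_mul_ker {h : Γ} (hh : T.π h = 1) (γ : Γ) :
    T.X (h * γ) = T.nl.mul (T.X h) (T.X γ) := by
  rw [T.X_mul, hh, map_one, Module.End.one_apply]

theorem X_inv_ker {h : Γ} (hh : T.π h = 1) : T.X h⁻¹ = -T.X h := by
  have := T.S_X_inv h
  rwa [hh, map_one, Module.End.one_apply] at this

theorem S_mul (m : Zk k) (x y : E) : T.S m (T.nl.mul x y) = T.nl.mul (T.S m x) (T.S m y) :=
  T.nl.map_mul T.nl (T.S m) (T.S_br m) x y

theorem X_conj (γ : Γ) {h : Γ} (hh : T.π h = 1) :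
    T.X (γ * h * γ⁻¹) = T.nl.Ad (T.X γ) (T.S (T.π γ) (T.X h)) := by
  rw [T.X_mul, T.X_mul, map_mul, hh, mul_one, T.S_X_inv, T.nl.mul_mul_neg]

theorem X_injOn {h h' : Γ} (hh : T.π h = 1) (hh' : T.π h' = 1) (e : T.X h = T.X h') : h = h' := by
  have h1 : T.π h'⁻¹ = 1 := by rw [map_inv, hh', inv_one]
  have := T.X_inj (h'⁻¹ * h) (by rw [map_mul, h1, hh, one_mul])
    (by rw [T.X_mul_ker h1, T.X_inv_ker hh', e, T.nl.neg_mul'])
  exact (inv_mul_eq_one.1 this).symm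

end TW

/-- the standard basis of `ℝ^d` is adapted to the moduli of the `S m` -/
structure Adapted {d k : ℕ} {Γ : Type*} [Group Γ] (T : TW (Fin d → ℝ) k Γ)
    (wt : Fin d → (Fin k → ℝ) →ₗ[ℝ] ℝ) : Prop where
  τ_br : ∀ v x y, T.nl.br (diagτ wt v x) (diagτ wt v y) = diagτ wt v (T.nl.br x y)
  φ_τ : ∀ v x, T.φ (diagτ wt v x) = T.φ x
  S_τ : ∀ m v x, T.S m (diagτ wt v x) = diagτ wt v (T.S m x)
  bdd : ∃ C : ℝ, ∀ m x, ‖T.S m (diagτ wt (-toR m) x)‖ ≤ C * ‖x‖

/-- vectors of growth at most `exp (λ m)` under the `S m` -/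
def Ew {d k : ℕ} (S : Zk k →* Module.End ℝ (Fin d → ℝ)) (lam : (Fin k → ℝ) →ₗ[ℝ] ℝ) :
    Submodule ℝ (Fin d → ℝ) where
  carrier := {x | ∃ C : ℝ, ∀ m, ‖S m x‖ ≤ C * Real.exp (lam (toR m))}
  zero_mem' := ⟨0, fun m => by simp⟩
  add_mem' := by
    rintro x y ⟨C, hC⟩ ⟨C', hC'⟩
    refine ⟨C + C', fun m => ?_⟩
    rw [map_add, add_mul]
    exact (norm_add_le _ _).trans (add_le_add (hC m) (hC' m))
  smul_mem' := by
    rintro c x ⟨C, hC⟩
    refine ⟨‖c‖ * C, fun m => ?_⟩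
    rw [map_smul, norm_smul, mul_assoc]
    exact mul_le_mul_of_nonneg_left (hC m) (norm_nonneg _)

theorem mem_Ew {d k : ℕ} {S : Zk k →* Module.End ℝ (Fin d → ℝ)} {lam : (Fin k → ℝ) →ₗ[ℝ] ℝ}
    {x : Fin d → ℝ} : x ∈ Ew S lam ↔ ∃ C : ℝ, ∀ m, ‖S m x‖ ≤ C * Real.exp (lam (toR m)) :=
  Iff.rfl

end Crest.Agent.R182.B
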