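import Crest.Agent.R182.BCoc

/-!
Row 182, part B, task `R182/BDet`: unimodularity and properness from the integral form.
-/

set_option autoImplicit false

namespace Crest.Agent.R182.B

open scoped BigOperators
open Polynomial

theorem det_one_le {V : Type*} [AddCommGroup V] [Module ℝ V] [FiniteDimensional ℝ V]
    (B : V →ₗ[ℝ] V →ₗ[ℝ] ℝ) (hB : ∀ x, x ≠ 0 → 0 < B x x) (Λ : Set V)
    (hspan : Submodule.span ℝ Λ = ⊤) (hint : ∀ a ∈ Λ, ∀ b ∈ Λ, ∃ z : ℤ, B a b = z)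
    (A : Module.End ℝ V) (hA0 : LinearMap.det A ≠ 0) (hA : ∀ a ∈ Λ, A a ∈ Λ) :
    1 ≤ |LinearMap.det A| := by
  classical
  let b := Module.Basis.ofSpan hspan.ge
  have := FiniteDimensional.fintypeBasisIndex b
  have hb : ∀ i, b i ∈ Λ := fun i => Module.Basis.ofSpan_subset hspan.ge ⟨i, rfl⟩
  let G₀ := LinearMap.toMatrix₂ b b B
  have hG₀ : G₀.det ≠ 0 := by
    intro h0
    obtain ⟨v, hv, hv0⟩ := Matrix.exists_mulVec_eq_zero_iff.2 h0
    have hx : (b.equivFun.symm v) ≠ 0 := b.equivFun.symm.map_ne_zero_iff.2 hv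
    have h1 := hB _ hx
    have e : B (b.equivFun.symm v) (b.equivFun.symm v) = v ⬝ᵥ G₀.mulVec v := by
      simp only [Module.Basis.equivFun_symm_apply, map_sum, map_smul, LinearMap.sum_apply,
        LinearMap.smul_apply, smul_eq_mul, dotProduct, Matrix.mulVec, G₀,
        LinearMap.toMatrix₂_apply, Finset.mul_sum]
      rw [Finset.sum_comm]
      exact Finset.sum_congr rfl fun i _ => Finset.sum_congr rfl fun j _ => by ring
    rw [e, hv0, dotProduct_zero] at h1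
    exact lt_irrefl _ h1
  have hAj : ∀ (j : ℕ), ∀ a ∈ Λ, (A ^ j) a ∈ Λ := by
    intro j
    induction j with
    | zero => intro a ha; simpa using ha
    | succ j ih => intro a ha; rw [pow_succ', Module.End.mul_apply]; exact hA _ (ih a ha)
  have key : ∀ j : ℕ, 1 ≤ (|LinearMap.det A| ^ 2) ^ j * |G₀.det| := by
    intro j
    choose z hz using fun p q => hint _ (hAj j _ (hb p)) _ (hAj j _ (hb q))
    have e1 : LinearMap.toMatrix₂ b b (B.compl₁₂ (A ^ j) (A ^ j)) =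
        (Int.castRingHom ℝ).mapMatrix (Matrix.of z) := by
      ext p q
      simp [LinearMap.toMatrix₂_apply, hz]
    have e2 := congrArg Matrix.det (LinearMap.toMatrix₂_compl₁₂ b b b b B (A ^ j) (A ^ j))
    rw [e1, ← RingHom.map_det, Matrix.det_mul, Matrix.det_mul, Matrix.det_transpose,
      LinearMap.det_toMatrix, map_pow] at e2
    have e3 : (((Matrix.of z).det : ℤ) : ℝ) = (LinearMap.det A ^ 2) ^ j * G₀.det := by
      rw [show (((Matrix.of z).det : ℤ) : ℝ) = _ from e2]; ring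
    have hne : (Matrix.of z).det ≠ 0 := by
      intro h0
      rw [h0, Int.cast_zero] at e3
      exact mul_ne_zero (pow_ne_zero _ (pow_ne_zero _ hA0)) hG₀ e3.symm
    have h1 : (1 : ℝ) ≤ |(((Matrix.of z).det : ℤ) : ℝ)| := by
      exact_mod_cast Int.one_le_abs hne
    rwa [e3, abs_mul, abs_pow, abs_pow] at h1
  by_contra hlt
  push Not at hlt
  have ht : Filter.Tendsto (fun j : ℕ => (|LinearMap.det A| ^ 2) ^ j * |G₀.det|) Filter.atTop
      (nhds (0 * |G₀.det|)) :=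
    (tendsto_pow_atTop_nhds_zero_of_lt_one (by positivity)
      (pow_lt_one₀ (abs_nonneg _) hlt two_ne_zero)).mul_const _
  have := ge_of_tendsto' ht key
  linarith

/-- Take a basis `b` of `V` inside `Λ`, `G_j = det (B (A^j b_p) (A^j b_q))_{p,q} = (det A)^{2j} G_0`
(`LinearMap.BilinForm.toMatrix_comp`, or `Gram(A b) = Mᵀ Gram(b) M`).  `G_0 ≠ 0` (a vector in the
kernel of the Gram matrix gives `B x x = 0`) and all `G_j` are non-zero integers, so
`|det A|^{2j} |G_0| ≥ 1` for all `j : ℕ`, hence `|det A| ≥ 1`; likewise `|det A'| ≥ 1`, and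
`det A * det A' = 1`. -/
theorem abs_det_eq_one {V : Type*} [AddCommGroup V] [Module ℝ V] [FiniteDimensional ℝ V]
    (B : V →ₗ[ℝ] V →ₗ[ℝ] ℝ) (hB : ∀ x, x ≠ 0 → 0 < B x x) (Λ : Set V)
    (hspan : Submodule.span ℝ Λ = ⊤) (hint : ∀ a ∈ Λ, ∀ b ∈ Λ, ∃ z : ℤ, B a b = z)
    (A A' : Module.End ℝ V) (hAA : A * A' = 1) (hA : ∀ a ∈ Λ, A a ∈ Λ) (hA' : ∀ a ∈ Λ, A' a ∈ Λ) :
    |LinearMap.det A| = 1 := by
  have h : LinearMap.det A * LinearMap.det A' = 1 := by rw [← map_mul, hAA, map_one]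
  have h1 := det_one_le B hB Λ hspan hint A (left_ne_zero_of_mul_eq_one h) hA
  have h2 := det_one_le B hB Λ hspan hint A' (right_ne_zero_of_mul_eq_one h) hA'
  have h3 : |LinearMap.det A| * |LinearMap.det A'| = 1 := by rw [← abs_mul, h, abs_one]
  nlinarith

/-- `Ad x - 1` maps `lcs i` into `lcs (i+1)` (`NL.Ad_sub_mem_lcs`), so it is nilpotent; the
characteristic polynomial of a nilpotent endomorphism is `X^n` -/
theorem det_Ad {E : Type} [AddCommGroup E] [Module ℝ E] [FiniteDimensional ℝ E] (N : NL E) (x : E) :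
    LinearMap.det (N.Ad x) = 1 := by
  have key : ∀ (i : ℕ) (z : E), (((1 : Module.End ℝ E) - N.Ad x) ^ i) z ∈ N.lcs i := by
    intro i
    induction i with
    | zero => intro z; exact Submodule.mem_top
    | succ i ih =>
      intro z
      rw [pow_succ', Module.End.mul_apply, LinearMap.sub_apply, Module.End.one_apply,
        ← Submodule.neg_mem_iff, neg_sub]
      exact N.Ad_sub_mem_lcs x (ih z)
  have hn : IsNilpotent ((1 : Module.End ℝ E) - N.Ad x) := ⟨N.m, LinearMap.ext fun z => by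
    have := key N.m z
    rwa [N.lcs_eq_bot, Submodule.mem_bot] at this⟩
  have h1 := LinearMap.eval_charpoly ((1 : Module.End ℝ E) - N.Ad x) 1
  rw [(LinearMap.isNilpotent_iff_charpoly _).1 hn, map_one, sub_sub_cancel] at h1
  rw [← h1]; simp

theorem TW.φ_lcs {E : Type} [AddCommGroup E] [Module ℝ E] {k : ℕ} {Γ : Type*} [Group Γ]
    (T : TW E k Γ) {x : E} (hx : x ∈ T.nl.lcs 1) : T.φ x = 0 := by
  have : T.nl.lcs 1 ≤ LinearMap.ker T.φ := by
    rw [show T.nl.lcs 1 = Submodule.span ℝ {z | ∃ x, ∃ y ∈ T.nl.lcs 0, z = T.nl.br x y} from rfl,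
      Submodule.span_le]
    rintro z ⟨x, y, -, rfl⟩
    exact T.φ_br x y
  exact this hx

/-- `m = π γ`, `A γ = Ad (X γ) ∘ S (π γ)` satisfies `A γ (X h) = X (γ h γ⁻¹)` (`TW.X_conj`) and
`φ ∘ A γ = φ` (`Ad x z - z ∈ lcs 1 ≤ ker φ`).  The restrictions of `A γ`, `A γ⁻¹` to `K = ker φ` are
inverse to each other (they are on the spanning set `X '' ker π`, `TW.span_and_cocompact`), so
`abs_det_eq_one` applies; `LinearMap.det_eq_det_mul_det` (the map induced on `E ⧸ K` is the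
identity) and `det_Ad`. -/
theorem TW.abs_det {d k : ℕ} {Γ : Type*} [Group Γ] (T : TW (Fin d → ℝ) k Γ) (m : Zk k) :
    |LinearMap.det (T.S m)| = 1 := by
  obtain ⟨γ, rfl⟩ := T.π_surj m
  let A : Γ → Module.End ℝ (Fin d → ℝ) := fun g => T.nl.Ad (T.X g) * T.S (T.π g)
  have hφ : ∀ g x, T.φ (A g x) = T.φ x := by
    intro g x
    have := T.φ_lcs (T.nl.Ad_sub_mem_lcs (i := 0) (T.X g) (z := T.S (T.π g) x) Submodule.mem_top)
    rw [map_sub, T.φ_S, sub_eq_zero] at this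
    exact this
  set K := LinearMap.ker T.φ with hK
  have hAK : ∀ g, K ≤ K.comap (A g) := fun g x hx => by
    change T.φ (A g x) = 0
    rw [hφ]; exact hx
  have hX : ∀ g h, T.π h = 1 → A g (T.X h) = T.X (g * h * g⁻¹) := fun g h hh =>
    (T.X_conj g hh).symm
  have hπ : ∀ g h, T.π h = 1 → T.π (g * h * g⁻¹) = 1 := fun g h hh => by simp [hh]
  have hsp := T.span_and_cocompact.1
  let Λ : Set K := {x | ∃ h, T.π h = 1 ∧ T.X h = x}
  have hΛ : Submodule.span ℝ Λ = ⊤ := by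
    apply Submodule.map_injective_of_injective K.injective_subtype
    rw [Submodule.map_span, Submodule.map_top, Submodule.range_subtype]
    refine Eq.trans ?_ hsp
    congr 1
    ext x
    constructor
    · rintro ⟨y, ⟨h, hh, e⟩, rfl⟩
      exact ⟨h, hh, e⟩
    · rintro ⟨h, hh, rfl⟩
      simp only [Set.mem_ofPred_eq] at hh
      exact ⟨⟨T.X h, by simp [hK, T.φ_X, hh]⟩, ⟨h, hh, rfl⟩, rfl⟩
  have hAΛ : ∀ g, ∀ a ∈ Λ, (A g).restrict (hAK g) a ∈ Λ := by
    rintro g a ⟨h, hh, e⟩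
    exact ⟨g * h * g⁻¹, hπ g h hh, by rw [← hX g h hh, e]; rfl⟩
  have h1 := abs_det_eq_one (T.bf.compl₁₂ K.subtype K.subtype)
    (fun x hx => T.bf_pos x x.2 fun h0 => hx (Subtype.ext h0)) Λ hΛ
    (by
      rintro a ⟨h, hh, e⟩ b ⟨h', hh', e'⟩
      obtain ⟨z, hz⟩ := T.bf_int h h' hh hh'
      exact ⟨z, by rw [← hz, e, e']; rfl⟩)
    ((A γ).restrict (hAK γ)) ((A γ⁻¹).restrict (hAK γ⁻¹))
    (by
      refine LinearMap.ext_on hΛ ?_
      rintro a ⟨h, hh, e⟩
      apply Subtype.ext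
      change A γ (A γ⁻¹ a) = a
      rw [← e, hX _ _ hh, hX _ _ (hπ _ _ hh)]
      congr 1
      group)
    (hAΛ γ) (hAΛ γ⁻¹)
  have h2 := LinearMap.det_eq_det_mul_det K (A γ) (hAK γ)
  have h3 : K.mapQ K (A γ) (hAK γ) = LinearMap.id := by
    refine Submodule.linearMap_qext _ (LinearMap.ext fun x => ?_)
    simp only [LinearMap.comp_apply, Submodule.mkQ_apply, Submodule.mapQ_apply, LinearMap.id_apply]
    rw [Submodule.Quotient.eq]
    change T.φ _ = 0
    rw [map_sub, hφ, sub_self]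
  rw [h3, LinearMap.det_id, mul_one] at h2
  have h4 : LinearMap.det (A γ) = LinearMap.det (T.S (T.π γ)) := by
    rw [map_mul, det_Ad, one_mul]
  rw [← h4, h2, h1]

theorem det_diagτ {d k : ℕ} (wt : Fin d → (Fin k → ℝ) →ₗ[ℝ] ℝ) (v : Fin k → ℝ) :
    LinearMap.det (diagτ wt v) = Real.exp (∑ i, wt i v) := by
  have e : diagτ wt v = Matrix.toLin' (Matrix.diagonal fun i => Real.exp (wt i v)) := by
    refine LinearMap.ext fun x => funext fun i => ?_
    rw [Matrix.toLin'_apply, Matrix.mulVec_diagonal]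
    rfl
  rw [e, LinearMap.det_toLin', Matrix.det_diagonal, Real.exp_sum]

/-- a linear form which is bounded below on `ℤ^k` vanishes -/
theorem eq_zero_of_bdd {k : ℕ} (f : (Fin k → ℝ) →ₗ[ℝ] ℝ) (c : ℝ) (h : ∀ m, c ≤ f (toR m)) :
    f = 0 := by
  refine LinearMap.pi_ext' fun j => LinearMap.ext_ring ?_
  have h1 : ∀ z : ℤ, c ≤ z * f (Pi.single j 1) := fun z => by
    have := h (ee j ^ z)
    rwa [toR_zpow, toR_ee, map_smul, smul_eq_mul] at this
  have h2 : f (Pi.single j 1) = 0 := by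
    by_contra h0
    rcases lt_or_gt_of_ne h0 with h3 | h3
    · obtain ⟨z, hz⟩ := exists_int_gt (c / f (Pi.single j 1))
      rw [div_lt_iff_of_neg h3] at hz
      exact absurd (h1 z) (not_le.2 hz)
    · obtain ⟨z, hz⟩ := exists_int_lt (c / f (Pi.single j 1))
      rw [lt_div_iff₀ h3] at hz
      exact absurd (h1 z) (not_le.2 hz)
  simpa using h2

/-- `diagτ wt v` has determinant `exp (∑ wt i v)` (diagonal matrix).  `R m = S m ∘ diagτ wt (-toR m)`
has matrix entries bounded by `C`, so `|det (R m)| = exp (-∑ wt i (toR m))` is bounded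
(`Matrix.det_le`); applied to `m = (ee j)^{± n}` this gives `∑ wt i (single j 1) = 0`. -/
theorem Adapted.sum_wt {d k : ℕ} {Γ : Type*} [Group Γ] {T : TW (Fin d → ℝ) k Γ}
    {wt : Fin d → (Fin k → ℝ) →ₗ[ℝ] ℝ} (h : Adapted T wt) : ∑ i, wt i = 0 := by
  obtain ⟨C, hC⟩ := h.bdd
  refine eq_zero_of_bdd _ (-Real.log ((Fintype.card (Fin d)).factorial • C ^ Fintype.card (Fin d)))
    fun m => ?_
  let R : Module.End ℝ (Fin d → ℝ) := T.S m * diagτ wt (-toR m)
  have h1 : |LinearMap.det R| = Real.exp (-(∑ i, wt i) (toR m)) := by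
    rw [map_mul, abs_mul, T.abs_det, one_mul, det_diagτ, abs_of_pos (Real.exp_pos _)]
    simp [LinearMap.sum_apply]
  have h2 : |LinearMap.det R| ≤
      (Fintype.card (Fin d)).factorial • C ^ Fintype.card (Fin d) := by
    rw [← LinearMap.det_toMatrix']
    refine Matrix.det_le (abv := AbsoluteValue.abs) fun i j => ?_
    rw [LinearMap.toMatrix'_apply]
    have h3 := hC m (Pi.single j 1)
    rw [Pi.norm_single, norm_one, mul_one] at h3
    exact (norm_le_pi_norm (R (Pi.single j 1)) i).trans h3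
  rw [h1] at h2
  have := Real.log_le_log (Real.exp_pos _) h2
  rw [Real.log_exp] at this
  linarith

/-- On `ker π`: distinct `h, h'` have `z = X h - X h' ≠ 0` (`TW.X_injOn`), `φ z = 0`, `bf z z` is a
positive integer, and `bf z z ≤ C ‖z‖²`; so the `X h` are uniformly separated and only finitely many
lie in a compact ball (cover it by finitely many small balls).  In general `‖X γ‖ ≤ r` bounds
`toR (π γ) = φ (X γ)`, so `π γ` takes finitely many values `m`; fix `γ_m` with `π γ_m = m`, then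
`X (γ γ_m⁻¹) = X γ • S m (X γ_m⁻¹)` is bounded (`NL.continuous_mul`, compactness). -/
theorem TW.proper {d k : ℕ} {Γ : Type*} [Group Γ] (T : TW (Fin d → ℝ) k Γ) (r : ℝ) :
    {γ | ‖T.X γ‖ ≤ r}.Finite := by
  -- separation on the kernel
  let β : (Fin d → ℝ) →L[ℝ] (Fin d → ℝ) →L[ℝ] ℝ := LinearMap.toContinuousLinearMap
    ((LinearMap.toContinuousLinearMap (𝕜 := ℝ) (E := Fin d → ℝ) (F' := ℝ)).toLinearMap ∘ₗ T.bf)
  have hβ : ∀ z, T.bf z z ≤ (‖β‖ + 1) * ‖z‖ ^ 2 := fun z => by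
    have h1 : ‖β z z‖ ≤ ‖β‖ * ‖z‖ * ‖z‖ := β.le_opNorm₂ z z
    have h2 : T.bf z z ≤ ‖β z z‖ := le_abs_self _
    nlinarith [sq_nonneg ‖z‖]
  have hβ0 : 0 < ‖β‖ + 1 := by have := β.opNorm_nonneg; linarith
  have hsep : ∀ h h', T.π h = 1 → T.π h' = 1 → (‖β‖ + 1) * ‖T.X h - T.X h'‖ ^ 2 < 1 → h = h' := by
    intro h h' hh hh' hlt
    by_contra hne
    have h1 := T.bf_pos (T.X h - T.X h') (by simp [T.φ_X, hh, hh'])
      (sub_ne_zero.2 fun e => hne (T.X_injOn hh hh' e))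
    obtain ⟨z₁, e₁⟩ := T.bf_int h h hh hh
    obtain ⟨z₂, e₂⟩ := T.bf_int h h' hh hh'
    obtain ⟨z₃, e₃⟩ := T.bf_int h' h hh' hh
    obtain ⟨z₄, e₄⟩ := T.bf_int h' h' hh' hh'
    have e : T.bf (T.X h - T.X h') (T.X h - T.X h') = ((z₁ - z₃ - (z₂ - z₄) : ℤ) : ℝ) := by
      simp only [map_sub, LinearMap.sub_apply, e₁, e₂, e₃, e₄]
      push_cast
      ring
    have h2 := hβ (T.X h - T.X h')
    rw [e] at h1 h2
    have h3 : (0 : ℤ) < z₁ - z₃ - (z₂ - z₄) := by exact_mod_cast h1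
    have h4 : (1 : ℝ) ≤ ((z₁ - z₃ - (z₂ - z₄) : ℤ) : ℝ) := by exact_mod_cast h3
    linarith
  have hker : ∀ ρ : ℝ, {h | T.π h = 1 ∧ ‖T.X h‖ ≤ ρ}.Finite := by
    intro ρ
    obtain ⟨ε, hε, hε2⟩ : ∃ ε : ℝ, 0 < ε ∧ (‖β‖ + 1) * (2 * ε) ^ 2 < 1 := by
      refine ⟨1 / (4 * (‖β‖ + 1)), by positivity, ?_⟩
      have : (‖β‖ + 1) * (2 * (1 / (4 * (‖β‖ + 1)))) ^ 2 = 1 / (4 * (‖β‖ + 1)) := by
        field_simp; ring
      rw [this, div_lt_one (by positivity)]
      have := β.opNorm_nonneg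
      linarith
    obtain ⟨t, -, ht, hcov⟩ := (isCompact_closedBall (0 : Fin d → ℝ) ρ).finite_cover_balls hε
    refine (ht.biUnion (t := fun c => {h | T.π h = 1 ∧ T.X h ∈ Metric.ball c ε})
      fun c _ => Set.Subsingleton.finite ?_).subset ?_
    · rintro h ⟨hh, h1⟩ h' ⟨hh', h2⟩
      refine hsep h h' hh hh' (lt_of_le_of_lt ?_ hε2)
      have h3 : ‖T.X h - T.X h'‖ ≤ 2 * ε := by
        rw [← dist_eq_norm]
        have := dist_triangle_right (T.X h) (T.X h') c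
        rw [Metric.mem_ball] at h1 h2
        linarith
      gcongr
    · rintro h ⟨hh, h1⟩
      obtain ⟨c, hc, h2⟩ := Set.mem_iUnion₂.1 (hcov (mem_closedBall_zero_iff.2 h1))
      exact Set.mem_iUnion₂.2 ⟨c, hc, hh, h2⟩
  -- finitely many degrees
  let φ' := LinearMap.toContinuousLinearMap T.φ
  let L : ℤ := ⌈‖φ'‖ * r⌉
  have hfin : {m : Zk k | ∀ i, Multiplicative.toAdd m i ∈ Set.Icc (-L) L}.Finite := by
    refine Set.Finite.of_finite_image (f := Multiplicative.toAdd) ?_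
      Multiplicative.toAdd.injective.injOn
    refine (Set.Finite.pi' fun _ : Fin k => Set.finite_Icc (-L) L).subset ?_
    rintro _ ⟨m, hm, rfl⟩
    exact hm
  refine (hfin.biUnion (t := fun m => {γ | T.π γ = m ∧ ‖T.X γ‖ ≤ r}) fun m _ => ?_).subset ?_
  · obtain ⟨γ₀, rfl⟩ := T.π_surj m
    have hc0 : Continuous fun x : Fin d → ℝ => (x, -T.X γ₀) := by fun_prop
    have hc : Continuous fun x : Fin d → ℝ => T.nl.mul x (-T.X γ₀) := by
      simpa only [Function.comp_def] using T.nl.continuous_mul.comp hc0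
    obtain ⟨ρ, hρ⟩ := (isCompact_closedBall (0 : Fin d → ℝ) r).exists_bound_of_continuousOn
      hc.continuousOn
    refine ((hker ρ).image (· * γ₀)).subset ?_
    rintro γ ⟨h1, h2⟩
    refine ⟨γ * γ₀⁻¹, ⟨by simp [h1], ?_⟩, by simp⟩
    rw [T.X_mul, h1, T.S_X_inv]
    exact hρ _ (mem_closedBall_zero_iff.2 h2)
  · intro γ hγ
    refine Set.mem_iUnion₂.2 ⟨T.π γ, fun i => ?_, rfl, hγ⟩
    have h1 : ‖T.φ (T.X γ)‖ ≤ ‖φ'‖ * r :=
      (φ'.le_opNorm (T.X γ)).trans (mul_le_mul_of_nonneg_left hγ φ'.opNorm_nonneg)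
    rw [T.φ_X] at h1
    have h2 : |((Multiplicative.toAdd (T.π γ) i : ℤ) : ℝ)| ≤ (L : ℝ) :=
      ((norm_le_pi_norm (toR (T.π γ)) i).trans h1).trans (Int.le_ceil _)
    exact abs_le.1 (by exact_mod_cast h2)

end Crest.Agent.R182.B
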