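import Crest.Agent.R182.BMal

/-!
Row 182, part B, task `R182/BEngel`: a virtually polycyclic group has a finite-index poly-`ℤ`
subgroup which is (Engel-nilpotent)-by-`ℤ^k`.
-/

set_option autoImplicit false

namespace Crest.Agent.R182.B

open scoped BigOperators
open Polynomial

/-- additive functions on `R`, extended by zero -/
def engelV {Γ : Type*} [Group Γ] (R : Subgroup Γ) : Submodule ℂ (Γ → ℂ) where
  carrier := {f | (∀ a ∈ R, ∀ b ∈ R, f (a * b) = f a + f b) ∧ ∀ a, a ∉ R → f a = 0}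
  zero_mem' := ⟨fun _ _ _ _ => by simp, fun _ _ => rfl⟩
  add_mem' := by
    rintro f g ⟨hf, hf'⟩ ⟨hg, hg'⟩
    refine ⟨fun a ha b hb => ?_, fun a ha => ?_⟩
    · simp only [Pi.add_apply, hf a ha b hb, hg a ha b hb]; ring
    · simp only [Pi.add_apply, hf' a ha, hg' a ha, add_zero]
  smul_mem' := by
    rintro c f ⟨hf, hf'⟩
    refine ⟨fun a ha b hb => ?_, fun a ha => ?_⟩
    · simp only [Pi.smul_apply, hf a ha b hb, smul_add]
    · simp only [Pi.smul_apply, hf' a ha, smul_zero]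

theorem engelV_one {Γ : Type*} [Group Γ] {R : Subgroup Γ} {f : Γ → ℂ} (hf : f ∈ engelV R) : f 1 = 0 := by
  have := hf.1 1 R.one_mem 1 R.one_mem
  rw [mul_one] at this
  exact left_eq_add.1 this

theorem engelV_inv {Γ : Type*} [Group Γ] {R : Subgroup Γ} {f : Γ → ℂ} (hf : f ∈ engelV R) {a : Γ}
    (ha : a ∈ R) : f a⁻¹ = -f a := by
  have := hf.1 a ha a⁻¹ (R.inv_mem ha)
  rw [mul_inv_cancel, engelV_one hf] at this
  exact eq_neg_of_add_eq_zero_right this.symm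

theorem engelV_finite {Γ : Type*} [Group Γ] {R : Subgroup Γ} (hR : R.FG) :
    FiniteDimensional ℂ (engelV R) := by
  obtain ⟨S, hS⟩ := hR
  let ev : engelV R →ₗ[ℂ] (S → ℂ) := (LinearMap.funLeft ℂ ℂ Subtype.val).comp (engelV R).subtype
  refine FiniteDimensional.of_injective ev ((injective_iff_map_eq_zero _).2 fun f hf => ?_)
  refine Subtype.ext (funext fun a => ?_)
  by_cases ha : a ∈ R
  · rw [← hS] at ha
    induction ha using Subgroup.closure_induction with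
    | mem x hx => exact congrFun hf ⟨x, hx⟩
    | one => exact engelV_one f.2
    | mul x y hx hy ihx ihy =>
      rw [f.2.1 x (hS ▸ hx) y (hS ▸ hy), ihx, ihy]
      simp
    | inv x hx ih =>
      rw [engelV_inv f.2 (hS ▸ hx), ih]
      simp
  · exact f.2.2 a ha

/-- the action by conjugation -/
noncomputable def engelσ {Γ : Type*} [Group Γ] (R : Subgroup Γ) [hR : R.Normal] :
    Γ →* Module.End ℂ (engelV R) where
  toFun γ := (LinearMap.funLeft ℂ ℂ fun a => γ⁻¹ * a * γ).restrict fun f hf => by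
    refine ⟨fun a ha b hb => ?_, fun a ha => hf.2 _ fun h => ha ?_⟩
    · have e : γ⁻¹ * (a * b) * γ = γ⁻¹ * a * γ * (γ⁻¹ * b * γ) := by group
      simp only [LinearMap.funLeft_apply]
      rw [e, hf.1 _ (hR.conj_mem' a ha γ) _ (hR.conj_mem' b hb γ)]
    · have := hR.conj_mem _ h γ
      simpa [mul_assoc] using this
  map_one' := by
    ext f a
    simp
  map_mul' γ γ' := by
    ext f a
    simp [mul_assoc]

theorem engelσ_apply {Γ : Type*} [Group Γ] (R : Subgroup Γ) [R.Normal] (γ : Γ) (f : engelV R) (a : Γ) :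
    (engelσ R γ f : Γ → ℂ) a = (f : Γ → ℂ) (γ⁻¹ * a * γ) := rfl

theorem ad_iterate_mem {Γ : Type*} [Group Γ] {R : Subgroup Γ} [hR : R.Normal] (t : Γ) (c : ℕ) {a : Γ}
    (ha : a ∈ R) : (fun b => t * b * t⁻¹ * b⁻¹)^[c] a ∈ R := by
  induction c with
  | zero => exact ha
  | succ c ih =>
    rw [Function.iterate_succ_apply']
    exact R.mul_mem (hR.conj_mem _ ih t) (R.inv_mem ih)

theorem engelσ_pow {Γ : Type*} [Group Γ] (R : Subgroup Γ) [hR : R.Normal] (t : Γ) (c : ℕ) (f : engelV R)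
    {a : Γ} (ha : a ∈ R) : (((engelσ R t⁻¹ - 1) ^ c) f : Γ → ℂ) a =
      (f : Γ → ℂ) ((fun b => t * b * t⁻¹ * b⁻¹)^[c] a) := by
  induction c generalizing f with
  | zero => rfl
  | succ c ih =>
    have hm := ad_iterate_mem t c ha
    rw [pow_succ, Module.End.mul_apply, ih, Function.iterate_succ_apply',
      f.2.1 _ (hR.conj_mem _ hm t) _ (R.inv_mem hm), engelV_inv f.2 hm, LinearMap.sub_apply,
      Submodule.coe_sub, Pi.sub_apply, engelσ_apply, inv_inv, sub_eq_add_neg]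
    rfl

theorem engel_step {Γ : Type*} [Group Γ] (h : Gro.poly_PC (⊤ : Subgroup Γ)) (R : Subgroup Γ)
    [hR : R.Normal] : ∃ R' : Subgroup Γ, R'.Normal ∧
      (∀ φ : R →* Multiplicative ℤ, ∀ a ∈ R', ∃ ha : a ∈ R, φ ⟨a, ha⟩ = 1) ∧
      ∃ Γ₁ : Subgroup Γ, Γ₁.FiniteIndex ∧ ∀ t ∈ ⁅Γ₁, Γ₁⁆, ∃ c : ℕ, ∀ a ∈ R,
        (fun b => t * b * t⁻¹ * b⁻¹)^[c] a ∈ R' := by
  classical
  have := engelV_finite (pc_fg (h.of_le (le_top : R ≤ ⊤)))
  let R' : Subgroup Γ :=
    { carrier := {a | a ∈ R ∧ ∀ f ∈ engelV R, f a = 0}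
      one_mem' := ⟨R.one_mem, fun f hf => engelV_one hf⟩
      mul_mem' := fun {a b} ha hb => ⟨R.mul_mem ha.1 hb.1, fun f hf => by
        rw [hf.1 a ha.1 b hb.1, ha.2 f hf, hb.2 f hf, add_zero]⟩
      inv_mem' := fun {a} ha => ⟨R.inv_mem ha.1, fun f hf => by
        rw [engelV_inv hf ha.1, ha.2 f hf, neg_zero]⟩ }
  obtain ⟨Γ₁, h1, h2⟩ := exists_unip h (engelσ R)
  refine ⟨R', ⟨fun a ha γ => ⟨hR.conj_mem a ha.1 γ, fun f hf => ?_⟩⟩, fun φ a ha => ⟨ha.1, ?_⟩,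
    Γ₁, h1, fun t ht => ?_⟩
  · have := ha.2 _ (engelσ R γ⁻¹ ⟨f, hf⟩).2
    rwa [engelσ_apply, inv_inv] at this
  · let f : Γ → ℂ := fun x => if hx : x ∈ R then ((φ ⟨x, hx⟩).toAdd : ℂ) else 0
    have hf : f ∈ engelV R := by
      refine ⟨fun x hx y hy => ?_, fun x hx => dif_neg hx⟩
      simp only [f, dif_pos hx, dif_pos hy, dif_pos (R.mul_mem hx hy)]
      rw [← Int.cast_add, ← toAdd_mul, ← map_mul]
      rfl
    have h3 := ha.2 f hf
    simp only [f, dif_pos ha.1, Int.cast_eq_zero] at h3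
    exact h3
  · obtain ⟨c, hc⟩ := h2 t⁻¹ (Subgroup.inv_mem _ ht)
    refine ⟨c, fun a ha => ⟨ad_iterate_mem t c ha, fun f hf => ?_⟩⟩
    have h3 := engelσ_pow R t c ⟨f, hf⟩ ha
    rw [hc] at h3
    exact h3.symm

theorem Engel.of_map {G K : Type*} [Group G] [Group K] (f : K →* G) (hf : Function.Injective f) {t : K}
    (h : Engel (f t)) : Engel t := by
  obtain ⟨e, he⟩ := h
  refine ⟨e, fun a => hf ?_⟩
  have hs : Function.Semiconj f (fun b => t * b * t⁻¹ * b⁻¹) fun b => f t * b * (f t)⁻¹ * b⁻¹ :=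
    fun b => by simp
  rw [(hs.iterate_right e) a, he, map_one]

/-- Prove by induction on `PZ H`: for every normal subgroup `R ≤ H` of `Γ` there is `Γ₁` of finite
index with `∀ t ∈ ⁅Γ₁, Γ₁⁆, ∃ e, ∀ a ∈ R, (ad t)^[e] a = 1`, `ad t b = t b t⁻¹ b⁻¹`.
`⊥`: `e = 0`.  Step `R ≤ H ⊔ ⟨g⟩`: let `V = Additive R →+ ℂ` (a `ℂ`-module, finite dimensional because
`R` is f.g.: evaluation on a finite generating set is injective and linear), `Γ` acts by
`(σ γ f) a = f (γ⁻¹ a γ)`.  `R' = {a ∈ R | ∀ f ∈ V, f a = 0}` is normal in `Γ` and `R' ≤ H` (restrict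
the character of `exists_char` to `R` and cast `ℤ → ℂ`).  Take `Γ₁ = Γ₁' ⊓ Γ₁''` with `Γ₁'` from
the induction hypothesis for `R'` and `Γ₁''` from `exists_unip` (`Subgroup.commutator_mono`).
`((σ t⁻¹ - 1) f) a = f (ad t a)`, so `((σ t⁻¹ - 1)^c f) a = f ((ad t)^[c] a)`; if `(σ t⁻¹ - 1)^c = 0`
then `(ad t)^[c] a ∈ R'`, and `(ad t)^[e + c] a = 1`.  Finally `R = H = ⊤`. -/
theorem exists_engel {Γ : Type*} [Group Γ] (h : PZ (⊤ : Subgroup Γ)) :
    ∃ Γ₁ : Subgroup Γ, Γ₁.FiniteIndex ∧ ∀ t ∈ ⁅Γ₁, Γ₁⁆, Engel t := by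
  have key : ∀ H : Subgroup Γ, PZ H → ∀ R : Subgroup Γ, R.Normal → R ≤ H →
      ∃ Γ₁ : Subgroup Γ, Γ₁.FiniteIndex ∧ ∀ t ∈ ⁅Γ₁, Γ₁⁆, ∃ e : ℕ, ∀ a ∈ R,
        (fun b => t * b * t⁻¹ * b⁻¹)^[e] a = 1 := by
    intro H hH
    induction hH with
    | bot => exact fun R _ hR => ⟨⊤, inferInstance, fun t _ => ⟨0, fun a ha => hR ha⟩⟩
    | step H g _ hg hj ih =>
      intro R hRn hR
      obtain ⟨R', hR'n, hφ, Γ₂, hΓ₂, h2⟩ := engel_step h.pc R
      obtain ⟨χ, hχ, -⟩ := exists_char hg hj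
      have hle : R' ≤ H := fun a ha => by
        obtain ⟨ha', e⟩ := hφ (χ.comp (Subgroup.inclusion hR)) a ha
        exact (hχ _).1 e
      obtain ⟨Γ₁, hΓ₁, h1⟩ := ih R' hR'n hle
      refine ⟨Γ₁ ⊓ Γ₂, inferInstance, fun t ht => ?_⟩
      obtain ⟨e, he⟩ := h1 t (Subgroup.commutator_mono inf_le_left inf_le_left ht)
      obtain ⟨c, hc⟩ := h2 t (Subgroup.commutator_mono inf_le_right inf_le_right ht)
      refine ⟨e + c, fun a ha => ?_⟩
      rw [Function.iterate_add_apply]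
      exact he _ (hc a ha)
  obtain ⟨Γ₁, h1, h2⟩ := key ⊤ h ⊤ inferInstance le_rfl
  refine ⟨Γ₁, h1, fun t ht => ?_⟩
  obtain ⟨e, he⟩ := h2 t ht
  exact ⟨e, fun a => he a trivial⟩

/-- The abelianisation `A` of a f.g. group is `ℤ^k × finite`
(`AddCommGroup.equiv_free_prod_directSum_zmod` for `Additive (Abelianization G)`, or
`CommGroup.equiv_free_prod_prod_multiplicative_zmod`); `Γ` is the kernel of the map to the finite
part and `π` the map to `ℤ^k`. -/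
theorem exists_abel {G : Type*} [Group G] (hG : Group.FG G) :
    ∃ Γ : Subgroup G, Γ.FiniteIndex ∧ ∃ (k : ℕ) (π : Γ →* Zk k), Function.Surjective π ∧
      ∀ t : Γ, π t = 1 → (t : G) ∈ commutator G := by
  have hsurj : Function.Surjective (Abelianization.of : G →* Abelianization G) :=
    QuotientGroup.mk_surjective
  have : Group.FG (Abelianization G) := Group.fg_of_surjective hsurj
  obtain ⟨ι, j, _, _, p, hp, e, ⟨φ⟩⟩ :=
    CommGroup.equiv_free_prod_prod_multiplicative_zmod (Abelianization G)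
  have : ∀ i, NeZero (p i ^ e i) := fun i => ⟨pow_ne_zero _ (hp i).ne_zero⟩
  let ψ := φ.toMonoidHom.comp (Abelianization.of : G →* Abelianization G)
  have hψ : Function.Surjective ψ := φ.surjective.comp hsurj
  let ε : (j → Multiplicative ℤ) ≃* Zk (Fintype.card j) :=
    (MulEquiv.arrowCongr (Fintype.equivFin j) (MulEquiv.refl _)).trans
      (MulEquiv.piMultiplicative fun _ => ℤ).symm
  refine ⟨((MonoidHom.snd _ _).comp ψ).ker, inferInstance, Fintype.card j,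
    ε.toMonoidHom.comp (((MonoidHom.fst _ _).comp ψ).comp (Subgroup.subtype _)), fun m => ?_,
    fun t ht => ?_⟩
  · obtain ⟨g, hg⟩ := hψ (ε.symm m, 1)
    refine ⟨⟨g, ?_⟩, ?_⟩
    · rw [MonoidHom.mem_ker, MonoidHom.comp_apply, hg]
      rfl
    · change ε (ψ g).1 = m
      rw [hg, MulEquiv.apply_symm_apply]
  · have h1 : (ψ t).1 = 1 := ε.map_eq_one_iff.1 ht
    have h2 : (ψ t).2 = 1 := t.2
    have h3 : φ (Abelianization.of (t : G)) = 1 := Prod.ext h1 h2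
    rw [φ.map_eq_one_iff, ← MonoidHom.mem_ker, Abelianization.ker_of] at h3
    exact h3

/-- **B1 + B2.**  `P₀ ≤ P` polycyclic of finite index (`Gro.poly_iff`), `T ≤ P₀` from `exists_PZ`,
`Γ₁ ≤ T` from `exists_engel` (`PZ.top`), `Γ₂ ≤ Γ₁` from `exists_abel` (`pc_fg`), and `Γ` is the image
of `Γ₂` in `P` (`Subgroup.equivMapOfInjective`).  `Engel` passes to subgroups: an injective
homomorphism commutes with the iterates of `ad`. -/
theorem exists_good {P : Type*} [Group P] (hP : Crest.GroupTheory.IsVirtuallyPolycyclic P) :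
    ∃ Γ : Subgroup P, Γ.FiniteIndex ∧ PZ Γ ∧ ∃ (k : ℕ) (π : Γ →* Zk k), Function.Surjective π ∧
      ∀ t : Γ, π t = 1 → Engel t := by
  obtain ⟨P₀, hP₀, hp⟩ := hP
  obtain ⟨T, hT, hi, hz⟩ := exists_PZ (Gro.poly_iff.1 hp)
  have hTi : T.index ≠ 0 := by
    rw [← Subgroup.relIndex_mul_index hT]
    exact mul_ne_zero hi hP₀.index_ne_zero
  obtain ⟨Γ₁, hΓ₁, he⟩ := exists_engel hz.top
  have hfg : Group.FG Γ₁ := (Group.fg_iff_subgroup_fg Γ₁).2 (pc_fg (hz.top.of_le le_top).pc)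
  obtain ⟨Γ₂, hΓ₂, k, π, hπ, hc⟩ := exists_abel hfg
  let ι : Γ₁ →* P := T.subtype.comp Γ₁.subtype
  have hι : Function.Injective ι := T.subtype_injective.comp Γ₁.subtype_injective
  have hle : Γ₂.map ι ≤ T := by
    rintro _ ⟨x, -, rfl⟩
    exact (x : T).2
  let ε := Γ₂.equivMapOfInjective ι hι
  refine ⟨Γ₂.map ι, ⟨?_⟩, hz.of_le hle, k, π.comp ε.symm.toMonoidHom, hπ.comp ε.symm.surjective,
    fun t ht => ?_⟩
  · rw [← Subgroup.map_map, Subgroup.index_map_subtype, Subgroup.index_map_subtype]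
    exact mul_ne_zero (mul_ne_zero hΓ₂.index_ne_zero hΓ₁.index_ne_zero) hTi
  · obtain ⟨s, rfl⟩ := ε.surjective t
    have h1 : π s = 1 := by simpa using ht
    have h2 : ((s : Γ₁) : T) ∈ ⁅Γ₁, Γ₁⁆ := by
      rw [← Subgroup.map_subtype_commutator]
      exact ⟨s, hc s h1, rfl⟩
    exact Engel.of_map (Subgroup.inclusion hle) (Subgroup.inclusion_injective hle) (he _ h2)

end Crest.Agent.R182.B
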