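import Mathlib
import Crest.Prelude.Def_WordHyperbolic
import Crest.Prelude.Def_QuasiIsometry

/-!
Row 182, part B, task `R182/BSM`: word lengths, the Švarc–Milnor lemma (twisted form) and
compositions of quasi-isometries.
-/

set_option autoImplicit false

namespace Crest.Agent.R182.B

open scoped BigOperators
open Polynomial
open Crest.GroupTheory Crest.Geometry

section wl
variable {G : Type*} [Group G] {Q : Set G}

/-- geodesics (`Nat.sInf_mem`; `Subgroup.closure_induction` or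
`Subgroup.mem_closure_iff_exists_list`-type lemmas give some list) -/
theorem wl_exists_list (hQ : Subgroup.closure Q = ⊤) (g : G) :
    ∃ l : List G, l.length = wordLength Q g ∧ (∀ x ∈ l, x ∈ Q ∨ x⁻¹ ∈ Q) ∧ l.prod = g := by
  have hg : g ∈ (Subgroup.closure Q).toSubmonoid := by rw [hQ]; trivial
  rw [Subgroup.closure_toSubmonoid] at hg
  obtain ⟨l, h1, h2⟩ := Submonoid.exists_list_of_mem_closure hg
  have hne : {n : ℕ | ∃ l : List G, l.length = n ∧ (∀ x ∈ l, x ∈ Q ∨ x⁻¹ ∈ Q) ∧ l.prod = g}.Nonempty :=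
    ⟨l.length, l, rfl, fun x hx => by simpa using h1 x hx, h2⟩
  exact Nat.sInf_mem hne

theorem wl_le_length {l : List G} (hl : ∀ x ∈ l, x ∈ Q ∨ x⁻¹ ∈ Q) :
    wordLength Q l.prod ≤ l.length := by
  exact Nat.sInf_le ⟨l, rfl, hl, rfl⟩

theorem wl_one : wordLength Q (1 : G) = 0 := by
  simpa using wl_le_length (Q := Q) (l := []) (by simp)

theorem wl_inv (hQ : Subgroup.closure Q = ⊤) (g : G) : wordLength Q g⁻¹ = wordLength Q g := by
  have key : ∀ g : G, wordLength Q g⁻¹ ≤ wordLength Q g := by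
    intro g
    obtain ⟨l, h1, h2, h3⟩ := wl_exists_list hQ g
    have := wl_le_length (Q := Q) (l := (l.map fun x => x⁻¹).reverse) (by
      intro x hx
      obtain ⟨y, hy, rfl⟩ := List.mem_map.1 (List.mem_reverse.1 hx)
      simpa [or_comm] using h2 y hy)
    rwa [← List.prod_inv_reverse, h3, List.length_reverse, List.length_map, h1] at this
  exact le_antisymm (key g) (by simpa using key g⁻¹)

theorem wl_mul_le (hQ : Subgroup.closure Q = ⊤) (g h : G) :
    wordLength Q (g * h) ≤ wordLength Q g + wordLength Q h := by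
  obtain ⟨l, h1, h2, h3⟩ := wl_exists_list hQ g
  obtain ⟨l', h1', h2', h3'⟩ := wl_exists_list hQ h
  have := wl_le_length (Q := Q) (l := l ++ l') (by
    intro x hx
    rcases List.mem_append.1 hx with hx | hx
    · exact h2 x hx
    · exact h2' x hx)
  rwa [List.prod_append, h3, h3', List.length_append, h1, h1'] at this

/-- balls of a finite generating set are finite -/
theorem wl_finite (hQ : Subgroup.closure Q = ⊤) (hfin : Q.Finite) (r : ℝ) :
    {g : G | (wordLength Q g : ℝ) ≤ r}.Finite := by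
  have hT : (Q ∪ Q⁻¹).Finite := hfin.union hfin.inv
  have : Finite (Q ∪ Q⁻¹ : Set G) := hT
  refine ((List.finite_length_le (Q ∪ Q⁻¹ : Set G) ⌊r⌋₊).image
    fun l => (l.map Subtype.val).prod).subset fun g hg => ?_
  obtain ⟨l, h1, h2, h3⟩ := wl_exists_list hQ g
  lift l to List (Q ∪ Q⁻¹ : Set G) using fun x hx => by simpa using h2 x hx
  refine ⟨l, ?_, h3⟩
  rw [List.length_map] at h1
  show l.length ≤ ⌊r⌋₊
  rw [h1]
  exact Nat.le_floor hg

end wl

/-- **Švarc–Milnor.**  `(F γ)⁻¹ F γ' = R γ (F (γ⁻¹ γ'))`, so it suffices to compare `|F δ|` and `|δ|`.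
`R 1 (F 1) = 1` gives `|F 1| = 0`.  Upper bound: `|F (δ s)| ≤ |F δ| + C |F s|`, `s ∈ S ∪ S⁻¹`.  Lower
bound: let `L` bound `|δ|` on the finite set `{δ | |F δ| ≤ C (2 C + 1)}` (we may assume `C ≥ 1`).
Induction on a list `l` of generators of `G`: if `|(F δ)⁻¹ l.prod| ≤ C` then `|δ| ≤ L (l.length + 1)`
(remove the last letter `q`, choose `δ'` with `|(F δ')⁻¹ l'.prod| ≤ C`; then
`|(F δ')⁻¹ F δ| ≤ 2 C + 1`, so `|δ'⁻¹ δ| ≤ L`). -/
theorem svarc_milnor {Γ G : Type*} [Group Γ] [Group G] (S : Finset Γ)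
    (hS : Subgroup.closure (S : Set Γ) = ⊤) (Q : Set G) (hQ : Subgroup.closure Q = ⊤) (F : Γ → G)
    (R : Γ → G →* G) (hF : ∀ γ γ', F (γ * γ') = F γ * R γ (F γ')) (C : ℝ)
    (hR : ∀ γ g, (wordLength Q (R γ g) : ℝ) ≤ C * wordLength Q g ∧
      (wordLength Q g : ℝ) ≤ C * wordLength Q (R γ g))
    (hdense : ∀ g, ∃ γ, (wordLength Q ((F γ)⁻¹ * g) : ℝ) ≤ C)
    (hprop : ∀ r : ℝ, {γ | (wordLength Q (F γ) : ℝ) ≤ r}.Finite) :
    IsQuasiIsometry (wordDist (S : Set Γ)) (wordDist Q) F := by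
  classical
  wlog hC : 1 ≤ C generalizing C
  · have h1 : C ≤ 1 := (not_le.1 hC).le
    refine this 1 (fun γ g => ⟨(hR γ g).1.trans ?_, (hR γ g).2.trans ?_⟩)
      (fun g => (hdense g).imp fun _ h => h.trans h1) le_rfl
    · exact mul_le_mul_of_nonneg_right h1 (Nat.cast_nonneg _)
    · exact mul_le_mul_of_nonneg_right h1 (Nat.cast_nonneg _)
  have hC0 : 0 ≤ C := by linarith
  have hmul : ∀ g h : G, (wordLength Q (g * h) : ℝ) ≤ wordLength Q g + wordLength Q h := fun g h => by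
    exact_mod_cast wl_mul_le hQ g h
  have hF1 : (wordLength Q (F 1) : ℝ) ≤ 0 := by
    have h1 : R 1 (F 1) = 1 := by
      have := hF 1 1
      rw [mul_one] at this
      exact (mul_eq_left.1 this.symm)
    have := (hR 1 (F 1)).2
    rwa [h1, wl_one, Nat.cast_zero, mul_zero] at this
  have hdiff : ∀ γ γ', (F γ)⁻¹ * F γ' = R γ (F (γ⁻¹ * γ')) := fun γ γ' => by
    rw [inv_mul_eq_iff_eq_mul, ← hF, mul_inv_cancel_left]
  obtain ⟨M, hM0, hM⟩ : ∃ M : ℝ, 0 ≤ M ∧ ∀ s, (s ∈ (S : Set Γ) ∨ s⁻¹ ∈ (S : Set Γ)) →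
      (wordLength Q (F s) : ℝ) ≤ M := by
    obtain ⟨M, hM⟩ := ((S.finite_toSet.union S.finite_toSet.inv).image
      fun s => wordLength Q (F s)).bddAbove
    exact ⟨M, Nat.cast_nonneg _, fun s hs => by
      exact_mod_cast hM (Set.mem_image_of_mem _ (by simpa using hs))⟩
  have hup : ∀ δ, (wordLength Q (F δ) : ℝ) ≤ C * M * wordLength (S : Set Γ) δ := by
    intro δ
    obtain ⟨l, h1, h2, rfl⟩ := wl_exists_list hS δ
    rw [← h1]
    clear h1
    induction l using List.reverseRecOn with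
    | nil => simpa using hF1
    | append_singleton l s ih =>
      have h3 := ih fun x hx => h2 x (List.mem_append_left _ hx)
      have h4 := hM s (h2 s (by simp))
      rw [List.prod_append, List.prod_singleton, hF, List.length_append, List.length_singleton]
      have h5 := hmul (F l.prod) (R l.prod (F s))
      have h6 := (hR l.prod (F s)).1
      have h7 := mul_le_mul_of_nonneg_left h4 hC0
      push_cast
      linarith
  obtain ⟨L, hL0, hL⟩ : ∃ L : ℝ, 0 ≤ L ∧ ∀ δ, (wordLength Q (F δ) : ℝ) ≤ C * (2 * C + 1) →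
      (wordLength (S : Set Γ) δ : ℝ) ≤ L := by
    obtain ⟨L, hL⟩ := ((hprop (C * (2 * C + 1))).image fun s => wordLength (S : Set Γ) s).bddAbove
    exact ⟨L, Nat.cast_nonneg _, fun s hs => by exact_mod_cast hL (Set.mem_image_of_mem _ hs)⟩
  have hlow0 : ∀ l : List G, (∀ x ∈ l, x ∈ Q ∨ x⁻¹ ∈ Q) → ∀ δ,
      (wordLength Q ((F δ)⁻¹ * l.prod) : ℝ) ≤ C →
      (wordLength (S : Set Γ) δ : ℝ) ≤ L * (l.length + 1) := by
    intro l
    induction l using List.reverseRecOn with
    | nil =>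
      intro _ δ h
      rw [List.prod_nil, mul_one, wl_inv hQ] at h
      have := hL δ (by nlinarith)
      simpa using this
    | append_singleton l q ih =>
      intro hl δ h
      obtain ⟨δ', hδ'⟩ := hdense l.prod
      have h1 := ih (fun x hx => hl x (List.mem_append_left _ hx)) δ' hδ'
      rw [List.prod_append, List.prod_singleton] at h
      have hq : (wordLength Q q : ℝ) ≤ 1 := by
        have := wl_le_length (Q := Q) (l := [q]) (fun x hx => hl x (List.mem_append_right _ hx))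
        simp only [List.prod_singleton, List.length_singleton] at this
        exact_mod_cast this
      have h2 : (wordLength Q ((F δ')⁻¹ * F δ) : ℝ) ≤ 2 * C + 1 := by
        have e : (F δ')⁻¹ * F δ = ((F δ')⁻¹ * l.prod * q) * ((F δ)⁻¹ * (l.prod * q))⁻¹ := by group
        have h3 := hmul ((F δ')⁻¹ * l.prod * q) ((F δ)⁻¹ * (l.prod * q))⁻¹
        have h4 := hmul ((F δ')⁻¹ * l.prod) q
        rw [wl_inv hQ, ← e] at h3
        linarith
      rw [hdiff] at h2
      have h3 := hL (δ'⁻¹ * δ) ((hR δ' _).2.trans (mul_le_mul_of_nonneg_left h2 hC0))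
      have h4 : (wordLength (S : Set Γ) δ : ℝ) ≤
          wordLength (S : Set Γ) δ' + wordLength (S : Set Γ) (δ'⁻¹ * δ) := by
        have := wl_mul_le hS δ' (δ'⁻¹ * δ)
        rw [mul_inv_cancel_left] at this
        exact_mod_cast this
      rw [List.length_append, List.length_singleton]
      push_cast
      linarith
  have hlow : ∀ δ, (wordLength (S : Set Γ) δ : ℝ) ≤ L * (wordLength Q (F δ) + 1) := by
    intro δ
    obtain ⟨l, h1, h2, h3⟩ := wl_exists_list hQ (F δ)
    rw [← h1]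
    refine hlow0 l h2 δ ?_
    rw [h3, inv_mul_cancel, wl_one, Nat.cast_zero]
    exact hC0
  have hCM : 0 ≤ C * C * M := by positivity
  have hLC : 0 ≤ L * C := by positivity
  have hK : 0 < 1 + C * C * M + L * C := by positivity
  refine ⟨1 + C * C * M + L * C, C, by linarith, hC0, fun γ γ' => ?_, fun g => ?_⟩
  · simp only [wordDist]
    rw [hdiff]
    have h1 := hR γ (F (γ⁻¹ * γ'))
    have h2 := hup (γ⁻¹ * γ')
    have h3 := hlow (γ⁻¹ * γ')
    have a0 : (0 : ℝ) ≤ wordLength (S : Set Γ) (γ⁻¹ * γ') := Nat.cast_nonneg _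
    have b0 : (0 : ℝ) ≤ wordLength Q (R γ (F (γ⁻¹ * γ'))) := Nat.cast_nonneg _
    generalize (wordLength (S : Set Γ) (γ⁻¹ * γ') : ℝ) = a at *
    generalize (wordLength Q (R γ (F (γ⁻¹ * γ'))) : ℝ) = b at *
    generalize (wordLength Q (F (γ⁻¹ * γ')) : ℝ) = c at *
    constructor
    · rw [sub_le_iff_le_add, inv_mul_le_iff₀ hK]
      have h4 := mul_le_mul_of_nonneg_left h1.2 hL0
      have h5 : L ≤ L * C * C := by
        have : 1 ≤ C * C := by nlinarith
        nlinarith
      nlinarith [mul_nonneg hCM b0, mul_nonneg hCM hC0]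
    · have h4 := mul_le_mul_of_nonneg_left h2 hC0
      nlinarith [mul_nonneg hLC a0]
  · obtain ⟨γ, hγ⟩ := hdense g
    refine ⟨γ, ?_⟩
    simp only [wordDist]
    rwa [← wl_inv hQ, mul_inv_rev, inv_inv]

theorem qi_comp {X Y Z : Type*} {dX : X → X → ℝ} {dY : Y → Y → ℝ} {dZ : Z → Z → ℝ} {f : X → Y}
    {g : Y → Z} (hX : ∀ a b, 0 ≤ dX a b) (hZ : ∀ a b c, dZ a c ≤ dZ a b + dZ b c)
    (hf : IsQuasiIsometry dX dY f) (hg : IsQuasiIsometry dY dZ g) :
    IsQuasiIsometry dX dZ (g ∘ f) := by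
  obtain ⟨K, C, hK, hC, h1, h2⟩ := hf
  obtain ⟨K', C', hK', hC', h1', h2'⟩ := hg
  have hK0 : 0 < K := by linarith
  have hK0' : 0 < K' := by linarith
  have hKC : C ≤ K' * C := le_mul_of_one_le_left hC hK'
  refine ⟨K * K', K' * C + 2 * C', one_le_mul_of_one_le_of_one_le hK hK', by positivity,
    fun x x' => ⟨?_, ?_⟩, fun z => ?_⟩
  · have a := (h1 x x').1
    have b := (h1' (f x) (f x')).1
    have hi : 0 ≤ K'⁻¹ := by positivity
    have hi1 : K'⁻¹ ≤ 1 := inv_le_one_of_one_le₀ hK'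
    have c := mul_le_mul_of_nonneg_left a hi
    have d : K'⁻¹ * C ≤ C := mul_le_of_le_one_left hC hi1
    simp only [Function.comp_apply]
    rw [mul_inv]
    nlinarith
  · have a := (h1 x x').2
    have b := (h1' (f x) (f x')).2
    have c := mul_le_mul_of_nonneg_left a hK0'.le
    simp only [Function.comp_apply]
    nlinarith
  · obtain ⟨y, hy⟩ := h2' z
    obtain ⟨x, hx⟩ := h2 y
    refine ⟨x, ?_⟩
    have a := hZ z (g y) (g (f x))
    have b := (h1' y (f x)).2
    have c := mul_le_mul_of_nonneg_left hx hK0'.le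
    simp only [Function.comp_apply]
    linarith

theorem qi_inverse {X Y : Type*} {dX : X → X → ℝ} {dY : Y → Y → ℝ} {f : X → Y}
    (hY0 : ∀ a b, 0 ≤ dY a b) (hY1 : ∀ a b, dY a b = dY b a)
    (hY2 : ∀ a b c, dY a c ≤ dY a b + dY b c) (hf : IsQuasiIsometry dX dY f) :
    ∃ g : Y → X, IsQuasiIsometry dY dX g := by
  obtain ⟨K, C, hK, hC, h1, h2⟩ := hf
  choose g hg using h2
  have hK0 : 0 < K := by linarith
  have hKC : C ≤ K * C := le_mul_of_one_le_left hC hK
  refine ⟨g, K, 3 * (K * C), hK, by positivity, fun y y' => ⟨?_, ?_⟩, fun x => ⟨f x, ?_⟩⟩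
  · have a := (h1 (g y) (g y')).2
    have b := hY2 y (f (g y)) y'
    have c := hY2 (f (g y)) (f (g y')) y'
    have d := hg y
    have e := hg y'
    rw [hY1] at e
    rw [sub_le_iff_le_add, inv_mul_le_iff₀ hK0]
    have : K * C ≤ K * (K * C) := mul_le_mul_of_nonneg_left hKC hK0.le
    nlinarith
  · have a := (h1 (g y) (g y')).1
    have b := hY2 (f (g y)) y (f (g y'))
    have c := hY2 y y' (f (g y'))
    have d := hg y
    have e := hg y'
    rw [hY1] at d
    rw [sub_le_iff_le_add, inv_mul_le_iff₀ hK0] at a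
    have : dY (f (g y)) (f (g y')) + C ≤ dY y y' + 3 * C := by linarith
    have := mul_le_mul_of_nonneg_left this hK0.le
    linarith
  · have a := (h1 x (g (f x))).1
    have d := hg (f x)
    rw [sub_le_iff_le_add, inv_mul_le_iff₀ hK0] at a
    have : dY (f x) (f (g (f x))) + C ≤ 2 * C := by linarith
    have := mul_le_mul_of_nonneg_left this hK0.le
    nlinarith

/-- `svarc_milnor` for the inclusion `Γ → P` (`R = id`), then `qi_inverse` -/
theorem qi_finiteIndex {P : Type*} [Group P] (S : Finset P) (hS : Subgroup.closure (S : Set P) = ⊤)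
    (Γ : Subgroup P) [Γ.FiniteIndex] (S₁ : Finset Γ) (hS₁ : Subgroup.closure (S₁ : Set Γ) = ⊤) :
    ∃ f : P → Γ, IsQuasiIsometry (wordDist (S : Set P)) (wordDist (S₁ : Set Γ)) f := by
  obtain ⟨M, hM⟩ := (Set.finite_range fun q : P ⧸ Γ => wordLength (S : Set P) q.out⁻¹).bddAbove
  have h := svarc_milnor S₁ hS₁ (S : Set P) hS (Subtype.val : Γ → P) (fun _ => MonoidHom.id P)
    (fun _ _ => rfl) (M + 1) (fun γ g => ?_) (fun g => ?_) (fun r => ?_)
  · refine qi_inverse (fun _ _ => Nat.cast_nonneg _) (fun a b => ?_) (fun a b c => ?_) h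
    · simp only [wordDist]
      rw [← wl_inv hS, mul_inv_rev, inv_inv]
    · simp only [wordDist]
      have := wl_mul_le hS (a⁻¹ * b) (b⁻¹ * c)
      rw [mul_assoc, mul_inv_cancel_left] at this
      exact_mod_cast this
  · have : (wordLength (S : Set P) g : ℝ) ≤ (M + 1) * wordLength (S : Set P) g :=
      le_mul_of_one_le_left (Nat.cast_nonneg _) (by linarith [(Nat.cast_nonneg M : (0 : ℝ) ≤ M)])
    exact ⟨this, this⟩
  · have h1 : ((g⁻¹ : P) : P ⧸ Γ).out⁻¹ * g⁻¹ ∈ Γ := QuotientGroup.eq.1 (QuotientGroup.out_eq' _)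
    refine ⟨⟨_, Γ.inv_mem h1⟩, ?_⟩
    have h2 : wordLength (S : Set P) ((g⁻¹ : P) : P ⧸ Γ).out⁻¹ ≤ M := hM (Set.mem_range_self _)
    have h3 : (wordLength (S : Set P) ((g⁻¹ : P) : P ⧸ Γ).out⁻¹ : ℝ) ≤ M := by exact_mod_cast h2
    simp only [inv_inv, inv_mul_cancel_right]
    linarith
  · exact (wl_finite hS S.finite_toSet r).preimage Subtype.val_injective.injOn

end Crest.Agent.R182.B
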