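import Crest.Agent.R182.BModel
import Crest.Agent.R182.BSM

/-!
Row 182, part B, task `R182/BFinal`: the twisted cocycle is a quasi-isometry onto the model
group.
-/

set_option autoImplicit false

namespace Crest.Agent.R182.B

open scoped BigOperators
open Polynomial
open Crest.GroupTheory Crest.Geometry

theorem bfin_add {d k : ℕ} (wt : Fin d → (Fin k → ℝ) →ₗ[ℝ] ℝ) (v w : Fin k → ℝ) (x : Fin d → ℝ) :
    diagτ wt (v + w) x = diagτ wt v (diagτ wt w x) := by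
  ext i
  simp [diagτ, Real.exp_add, mul_assoc]

theorem bfin_zero {d k : ℕ} (wt : Fin d → (Fin k → ℝ) →ₗ[ℝ] ℝ) (x : Fin d → ℝ) :
    diagτ wt 0 x = x := by
  ext i
  simp [diagτ]

theorem bfin_φ_mul {E : Type} [AddCommGroup E] [Module ℝ E] {k : ℕ} {Γ : Type*} [Group Γ]
    (T : TW E k Γ) (x y : E) : T.φ (T.nl.mul x y) = T.φ x + T.φ y := by
  have h1 : T.nl.lcs 1 ≤ LinearMap.ker T.φ := by
    rw [show T.nl.lcs 1 = Submodule.span ℝ {z | ∃ x, ∃ y ∈ T.nl.lcs 0, z = T.nl.br x y} from rfl,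
      Submodule.span_le]
    rintro z ⟨x, y, -, rfl⟩
    exact T.φ_br x y
  have := LinearMap.mem_ker.1 (h1 (T.nl.mul_sub_add_mem_lcs x y))
  rw [map_sub, map_add, sub_eq_zero] at this
  exact this

/-- homomorphisms that are uniformly bounded on `Q` are uniformly Lipschitz -/
theorem bfin_lip {d k : ℕ} (M : Model d k) (f : M.G →* M.G) {C : ℝ}
    (hf : ∀ q ∈ M.Q, M.len (f q) ≤ C) (g : M.G) : M.len (f g) ≤ C * M.len g := by
  obtain ⟨l, h1, h2, rfl⟩ := M.exists_list g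
  rw [← h1, map_list_prod]
  refine (M.len_list_prod_le _).trans ?_
  have := List.sum_le_card_nsmul ((l.map f).map M.len) C (by
    intro x hx
    simp only [List.map_map, List.mem_map, Function.comp_apply] at hx
    obtain ⟨q, hq, rfl⟩ := hx
    exact hf q (h2 q hq))
  simpa [mul_comm] using this

/-- `svarc_milnor` with `F γ = M.ofE (X γ)`, `R γ = R_{π γ}`, `R_m x = S m (diagτ wt (-toR m) x)` (a
homomorphism of `M.G`: `toE (x * y) = toE x • diagτ wt (φ x) (toE y)`; `S m` and `diagτ` preserve `mul`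
(`NL.map_mul`) and `φ`, and commute; `R_{m⁻¹}` is inverse to `R_m`).  Lipschitz: `‖R_m q‖ ≤ C` for
`q ∈ Q`, so `len (R_m q) ≤ C'` (`Model.len_le_of_norm`), and `Model.exists_list`, `len_list_prod_le`.
Properness: `Model.isCompact_ball` (bounded norm) and `TW.proper`.  Density: `ht₀ g = T.φ (toE g)` is
a homomorphism on `M.G`, preserved by the `R_m`.  Given `g` take `m = ⌊ht₀ g⌋`, `γ₀` with `π γ₀ = m`,
`g₂ = R_{m⁻¹} ((F γ₀)⁻¹ g)`, `v = ht₀ g₂ ∈ [0,1]^k`, a linear section `σ` of `T.φ`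
(`LinearMap.exists_rightInverse_of_surjective`), `g₃ = g₂ (ofE (σ v))⁻¹` with `ht₀ g₃ = 0`, `h` from
`TW.span_and_cocompact`: `(F h)⁻¹ g₃ = ofE ((-X h) • toE g₃)` has bounded length.  Then
`(F (γ₀ h))⁻¹ g = R_m ((F h)⁻¹ g₃ * ofE (σ v))`. -/
theorem Adapted.qi {d k : ℕ} {Γ : Type*} [Group Γ] {T : TW (Fin d → ℝ) k Γ}
    {wt : Fin d → (Fin k → ℝ) →ₗ[ℝ] ℝ} (h : Adapted T wt) {k' : ℕ} (M : Model d k')
    (hnl : M.nl = T.nl) (hτ : ∀ x y, M.τ (M.φ x) y = diagτ wt (T.φ x) y) (S : Finset Γ)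
    (hS : Subgroup.closure (S : Set Γ) = ⊤) :
    IsQuasiIsometry (wordDist (S : Set Γ)) (wordDist M.Q) fun γ => M.ofE (T.X γ) := by
  have hmul : ∀ x y : M.G, M.toE (x * y) =
      T.nl.mul (M.toE x) (diagτ wt (T.φ (M.toE x)) (M.toE y)) := fun x y => by
    rw [M.toE_mul, hτ, hnl]
  have hD : ∀ v x y, diagτ wt v (T.nl.mul x y) = T.nl.mul (diagτ wt v x) (diagτ wt v y) :=
    fun v => T.nl.map_mul T.nl (diagτ wt v) fun x y => (h.τ_br v x y).symm
  obtain ⟨R, hR⟩ : ∃ R : Zk k → M.G →* M.G,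
      ∀ m x, M.toE (R m x) = T.S m (diagτ wt (-toR m) (M.toE x)) := by
    refine ⟨fun m => MonoidHom.mk' (fun x => M.ofE (T.S m (diagτ wt (-toR m) (M.toE x))))
      fun x y => M.toE_injective ?_, fun m x => rfl⟩
    rw [hmul, hmul, M.toE_ofE, M.toE_ofE, M.toE_ofE, hD, T.S_mul, T.φ_S, h.φ_τ, ← h.S_τ,
      ← bfin_add, ← bfin_add, add_comm]
  have hRinv : ∀ m x, R m⁻¹ (R m x) = x := fun m x => M.toE_injective (by
    rw [hR, hR, ← h.S_τ, ← bfin_add, toR_inv, neg_neg, add_neg_cancel, bfin_zero,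
      ← Module.End.mul_apply, ← map_mul, inv_mul_cancel, map_one, Module.End.one_apply])
  have hRinv' : ∀ m x, R m (R m⁻¹ x) = x := fun m x => by
    have := hRinv m⁻¹ x
    rwa [inv_inv] at this
  have hF : ∀ γ γ', M.ofE (T.X (γ * γ')) = M.ofE (T.X γ) * R (T.π γ) (M.ofE (T.X γ')) :=
    fun γ γ' => M.toE_injective (by
      rw [hmul, hR, M.toE_ofE, M.toE_ofE, M.toE_ofE, T.X_mul, T.φ_X, ← h.S_τ, ← bfin_add,
        add_neg_cancel, bfin_zero])
  obtain ⟨C₀, hC₀⟩ := h.bdd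
  obtain ⟨C₁, hC₁⟩ := M.len_le_of_norm (max C₀ 0)
  have hlip : ∀ m g, M.len (R m g) ≤ C₁ * M.len g := fun m => bfin_lip M (R m) fun q hq => hC₁ _ (by
    rw [hR]
    refine (hC₀ m _).trans ?_
    calc C₀ * ‖M.toE q‖ ≤ max C₀ 0 * ‖M.toE q‖ :=
          mul_le_mul_of_nonneg_right (le_max_left _ _) (norm_nonneg _)
      _ ≤ max C₀ 0 := mul_le_of_le_one_right (le_max_right _ _) hq.1)
  have hC₁0 : 0 ≤ C₁ := (M.len_nonneg 1).trans (hC₁ 1 (by simp))
  have ht_mul : ∀ x y : M.G, T.φ (M.toE (x * y)) = T.φ (M.toE x) + T.φ (M.toE y) := fun x y => by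
    rw [hmul, bfin_φ_mul, h.φ_τ]
  have ht_inv : ∀ x : M.G, T.φ (M.toE x⁻¹) = -T.φ (M.toE x) := fun x => by
    have := ht_mul x⁻¹ x
    rw [inv_mul_cancel, M.toE_one, map_zero] at this
    exact eq_neg_of_add_eq_zero_left this.symm
  have ht_R : ∀ m x, T.φ (M.toE (R m x)) = T.φ (M.toE x) := fun m x => by
    rw [hR, T.φ_S, h.φ_τ]
  obtain ⟨σ, hσ⟩ := T.φ.exists_rightInverse_of_surjective (LinearMap.range_eq_top.2 T.φ_surj)
  have hσ' : ∀ v, T.φ (σ v) = v := fun v => LinearMap.congr_fun hσ v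
  obtain ⟨-, C₂, hC₂⟩ := T.span_and_cocompact
  obtain ⟨C₃, hC₃⟩ := M.len_le_of_norm C₂
  obtain ⟨C₄, hC₄⟩ := M.len_le_of_norm ‖LinearMap.toContinuousLinearMap σ‖
  refine svarc_milnor S hS M.Q M.closure_Q _ (fun γ => R (T.π γ)) hF (max C₁ (C₁ * (C₃ + C₄)))
    (fun γ g => ⟨?_, ?_⟩) (fun g => ?_) (fun r => ?_)
  · exact (hlip _ g).trans (mul_le_mul_of_nonneg_right (le_max_left _ _) (M.len_nonneg _))
  · have := hlip (T.π γ)⁻¹ (R (T.π γ) g)
    rw [hRinv] at this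
    exact this.trans (mul_le_mul_of_nonneg_right (le_max_left _ _) (M.len_nonneg _))
  · obtain ⟨γ₀, hγ₀⟩ := T.π_surj (Multiplicative.ofAdd fun i => ⌊T.φ (M.toE g) i⌋)
    set g₂ : M.G := R (T.π γ₀)⁻¹ ((M.ofE (T.X γ₀))⁻¹ * g) with hg₂
    set v : Fin k → ℝ := T.φ (M.toE g₂) with hv
    have hv1 : ‖v‖ ≤ 1 := by
      rw [pi_norm_le_iff_of_nonneg zero_le_one]
      intro i
      have : v i = Int.fract (T.φ (M.toE g) i) := by
        rw [hv, hg₂, ht_R, ht_mul, ht_inv, M.toE_ofE, T.φ_X, hγ₀]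
        simp only [Pi.add_apply, Pi.neg_apply, toR, toAdd_ofAdd, Int.fract]
        ring
      rw [this, Real.norm_of_nonneg (Int.fract_nonneg _)]
      exact (Int.fract_lt_one _).le
    set g₃ : M.G := g₂ * (M.ofE (σ v))⁻¹ with hg₃
    obtain ⟨η, hη, hb⟩ := hC₂ (M.toE g₃) (by
      rw [hg₃, ht_mul, ht_inv, M.toE_ofE, hσ', ← hv, add_neg_cancel])
    have e1 : (M.ofE (T.X η))⁻¹ * g₃ = M.ofE (T.nl.mul (-T.X η) (M.toE g₃)) := by
      rw [inv_mul_eq_iff_eq_mul]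
      apply M.toE_injective
      rw [hmul (M.ofE (T.X η)), M.toE_ofE, M.toE_ofE, T.φ_X, hη, toR_one, bfin_zero,
        ← T.nl.mul_assoc', T.nl.mul_neg', T.nl.zero_mul']
    have e2 : (M.ofE (T.X (γ₀ * η)))⁻¹ * g =
        R (T.π γ₀) ((M.ofE (T.X η))⁻¹ * g₃ * M.ofE (σ v)) := by
      rw [hF, hg₃, mul_assoc, inv_mul_cancel_right, map_mul, map_inv, hg₂, hRinv', mul_inv_rev,
        mul_assoc]
    refine ⟨γ₀ * η, le_trans ?_ (le_max_right _ _)⟩
    rw [e2]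
    refine (hlip _ _).trans (mul_le_mul_of_nonneg_left ((M.len_mul_le _ _).trans
      (add_le_add ?_ (hC₄ _ ?_))) hC₁0)
    · rw [e1]
      exact hC₃ _ hb
    · exact ((LinearMap.toContinuousLinearMap σ).le_opNorm v).trans
        (mul_le_of_le_one_right (norm_nonneg _) hv1)
  · obtain ⟨ρ, hρ⟩ := ((M.isCompact_ball r).image M.continuous_toE).isBounded.exists_norm_le
    exact (T.proper ρ).subset fun γ hγ => hρ _ ⟨M.ofE (T.X γ), hγ, rfl⟩

end Crest.Agent.R182.B
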