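import Crest.Agent.R182.BDefs

/-!
Row 182, part B, task `R182/BJor`: the Jordan decomposition of invertible real matrices.
Mathlib: `Module.End.exists_isNilpotent_isSemisimple`, `Module.End.isNilpotent_isSemisimple_unique`,
`Module.End.isSemisimple_of_squarefree_aeval_eq_zero`, `IsSemisimple.minpoly_squarefree`,
`IsSemisimple.mul_of_commute`; pass between `Mat n` and `Module.End ℝ (Fin n → ℝ)` with
`Matrix.toLinAlgEquiv'`.
-/

set_option autoImplicit false

namespace Crest.Agent.R182.B

open scoped BigOperators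
open Polynomial

theorem ss_iff {V : Type*} [AddCommGroup V] [Module ℝ V] [FiniteDimensional ℝ V]
    {f : Module.End ℝ V} : SS f ↔ f.IsSemisimple := by
  constructor
  · rintro ⟨p, hp, h⟩
    exact Module.End.isSemisimple_of_squarefree_aeval_eq_zero hp h
  · intro h
    exact ⟨minpoly ℝ f, h.minpoly_squarefree, minpoly.aeval ℝ f⟩

theorem SS.map {A A' : Type*} [Ring A] [Algebra ℝ A] [Ring A'] [Algebra ℝ A'] {a : A} (h : SS a)
    (f : A →ₐ[ℝ] A') : SS (f a) := by
  obtain ⟨p, hp, h⟩ := h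
  exact ⟨p, hp, by rw [aeval_algHom_apply, h, map_zero]⟩

theorem jor_ss_of_map {A A' : Type*} [Ring A] [Algebra ℝ A] [Ring A'] [Algebra ℝ A'] {a : A}
    (f : A →ₐ[ℝ] A') (hf : Function.Injective f) (h : SS (f a)) : SS a := by
  obtain ⟨p, hp, h⟩ := h
  exact ⟨p, hp, hf (by rw [← aeval_algHom_apply, h, map_zero])⟩

/-- matrices as endomorphisms -/
noncomputable def jorF (n : ℕ) : Mat n →ₐ[ℝ] Module.End ℝ (Fin n → ℝ) :=
  (Matrix.toLinAlgEquiv' : Mat n ≃ₐ[ℝ] _).toAlgHom

theorem jorF_inj (n : ℕ) : Function.Injective (jorF n) := Matrix.toLinAlgEquiv'.injective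

theorem jor_ss_iff {n : ℕ} {s : Mat n} : SS s ↔ (jorF n s).IsSemisimple :=
  ⟨fun h => ss_iff.1 (h.map _), fun h => jor_ss_of_map _ (jorF_inj n) (ss_iff.2 h)⟩

theorem jor_onto {V : Type*} [AddCommGroup V] [Module ℝ V] [FiniteDimensional ℝ V]
    {f : Module.End ℝ V} (hf : Function.Injective f) {T : Submodule ℝ V} (hT : ∀ x ∈ T, f x ∈ T)
    {x : V} (hx : x ∈ T) : ∃ y ∈ T, f y = x := by
  have h1 : Function.Injective (f.restrict hT) := fun a b e =>
    Subtype.ext (hf (congrArg Subtype.val e))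
  obtain ⟨y, hy⟩ := LinearMap.surjective_of_injective h1 ⟨x, hx⟩
  exact ⟨y, y.2, congrArg Subtype.val hy⟩

theorem jor_ss_mulRight {A : Type*} [Ring A] [Algebra ℝ A] {a : A} (h : SS a) :
    SS (LinearMap.mulRight ℝ a : Module.End ℝ A) := by
  obtain ⟨p, hp, h⟩ := h
  have key : ∀ q : ℝ[X], aeval (LinearMap.mulRight ℝ a : Module.End ℝ A) q =
      LinearMap.mulRight ℝ (aeval a q) := by
    intro q
    induction q using Polynomial.induction_on' with
    | add p q hp hq =>
      rw [map_add, map_add, hp, hq]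
      ext x
      simp [mul_add]
    | monomial k c =>
      rw [aeval_monomial, aeval_monomial, LinearMap.pow_mulRight, ← Algebra.smul_def,
        ← Algebra.smul_def]
      ext x
      simp
  refine ⟨p, hp, ?_⟩
  rw [key, h]
  ext x
  simp

/-- one may assume that `1` is a root (multiply by `X - 1` otherwise) -/
theorem SS.exists_root_one {A : Type*} [Ring A] [Algebra ℝ A] {a : A} (h : SS a) :
    ∃ p : ℝ[X], Squarefree p ∧ p.eval 1 = 0 ∧ aeval a p = 0 := by
  obtain ⟨p, hp, h⟩ := h
  by_cases h1 : p.eval 1 = 0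
  · exact ⟨p, hp, h1, h⟩
  have hirr : Irreducible (X - C (1 : ℝ)) := irreducible_X_sub_C 1
  refine ⟨(X - C 1) * p, squarefree_mul_iff.2 ⟨?_, hirr.squarefree, hp⟩, by simp, by
    rw [map_mul, h, mul_zero]⟩
  rw [hirr.isRelPrime_iff_not_dvd, dvd_iff_isRoot]
  exact h1

/-- conjugates of semisimple matrices are semisimple -/
theorem SS.conj {n : ℕ} {s : Mat n} (h : SS s) (g : (Mat n)ˣ) :
    SS ((g : Mat n) * s * ((g⁻¹ : (Mat n)ˣ) : Mat n)) := by
  have := h.map (AlgHom.ofLinearMap (conjE g) (by rw [conjE_apply, mul_one, Units.mul_inv])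
    (fun x y => by simp only [conjE_apply, mul_assoc, Units.inv_mul_cancel_left]))
  rwa [AlgHom.ofLinearMap_apply, conjE_apply] at this

/-- the inverse is a polynomial in `s` (`IsSemisimple.of_mem_adjoin_singleton`, or use
`p.reverse`) -/
theorem SS.inv {n : ℕ} {s : (Mat n)ˣ} (h : SS (s : Mat n)) : SS ((s⁻¹ : (Mat n)ˣ) : Mat n) := by
  have hinj : Function.Injective (LinearMap.mulLeft ℝ (s : Mat n)) := fun a b e =>
    (Units.mul_right_inj s).1 e
  obtain ⟨y, hy, e⟩ := jor_onto hinj (T := (Algebra.adjoin ℝ {(s : Mat n)}).toSubmodule)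
    (fun x hx => Subalgebra.mul_mem _ (Algebra.self_mem_adjoin_singleton ℝ _) hx)
    (Subalgebra.one_mem _)
  have e' : ((s⁻¹ : (Mat n)ˣ) : Mat n) = y := Units.inv_eq_of_mul_eq_one_right e
  rw [Subalgebra.mem_toSubmodule, Algebra.adjoin_singleton_eq_range_aeval] at hy
  obtain ⟨q, hq⟩ := hy
  have hq' : aeval (s : Mat n) q = y := hq
  rw [e', ← hq', jor_ss_iff, ← aeval_algHom_apply]
  exact (jor_ss_iff.1 h).aeval q

/-- `mulLeft s` and `mulRight s⁻¹` are killed by squarefree polynomials and commute -/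
theorem SS.conjE {n : ℕ} {s : (Mat n)ˣ} (h : SS (s : Mat n)) : SS (conjE s) := by
  have h1 : Module.End.IsSemisimple (LinearMap.mulLeft ℝ (s : Mat n)) :=
    ss_iff.1 (h.map (Algebra.lmul ℝ (Mat n)))
  exact ss_iff.2 (Module.End.IsSemisimple.mul_of_commute (LinearMap.commute_mulLeft_right _ _) h1
    (ss_iff.1 (jor_ss_mulRight h.inv)))

/-- uniqueness of the semisimple part -/
theorem ss_unique {n : ℕ} {c s s' : Mat n} (hs : SS s) (hs' : SS s') (hc : Commute s c)
    (hc' : Commute s' c) (hn : IsNilpotent (c - s)) (hn' : IsNilpotent (c - s')) : s = s' := by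
  refine jorF_inj n (Module.End.isNilpotent_isSemisimple_unique (hn.map (jorF n)) (jor_ss_iff.1 hs)
    (hn'.map (jorF n)) (jor_ss_iff.1 hs') ?_ ?_ ?_).2
  · exact (hc.symm.sub_left (Commute.refl s)).map _
  · exact (hc'.symm.sub_left (Commute.refl s')).map _
  · rw [← map_add, ← map_add, sub_add_cancel, sub_add_cancel]

theorem jor_commL {n : ℕ} {a b : Mat n} (h : Commute a b) :
    Commute (LinearMap.mulLeft ℝ a : Module.End ℝ (Mat n)) (LinearMap.mulLeft ℝ b) :=
  LinearMap.ext fun x => by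
    simp only [Module.End.mul_apply, LinearMap.mulLeft_apply, ← mul_assoc, h.eq]

theorem jor_commR {n : ℕ} {a b : Mat n} (h : Commute a b) :
    Commute (LinearMap.mulRight ℝ a : Module.End ℝ (Mat n)) (LinearMap.mulRight ℝ b) :=
  LinearMap.ext fun x => by
    simp only [Module.End.mul_apply, LinearMap.mulRight_apply, mul_assoc, h.eq]

theorem jor_commLR {n : ℕ} {a b a' b' : Mat n} (h : Commute a a') (h' : Commute b b') :
    Commute (LinearMap.mulLeft ℝ a * LinearMap.mulRight ℝ b : Module.End ℝ (Mat n))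
      (LinearMap.mulLeft ℝ a' * LinearMap.mulRight ℝ b') :=
  ((jor_commL h).mul_right (LinearMap.commute_mulLeft_right _ _)).mul_left
    ((LinearMap.commute_mulLeft_right _ _).symm.mul_right (jor_commR h'))

theorem jor_conj_nil {n : ℕ} {c s : (Mat n)ˣ} (hc : Commute (s : Mat n) c)
    (hn : IsNilpotent ((c : Mat n) - s)) : IsNilpotent (conjE c - conjE s) := by
  have hνs : Commute ((c : Mat n) - s) s := hc.symm.sub_left (Commute.refl _)
  have hνc : Commute ((c : Mat n) - s) c := (Commute.refl _).sub_left hc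
  have hii : Commute ((c⁻¹ : (Mat n)ˣ) : Mat n) ((s⁻¹ : (Mat n)ˣ) : Mat n) :=
    hc.symm.units_inv_left.units_inv_right
  have hμ : ((c⁻¹ : (Mat n)ˣ) : Mat n) - ((s⁻¹ : (Mat n)ˣ) : Mat n) =
      -(((c⁻¹ : (Mat n)ˣ) : Mat n) * (((c : Mat n) - s) * ((s⁻¹ : (Mat n)ˣ) : Mat n))) := by
    rw [sub_mul, Units.mul_inv, mul_sub, Units.inv_mul_cancel_left, mul_one, neg_sub]
  have hμn : IsNilpotent (((c⁻¹ : (Mat n)ˣ) : Mat n) - ((s⁻¹ : (Mat n)ˣ) : Mat n)) := by
    rw [hμ]
    exact ((hνc.units_inv_right.symm.mul_right hii).isNilpotent_mul_left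
      (hνs.units_inv_right.isNilpotent_mul_right hn)).neg
  have e : conjE c - conjE s =
      LinearMap.mulLeft ℝ ((c : Mat n) - s) * LinearMap.mulRight ℝ ((c⁻¹ : (Mat n)ˣ) : Mat n) +
        LinearMap.mulLeft ℝ (s : Mat n) *
          LinearMap.mulRight ℝ (((c⁻¹ : (Mat n)ˣ) : Mat n) - ((s⁻¹ : (Mat n)ˣ) : Mat n)) := by
    refine LinearMap.ext fun x => ?_
    simp only [LinearMap.sub_apply, conjE_apply, LinearMap.add_apply, Module.End.mul_apply,
      LinearMap.mulLeft_apply, LinearMap.mulRight_apply, sub_mul, mul_sub, mul_assoc]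
    abel
  rw [e]
  refine (jor_commLR hνs ((Commute.refl _).sub_right hii)).isNilpotent_add ?_ ?_
  · exact (LinearMap.commute_mulLeft_right _ _).isNilpotent_mul_right
      ((LinearMap.isNilpotent_mulLeft_iff _ _).2 hn)
  · exact (LinearMap.commute_mulLeft_right _ _).isNilpotent_mul_left
      ((LinearMap.isNilpotent_mulRight_iff _ _).2 hμn)

/-- `c = ν + s` with `ν, s ∈ adjoin {c}`; `s = c - ν` is a unit (`IsNilpotent.isUnit_sub..`), and
`s⁻¹ c - 1 = s⁻¹ ν`.  With `u = s⁻¹ c`: `conjE c = conjE s * conjE u`, `conjE u - 1` is nilpotent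
(`mulLeft u - 1`, `mulRight u⁻¹ - 1` are commuting nilpotents), so `conjE c - conjE s` is nilpotent
and commutes with the semisimple `conjE s`; by uniqueness `conjE s` is the semisimple part of
`conjE c`, hence lies in `adjoin {conjE c}`.  So `conjE s` preserves every `conjE c`-invariant
subspace `T`; it is injective and `T` is finite dimensional, so it maps `T` onto `T`.  If
`(conjE c - 1)^K w = 0` then `(conjE s - 1)^K' w = 0` (binomial formula / restrict to the generalised
eigenspace) and `IsFinitelySemisimple.maxGenEigenspace_eq_eigenspace` gives `conjE s w = w`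
(alternatively `Module.End.apply_eq_of_mem_of_comm_of_isFinitelySemisimple_of_isNil`). -/
theorem exists_jor {n : ℕ} (c : (Mat n)ˣ) : ∃ s : (Mat n)ˣ, Jor c s := by
  obtain ⟨ν, -, σ, hσ, hν, hσss, e⟩ :=
    Module.End.exists_isNilpotent_isSemisimple (f := jorF n (c : Mat n))
  rw [Algebra.adjoin_singleton_eq_range_aeval] at hσ
  obtain ⟨q, hq⟩ := hσ
  have hq' : jorF n (aeval (c : Mat n) q) = σ := by rw [← aeval_algHom_apply]; exact hq
  have hmem : aeval (c : Mat n) q ∈ Algebra.adjoin ℝ {(c : Mat n)} := by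
    rw [Algebra.adjoin_singleton_eq_range_aeval]
    exact ⟨q, rfl⟩
  have hcomm : ∀ a : Mat n, Commute a (c : Mat n) → Commute a (aeval (c : Mat n) q) :=
    fun a ha => Algebra.commute_of_mem_adjoin_singleton_of_commute hmem ha
  have hnil : IsNilpotent ((c : Mat n) - aeval (c : Mat n) q) := by
    obtain ⟨k, hk⟩ := hν
    refine ⟨k, jorF_inj n ?_⟩
    rw [map_pow, map_sub, hq', e, add_sub_cancel_right, hk, map_zero]
  have hss : SS (aeval (c : Mat n) q) := jor_ss_iff.2 (hq' ▸ hσss)
  have hu : IsUnit (aeval (c : Mat n) q) := by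
    have := hnil.neg.isUnit_add_left_of_commute c.isUnit
      ((Commute.refl _).sub_left (hcomm _ (Commute.refl _)).symm).neg_left
    simpa using this
  obtain ⟨s, hs⟩ := hu
  rw [← hs] at hcomm hnil hss
  have hc : Commute (s : Mat n) c := (hcomm _ (Commute.refl _)).symm
  have hE := jor_conj_nil hc hnil
  have hEc : Commute (conjE c) (conjE s) :=
    jor_commLR hc.symm hc.symm.units_inv_left.units_inv_right
  have hEs : (conjE s).IsSemisimple := ss_iff.1 hss.conjE
  refine ⟨s, hss, hcomm, ?_, fun T hT x hx => ?_, fun w K hw => ?_⟩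
  · have : ((s⁻¹ : (Mat n)ˣ) : Mat n) * (c : Mat n) - 1 =
        ((s⁻¹ : (Mat n)ˣ) : Mat n) * ((c : Mat n) - s) := by rw [mul_sub, Units.inv_mul]
    rw [this]
    exact (hc.symm.sub_left (Commute.refl _)).units_inv_right.symm.isNilpotent_mul_left hnil
  · obtain ⟨n₀, hn₀, s₀, hs₀, h1, h2, h3⟩ := Module.End.exists_isNilpotent_isSemisimple (f := conjE c)
    have h4 : Commute n₀ s₀ := Algebra.commute_of_mem_adjoin_singleton_of_commute hs₀
      (Algebra.commute_of_mem_adjoin_self hn₀).symm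
    have h5 : conjE s = s₀ := (Module.End.isNilpotent_isSemisimple_unique hE hEs h1 h2
      (hEc.sub_left (Commute.refl _)) h4 (by rw [sub_add_cancel, h3])).2
    rw [Algebra.adjoin_singleton_eq_range_aeval] at hs₀
    obtain ⟨r, hr⟩ := hs₀
    have hr' : aeval (conjE c) r = s₀ := hr
    have hT' : ∀ y ∈ T, conjE s y ∈ T := fun y hy => by
      rw [h5, ← hr']
      exact aeval_apply_smul_mem_of_le_comap hy r (conjE c) fun z hz => by
        rw [Submodule.mem_comap, conjE_apply]
        exact hT z hz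
    have hinj : Function.Injective (conjE s) := fun a b e => by
      rwa [conjE_apply, conjE_apply, Units.mul_left_inj, Units.mul_right_inj] at e
    refine ⟨by rw [← conjE_apply]; exact hT' x hx, ?_⟩
    obtain ⟨y, hy, rfl⟩ := jor_onto hinj hT' hx
    rw [conjE_apply]
    simpa [mul_assoc] using hy
  · have hm : w ∈ (conjE c).genEigenspace 1 (K : ℕ∞) := by
      rw [Module.End.mem_genEigenspace_nat, one_smul]
      exact hw
    have h1 := Module.End.apply_eq_of_mem_of_comm_of_isFinitelySemisimple_of_isNil hm hEc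
      hEs.isFinitelySemisimple hE
    rw [one_smul, conjE_apply, Units.mul_inv_eq_iff_eq_mul] at h1
    exact h1.symm

end Crest.Agent.R182.B
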