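import Crest.Agent.R182.BLog
import Crest.Agent.R182.BJor

/-!
Row 182, part B, task `R182/BFit`: `G = exp 𝔫 · Z_G(s)` for the semisimple part `s` of an element
of `G`.
-/

set_option autoImplicit false

namespace Crest.Agent.R182.B

open scoped BigOperators
open Polynomial

theorem fit_pow_restrict {E : Type*} [AddCommGroup E] [Module ℝ E] (τ : Module.End ℝ E)
    (T : Submodule ℝ E) (f : Module.End ℝ T) (hf : ∀ x : T, ((f x : T) : E) = τ x) (K : ℕ) (a : T) :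
    (((f ^ K) a : T) : E) = (τ ^ K) (a : E) := by
  induction K with
  | zero => simp
  | succ K ih => rw [pow_succ', pow_succ', Module.End.mul_apply, Module.End.mul_apply, hf, ih]

theorem fit_fitting {E : Type*} [AddCommGroup E] [Module ℝ E] [FiniteDimensional ℝ E]
    (τ : Module.End ℝ E) (T : Submodule ℝ E) (hT : ∀ x ∈ T, τ x ∈ T) {r : E} (hr : r ∈ T) :
    ∃ r0 : E, ∃ r' ∈ T, (∃ K : ℕ, (τ ^ K) r0 = 0) ∧ r = r0 + τ r' := by
  let f : Module.End ℝ T := τ.restrict hT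
  have hf : ∀ x : T, ((f x : T) : E) = τ x := fun _ => rfl
  obtain ⟨K, hK⟩ := Filter.eventually_atTop.1 f.eventually_codisjoint_ker_pow_range_pow
  have h := hK (K + 1) (Nat.le_succ K)
  have hm : (⟨r, hr⟩ : T) ∈ LinearMap.ker (f ^ (K + 1)) ⊔ LinearMap.range (f ^ (K + 1)) := by
    rw [codisjoint_iff.1 h]; trivial
  obtain ⟨a, ha, b, ⟨b', rfl⟩, hab⟩ := Submodule.mem_sup.1 hm
  refine ⟨a, ((f ^ K) b' : T), Subtype.mem _, ⟨K + 1, ?_⟩, ?_⟩
  · rw [← fit_pow_restrict τ T f hf, LinearMap.mem_ker.1 ha]; rfl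
  · have := congrArg Subtype.val hab
    rw [Submodule.coe_add, pow_succ', Module.End.mul_apply, hf] at this
    exact this.symm

theorem fit_lcs_inv {E : Type} [AddCommGroup E] [Module ℝ E] (N : NL E)
    (σ : Module.End ℝ E) (hσ : ∀ x y, σ (N.br x y) = N.br (σ x) (σ y)) (j : ℕ) :
    ∀ x ∈ N.lcs j, σ x ∈ N.lcs j := by
  induction j with
  | zero => intro x _; exact Submodule.mem_top
  | succ j ih =>
    intro x hx
    refine (Submodule.span_le (p := (N.lcs (j + 1)).comap σ)).2 ?_ hx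
    rintro _ ⟨a, b, hb, rfl⟩
    change σ (N.br a b) ∈ N.lcs (j + 1)
    rw [hσ]
    exact N.br_mem_lcs_succ _ (ih b hb)

/-- Let `E⁰ = {z | ∃ K, (σ - 1)^K z = 0}` (a submodule: `Module.End.maxGenEigenspace σ 1`) and
`w_x = (-x) • w • σ x`.  Induction on `j`: there is `x` with `w_x ∈ E⁰ ⊔ lcs j`.  Step: `w_x = z + r`,
`r ∈ lcs j`.  `lcs j` is `σ`-invariant and finite dimensional, so the ranges `(σ - 1)^K (lcs j)`
stabilise and `r = r⁰ + (σ - 1) r'`, `r' ∈ lcs j`, `r⁰ ∈ E⁰`.  With `x' = -r'`,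
`w_{x • x'} = (-x') • w_x • σ x'` (`NL.neg_mul_rev`, `NL.map_mul`, `mul_assoc'`) and
`(-x') • w_x • σ x' - (w_x + (σ - 1) x') ∈ lcs (j+1)` (`NL.mul_sub_mul_mem_lcs`).  End: `lcs N.m = ⊥`. -/
theorem fit {E : Type} [AddCommGroup E] [Module ℝ E] [FiniteDimensional ℝ E] (N : NL E)
    (σ : Module.End ℝ E) (hσ : ∀ x y, σ (N.br x y) = N.br (σ x) (σ y)) (w : E) :
    ∃ (x : E) (K : ℕ), ((σ - 1) ^ K) (N.mul (N.mul (-x) w) (σ x)) = 0 := by
  have key : ∀ j : ℕ, ∃ x z r : E, (∃ K : ℕ, ((σ - 1) ^ K) z = 0) ∧ r ∈ N.lcs j ∧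
      N.mul (N.mul (-x) w) (σ x) = z + r := by
    intro j
    induction j with
    | zero => exact ⟨0, 0, _, ⟨0, map_zero _⟩, Submodule.mem_top, (zero_add _).symm⟩
    | succ j ih =>
      obtain ⟨x, z, r, ⟨K, hK⟩, hr, hW⟩ := ih
      have hinv := fit_lcs_inv N σ hσ j
      obtain ⟨r0, r', hr', ⟨K', hK'⟩, hrr⟩ := fit_fitting (σ - 1) (N.lcs j)
        (fun a ha => by
          rw [LinearMap.sub_apply, Module.End.one_apply]
          exact Submodule.sub_mem _ (hinv a ha) ha) hr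
      obtain ⟨W, hWd⟩ : ∃ W, W = N.mul (N.mul (-x) w) (σ x) := ⟨_, rfl⟩
      have e : N.mul (N.mul (-N.mul x (-r')) w) (σ (N.mul x (-r'))) =
          N.mul (N.mul r' W) (σ (-r')) := by
        rw [N.neg_mul_rev, N.map_mul N σ hσ, neg_neg, hWd]
        simp only [N.mul_assoc']
      have h1 : N.mul r' W - N.mul 0 W - ((r' - 0) + (W - W)) ∈ N.lcs (j + 1) :=
        N.mul_sub_mul_mem_lcs (by simpa using hr') (by simp)
      rw [N.zero_mul', sub_zero, sub_self, add_zero] at h1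
      have h2 : N.mul r' W - W ∈ N.lcs j := by
        have := Submodule.add_mem _ (N.lcs_succ_le j h1) hr'
        rwa [sub_add_cancel] at this
      have h3 : N.mul (N.mul r' W) (σ (-r')) - N.mul W 0 - ((N.mul r' W - W) + (σ (-r') - 0)) ∈
          N.lcs (j + 1) :=
        N.mul_sub_mul_mem_lcs h2 (by
          rw [sub_zero]; exact hinv _ (Submodule.neg_mem _ hr'))
      rw [N.mul_zero', sub_zero] at h3
      refine ⟨N.mul x (-r'), z + r0, _, ⟨K + K', ?_⟩, Submodule.add_mem _ h3 h1, ?_⟩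
      · rw [map_add]
        conv_lhs =>
          congr
          · rw [add_comm, pow_add, Module.End.mul_apply, hK, map_zero]
          · rw [pow_add, Module.End.mul_apply, hK', map_zero]
        exact add_zero _
      · rw [e]
        have hW' : W = z + (r0 + (σ r' - r')) := by
          rw [hWd, hW, hrr, LinearMap.sub_apply, Module.End.one_apply]
        rw [map_neg]
        generalize N.mul (N.mul r' W) (-σ r') = A
        generalize N.mul r' W = B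
        rw [hW']
        abel
  obtain ⟨x, z, r, ⟨K, hK⟩, hr, hW⟩ := key N.m
  rw [N.lcs_eq_bot, Submodule.mem_bot] at hr
  exact ⟨x, K, by rw [hW, hr, add_zero, hK]⟩

/-- `exp x * c` has the same semisimple part as `c` when `x ∈ 𝔫` commutes with `s`: `u = s⁻¹ c = exp y`
(`Bch.exists_log`), `u` normalises `𝔫` (`Jor.inv`), so `[y, 𝔫] ⊆ 𝔫` (`br_mem_of_conj`; `exp (-y)` is
the inverse of `u`), `s⁻¹ exp x c = exp x exp y = exp z` (`exists_exp_mul_exp`). -/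
theorem unip_exp_mul {n : ℕ} {S : Submodule ℝ (Mat n)} (hL : Lie S) (hN : ANil S) {c s : (Mat n)ˣ}
    (hJ : Jor c s) (hc : ∀ x ∈ S, (c : Mat n) * x * ((c⁻¹ : (Mat n)ˣ) : Mat n) ∈ S) {x : Mat n}
    (hx : x ∈ S) (hxs : Commute x (s : Mat n)) :
    IsNilpotent (((s⁻¹ : (Mat n)ˣ) : Mat n) * (IsNilpotent.exp x * (c : Mat n)) - 1) := by
  obtain ⟨M, hM⟩ := hJ.unip
  obtain ⟨y, hy, hey, -⟩ := Bch.exists_log M _ hM
  rw [add_sub_cancel] at hey
  have hey' : IsNilpotent.exp (-y) = ((c⁻¹ : (Mat n)ˣ) : Mat n) * (s : Mat n) := by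
    have h1 : IsNilpotent.exp (-y) * IsNilpotent.exp y = 1 := IsNilpotent.exp_neg_mul_exp_self hy
    refine left_inv_eq_right_inv h1 ?_
    rw [hey, mul_assoc, Units.mul_inv_cancel_left, Units.inv_mul]
  have hS : ∀ a ∈ S, IsNilpotent.exp y * a * IsNilpotent.exp (-y) ∈ S := by
    intro a ha
    have := (hJ.inv S hc _ (hc a ha)).2
    rw [hey, hey']
    simpa only [mul_assoc] using this
  have hbr : ∀ a ∈ S, y * a - a * y ∈ S := fun a ha =>
    br_mem_of_conj S hy hS (S.sub_mem (hS a ha) ha)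
  obtain ⟨z, hz, -, hez⟩ := exists_exp_mul_exp hL hN hy hbr hx
  have hcomm : Commute ((s⁻¹ : (Mat n)ˣ) : Mat n) (IsNilpotent.exp x) :=
    (Bch.comm_exp hxs.symm).units_inv_left
  have e : ((s⁻¹ : (Mat n)ˣ) : Mat n) * (IsNilpotent.exp x * (c : Mat n)) = IsNilpotent.exp z := by
    rw [hez, hey, ← mul_assoc, hcomm.eq, mul_assoc]
  rw [e]
  exact IsNilpotent.isNilpotent_exp_sub_one hz

theorem fit_nil_sub {n : ℕ} {s : (Mat n)ˣ} {d : Mat n} (hc : Commute (s : Mat n) d)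
    (h : IsNilpotent (((s⁻¹ : (Mat n)ˣ) : Mat n) * d - 1)) : IsNilpotent (d - (s : Mat n)) := by
  have e : d - (s : Mat n) = (s : Mat n) * (((s⁻¹ : (Mat n)ˣ) : Mat n) * d - 1) := by
    rw [mul_sub, Units.mul_inv_cancel_left, mul_one]
  rw [e]
  have hc' : Commute (s : Mat n) (((s⁻¹ : (Mat n)ˣ) : Mat n) * d - 1) :=
    (((Commute.refl (s : Mat n)).units_inv_right).mul_right hc).sub_right (Commute.one_right _)
  exact hc'.isNilpotent_mul_left h

theorem fit_nil_conj {n : ℕ} (a : (Mat n)ˣ) {b : Mat n} (h : IsNilpotent b) :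
    IsNilpotent ((a : Mat n) * b * ((a⁻¹ : (Mat n)ˣ) : Mat n)) := by
  obtain ⟨M, hM⟩ := h
  exact ⟨M, by rw [Units.conj_pow, hM, mul_zero, zero_mul]⟩

/-- Take `g ∈ G` with `g.2 = m`.  `g⁻¹ c g c⁻¹ ∈ G` has degree `1`, so its matrix is `exp w`, `w ∈ 𝔫`.
Apply `fit` to `subNL 𝔫` and `σ = conjE c` restricted to `𝔫`: `w' = (-x) • w • σ x` commutes with `s`
(`Jor.fix`).  `g' = g * (expU x, 1) ∈ G` satisfies `g'⁻¹ c g' c⁻¹ = exp (-x) exp w (c exp x c⁻¹) = exp w'`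
(`subNL_exp_mul`, `exp_conj`), i.e. `c = g' (exp w' * c) g'⁻¹`.  `s' = g' s g'⁻¹` is semisimple, commutes
with `c` (as `s` commutes with `exp w' * c`), and `c - s' = g' s (s⁻¹ exp w' c - 1) g'⁻¹` is nilpotent
(`unip_exp_mul`); `c - s = s (s⁻¹ c - 1)`.  `ss_unique` gives `s' = s`. -/
theorem Hull.cent_surj {n k : ℕ} (H : Hull n k) {c : (Mat n)ˣ × Zk k} (hc : c ∈ H.G)
    {s : (Mat n)ˣ} (hJ : Jor c.1 s) (m : Zk k) :
    ∃ g ∈ H.G, g.2 = m ∧ Commute (g.1 : Mat n) (s : Mat n) := by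
  obtain ⟨g, hg, hgm⟩ := H.surj m
  have hh : g⁻¹ * c * g * c⁻¹ ∈ H.G :=
    H.G.mul_mem (H.G.mul_mem (H.G.mul_mem (H.G.inv_mem hg) hc) hg) (H.G.inv_mem hc)
  have hh2 : (g⁻¹ * c * g * c⁻¹).2 = 1 := by
    simp only [Prod.snd_mul, Prod.snd_inv]
    rw [mul_comm g.2⁻¹ c.2, inv_mul_cancel_right, mul_inv_cancel]
  obtain ⟨w, hw, hew⟩ := (H.ker _ hh2).1 hh
  have hcn : ∀ x ∈ H.nn, conjE c.1 x ∈ H.nn := fun x hx => by
    rw [conjE_apply]; exact H.conj c hc x hx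
  let σ : Module.End ℝ H.nn := (conjE c.1).restrict hcn
  have hσv : ∀ x : H.nn, ((σ x : H.nn) : Mat n) =
      (c.1 : Mat n) * x * ((c.1⁻¹ : (Mat n)ˣ) : Mat n) := fun x => conjE_apply c.1 x
  have hσ : ∀ x y, σ ((subNL H.nn H.lie H.nil).br x y) =
      (subNL H.nn H.lie H.nil).br (σ x) (σ y) := by
    intro x y
    apply Subtype.ext
    rw [hσv, subNL_br, subNL_br, hσv, hσv]
    simp only [mul_sub, sub_mul, mul_assoc, Units.inv_mul_cancel_left]
  obtain ⟨x, K, hK⟩ := fit (subNL H.nn H.lie H.nil) σ hσ ⟨w, hw⟩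
  obtain ⟨w', hw'⟩ : ∃ w', w' = (subNL H.nn H.lie H.nil).mul
      ((subNL H.nn H.lie H.nil).mul (-x) ⟨w, hw⟩) (σ x) := ⟨_, rfl⟩
  rw [← hw'] at hK
  have hK' : ((conjE c.1 - 1) ^ K) (w' : Mat n) = 0 := by
    rw [← fit_pow_restrict (conjE c.1 - 1) H.nn (σ - 1) (fun _ => rfl), hK]; rfl
  have hws : Commute (w' : Mat n) (s : Mat n) := hJ.fix _ K hK'
  have hxn : IsNilpotent (x : Mat n) := H.nil.isNilpotent x.2
  have hexp : IsNilpotent.exp (w' : Mat n) =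
      (((expU (x : Mat n) hxn)⁻¹ * (g.1⁻¹ * c.1 * g.1 * c.1⁻¹) *
        (c.1 * expU (x : Mat n) hxn * c.1⁻¹) : (Mat n)ˣ) : Mat n) := by
    rw [hw', subNL_exp_mul, subNL_exp_mul, hσv, exp_conj _ hxn, Units.val_mul, Units.val_mul,
      coe_expU_inv, Units.val_mul (c.1 * expU (x : Mat n) hxn), Units.val_mul c.1, coe_expU]
    congr 2
    exact hew.symm
  obtain ⟨a, ha⟩ : ∃ a : (Mat n)ˣ, a = g.1 * expU (x : Mat n) hxn := ⟨_, rfl⟩
  have hca : (c.1 : Mat n) = (a : Mat n) * (IsNilpotent.exp (w' : Mat n) * (c.1 : Mat n)) *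
      ((a⁻¹ : (Mat n)ˣ) : Mat n) := by
    rw [hexp, ← Units.val_mul, ← Units.val_mul, ← Units.val_mul, ha]
    congr 1
    group
  have hsc : Commute (s : Mat n) (c.1 : Mat n) := (hJ.comm _ (Commute.refl _)).symm
  have hsd : Commute (s : Mat n) (IsNilpotent.exp (w' : Mat n) * (c.1 : Mat n)) :=
    (Bch.comm_exp hws.symm).mul_right hsc
  have hn1 : IsNilpotent ((c.1 : Mat n) - (s : Mat n)) := fit_nil_sub hsc hJ.unip
  have hn2 : IsNilpotent ((c.1 : Mat n) - (a : Mat n) * (s : Mat n) * ((a⁻¹ : (Mat n)ˣ) : Mat n)) := by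
    have := fit_nil_conj a (fit_nil_sub hsd
      (unip_exp_mul H.lie H.nil hJ (H.conj c hc) w'.2 hws))
    rwa [mul_sub, sub_mul, ← hca] at this
  have hc2 : Commute ((a : Mat n) * (s : Mat n) * ((a⁻¹ : (Mat n)ˣ) : Mat n)) (c.1 : Mat n) := by
    have h1 := hsd.eq
    generalize IsNilpotent.exp (w' : Mat n) * (c.1 : Mat n) = d at hca h1
    rw [hca]
    change _ * _ = _ * _
    simp only [mul_assoc, Units.inv_mul_cancel_left]
    rw [← mul_assoc (s : Mat n), h1, mul_assoc]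
  have hss := ss_unique hJ.ss (hJ.ss.conj a) hsc hc2 hn1 hn2
  refine ⟨g * (expU (x : Mat n) hxn, 1), H.G.mul_mem hg ((H.ker _ rfl).2 ⟨x, x.2, rfl⟩), ?_, ?_⟩
  · rw [Prod.snd_mul, mul_one, hgm]
  · change Commute ((g.1 * expU (x : Mat n) hxn : (Mat n)ˣ) : Mat n) (s : Mat n)
    rw [← ha]
    change _ * _ = _ * _
    conv_rhs => rw [hss]
    rw [Units.inv_mul_cancel_right]

end Crest.Agent.R182.B
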