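import Crest.Agent.R182.BSwanA

/-!
Row 182, part B, task `R182/BFlag`: unipotent representations from flags; adding a
`2 × 2` block.
-/

set_option autoImplicit false

namespace Crest.Agent.R182.B

open scoped BigOperators
open Polynomial

/-- products of `c` factors map `A` into `B` -/
def flagKill {G W : Type*} [Group G] [AddCommGroup W] (σ : G →* Module.End ℤ W) (c : ℕ)
    (A B : Submodule ℤ W) : Prop :=
  ∀ l : List G, l.length = c → ∀ w ∈ A, (l.map fun g => σ g - 1).prod w ∈ B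

theorem flagKill_zero {G W : Type*} [Group G] [AddCommGroup W] (σ : G →* Module.End ℤ W)
    (A : Submodule ℤ W) : flagKill σ 0 A A := by
  intro l hl w hw
  rw [List.length_eq_zero_iff.1 hl]
  exact hw

theorem flagKill_comp {G W : Type*} [Group G] [AddCommGroup W] {σ : G →* Module.End ℤ W}
    {c c' : ℕ} {A B C : Submodule ℤ W} (h : flagKill σ c A B) (h' : flagKill σ c' B C) :
    flagKill σ (c' + c) A C := by
  intro l hl w hw
  rw [← List.take_append_drop c' l, List.map_append, List.prod_append, Module.End.mul_apply]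
  exact h' _ (by rw [List.length_take]; omega) _ (h _ (by rw [List.length_drop]; omega) w hw)

theorem flag_pow_mem {W : Type*} [AddCommGroup W] {T : Module.End ℤ W} {A : Submodule ℤ W}
    (h : ∀ w ∈ A, T w ∈ A) (i : ℕ) : ∀ w ∈ A, ((T - 1) ^ i) w ∈ A := by
  induction i with
  | zero => exact fun w hw => hw
  | succ i ih =>
    intro w hw
    rw [pow_succ, Module.End.mul_apply]
    exact ih _ (A.sub_mem (h w hw) hw)

theorem flag_step {G W : Type*} [Group G] [AddCommGroup W] (σ : G →* Module.End ℤ W)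
    (M₀ : Set G) (t : G) (hgen : ∀ g, ∃ m ∈ M₀, ∃ a : ℤ, g = m * t ^ a) {A B : Submodule ℤ W}
    (hBA : B ≤ A) (hA : ∀ g, ∀ w ∈ A, σ g w ∈ A) (hB : ∀ g, ∀ w ∈ B, σ g w ∈ B)
    (hM : ∀ m ∈ M₀, ∀ w ∈ A, σ m w - w ∈ B) {e : ℕ} (he : ∀ w ∈ A, ((σ t - 1) ^ e) w ∈ B) :
    flagKill σ e A B := by
  let U : ℕ → Submodule ℤ W := fun i => A ⊓ B.comap ((σ t - 1) ^ i)
  have hU : ∀ i w, w ∈ U i ↔ w ∈ A ∧ ((σ t - 1) ^ i) w ∈ B := fun i w => Iff.rfl
  have hBU : ∀ i, B ≤ U i := fun i w hw => (hU i w).2 ⟨hBA hw, flag_pow_mem (hB t) i w hw⟩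
  have hinv : ∀ (a : ℤ) i, ∀ w ∈ U i, σ (t ^ a) w ∈ U i := by
    intro a i w hw
    rw [hU] at hw ⊢
    refine ⟨hA _ w hw.1, ?_⟩
    have hc : Commute ((σ t - 1) ^ i) (σ (t ^ a)) :=
      ((((Commute.refl t).zpow_right a).map σ).sub_left (Commute.one_left _)).pow_left i
    rw [← Module.End.mul_apply, hc.eq, Module.End.mul_apply]
    exact hB _ _ hw.2
  have h1 : ∀ i, ∀ w ∈ U (i + 1), σ t w - w ∈ U i := by
    intro i w hw
    rw [hU] at hw ⊢
    exact ⟨A.sub_mem (hA t w hw.1) hw.1, by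
      have := hw.2
      rw [pow_succ, Module.End.mul_apply] at this
      exact this⟩
  have hz : ∀ i (a : ℤ), ∀ w ∈ U (i + 1), σ (t ^ a) w - w ∈ U i := by
    intro i a w hw
    have key : ∀ a : ℤ, σ (t ^ (a + 1)) w - w = σ (t ^ a) (σ t w - w) + (σ (t ^ a) w - w) := by
      intro a
      rw [zpow_add_one, map_mul, Module.End.mul_apply, map_sub]
      abel
    induction a using Int.induction_on with
    | zero => simp
    | succ a ih =>
      rw [key]
      exact (U i).add_mem (hinv _ _ _ (h1 i w hw)) ih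
    | pred a ih =>
      have := key (-(a : ℤ) - 1)
      rw [sub_add_cancel] at this
      rw [this] at ih
      exact ((U i).add_mem_iff_right (hinv _ _ _ (h1 i w hw))).1 ih
  have hg : ∀ i, flagKill σ 1 (U (i + 1)) (U i) := by
    intro i l hl w hw
    obtain ⟨g, rfl⟩ := List.length_eq_one_iff.1 hl
    obtain ⟨m, hm, a, rfl⟩ := hgen g
    have e1 : (([m * t ^ a].map fun g => σ g - 1).prod) w =
        (σ m (σ (t ^ a) w) - σ (t ^ a) w) + (σ (t ^ a) w - w) := by
      simp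
    rw [e1]
    exact (U i).add_mem (hBU i (hM m hm _ (hA _ w ((hU _ w).1 hw).1))) (hz i a w hw)
  have hk : ∀ i, flagKill σ i (U i) (U 0) := by
    intro i
    induction i with
    | zero => exact flagKill_zero σ _
    | succ i ih => exact flagKill_comp (hg i) ih
  intro l hl w hw
  exact ((hU 0 _).1 (hk e l hl w ((hU e w).2 ⟨hw, he w hw⟩))).2

/-- Descending induction on `j ≤ r`: there is `c` such that all products of `c` factors `σ g - 1`
kill `Fl j`.  Step: let `T = σ t`, `(T - 1)^e (Fl j) ⊆ Fl (j+1)`,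
`U i = {w ∈ Fl j | (T - 1)^i w ∈ Fl (j+1)}`, `U 0 = Fl (j+1)`, `U e = Fl j`.  For every `g` and `w ∈ Fl j`,
`σ g w - σ (t^a) w ∈ Fl (j+1)` where `g = m t^a`; `σ (t^a)` commutes with `T`; the `a : ℤ` with
`(σ (t^a) - 1) (U (i+1)) ⊆ U i` form a subgroup containing `1` (every `σ (t^a)` preserves `U i`).  So
`(σ g - 1) (U (i+1)) ⊆ U i`, and `e` factors map `Fl j` into `Fl (j+1)`. -/
theorem flag_unip {G W : Type*} [Group G] [AddCommGroup W] (σ : G →* Module.End ℤ W)
    (M₀ : Set G) (t : G) (hgen : ∀ g, ∃ m ∈ M₀, ∃ a : ℤ, g = m * t ^ a)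
    (Fl : ℕ → Submodule ℤ W) (r : ℕ) (h0 : Fl 0 = ⊤) (hr : Fl r = ⊥)
    (hanti : ∀ j, Fl (j + 1) ≤ Fl j) (hinv : ∀ g j, ∀ w ∈ Fl j, σ g w ∈ Fl j)
    (hM : ∀ m ∈ M₀, ∀ j, ∀ w ∈ Fl j, σ m w - w ∈ Fl (j + 1))
    (ht : ∀ j, ∃ e : ℕ, ∀ w ∈ Fl j, ((σ t - 1) ^ e) w ∈ Fl (j + 1)) :
    ∃ c : ℕ, ∀ l : List G, l.length = c → (l.map fun g => σ g - 1).prod = 0 := by
  have key : ∀ j, ∃ c, flagKill σ c (Fl 0) (Fl j) := by
    intro j
    induction j with
    | zero => exact ⟨0, flagKill_zero σ _⟩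
    | succ j ih =>
      obtain ⟨c, hc⟩ := ih
      obtain ⟨e, he⟩ := ht j
      exact ⟨_, flagKill_comp hc (flag_step σ M₀ t hgen (hanti j) (fun g => hinv g j)
        (fun g => hinv g (j + 1)) (fun m hm => hM m hm j) he)⟩
  obtain ⟨c, hc⟩ := key r
  refine ⟨c, fun l hl => LinearMap.ext fun w => ?_⟩
  have := hc l hl w (h0 ▸ Submodule.mem_top)
  rwa [hr, Submodule.mem_bot] at this

/-- block diagonal matrices -/
def flagBlock (n : ℕ) : Matrix (Fin n) (Fin n) ℤ × Matrix (Fin 2) (Fin 2) ℤ →+*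
    Matrix (Fin n ⊕ Fin 2) (Fin n ⊕ Fin 2) ℤ where
  toFun p := Matrix.fromBlocks p.1 0 0 p.2
  map_one' := Matrix.fromBlocks_one
  map_mul' p q := by simp [Matrix.fromBlocks_multiply]
  map_zero' := Matrix.fromBlocks_zero
  map_add' p q := by simp [Matrix.fromBlocks_add]

/-- the unipotent `2 × 2` matrices -/
def flagUni : Multiplicative ℤ →* Matrix (Fin 2) (Fin 2) ℤ where
  toFun a := !![1, Multiplicative.toAdd a; 0, 1]
  map_one' := by simp [Matrix.one_fin_two]
  map_mul' a b := by simp [add_comm]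

theorem flagUni_sq (a b : Multiplicative ℤ) : (flagUni a - 1) * (flagUni b - 1) = 0 := by
  ext i j
  fin_cases i <;> fin_cases j <;> simp [flagUni, Matrix.one_fin_two, Matrix.mul_apply]

/-- Direct sum with `g ↦ !![1, χ g; 0, 1]` (`Matrix.fromBlocks`, then `Matrix.reindexAlgEquiv` along
`finSumFinEquiv`); products of `c + 2` factors vanish in both blocks. -/
theorem urep_of_block {G : Type*} [Group G] {n : ℕ} (ρ : G →* Matrix (Fin n) (Fin n) ℤ)
    (χ : G →* Multiplicative ℤ) (hinj : ∀ g, ρ g = 1 → χ g = 1 → g = 1) (c : ℕ)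
    (hc : ∀ l : List G, l.length = c → (l.map fun g => ρ g - 1).prod = 0) : URep G ⊤ := by
  let Φ : Matrix (Fin n) (Fin n) ℤ × Matrix (Fin 2) (Fin 2) ℤ →+*
      Matrix (Fin (n + 2)) (Fin (n + 2)) ℤ :=
    (Matrix.reindexAlgEquiv ℤ ℤ finSumFinEquiv).toAlgHom.toRingHom.comp (flagBlock n)
  have hΦ : Function.Injective Φ := by
    refine (Matrix.reindexAlgEquiv ℤ ℤ finSumFinEquiv).injective.comp fun p q h => ?_
    obtain ⟨h1, -, -, h2⟩ := Matrix.fromBlocks_inj.1 h
    exact Prod.ext h1 h2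
  let x : G →* Matrix (Fin n) (Fin n) ℤ × Matrix (Fin 2) (Fin 2) ℤ := ρ.prod (flagUni.comp χ)
  refine ⟨n + 2, Φ.toMonoidHom.comp x, c + 2, fun g _ hg => ?_, fun l _ hl => ?_⟩
  · have h1 : x g = 1 := hΦ (hg.trans (map_one Φ).symm)
    refine hinj g (congrArg Prod.fst h1) ?_
    have h2 : flagUni (χ g) 0 1 = (1 : Matrix (Fin 2) (Fin 2) ℤ) 0 1 :=
      congrFun (congrFun (congrArg Prod.snd h1) 0) 1
    simpa [flagUni] using h2
  · have e : (l.map fun h => (Φ.toMonoidHom.comp x) h - 1) = (l.map fun h => x h - 1).map Φ := by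
      rw [List.map_map]
      refine List.map_congr_left fun h _ => ?_
      simp only [Function.comp_apply, map_sub, map_one]
      rfl
    rw [e, ← map_list_prod]
    obtain ⟨a, b, l', rfl⟩ : ∃ a b l', l = a :: b :: l' := by
      rcases l with _ | ⟨a, _ | ⟨b, l'⟩⟩
      · simp at hl
      · simp at hl
      · exact ⟨a, b, l', rfl⟩
    have h1 : ((l'.map fun h => x h - 1).prod).1 = 0 := by
      have := map_list_prod (RingHom.fst (Matrix (Fin n) (Fin n) ℤ) (Matrix (Fin 2) (Fin 2) ℤ))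
        (l'.map fun h => x h - 1)
      rw [List.map_map] at this
      exact this.trans (hc l' (by simpa using hl))
    have h2 : ((a :: b :: l').map fun h => x h - 1).prod = 0 := by
      rw [List.map_cons, List.map_cons, List.prod_cons, List.prod_cons, ← mul_assoc]
      refine Prod.ext ?_ ?_
      · rw [Prod.fst_mul, h1, mul_zero]
        rfl
      · rw [Prod.snd_mul, Prod.snd_mul]
        change (flagUni (χ a) - 1) * (flagUni (χ b) - 1) * _ = 0
        rw [flagUni_sq, zero_mul]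
    rw [h2, map_zero]

/-- A twisted Leibniz rule.  `D = Θ - 1` satisfies `D (a b) = D a * Θ b + a * D b`.  Claim: if
`D^i a ∈ A'` and `D^j b ∈ B'` (`a ∈ A`, `b ∈ B`) then `D^(i+j) (a b) ∈ C = A' * B ⊔ A * B'`; induction on
`i + j`, using that `C` is `Θ`-invariant (if `i = 0` or `j = 0` then `a b ∈ C`) and that `D` commutes
with `Θ`. -/
theorem leibniz_mem {R : Type*} [Ring R] (Θ : R →ₐ[ℤ] R) (A A' B B' : Submodule ℤ R)
    (hA : ∀ a ∈ A, Θ a ∈ A) (hA' : ∀ a ∈ A', Θ a ∈ A') (hB : ∀ a ∈ B, Θ a ∈ B)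
    (hB' : ∀ a ∈ B', Θ a ∈ B') (i j : ℕ)
    (hi : ∀ a ∈ A, ((Θ.toLinearMap - 1 : Module.End ℤ R) ^ i) a ∈ A')
    (hj : ∀ b ∈ B, ((Θ.toLinearMap - 1 : Module.End ℤ R) ^ j) b ∈ B') :
    ∀ x ∈ A * B, ((Θ.toLinearMap - 1 : Module.End ℤ R) ^ (i + j)) x ∈ A' * B ⊔ A * B' := by
  set D : Module.End ℤ R := Θ.toLinearMap - 1 with hD
  have hDa : ∀ a, D a = Θ a - a := fun a => rfl
  have hmul : ∀ X Y : Submodule ℤ R, (∀ a ∈ X, Θ a ∈ X) → (∀ a ∈ Y, Θ a ∈ Y) →
      ∀ x ∈ X * Y, Θ x ∈ X * Y := by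
    intro X Y hX hY x hx
    refine Submodule.mul_induction_on hx (fun a ha b hb => ?_) fun x y hx hy => ?_
    · rw [map_mul]
      exact Submodule.mul_mem_mul (hX a ha) (hY b hb)
    · rw [map_add]
      exact add_mem hx hy
  have hC : ∀ x ∈ A' * B ⊔ A * B', Θ.toLinearMap x ∈ A' * B ⊔ A * B' := by
    intro x hx
    obtain ⟨y, hy, z, hz, rfl⟩ := Submodule.mem_sup.1 hx
    rw [map_add]
    exact Submodule.add_mem_sup (hmul _ _ hA' hB y hy) (hmul _ _ hA hB' z hz)
  have hcomm : ∀ (k : ℕ) b, (D ^ k) (Θ b) = Θ ((D ^ k) b) := by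
    intro k b
    have hc : Commute (D ^ k) Θ.toLinearMap :=
      ((Commute.refl (Θ.toLinearMap : Module.End ℤ R)).sub_left (Commute.one_left _)).pow_left k
    exact LinearMap.congr_fun hc.eq b
  have key : ∀ (n i j : ℕ), i + j = n → ∀ a ∈ A, ∀ b ∈ B, (D ^ i) a ∈ A' → (D ^ j) b ∈ B' →
      (D ^ n) (a * b) ∈ A' * B ⊔ A * B' := by
    intro n
    induction n with
    | zero =>
      intro i j hij a _ b hb h1 _
      obtain rfl : i = 0 := by omega
      exact Submodule.mem_sup_left (Submodule.mul_mem_mul h1 hb)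
    | succ n ih =>
      intro i j hij a ha b hb h1 h2
      rcases i with _ | i
      · exact flag_pow_mem hC _ _ (Submodule.mem_sup_left (Submodule.mul_mem_mul h1 hb))
      rcases j with _ | j
      · exact flag_pow_mem hC _ _ (Submodule.mem_sup_right (Submodule.mul_mem_mul ha h2))
      have e : D (a * b) = D a * Θ b + a * D b := by
        rw [hDa, hDa, hDa, map_mul]
        noncomm_ring
      rw [pow_succ, Module.End.mul_apply, e, map_add]
      refine add_mem (ih i (j + 1) (by omega) _ (A.sub_mem (hA a ha) ha) _ (hB b hb) ?_ ?_)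
        (ih (i + 1) j (by omega) a ha _ (B.sub_mem (hB b hb) hb) h1 ?_)
      · rw [pow_succ, Module.End.mul_apply] at h1
        exact h1
      · rw [hcomm]
        exact hB' _ h2
      · rw [pow_succ, Module.End.mul_apply] at h2
        exact h2
  intro x hx
  refine Submodule.mul_induction_on hx
    (fun a ha b hb => key _ i j rfl a ha b hb (hi a ha) (hj b hb)) fun x y hx hy => ?_
  rw [map_add]
  exact add_mem hx hy

end Crest.Agent.R182.B
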