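import Crest.Agent.R182.BLog

/-!
Row 182, part B, task `R182/BHull`: the real hull of an integral representation; nilpotent Lie
algebras represented in a finite-dimensional algebra; transport of structure.
-/

set_option autoImplicit false

namespace Crest.Agent.R182.B

open scoped BigOperators
open Polynomial

/-- the span of all products of at least `j` elements of `L` -/
noncomputable def hull_fl {A : Type*} [Ring A] [Algebra ℝ A] (L : Submodule ℝ A) (j : ℕ) :
    Submodule ℝ A := ⨆ i : ℕ, L ^ (i + j)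

theorem hull_fl_mul {A : Type*} [Ring A] [Algebra ℝ A] (L : Submodule ℝ A) (j j' : ℕ) :
    hull_fl L j * hull_fl L j' ≤ hull_fl L (j + j') := by
  unfold hull_fl
  rw [Submodule.iSup_mul]
  refine iSup_le fun i => ?_
  rw [Submodule.mul_iSup]
  refine iSup_le fun i' => ?_
  rw [← pow_add]
  exact le_iSup_of_le (i + i') (le_of_eq (by congr 1; omega))

theorem hull_fl_anti {A : Type*} [Ring A] [Algebra ℝ A] (L : Submodule ℝ A) (j : ℕ) :
    hull_fl L (j + 1) ≤ hull_fl L j :=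
  iSup_le fun i => le_iSup_of_le (i + 1) (le_of_eq (by congr 1; omega))

theorem hull_fl_pow {A : Type*} [Ring A] [Algebra ℝ A] (L : Submodule ℝ A) (j : ℕ) :
    hull_fl L 1 ^ j ≤ hull_fl L j := by
  induction j with
  | zero => exact le_iSup_of_le 0 (le_of_eq (by rw [pow_zero, pow_zero]))
  | succ j ih => rw [pow_succ]; exact (mul_le_mul' ih le_rfl).trans (hull_fl_mul L j 1)

theorem hull_fl_anil {A : Type*} [Ring A] [Algebra ℝ A] {L : Submodule ℝ A} {m : ℕ}
    (hm : L ^ m = ⊥) : ANil (hull_fl L 1) := by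
  refine anil_iff_pow.2 ⟨m, le_bot_iff.1 ((hull_fl_pow L m).trans (iSup_le fun i => ?_))⟩
  rw [pow_add, hm, Submodule.mul_bot]

theorem hull_fl_lie {A : Type*} [Ring A] [Algebra ℝ A] (L : Submodule ℝ A) :
    Lie (hull_fl L 1) := fun _ hx _ hy =>
  Submodule.sub_mem _
    (hull_fl_anti L 1 (hull_fl_mul L 1 1 (Submodule.mul_mem_mul hx hy)))
    (hull_fl_anti L 1 (hull_fl_mul L 1 1 (Submodule.mul_mem_mul hy hx)))

/-- the Lie subspace generated by a set -/
def hull_gen {A : Type*} [Ring A] [Algebra ℝ A] (Λ : Set A) : Submodule ℝ A :=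
  sInf {T : Submodule ℝ A | Λ ⊆ T ∧ Lie T}

theorem hull_gen_le {A : Type*} [Ring A] [Algebra ℝ A] {Λ : Set A} {T : Submodule ℝ A}
    (h : Λ ⊆ T) (hT : Lie T) : hull_gen Λ ≤ T := sInf_le ⟨h, hT⟩

theorem hull_subset_gen {A : Type*} [Ring A] [Algebra ℝ A] (Λ : Set A) : Λ ⊆ hull_gen Λ :=
  fun _ hx => Submodule.mem_sInf.2 fun _ hT => hT.1 hx

theorem hull_gen_lie {A : Type*} [Ring A] [Algebra ℝ A] (Λ : Set A) : Lie (hull_gen Λ) :=
  fun x hx y hy => Submodule.mem_sInf.2 fun T hT =>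
    hT.2 x (Submodule.mem_sInf.1 hx T hT) y (Submodule.mem_sInf.1 hy T hT)

theorem hull_gen_conj {n : ℕ} {Λ : Set (Mat n)} (u : (Mat n)ˣ)
    (h : ∀ y ∈ Λ, (u : Mat n) * y * ((u⁻¹ : (Mat n)ˣ) : Mat n) ∈ Λ) {x : Mat n}
    (hx : x ∈ hull_gen Λ) : (u : Mat n) * x * ((u⁻¹ : (Mat n)ˣ) : Mat n) ∈ hull_gen Λ := by
  have key : hull_gen Λ ≤ (hull_gen Λ).comap (conjE u) := by
    refine hull_gen_le (fun y hy => ?_) (fun a ha b hb => ?_)
    · change conjE u y ∈ hull_gen Λ
      rw [conjE_apply]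
      exact hull_subset_gen Λ (h y hy)
    · change conjE u (a * b - b * a) ∈ hull_gen Λ
      have ha' : conjE u a ∈ hull_gen Λ := ha
      have hb' : conjE u b ∈ hull_gen Λ := hb
      have e : ∀ a b : Mat n, conjE u (a * b) = conjE u a * conjE u b := by
        intro a b
        rw [conjE_apply, conjE_apply, conjE_apply]
        have : (u : Mat n) * a * ((u⁻¹ : (Mat n)ˣ) : Mat n) *
            ((u : Mat n) * b * ((u⁻¹ : (Mat n)ˣ) : Mat n)) =
            (u : Mat n) * a * (((u⁻¹ : (Mat n)ˣ) : Mat n) * (u : Mat n)) * b *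
              ((u⁻¹ : (Mat n)ˣ) : Mat n) := by noncomm_ring
        rw [this, u.inv_mul]
        noncomm_ring
      rw [map_sub, e, e]
      exact hull_gen_lie Λ _ ha' _ hb'
  have := key hx
  rwa [Submodule.mem_comap, conjE_apply] at this

theorem hull_exp_conj_mem {n : ℕ} {S : Submodule ℝ (Mat n)} (hL : Lie S) (hN : ANil S)
    {x y : Mat n} (hx : x ∈ S) (hy : y ∈ S) :
    IsNilpotent.exp x * y * IsNilpotent.exp (-x) ∈ S := by
  have h := (subNL S hL hN).ρ_Ad ⟨x, hx⟩ ⟨y, hy⟩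
  have h2 := ((subNL S hL hN).Ad ⟨x, hx⟩ ⟨y, hy⟩).2
  have h3 : (((subNL S hL hN).Ad ⟨x, hx⟩ ⟨y, hy⟩ : S) : Mat n) =
      IsNilpotent.exp x * y * IsNilpotent.exp (-x) := h
  rwa [h3] at h2

theorem hull_conj_nil {n : ℕ} (u : (Mat n)ˣ) {y : Mat n} (hy : IsNilpotent y) :
    IsNilpotent ((u : Mat n) * y * ((u⁻¹ : (Mat n)ˣ) : Mat n)) := by
  obtain ⟨m, hm⟩ := hy
  exact ⟨m, by rw [Units.conj_pow, hm, mul_zero, zero_mul]⟩

/-- Write `r γ = castM (ρ γ)` (a unit with inverse `r γ⁻¹`: `MonoidHom.toHomUnits`).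
`Λ = {y | IsNilpotent y ∧ ∃ h, π h = 1 ∧ exp y = r h}`; every `h` with `π h = 1` has such a `y`
(`Bch.exists_log`, `(r h - 1)^c = 0`).  `𝔫 = sInf {T | Λ ⊆ T ∧ Lie T}`.  With
`L = span {r h - 1 | π h = 1}` (`L^c = ⊥`: `Submodule.span_pow`) and `𝔞 = ⨆ j, L^(j+1)`: `Λ ⊆ 𝔞`
(`log_mem`), `𝔞 * 𝔞 ≤ 𝔞` so `𝔫 ≤ 𝔞`, and `𝔞^i ≤ ⨆ j, L^(j+i)` gives `ANil 𝔞` (compare `Bch.fl` in
`BCHb.lean`).  Conjugation by `r γ` preserves `Λ` (`exp_conj`), hence `𝔫` (the preimage of `𝔫` under
`conjE` is a `Lie` subspace containing `Λ`); conjugation by `exp x`, `x ∈ 𝔫`, preserves `𝔫`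
(`NL.ρ_Ad` for `subNL`).  `G = {g | ∃ γ, ∃ x ∈ 𝔫, g.2 = π γ ∧ g.1 = exp x * r γ}` is a subgroup
(`exists_exp_mul`, `exp_conj`). -/
theorem exists_hull {Γ : Type*} [Group Γ] {k n : ℕ} (π : Γ →* Zk k) (hπ : Function.Surjective π)
    (ρ : Γ →* Matrix (Fin n) (Fin n) ℤ) (c : ℕ)
    (hc : ∀ l : List Γ, (∀ h ∈ l, h ∈ π.ker) → l.length = c → (l.map fun h => ρ h - 1).prod = 0) :
    ∃ H : Hull n k, (∀ γ, ∃ g ∈ H.G, (g.1 : Mat n) = castM (ρ γ) ∧ g.2 = π γ) ∧
      ∀ T : Submodule ℝ (Mat n),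
        (∀ x ∈ H.nn, (∃ h, π h = 1 ∧ IsNilpotent.exp x = castM (ρ h)) → x ∈ T) → Lie T →
          H.nn ≤ T := by
  classical
  let r : Γ →* (Mat n)ˣ := ((castM (n := n)).toMonoidHom.comp ρ).toHomUnits
  have hr : ∀ γ, (r γ : Mat n) = castM (ρ γ) := fun _ => rfl
  let Λ : Set (Mat n) := {y | IsNilpotent y ∧ ∃ h, π h = 1 ∧ IsNilpotent.exp y = castM (ρ h)}
  let L : Submodule ℝ (Mat n) := Submodule.span ℝ {a | ∃ h, π h = 1 ∧ a = castM (ρ h) - 1}
  have hLc : L ^ c = ⊥ := by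
    rw [Submodule.span_pow, Submodule.span_eq_bot]
    intro a ha
    obtain ⟨f, rfl⟩ := Set.mem_pow.1 ha
    choose g hg1 hg2 using fun i => (f i).2
    have h1 := hc (List.ofFn g) (fun h hh => by
      obtain ⟨i, rfl⟩ := List.mem_ofFn.1 hh
      exact hg1 i) (by simp)
    have h2 := congrArg (castM (n := n)) h1
    rw [map_list_prod, map_zero, List.map_map, List.map_ofFn] at h2
    rw [← h2]
    congr 2
    funext i
    simp only [Function.comp_apply, map_sub, map_one]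
    exact hg2 i
  have hpow : ∀ h, π h = 1 → (castM (ρ h) - 1 : Mat n) ^ c = 0 := by
    intro h hh
    have := Submodule.pow_mem_pow L (Submodule.subset_span ⟨h, hh, rfl⟩ : castM (ρ h) - 1 ∈ L) c
    rwa [hLc, Submodule.mem_bot] at this
  have hlog : ∀ h, π h = 1 → ∃ y ∈ Λ, IsNilpotent.exp y = castM (ρ h) := by
    intro h hh
    obtain ⟨z, hz, he, -⟩ := Bch.exists_log c _ (hpow h hh)
    have he' : IsNilpotent.exp z = castM (ρ h) := by rw [he]; abel
    exact ⟨z, ⟨hz, h, hh, he'⟩, he'⟩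
  have hΛ : Λ ⊆ hull_fl L 1 := by
    rintro y ⟨hy, h, hh, he⟩
    refine log_mem (hull_fl L 1) (v := castM (ρ h) - 1) (fun j => ?_) hy (by rw [he]; abel)
    exact (le_iSup (fun i : ℕ => L ^ (i + 1)) j)
      (Submodule.pow_mem_pow L (Submodule.subset_span ⟨h, hh, rfl⟩) (j + 1))
  have hlie : Lie (hull_gen Λ) := hull_gen_lie Λ
  have hnil : ANil (hull_gen Λ) := (hull_fl_anil hLc).mono (hull_gen_le hΛ (hull_fl_lie L))
  have hconj : ∀ γ, ∀ x ∈ hull_gen Λ,
      (r γ : Mat n) * x * (((r γ)⁻¹ : (Mat n)ˣ) : Mat n) ∈ hull_gen Λ := by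
    intro γ x hx
    refine hull_gen_conj (r γ) ?_ hx
    rintro y ⟨hy, h, hh, he⟩
    refine ⟨hull_conj_nil _ hy, γ * h * γ⁻¹, by simp [hh], ?_⟩
    rw [exp_conj _ hy, he, ← hr, ← hr, ← map_inv, map_mul, map_mul, Units.val_mul, Units.val_mul]
  let G : Subgroup ((Mat n)ˣ × Zk k) :=
    { carrier := {g | ∃ γ, ∃ x ∈ hull_gen Λ, g.2 = π γ ∧
        (g.1 : Mat n) = IsNilpotent.exp x * (r γ : Mat n)}
      one_mem' := ⟨1, 0, Submodule.zero_mem _, by simp, by simp⟩
      mul_mem' := by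
        rintro g g' ⟨γ, x, hx, h1, h2⟩ ⟨γ', x', hx', h1', h2'⟩
        obtain ⟨z, hz, hze⟩ := exists_exp_mul hlie hnil hx (hconj γ x' hx')
        refine ⟨γ * γ', z, hz, by rw [Prod.snd_mul, h1, h1', map_mul], ?_⟩
        rw [Prod.fst_mul, Units.val_mul, h2, h2', hze, exp_conj _ (hnil.isNilpotent hx'), map_mul,
          Units.val_mul]
        simp only [mul_assoc, Units.inv_mul_cancel_left]
      inv_mem' := by
        rintro g ⟨γ, x, hx, h1, h2⟩
        have hnx := hnil.isNilpotent hx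
        refine ⟨γ⁻¹, _, hconj γ⁻¹ (-x) (Submodule.neg_mem _ hx), by rw [Prod.snd_inv, h1, map_inv],
          ?_⟩
        have e : g.1 = expU x hnx * r γ := Units.ext (by rw [h2]; rfl)
        rw [Prod.fst_inv, e, mul_inv_rev, Units.val_mul, exp_conj _ hnx.neg, map_inv, coe_expU_inv]
        simp only [mul_assoc, Units.inv_mul, mul_one] }
  have memG : ∀ g, g ∈ G ↔ ∃ γ, ∃ x ∈ hull_gen Λ, g.2 = π γ ∧
      (g.1 : Mat n) = IsNilpotent.exp x * (r γ : Mat n) := fun _ => Iff.rfl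
  have hrG : ∀ γ, ((r γ, π γ) : (Mat n)ˣ × Zk k) ∈ G := fun γ =>
    (memG _).2 ⟨γ, 0, Submodule.zero_mem _, rfl, by simp⟩
  refine ⟨{ G := G, nn := hull_gen Λ, lie := hlie, nil := hnil, conj := ?_, ker := ?_, surj := ?_ },
    fun γ => ⟨(r γ, π γ), hrG γ, hr γ, rfl⟩, fun T hT hTl => ?_⟩
  · intro g hg y hy
    obtain ⟨γ, x, hx, -, h2⟩ := (memG g).1 hg
    have hnx := hnil.isNilpotent hx
    have e : g.1 = expU x hnx * r γ := Units.ext (by rw [h2]; rfl)
    have := hull_exp_conj_mem hlie hnil hx (hconj γ y hy)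
    rw [e, mul_inv_rev, Units.val_mul, Units.val_mul, coe_expU, coe_expU_inv]
    simpa only [mul_assoc] using this
  · intro g hg
    constructor
    · intro hG
      obtain ⟨γ, x, hx, h1, h2⟩ := (memG g).1 hG
      obtain ⟨y, hy, hye⟩ := hlog γ (h1.symm.trans hg)
      obtain ⟨z, hz, hze⟩ := exists_exp_mul hlie hnil hx (hull_subset_gen Λ hy)
      exact ⟨z, hz, by rw [h2, hze, hye, hr]⟩
    · rintro ⟨x, hx, h2⟩
      exact (memG g).2 ⟨1, x, hx, by rw [hg, map_one], by rw [h2, map_one, Units.val_one, mul_one]⟩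
  · intro m
    obtain ⟨γ, rfl⟩ := hπ m
    exact ⟨_, hrG γ, rfl⟩
  · exact hull_gen_le (fun y hy => hT y (hull_subset_gen Λ hy) hy.2) hTl

/-- compose with the left regular representation `Algebra.leftMulMatrix (Module.finBasis ℝ A)`
(`Algebra.leftMulMatrix_injective`) -/
theorem exists_NL {E A : Type} [AddCommGroup E] [Module ℝ E] [Ring A] [Algebra ℝ A]
    [FiniteDimensional ℝ A] (br : E →ₗ[ℝ] E →ₗ[ℝ] E) (ρ : E →ₗ[ℝ] A) (inj : Function.Injective ρ)
    (hbr : ∀ x y, ρ (br x y) = ρ x * ρ y - ρ y * ρ x) (c : ℕ)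
    (hc : ∀ l : List E, l.length = c → (l.map ρ).prod = 0) : ∃ N : NL E, N.br = br := by
  classical
  let φ := Algebra.leftMulMatrix (Module.finBasis ℝ A)
  refine ⟨{ br := br
            n := Module.finrank ℝ A
            ρ := φ.toLinearMap ∘ₗ ρ
            inj := (Algebra.leftMulMatrix_injective (Module.finBasis ℝ A)).comp inj
            map_br := fun x y => ?_
            m := c
            nil := fun l hl => ?_ }, rfl⟩
  · simp only [LinearMap.comp_apply, AlgHom.toLinearMap_apply, hbr, map_sub, map_mul]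
  · have h := congrArg φ (hc l hl)
    rw [map_list_prod, map_zero, List.map_map] at h
    exact h

/-- transport along a linear equivalence (`br' x y = e (br (e.symm x) (e.symm y))`, `ρ' = ρ ∘ e.symm`,
`S' m = e.conj (S m)` (`LinearEquiv.conjAlgEquiv` / `LinearEquiv.algConj`), `NL.map_mul`) -/
theorem TW.transport {E E' : Type} [AddCommGroup E] [Module ℝ E] [AddCommGroup E'] [Module ℝ E']
    {k : ℕ} {Γ : Type*} [Group Γ] (T : TW E k Γ) (e : E ≃ₗ[ℝ] E') :
    ∃ T' : TW E' k Γ, ∀ m x, T'.S m (e x) = e (T.S m x) := by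
  let N' : NL E' :=
    { br := (T.nl.br.compl₁₂ e.symm.toLinearMap e.symm.toLinearMap).compr₂ e.toLinearMap
      n := T.nl.n
      ρ := T.nl.ρ ∘ₗ e.symm.toLinearMap
      inj := T.nl.inj.comp e.symm.injective
      map_br := fun x y => by
        simp only [LinearMap.comp_apply, LinearMap.compr₂_apply, LinearMap.compl₁₂_apply,
          LinearEquiv.coe_coe, LinearEquiv.symm_apply_apply, T.nl.map_br]
      m := T.nl.m
      nil := fun l hl => by
        have := T.nl.nil (l.map e.symm) (by simpa using hl)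
        rw [List.map_map] at this
        exact this }
  have hbr : ∀ x y, N'.br x y = e (T.nl.br (e.symm x) (e.symm y)) := fun _ _ => rfl
  have hmul : ∀ x y, e (T.nl.mul x y) = N'.mul (e x) (e y) := fun x y =>
    T.nl.map_mul N' e.toLinearMap (fun a b => by
      rw [hbr]; simp only [LinearEquiv.coe_coe, LinearEquiv.symm_apply_apply]) x y
  let S' : Zk k →* Module.End ℝ E' := (e.conjAlgEquiv ℝ).toAlgHom.toRingHom.toMonoidHom.comp T.S
  have hS : ∀ m x, S' m x = e (T.S m (e.symm x)) := fun _ _ => rfl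
  refine ⟨{ nl := N'
            φ := T.φ ∘ₗ e.symm.toLinearMap
            S := S'
            π := T.π
            X := fun γ => e (T.X γ)
            bf := T.bf.compl₁₂ e.symm.toLinearMap e.symm.toLinearMap
            φ_br := fun x y => ?_
            φ_surj := T.φ_surj.comp e.symm.surjective
            φ_S := fun m x => ?_
            S_br := fun m x y => ?_
            S_ss := fun i => ?_
            π_surj := T.π_surj
            φ_X := fun γ => ?_
            X_mul := fun γ γ' => ?_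
            X_inj := fun h hh h0 => T.X_inj h hh (e.map_eq_zero_iff.1 h0)
            bf_pos := fun x hx h0 => ?_
            bf_int := fun h h' hh hh' => ?_
            gen := fun U hU hUb => ?_ }, fun m x => ?_⟩
  · rw [hbr]
    simp only [LinearMap.comp_apply, LinearEquiv.coe_coe, LinearEquiv.symm_apply_apply, T.φ_br]
  · rw [hS]
    simp only [LinearMap.comp_apply, LinearEquiv.coe_coe, LinearEquiv.symm_apply_apply, T.φ_S]
  · simp only [hS, hbr, LinearEquiv.symm_apply_apply, T.S_br]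
  · obtain ⟨p, hp, h0⟩ := T.S_ss i
    refine ⟨p, hp, ?_⟩
    have : S' (ee i) = (e.conjAlgEquiv ℝ).toAlgHom (T.S (ee i)) := rfl
    rw [this, aeval_algHom_apply, h0, map_zero]
  · simp only [LinearMap.comp_apply, LinearEquiv.coe_coe, LinearEquiv.symm_apply_apply, T.φ_X]
  · rw [T.X_mul, hmul, hS, LinearEquiv.symm_apply_apply]
  · exact T.bf_pos (e.symm x) hx (fun h => h0 (e.symm.map_eq_zero_iff.1 h))
  · simpa only [LinearMap.compl₁₂_apply, LinearEquiv.coe_coe, LinearEquiv.symm_apply_apply] using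
      T.bf_int h h' hh hh'
  · intro x hx
    have h := T.gen (U.comap e.toLinearMap) hU (fun a ha b hb => by
      have := hUb _ ha _ hb
      rw [hbr] at this
      simpa only [LinearEquiv.coe_coe, LinearEquiv.symm_apply_apply, Submodule.mem_comap] using this)
      (show e.symm x ∈ LinearMap.ker T.φ from hx)
    simpa using h
  · rw [hS, LinearEquiv.symm_apply_apply]

end Crest.Agent.R182.B
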