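import Crest.Agent.R182.BDefs

/-!
Row 182, part B, task `R182/BLog`: logarithms of unipotent matrices, extension of nilpotent
matrix Lie algebras.  `Bch.exists_log`, `Bch.exp_injective` are in `BCHa.lean`,
`bch2_exp_ad`, `bch2_exp_conj` in `BCH.lean`.
-/

set_option autoImplicit false

namespace Crest.Agent.R182.B

open scoped BigOperators
open Polynomial

/-- The universal logarithm.  Apply `Bch.exists_log M` in `B₀ = ℚ[X] ⧸ span {X^M}` to `v₀ = mk X`:
`z = mk p` is nilpotent, `exp z = 1 + v₀`.  If `M = 0` take `p = 0` (`B` is trivial).  Otherwise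
`p.coeff 0 = 0` (map `B₀ → ℚ`, `X ↦ 0`; a nilpotent rational is `0`).  For `v ^ M = 0` in `B` the map
`aeval v` factors through `B₀` (`Ideal.Quotient.lift`), use `IsNilpotent.map_exp`. -/
theorem exists_logP (M : ℕ) : ∃ p : ℚ[X], p.coeff 0 = 0 ∧
    ∀ (B : Type) [Ring B] [Algebra ℚ B] (v : B), v ^ M = 0 →
      IsNilpotent (aeval v p) ∧ IsNilpotent.exp (aeval v p) = 1 + v := by
  rcases Nat.eq_zero_or_pos M with rfl | hM
  · refine ⟨0, coeff_zero _, fun B _ _ v hv => ?_⟩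
    rw [pow_zero] at hv
    have : Subsingleton B := subsingleton_of_zero_eq_one hv.symm
    exact ⟨by rw [map_zero]; exact IsNilpotent.zero, Subsingleton.elim _ _⟩
  obtain ⟨z, h1, h2, -⟩ := Bch.exists_log (B := ℚ[X] ⧸ Ideal.span {(X : ℚ[X]) ^ M}) M
    (Ideal.Quotient.mk _ X) (by
      rw [← map_pow, Ideal.Quotient.eq_zero_iff_mem]; exact Ideal.mem_span_singleton_self _)
  obtain ⟨p, rfl⟩ := Ideal.Quotient.mk_surjective z
  have key : ∀ (B : Type) [Ring B] [Algebra ℚ B] (v : B), v ^ M = 0 →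
      IsNilpotent (aeval v p) ∧ IsNilpotent.exp (aeval v p) = 1 + v := by
    intro B _ _ v hv
    let φ : (ℚ[X] ⧸ Ideal.span {(X : ℚ[X]) ^ M}) →+* B :=
      Ideal.Quotient.lift _ (aeval v : ℚ[X] →ₐ[ℚ] B).toRingHom (fun a ha => by
        obtain ⟨b, rfl⟩ := Ideal.mem_span_singleton'.1 ha
        simp [hv])
    have e : ∀ q : ℚ[X], φ (Ideal.Quotient.mk _ q) = aeval v q := fun q => rfl
    refine ⟨e p ▸ h1.map φ, ?_⟩
    rw [← e p, ← h1.map_exp φ, h2, map_add, map_one, e, aeval_X]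
  refine ⟨p, ?_, key⟩
  have h3 := (key ℚ 0 (zero_pow hM.ne')).1.eq_zero
  rwa [coe_aeval_eq_eval, ← coeff_zero_eq_eval_zero] at h3

theorem blog_sum {B : Type} [Ring B] [Algebra ℚ B] {v y : B} (hy : IsNilpotent y)
    (h : IsNilpotent.exp y = 1 + v) :
    ∃ (N : ℕ) (c : ℕ → ℚ), y = ∑ j ∈ Finset.range N, c j • v ^ (j + 1) := by
  have hv : IsNilpotent v := by
    have := hy.isNilpotent_exp_sub_one
    rwa [h, add_sub_cancel_left] at this
  obtain ⟨M, hM⟩ := hv
  obtain ⟨p, hp0, hp⟩ := exists_logP M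
  obtain ⟨h1, h2⟩ := hp B v hM
  refine ⟨p.natDegree, fun j => p.coeff (j + 1), ?_⟩
  rw [Bch.exp_injective hy h1 (h.trans h2.symm), aeval_eq_sum_range, Finset.sum_range_succ', hp0,
    zero_smul, add_zero]

/-- the logarithm is a combination of positive powers (`exists_logP`, `Bch.exp_injective`,
`aeval_eq_sum_range`; a rational multiple is a real multiple: `Rat.cast_smul_eq_qsmul`) -/
theorem log_mem {n : ℕ} (T : Submodule ℝ (Mat n)) {v y : Mat n} (hT : ∀ j : ℕ, v ^ (j + 1) ∈ T)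
    (hy : IsNilpotent y) (h : IsNilpotent.exp y = 1 + v) : y ∈ T := by
  obtain ⟨N, c, rfl⟩ := blog_sum hy h
  exact T.sum_mem fun j _ => T.smul_of_tower_mem _ (hT j)

/-- bounded denominators: `D` is a common denominator of the coefficients of the polynomial of
`exists_logP c` -/
theorem exists_log_int (c : ℕ) : ∃ D : ℕ, D ≠ 0 ∧ ∀ (n : ℕ) (v : Matrix (Fin n) (Fin n) ℤ),
    v ^ c = 0 → ∀ y : Mat n, IsNilpotent y → IsNilpotent.exp y = 1 + castM v →
      ∃ w : Matrix (Fin n) (Fin n) ℤ, (D : ℝ) • y = castM w := by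
  obtain ⟨p, -, hp⟩ := exists_logP c
  refine ⟨∏ i ∈ Finset.range (p.natDegree + 1), (p.coeff i).den,
    Finset.prod_ne_zero_iff.2 fun i _ => (p.coeff i).den_nz, fun n v hv y hy h => ?_⟩
  obtain ⟨h1, h2⟩ := hp (Mat n) (castM v) (by rw [← map_pow, hv, map_zero])
  have h3 : y = aeval (castM v) p := Bch.exp_injective hy h1 (h.trans h2.symm)
  have h4 : ∀ i ∈ Finset.range (p.natDegree + 1), ∃ z : ℤ,
      ((∏ i ∈ Finset.range (p.natDegree + 1), (p.coeff i).den : ℕ) : ℚ) * p.coeff i = z := by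
    intro i hi
    obtain ⟨k, hk⟩ := Finset.dvd_prod_of_mem (fun i => (p.coeff i).den) hi
    refine ⟨k * (p.coeff i).num, ?_⟩
    rw [hk]
    push_cast
    rw [← Rat.den_mul_eq_num]
    ring
  choose! z hz using h4
  refine ⟨∑ i ∈ Finset.range (p.natDegree + 1), z i • v ^ i, ?_⟩
  rw [h3, aeval_eq_sum_range, Finset.smul_sum, map_sum]
  refine Finset.sum_congr rfl fun i hi => ?_
  rw [map_zsmul, map_pow, ← Int.cast_smul_eq_zsmul ℚ, ← hz i hi, mul_smul,
    Nat.cast_smul_eq_nsmul, Nat.cast_smul_eq_nsmul]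

/-- `d = mulLeft y - mulRight y ∈ Module.End ℝ (Mat n)` is nilpotent and `exp d x = exp y * x * exp (-y)`
(see `bch2_exp_ad`, or `Bch.exp_dl` for `-y` in `Module.End ℚ (Mat n)`).  By `exists_logP` and
`Bch.exp_injective`, `d` is a polynomial without constant term in `T = exp d - 1`
(`IsNilpotent.isNilpotent_exp_sub_one`), and `T^(j+1) b ∈ S` for all `j`. -/
theorem br_mem_of_conj {n : ℕ} (S : Submodule ℝ (Mat n)) {y b : Mat n} (hy : IsNilpotent y)
    (hS : ∀ x ∈ S, IsNilpotent.exp y * x * IsNilpotent.exp (-y) ∈ S)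
    (hb : IsNilpotent.exp y * b * IsNilpotent.exp (-y) - b ∈ S) : y * b - b * y ∈ S := by
  have hd := Bch.dl_nil hy.neg
  obtain ⟨N, c, hc⟩ := blog_sum (v := IsNilpotent.exp (Bch.dl (-y)) - 1) hd (by abel)
  have e : ∀ x, (IsNilpotent.exp (Bch.dl (-y)) - 1) x =
      IsNilpotent.exp y * x * IsNilpotent.exp (-y) - x := by
    intro x
    rw [LinearMap.sub_apply, Bch.exp_dl hy.neg, neg_neg, Module.End.one_apply]
  have hT : ∀ j : ℕ, ((IsNilpotent.exp (Bch.dl (-y)) - 1) ^ (j + 1)) b ∈ S := by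
    intro j
    induction j with
    | zero => rw [zero_add, pow_one, e]; exact hb
    | succ j ih => rw [pow_succ', Module.End.mul_apply, e]; exact S.sub_mem (hS _ ih) ih
  have h1 : Bch.dl (-y) b = y * b - b * y := by
    rw [Bch.dl_apply, mul_neg, neg_mul]; abel
  rw [← h1]
  have h2 := congrArg (fun f : Module.End ℚ (Mat n) => f b) hc
  simp only [LinearMap.sum_apply, LinearMap.smul_apply] at h2
  rw [h2]
  exact S.sum_mem fun j _ => S.smul_of_tower_mem _ (hT j)

/-- Let `S^c = ⊥` (`anil_iff_pow`), `y^p = 0`, `J j = S^j * ⊤` (submodule product).  `S * J j ≤ J (j+1)`,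
`y * J j ⊆ J j` (induction on `j`: `y (x w) = x (y w) + (y x - x y) w`), `J c = ⊥`, `1 ∈ J 0`.
For `z_i = x_i + t_i y` and `w ∈ J j`: `z_1 ⋯ z_q w - (∏ t_i) y^q w ∈ J (j+1)`, so products of `p`
elements of `S ⊔ span {y}` map `J j` into `J (j+1)`, products of `c p` elements map `1` to `0`. -/
theorem anil_sup {A : Type*} [Ring A] [Algebra ℝ A] {S : Submodule ℝ A} (hS : ANil S) {y : A}
    (hy : IsNilpotent y) (h : ∀ x ∈ S, y * x - x * y ∈ S) : ANil (S ⊔ Submodule.span ℝ {y}) := by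
  obtain ⟨c, hc⟩ := anil_iff_pow.1 hS
  obtain ⟨p, hp⟩ := hy
  set Y : Submodule ℝ A := Submodule.span ℝ {y} with hY
  have hYS : Y * S ≤ S * Y ⊔ S := by
    refine Submodule.mul_le.2 fun a ha x hx => ?_
    obtain ⟨t, rfl⟩ := Submodule.mem_span_singleton.1 ha
    have e : t • y * x = x * (t • y) + t • (y * x - x * y) := by
      rw [smul_sub, mul_smul_comm, smul_mul_assoc]; abel
    rw [e]
    exact Submodule.add_mem_sup (Submodule.mul_mem_mul hx ha) (S.smul_mem _ (h x hx))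
  have hs : ∀ j : ℕ, S * (S ^ j * ⊤) = S ^ (j + 1) * ⊤ := fun j => by
    rw [pow_succ', mul_assoc]
  have hanti : ∀ j : ℕ, S ^ (j + 1) * ⊤ ≤ S ^ j * ⊤ := fun j => by
    rw [pow_succ, mul_assoc]; exact mul_le_mul_right le_top _
  have hA : ∀ j : ℕ, Y * (S ^ j * ⊤) ≤ S ^ j * ⊤ := by
    intro j
    induction j with
    | zero => rw [pow_zero, one_mul]; exact le_top
    | succ j ih =>
      rw [← hs, ← mul_assoc]
      refine (mul_le_mul_left hYS _).trans ?_
      rw [Submodule.sup_mul, mul_assoc]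
      exact sup_le (mul_le_mul_right ih _) le_rfl
  have hA' : ∀ q j : ℕ, Y ^ q * (S ^ j * ⊤) ≤ S ^ j * ⊤ := by
    intro q j
    induction q with
    | zero => rw [pow_zero, one_mul]
    | succ q ih => rw [pow_succ', mul_assoc]; exact (mul_le_mul_right ih _).trans (hA j)
  have hB : ∀ q j : ℕ, (S ⊔ Y) ^ q * (S ^ j * ⊤) ≤ Y ^ q * (S ^ j * ⊤) ⊔ S ^ (j + 1) * ⊤ := by
    intro q j
    induction q with
    | zero => rw [pow_zero, pow_zero]; exact le_sup_left
    | succ q ih =>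
      rw [pow_succ', mul_assoc]
      refine (mul_le_mul_right ih _).trans ?_
      rw [Submodule.sup_mul, Submodule.mul_sup, Submodule.mul_sup]
      refine sup_le (sup_le ?_ ?_) (sup_le ?_ ?_)
      · exact le_sup_of_le_right ((mul_le_mul_right (hA' q j) _).trans (hs j).le)
      · exact le_sup_of_le_right ((hs _).le.trans (hanti _))
      · exact le_sup_of_le_left (by rw [pow_succ' Y, mul_assoc])
      · exact le_sup_of_le_right (hA _)
  have hYp : Y ^ p = ⊥ := by
    rw [hY, Submodule.span_pow, Set.singleton_pow, hp, Submodule.span_zero_singleton]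
  have hC : ∀ j : ℕ, (S ⊔ Y) ^ (p * j) * ⊤ ≤ S ^ j * ⊤ := by
    intro j
    induction j with
    | zero => rw [mul_zero, pow_zero, pow_zero]
    | succ j ih =>
      rw [mul_add, mul_one, add_comm, pow_add, mul_assoc]
      refine (mul_le_mul_right ih _).trans ((hB p j).trans ?_)
      rw [hYp, Submodule.bot_mul, bot_sup_eq]
  refine anil_iff_pow.2 ⟨p * c, le_bot_iff.1 ?_⟩
  have h1 := hC c
  rw [hc, Submodule.bot_mul] at h1
  refine le_trans ?_ h1
  conv_lhs => rw [← mul_one ((S ⊔ Y) ^ (p * c))]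
  exact mul_le_mul_right le_top _

theorem lie_sup {A : Type*} [Ring A] [Algebra ℝ A] {S : Submodule ℝ A} (hS : Lie S) {y : A}
    (h : ∀ x ∈ S, y * x - x * y ∈ S) : Lie (S ⊔ Submodule.span ℝ {y}) := by
  intro a ha b hb
  obtain ⟨x, hx, w, hw, rfl⟩ := Submodule.mem_sup.1 hb
  obtain ⟨t, rfl⟩ := Submodule.mem_span_singleton.1 hw
  obtain ⟨x', hx', w', hw', rfl⟩ := Submodule.mem_sup.1 ha
  obtain ⟨s, rfl⟩ := Submodule.mem_span_singleton.1 hw'
  have e : (x' + s • y) * (x + t • y) - (x + t • y) * (x' + s • y) =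
      (x' * x - x * x') + s • (y * x - x * y) - t • (y * x' - x' * y) := by
    simp only [add_mul, mul_add, smul_mul_assoc, mul_smul_comm, smul_sub, smul_add, smul_smul,
      mul_comm s t]
    abel
  rw [e]
  exact Submodule.mem_sup_left (S.sub_mem (S.add_mem (hS _ hx' _ hx) (S.smul_mem _ (h x hx)))
    (S.smul_mem _ (h x' hx')))

/-- BCH in `subNL (S ⊔ span {y})`, where `S.comap subtype` is an ideal: `NL.mul_sub_mem` -/
theorem exists_exp_mul_exp {n : ℕ} {S : Submodule ℝ (Mat n)} (hL : Lie S) (hN : ANil S) {y : Mat n}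
    (hy : IsNilpotent y) (h : ∀ x ∈ S, y * x - x * y ∈ S) {x : Mat n} (hx : x ∈ S) :
    ∃ z : Mat n, IsNilpotent z ∧ z - y ∈ S ∧
      IsNilpotent.exp z = IsNilpotent.exp x * IsNilpotent.exp y := by
  have hL' := lie_sup hL h
  have hN' := anil_sup hN hy h
  have hx' : x ∈ S ⊔ Submodule.span ℝ {y} := Submodule.mem_sup_left hx
  have hy' : y ∈ S ⊔ Submodule.span ℝ {y} :=
    Submodule.mem_sup_right (Submodule.mem_span_singleton_self y)
  refine ⟨((subNL _ hL' hN').mul ⟨x, hx'⟩ ⟨y, hy'⟩ : (S ⊔ Submodule.span ℝ {y} : Submodule ℝ _)),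
    hN'.isNilpotent (Subtype.coe_prop _), ?_, subNL_exp_mul _ hL' hN' ⟨x, hx'⟩ ⟨y, hy'⟩⟩
  refine ((subNL _ hL' hN').mul_sub_mem (I := S.comap (S ⊔ Submodule.span ℝ {y}).subtype)
    (fun a b hb => ?_) ⟨y, hy'⟩ (y := ⟨x, hx'⟩) hx).2
  obtain ⟨a, ha⟩ := a
  obtain ⟨b, hb'⟩ := b
  change b ∈ S at hb
  change a * b - b * a ∈ S
  obtain ⟨x', hx', w', hw', rfl⟩ := Submodule.mem_sup.1 ha
  obtain ⟨s, rfl⟩ := Submodule.mem_span_singleton.1 hw'
  have e : (x' + s • y) * b - b * (x' + s • y) = (x' * b - b * x') + s • (y * b - b * y) := by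
    simp only [add_mul, mul_add, smul_mul_assoc, mul_smul_comm, smul_sub]
    abel
  rw [e]
  exact S.add_mem (hL _ hx' _ hb) (S.smul_mem _ (h b hb))

end Crest.Agent.R182.B
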