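import Crest.Agent.R182.BChar

/-!
Row 182, part B, task `R182/BMal`: Malcev's theorem for polycyclic groups: a finite-index subgroup
is triangularisable.
-/

set_option autoImplicit false

namespace Crest.Agent.R182.B

open scoped BigOperators commutatorElement
open Polynomial

universe u v

/-- common eigenvectors with distinct weights are linearly independent -/
theorem mal_indep {V : Type v} [AddCommGroup V] [Module ℂ V] {S ι : Type*}
    (f : S → Module.End ℂ V) (w : ι → V) (hw : ∀ i, w i ≠ 0) (χ : ι → S → ℂ)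
    (hχ : Function.Injective χ) (he : ∀ i t, f t (w i) = χ i t • w i) :
    LinearIndependent ℂ w := by
  classical
  rw [linearIndependent_iff']
  intro s
  induction s using Finset.induction_on with
  | empty => intro g _ i hi; simp at hi
  | insert a s ha ih =>
    intro g hg
    rw [Finset.sum_insert ha] at hg
    have h1 : ∀ i ∈ s, g i = 0 := by
      intro i hi
      have hne : χ i ≠ χ a := fun e => ha (hχ e ▸ hi)
      obtain ⟨t, ht⟩ := Function.ne_iff.1 hne
      have h2 : ∑ j ∈ s, (g j * (χ j t - χ a t)) • w j = 0 := by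
        have h3 := congrArg (f t) hg
        have h4 := congrArg (fun x => χ a t • x) hg
        simp only [map_add, map_sum, map_smul, he, map_zero, smul_add, Finset.smul_sum,
          smul_zero, smul_smul] at h3 h4
        have h5 : ∑ j ∈ s, (g j * (χ j t - χ a t)) • w j =
            ∑ j ∈ s, (g j * χ j t) • w j - ∑ j ∈ s, (χ a t * g j) • w j := by
          rw [← Finset.sum_sub_distrib]
          refine Finset.sum_congr rfl fun j _ => ?_
          rw [← sub_smul]
          congr 1
          ring
        rw [h5, eq_neg_of_add_eq_zero_right h3, eq_neg_of_add_eq_zero_right h4, mul_comm,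
          sub_self]
      have := ih _ h2 i hi
      exact (mul_eq_zero.1 this).resolve_right (sub_ne_zero.2 ht)
    have h2 : ∑ j ∈ s, g j • w j = 0 :=
      Finset.sum_eq_zero fun j hj => by rw [h1 j hj, zero_smul]
    rw [h2, add_zero] at hg
    intro i hi
    rcases Finset.mem_insert.1 hi with rfl | hi
    · exact (smul_eq_zero.1 hg).resolve_right (hw _)
    · exact h1 i hi

/-- the elements having `u` as an eigenvector -/
def malStab {G : Type u} [Group G] {V : Type v} [AddCommGroup V] [Module ℂ V]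
    (σ : G →* Module.End ℂ V) (u : V) (hu : u ≠ 0) : Subgroup G where
  carrier := {x | ∃ μ : ℂ, σ x u = μ • u}
  one_mem' := ⟨1, by simp⟩
  mul_mem' := by
    rintro x y ⟨a, ha⟩ ⟨b, hb⟩
    refine ⟨b * a, ?_⟩
    rw [map_mul, Module.End.mul_apply, hb, map_smul, ha, smul_smul]
  inv_mem' := by
    rintro x ⟨a, ha⟩
    have h1 : a • σ x⁻¹ u = u := by
      rw [← map_smul, ← ha, ← Module.End.mul_apply, ← map_mul, inv_mul_cancel, map_one,
        Module.End.one_apply]
    have h2 : a ≠ 0 := by
      rintro rfl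
      rw [zero_smul] at h1
      exact hu h1.symm
    refine ⟨a⁻¹, ?_⟩
    conv_rhs => rw [← h1]
    rw [smul_smul, inv_mul_cancel₀ h2, one_smul]

theorem mal_ne_zero {G : Type u} [Group G] {V : Type v} [AddCommGroup V] [Module ℂ V]
    (σ : G →* Module.End ℂ V) {u : V} (hu : u ≠ 0) (x : G) : σ x u ≠ 0 := by
  intro h
  apply hu
  have := congrArg (σ x⁻¹) h
  rwa [← Module.End.mul_apply, ← map_mul, inv_mul_cancel, map_one, Module.End.one_apply,
    map_zero] at this

/-- A finite-index subgroup of a polycyclic group has a common eigenvector.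
Induction on `poly_PC`.  `⊥`: any `v ≠ 0`.  Step `H ⊔ ⟨g⟩`: let `Δ ≤ H`, `v` be given by induction,
replace `Δ` by the subgroup `Δ₀` of `exists_charSub` (normalised by `g`; `H` is f.g. by `pc_fg`).  For
`χ : Δ₀ → ℂ` let `W χ = ⨅ δ, eigenspace (σ δ) (χ δ)`.  The family `W` is independent (e.g.
`Module.End.independent_iInf_maxGenEigenspace_of_forall_mapsTo` needs commuting maps, so rather
argue directly: non-zero vectors `v_i ∈ W (χ_i)` with distinct `χ_i` are linearly independent, by the
usual minimal-relation argument, or by induction on a finite set: apply `σ δ - χ_0 δ`).  The vectors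
`σ (g^i) v`, `i : ℕ`, are common eigenvectors of `Δ₀` with weights `χ_i δ = χ_0 (g^{-i} δ g^i)`; they
cannot be all independent, so `χ_a = χ_b` for some `a < b`, hence `χ_{b-a} = χ_0` and `σ (g^{b-a})` maps
`W χ_0 ≠ ⊥` to itself.  An eigenvector of its restriction (`Module.End.exists_eigenvalue`) is a
common eigenvector of `Δ₀ ⊔ ⟨g^{b-a}⟩` (the `x` having `w` as an eigenvector form a subgroup),
which has finite index by `relIndex_sup`. -/
theorem exists_eigen {G : Type u} [Group G] {V : Type v} [AddCommGroup V] [Module ℂ V]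
    [FiniteDimensional ℂ V] [Nontrivial V] (σ : G →* Module.End ℂ V) {H : Subgroup G}
    (hH : Gro.poly_PC H) :
    ∃ Δ : Subgroup G, Δ ≤ H ∧ Δ.relIndex H ≠ 0 ∧
      ∃ v : V, v ≠ 0 ∧ ∀ g ∈ Δ, ∃ μ : ℂ, σ g v = μ • v := by
  induction hH with
  | bot =>
    obtain ⟨v, hv⟩ := exists_ne (0 : V)
    refine ⟨⊥, le_rfl, by simp, v, hv, fun g hg => ⟨1, ?_⟩⟩
    rw [Subgroup.mem_bot.1 hg, map_one, Module.End.one_apply, one_smul]
  | step H g hH hg ih =>
    obtain ⟨Δ, hΔ, hi, v, hv, he⟩ := ih
    obtain ⟨Δ₀, h0, hi0, hn⟩ := exists_charSub (pc_fg hH) hΔ hi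
    have hgn := hn g hg
    have hconj : ∀ (m : ℕ) (δ : G), δ ∈ Δ₀ → (g ^ m)⁻¹ * δ * g ^ m ∈ Δ₀ := by
      intro m δ hδ
      have h1 : (g ^ m)⁻¹ ∈ Subgroup.normalizer (Δ₀ : Set G) := inv_mem (pow_mem hgn m)
      have := (Subgroup.mem_normalizer_iff.1 h1 δ).1 hδ
      simpa using this
    have hcomm : ∀ (m : ℕ) (δ : G) (w : V),
        σ δ (σ (g ^ m) w) = σ (g ^ m) (σ ((g ^ m)⁻¹ * δ * g ^ m) w) := by
      intro m δ w
      rw [← Module.End.mul_apply, ← map_mul, ← Module.End.mul_apply, ← map_mul]
      congr 2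
      group
    have hw : ∀ (i : ℕ) (δ : Δ₀), ∃ μ : ℂ, σ δ (σ (g ^ i) v) = μ • σ (g ^ i) v := by
      intro i δ
      obtain ⟨μ, hμ⟩ := he _ (h0 (hconj i δ δ.2))
      exact ⟨μ, by rw [hcomm, hμ, map_smul]⟩
    choose χ hχ using hw
    have hni : ¬ Function.Injective χ := fun hinj =>
      Module.Finite.not_linearIndependent_of_infinite (R := ℂ) (fun i : ℕ => σ (g ^ i) v)
        (mal_indep (fun δ : Δ₀ => σ δ) _ (fun i => mal_ne_zero σ hv _) χ hinj hχ)
    obtain ⟨a, m, hm, hab⟩ : ∃ a m : ℕ, m ≠ 0 ∧ χ (m + a) = χ a := by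
      simp only [Function.Injective, not_forall] at hni
      obtain ⟨a, b, hab, hne⟩ := hni
      rcases lt_or_gt_of_ne hne with h | h
      · refine ⟨a, b - a, by omega, ?_⟩
        rw [Nat.sub_add_cancel h.le, hab]
      · refine ⟨b, a - b, by omega, ?_⟩
        rw [Nat.sub_add_cancel h.le, hab]
    let W : Submodule ℂ V :=
      { carrier := {w | ∀ δ : Δ₀, σ δ w = χ a δ • w}
        zero_mem' := fun δ => by simp
        add_mem' := fun {x y} hx hy δ => by rw [map_add, hx δ, hy δ, smul_add]
        smul_mem' := fun c x hx δ => by rw [map_smul, hx δ, smul_comm] }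
    have hWa : σ (g ^ a) v ∈ W := hχ a
    have hkey : ∀ δ : Δ₀, χ a ⟨_, hconj m δ δ.2⟩ = χ a δ := by
      intro δ
      have h1 := hχ (m + a) δ
      have h2 : σ (g ^ (m + a)) v = σ (g ^ m) (σ (g ^ a) v) := by
        rw [pow_add, map_mul, Module.End.mul_apply]
      have h3 := hχ a ⟨_, hconj m δ δ.2⟩
      rw [hab, h2, hcomm] at h1
      simp only at h3
      rw [h3, map_smul] at h1
      exact smul_left_injective ℂ (mal_ne_zero σ (mal_ne_zero σ hv _) _) h1
    have hW : ∀ w ∈ W, σ (g ^ m) w ∈ W := by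
      intro w hw δ
      have h3 := hw ⟨_, hconj m δ δ.2⟩
      simp only at h3
      rw [hcomm, h3, map_smul, hkey]
    have : Nontrivial W :=
      ⟨⟨⟨_, hWa⟩, 0, fun e => mal_ne_zero σ hv _ (congrArg Subtype.val e)⟩⟩
    obtain ⟨c, hc⟩ := Module.End.exists_eigenvalue ((σ (g ^ m)).restrict hW : Module.End ℂ W)
    obtain ⟨u, hu⟩ := hc.exists_hasEigenvector
    have hu0 : (u : V) ≠ 0 := fun e => hu.2 (Subtype.ext e)
    have hu1 : σ (g ^ m) u = c • (u : V) := by
      have := congrArg Subtype.val hu.apply_eq_smul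
      simpa using this
    refine ⟨Δ₀ ⊔ Subgroup.zpowers (g ^ (m : ℤ)), ?_,
      relIndex_sup (h0.trans hΔ) hi0 hg (by exact_mod_cast hm), u, hu0, ?_⟩
    · refine sup_le_sup (h0.trans hΔ) (Subgroup.zpowers_le.2 ?_)
      exact Subgroup.zpow_mem_zpowers g _
    · have : Δ₀ ⊔ Subgroup.zpowers (g ^ (m : ℤ)) ≤ malStab σ u hu0 := by
        refine sup_le (fun δ hδ => ⟨_, u.2 ⟨δ, hδ⟩⟩) (Subgroup.zpowers_le.2 ⟨c, ?_⟩)
        rw [zpow_natCast, hu1]
      exact fun x hx => this hx

/-- Induction on `finrank V` (for all `G`, `V`).  `V` trivial: `Γ₁ = ⊤`.  Otherwise take `Δ`, `v` from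
`exists_eigen` with `H = ⊤`; `Δ` acts on `V ⧸ span {v}` (`Submodule.mapQ`), `Δ` is polycyclic
(`Gro.poly_PC.comap`), induction gives `Γ₁' ≤ Δ`; `Γ₁ = Γ₁'.map Δ.subtype`
(`Subgroup.map_commutator`, `Subgroup.index_map_subtype`).  For `h ∈ ⁅Γ₁, Γ₁⁆`: `σ h v = v` (the
stabiliser of `v` contains all commutators of elements of `Δ`: `Subgroup.commutator_le`), and
`(σ h - 1)^c` maps `V` into `span {v}`, so `(σ h - 1)^(c+1) = 0`. -/
theorem exists_unip {G : Type u} [Group G] {V : Type v} [AddCommGroup V] [Module ℂ V]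
    [FiniteDimensional ℂ V] (hG : Gro.poly_PC (⊤ : Subgroup G)) (σ : G →* Module.End ℂ V) :
    ∃ Γ₁ : Subgroup G, Γ₁.FiniteIndex ∧ ∀ h ∈ ⁅Γ₁, Γ₁⁆, IsNilpotent (σ h - 1) := by
  induction hd : Module.finrank ℂ V generalizing G V with
  | zero =>
    have : Subsingleton V := Module.finrank_zero_iff.1 hd
    exact ⟨⊤, inferInstance, fun h _ => ⟨1, Subsingleton.elim _ _⟩⟩
  | succ d ih =>
    have : Nontrivial V := Module.nontrivial_of_finrank_eq_succ hd
    obtain ⟨Δ, -, hi, v, hv, he⟩ := exists_eigen σ hG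
    rw [Subgroup.relIndex_top_right] at hi
    have hL : ∀ x : Δ, (ℂ ∙ v) ≤ (ℂ ∙ v).comap (σ x) := by
      intro x
      rw [Submodule.span_singleton_le_iff_mem, Submodule.mem_comap]
      obtain ⟨μ, hμ⟩ := he x x.2
      rw [hμ]
      exact Submodule.smul_mem _ _ (Submodule.mem_span_singleton_self v)
    let τ : Δ →* Module.End ℂ (V ⧸ (ℂ ∙ v)) :=
      { toFun := fun x => (ℂ ∙ v).mapQ (ℂ ∙ v) (σ x) (hL x)
        map_one' := by
          refine Submodule.linearMap_qext _ ?_
          ext w
          simp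
        map_mul' := fun x y => by
          refine Submodule.linearMap_qext _ ?_
          ext w
          simp }
    have hτ : ∀ (x : Δ) (w : V), τ x (Submodule.Quotient.mk w) = Submodule.Quotient.mk (σ x w) :=
      fun x w => rfl
    have hΔ : Gro.poly_PC (⊤ : Subgroup Δ) := by
      have := hG.comap Δ.subtype Δ.subtype_injective
      rwa [Subgroup.comap_top] at this
    have hdim : Module.finrank ℂ (V ⧸ (ℂ ∙ v)) = d := by
      have := (ℂ ∙ v).finrank_quotient_add_finrank
      rw [finrank_span_singleton hv, hd] at this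
      omega
    obtain ⟨Γ', hΓ', hnil⟩ := ih hΔ τ hdim
    refine ⟨Γ'.map Δ.subtype, ⟨?_⟩, fun h hh => ?_⟩
    · rw [Subgroup.index_map_subtype]
      exact mul_ne_zero hΓ'.index_ne_zero hi
    · rw [← Subgroup.map_commutator] at hh
      obtain ⟨x, hx, rfl⟩ := hh
      obtain ⟨c, hc⟩ := hnil x hx
      have hfix : σ x v = v := by
        let St : Subgroup Δ :=
          { carrier := {y | σ y v = v}
            one_mem' := by simp
            mul_mem' := fun {a b} ha hb => by
              simp only [Set.mem_ofPred_eq] at ha hb ⊢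
              rw [Subgroup.coe_mul, map_mul, Module.End.mul_apply, hb, ha]
            inv_mem' := fun {a} ha => by
              simp only [Set.mem_ofPred_eq] at ha ⊢
              conv_lhs => rw [← ha]
              rw [← Module.End.mul_apply, ← map_mul, Subgroup.coe_inv, inv_mul_cancel, map_one,
                Module.End.one_apply] }
        have : ⁅Γ', Γ'⁆ ≤ St := by
          rw [Subgroup.commutator_le]
          intro a _ b _
          obtain ⟨α, hα⟩ := he a a.2
          obtain ⟨β, hβ⟩ := he b b.2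
          have h1 : σ ((a : G) * b) v = σ ((b : G) * a) v := by
            simp only [map_mul, Module.End.mul_apply, hα, hβ, map_smul, smul_smul, mul_comm]
          have h2 : σ (((b : G) * a)⁻¹) (σ ((a : G) * b) v) = v := by
            rw [h1, ← Module.End.mul_apply, ← map_mul, inv_mul_cancel, map_one,
              Module.End.one_apply]
          obtain ⟨γ, hγ⟩ := he _ (inv_mem (mul_mem b.2 a.2))
          have h3 : σ ((a : G) * b) (σ (((b : G) * a)⁻¹) v) = v := by
            obtain ⟨ε, hε⟩ := he _ (mul_mem a.2 b.2)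
            rw [hε, map_smul, hγ] at h2
            rw [hγ, map_smul, hε, smul_comm, h2]
          change σ ((⁅a, b⁆ : Δ) : G) v = v
          rw [← Module.End.mul_apply, ← map_mul] at h3
          have h4 : ((⁅a, b⁆ : Δ) : G) = (a : G) * b * ((b : G) * a)⁻¹ := by
            simp only [commutatorElement_def, Subgroup.coe_mul, Subgroup.coe_inv]
            group
          rw [h4, h3]
        exact this hx
      have hpow : ∀ (n : ℕ) (w : V), ((τ x - 1) ^ n) (Submodule.Quotient.mk w) =
          Submodule.Quotient.mk (((σ x - 1) ^ n) w) := by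
        intro n
        induction n with
        | zero => intro w; rfl
        | succ n ihn =>
          intro w
          rw [pow_succ', pow_succ', Module.End.mul_apply, Module.End.mul_apply, ihn,
            LinearMap.sub_apply, LinearMap.sub_apply, hτ, Module.End.one_apply,
            Module.End.one_apply, Submodule.Quotient.mk_sub]
      refine ⟨c + 1, ?_⟩
      ext w
      have h1 := hpow c w
      rw [hc, LinearMap.zero_apply, eq_comm, Submodule.Quotient.mk_eq_zero,
        Submodule.mem_span_singleton] at h1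
      obtain ⟨a, ha⟩ := h1
      change ((σ x - 1) ^ (c + 1)) w = 0
      rw [pow_succ', Module.End.mul_apply, ← ha, map_smul, LinearMap.sub_apply, hfix,
        Module.End.one_apply, sub_self, smul_zero]

end Crest.Agent.R182.B
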