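import Crest.Agent.R182.BJor

/-!
Row 182, part B, task `R182/BMod`: decomposition according to the moduli of the eigenvalues.
-/

set_option autoImplicit false

namespace Crest.Agent.R182.B

open scoped BigOperators
open Polynomial

variable {d k : ℕ}

theorem Ew_map (S : Zk k →* Module.End ℝ (Fin d → ℝ)) (lam : (Fin k → ℝ) →ₗ[ℝ] ℝ) (m : Zk k)
    {x : Fin d → ℝ} (hx : x ∈ Ew S lam) : S m x ∈ Ew S lam := by
  obtain ⟨C, hC⟩ := hx
  refine ⟨C * Real.exp (lam (toR m)), fun m' => ?_⟩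
  have h := hC (m' * m)
  rw [map_mul, Module.End.mul_apply, toR_mul, map_add, Real.exp_add] at h
  calc ‖S m' (S m x)‖ ≤ _ := h
    _ = _ := by ring

/-- complexification of a real endomorphism of `ℝ^d` -/
noncomputable def mod_cx (d : ℕ) :
    Module.End ℝ (Fin d → ℝ) →+* Module.End ℂ (Fin d → ℂ) :=
  (Matrix.toLinAlgEquiv' (R := ℂ) (n := Fin d)).toRingEquiv.toRingHom.comp
    ((Complex.ofRealHom.mapMatrix).comp
      (LinearMap.toMatrixAlgEquiv' (R := ℝ) (n := Fin d)).toRingEquiv.toRingHom)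

theorem mod_cx_apply (f : Module.End ℝ (Fin d → ℝ)) (z : Fin d → ℂ) (i : Fin d) :
    mod_cx d f z i = ∑ j, ((f (Pi.single j 1) i : ℝ) : ℂ) * z j := by
  simp [mod_cx, Matrix.toLinAlgEquiv'_apply, Matrix.mulVec, dotProduct,
    LinearMap.toMatrixAlgEquiv'_apply]

theorem mod_re_cx (f : Module.End ℝ (Fin d → ℝ)) (z : Fin d → ℂ) :
    (fun i => (mod_cx d f z i).re) = f fun j => (z j).re := by
  ext i
  have e : (fun j => (z j).re) = ∑ j, (z j).re • (Pi.single j 1 : Fin d → ℝ) := by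
    ext j; simp [Finset.sum_apply, Pi.single_apply]
  rw [mod_cx_apply, e, map_sum]
  simp [Finset.sum_apply, mul_comm]

theorem mod_cx_algebraMap (c : ℝ) :
    mod_cx d (algebraMap ℝ _ c) = algebraMap ℂ _ (c : ℂ) := by
  refine LinearMap.ext fun z => funext fun i => ?_
  rw [mod_cx_apply]
  simp [Pi.single_apply, apply_ite]

theorem mod_cx_ss {f : Module.End ℝ (Fin d → ℝ)} (h : SS f) : (mod_cx d f).IsSemisimple := by
  obtain ⟨p, hp, h0⟩ := h
  refine Module.End.isSemisimple_of_squarefree_aeval_eq_zero (p := p.map (algebraMap ℝ ℂ))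
    ((PerfectField.separable_iff_squarefree.2 hp).map).squarefree ?_
  have := Polynomial.map_aeval_eq_aeval_map (φ := algebraMap ℝ ℂ) (ψ := mod_cx d)
    (by ext1 c; exact (mod_cx_algebraMap c).symm) p f
  rw [← this, h0, map_zero]

/-- Complexify: `A m = (LinearMap.toMatrix' (S m)).map ofReal`, a monoid homomorphism to complex
matrices.  `A (ee i)` is killed by a separable polynomial (`PerfectField.separable_iff_squarefree`,
`Separable.map`), so `toLin' (A (ee i))` is semisimple, its generalised eigenspaces are eigenspaces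
(`IsFinitelySemisimple.maxGenEigenspace_eq_eigenspace`), and
`Module.End.iSup_iInf_maxGenEigenspace_eq_top_of_iSup_maxGenEigenspace_eq_top_of_commute` shows
that the joint eigenvectors span `Fin d → ℂ`.  For a joint eigenvector `z ≠ 0` with eigenvalues `χ i`
(non-zero as `A (ee i)` is invertible) and `λ v = ∑ v i * log ‖χ i‖`: by `Zk_induction`,
`A m z = μ z` with `‖μ‖ = exp (λ (toR m))`; so `re z ∈ Ew S λ` (`S m (re z) = re (A m z)`).  `re` is
additive, so by `Submodule.iSup_induction` `re z ∈ ⨆ Ew` for all `z`; take `z = ofReal x`. -/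
theorem iSup_Ew (S : Zk k →* Module.End ℝ (Fin d → ℝ)) (hS : ∀ i, SS (S (ee i))) :
    ⨆ lam, Ew S lam = ⊤ := by
  have htop := Module.End.iSup_iInf_maxGenEigenspace_eq_top_of_iSup_maxGenEigenspace_eq_top_of_commute
    (fun i => mod_cx d (S (ee i)))
    (fun i j _ => by
      change mod_cx d _ * mod_cx d _ = mod_cx d _ * mod_cx d _
      rw [← map_mul, ← map_mul, ← map_mul, ← map_mul, mul_comm])
    (fun i => Module.End.iSup_maxGenEigenspace_eq_top _)
  have key : ∀ z : Fin d → ℂ, (fun j => (z j).re) ∈ ⨆ lam, Ew S lam := by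
    intro z
    have hz : z ∈ ⨆ χ : Fin k → ℂ, ⨅ i, (mod_cx d (S (ee i))).maxGenEigenspace (χ i) := by
      rw [htop]; trivial
    induction hz using Submodule.iSup_induction' with
    | zero => exact Submodule.zero_mem _
    | add x y _ _ hx hy => exact Submodule.add_mem _ hx hy
    | mem χ z hz =>
      by_cases hz0 : z = 0
      · subst hz0; exact Submodule.zero_mem _
      have he : ∀ i, mod_cx d (S (ee i)) z = χ i • z := by
        intro i
        have := (Submodule.mem_iInf _).1 hz i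
        rw [(mod_cx_ss (hS i)).isFinitelySemisimple.maxGenEigenspace_eq_eigenspace] at this
        exact Module.End.mem_eigenspace_iff.1 this
      have hinv : ∀ m, mod_cx d (S m⁻¹) (mod_cx d (S m) z) = z := by
        intro m
        rw [← Module.End.mul_apply, ← map_mul, ← map_mul, inv_mul_cancel, map_one, map_one,
          Module.End.one_apply]
      have hχ : ∀ i, χ i ≠ 0 := by
        intro i h0
        have := hinv (ee i)
        rw [he, h0, zero_smul, map_zero] at this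
        exact hz0 this.symm
      let lam : (Fin k → ℝ) →ₗ[ℝ] ℝ :=
        ∑ i, Real.log ‖χ i‖ • LinearMap.proj (R := ℝ) (φ := fun _ : Fin k => ℝ) i
      have hm : ∀ m, ∃ μ : ℂ, mod_cx d (S m) z = μ • z ∧ ‖μ‖ = Real.exp (lam (toR m)) := by
        intro m
        induction m using Zk_induction with
        | h1 => exact ⟨1, by simp, by simp⟩
        | he i =>
          refine ⟨χ i, he i, ?_⟩
          have : lam (toR (ee i)) = Real.log ‖χ i‖ := by
            simp [lam, toR_ee, Pi.single_apply]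
          rw [this, Real.exp_log (norm_pos_iff.2 (hχ i))]
        | hmul m m' h h' =>
          obtain ⟨μ, h1, h2⟩ := h
          obtain ⟨μ', h1', h2'⟩ := h'
          refine ⟨μ' * μ, ?_, ?_⟩
          · rw [map_mul, map_mul, Module.End.mul_apply, h1', map_smul, h1, smul_smul]
          · rw [norm_mul, h2, h2', toR_mul, map_add, Real.exp_add, mul_comm]
        | hinv m h =>
          obtain ⟨μ, h1, h2⟩ := h
          have hμ : μ ≠ 0 := by
            rw [← norm_pos_iff, h2]; exact Real.exp_pos _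
          refine ⟨μ⁻¹, ?_, ?_⟩
          · have := hinv m
            rw [h1, map_smul] at this
            rw [eq_inv_smul_iff₀ hμ, this]
          · rw [norm_inv, h2, toR_inv, map_neg, Real.exp_neg]
      refine Submodule.mem_iSup_of_mem lam ⟨‖z‖, fun m => ?_⟩
      obtain ⟨μ, h1, h2⟩ := hm m
      rw [← mod_re_cx, h1, ← h2]
      refine (pi_norm_le_iff_of_nonneg (by positivity)).2 fun i => ?_
      refine (Complex.abs_re_le_norm _).trans ?_
      rw [Pi.smul_apply, norm_smul, mul_comm]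
      exact mul_le_mul_of_nonneg_right (norm_le_pi_norm z i) (norm_nonneg _)
  rw [eq_top_iff]
  intro x _
  simpa using key fun j => (x j : ℂ)

/-- uniform bound (take a basis of the finite-dimensional `Ew S lam`, or Banach–Steinhaus) -/
theorem Ew_unif (S : Zk k →* Module.End ℝ (Fin d → ℝ)) (lam : (Fin k → ℝ) →ₗ[ℝ] ℝ) :
    ∃ C : ℝ, 0 < C ∧ ∀ x ∈ Ew S lam, ∀ m, ‖S m x‖ ≤ C * Real.exp (lam (toR m)) * ‖x‖ := by
  let b := Module.finBasis ℝ (Ew S lam)
  choose C hC using fun i => (b i).2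
  let c : Fin (Module.finrank ℝ (Ew S lam)) → (Ew S lam →L[ℝ] ℝ) := fun i =>
    LinearMap.toContinuousLinearMap (b.coord i)
  have hC0 : ∀ i, 0 ≤ C i := fun i => by
    have := hC i 1
    simp only [map_one, Module.End.one_apply, toR_one, map_zero, Real.exp_zero, mul_one] at this
    exact (norm_nonneg _).trans this
  refine ⟨∑ i, ‖c i‖ * C i + 1, by
    have : 0 ≤ ∑ i, ‖c i‖ * C i :=
      Finset.sum_nonneg fun i _ => mul_nonneg (c i).opNorm_nonneg (hC0 i)
    linarith, fun x hx m => ?_⟩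
  have e : x = ∑ i, c i ⟨x, hx⟩ • ((b i : Ew S lam) : Fin d → ℝ) := by
    have := congrArg Subtype.val (b.sum_repr ⟨x, hx⟩)
    rw [AddSubmonoidClass.coe_finsetSum] at this
    exact this.symm
  have h1 : ‖S m x‖ ≤ ∑ i, ‖c i‖ * C i * Real.exp (lam (toR m)) * ‖x‖ := by
    conv_lhs => rw [e, map_sum]
    refine (norm_sum_le _ _).trans (Finset.sum_le_sum fun i _ => ?_)
    rw [map_smul, norm_smul]
    have h2 : ‖c i ⟨x, hx⟩‖ ≤ ‖c i‖ * ‖x‖ := (c i).le_opNorm ⟨x, hx⟩
    calc ‖c i ⟨x, hx⟩‖ * ‖S m (b i)‖ ≤ (‖c i‖ * ‖x‖) * (C i * Real.exp (lam (toR m))) :=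
          mul_le_mul h2 (hC i m) (norm_nonneg _) (by positivity)
      _ = _ := by ring
  rw [← Finset.sum_mul, ← Finset.sum_mul] at h1
  refine h1.trans ?_
  have : 0 ≤ Real.exp (lam (toR m)) * ‖x‖ := by positivity
  nlinarith

/-- finitely many non-zero linear forms do not vanish at some integer point (try
`m = (t^i)_i`, `t : ℕ`: a non-zero polynomial in `t` has finitely many roots) -/
theorem exists_generic (F : Finset ((Fin k → ℝ) →ₗ[ℝ] ℝ)) (hF : ∀ f ∈ F, f ≠ 0) :
    ∃ m : Zk k, ∀ f ∈ F, f (toR m) ≠ 0 := by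
  classical
  let P : ((Fin k → ℝ) →ₗ[ℝ] ℝ) → ℝ[X] := fun f => ∑ i : Fin k, monomial (i : ℕ) (f (Pi.single i 1))
  have hP : ∀ f ∈ F, P f ≠ 0 := by
    intro f hf h0
    apply hF f hf
    refine LinearMap.pi_ext' fun i => LinearMap.ext_ring ?_
    have := congrArg (fun p : ℝ[X] => p.coeff i) h0
    simp only [P, finsetSum_coeff, coeff_monomial, Fin.val_inj, coeff_zero] at this
    simpa using this
  have hQ : (∏ f ∈ F, P f) ≠ 0 := Finset.prod_ne_zero_iff.2 hP
  obtain ⟨t, ht⟩ : ∃ t : ℕ, ¬ (∏ f ∈ F, P f).IsRoot (t : ℝ) := by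
    by_contra hcon
    push Not at hcon
    refine hQ (Polynomial.eq_zero_of_infinite_isRoot _ ?_)
    exact (Set.infinite_range_of_injective (Nat.cast_injective (R := ℝ))).mono (by
      rintro _ ⟨t, rfl⟩; exact hcon t)
  refine ⟨Multiplicative.ofAdd fun i => (t : ℤ) ^ (i : ℕ), fun f hf h0 => ht ?_⟩
  rw [IsRoot.def, eval_prod]
  refine Finset.prod_eq_zero hf ?_
  have e : toR (Multiplicative.ofAdd fun i : Fin k => (t : ℤ) ^ (i : ℕ)) =
      ∑ i : Fin k, ((t : ℝ) ^ (i : ℕ)) • (Pi.single i 1 : Fin k → ℝ) := by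
    ext j; simp [toR, Finset.sum_apply, Pi.single_apply]
  rw [e, map_sum] at h0
  rw [← h0]
  simp [P, eval_finsetSum, mul_comm]

/-- Show by induction on a finite set `F` of weights: `∑_{λ ∈ F} x λ = 0`, `x λ ∈ Ew S λ` force all
`x λ = 0` (`iSupIndep_iff_finset_sum_eq_zero_imp_eq_zero`).  Take `m` with all `λ (toR m)` distinct
(`exists_generic`) and `λ₀` maximising `λ (toR m)`.  By `Ew_unif` and `Ew_map`,
`‖x₀‖ = ‖S (m^j)⁻¹ (S (m^j) x₀)‖ ≤ C exp (-j λ₀ m) ‖S (m^j) x₀‖`, and
`S (m^j) x₀ = -∑_{λ ≠ λ₀} S (m^j) (x λ)` has norm `≤ ∑ C_λ exp (j λ m)`; let `j → ∞`. -/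
theorem iSupIndep_Ew (S : Zk k →* Module.End ℝ (Fin d → ℝ)) : iSupIndep (Ew S) := by
  classical
  rw [iSupIndep_iff_finsetSum_eq_zero_imp_eq_zero]
  intro F
  induction F using Finset.strongInduction with
  | H F ih =>
  intro v hv h0
  rcases F.eq_empty_or_nonempty with rfl | hne
  · simp
  obtain ⟨m, hm⟩ := exists_generic ((F.offDiag).image fun p => p.1 - p.2) (by
    intro f hf
    obtain ⟨p, hp, rfl⟩ := Finset.mem_image.1 hf
    exact sub_ne_zero.2 (Finset.mem_offDiag.1 hp).2.2)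
  obtain ⟨l₀, hl₀, hmax⟩ := F.exists_max_image (fun l => l (toR m)) hne
  have hlt : ∀ l ∈ F.erase l₀, l (toR m) - l₀ (toR m) < 0 := by
    intro l hl
    obtain ⟨h1, h2⟩ := Finset.mem_erase.1 hl
    have h3 := hm (l - l₀) (Finset.mem_image.2 ⟨(l, l₀), Finset.mem_offDiag.2 ⟨h2, hl₀, h1⟩, rfl⟩)
    rw [LinearMap.sub_apply] at h3
    exact lt_of_le_of_ne (sub_nonpos.2 (hmax l h2)) h3
  have hsum : v l₀ = -∑ l ∈ F.erase l₀, v l := by
    rw [← Finset.add_sum_erase F v hl₀] at h0
    exact eq_neg_of_add_eq_zero_left h0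
  have hv0 : v l₀ = 0 := by
    obtain ⟨C, hC, hU⟩ := Ew_unif S l₀
    choose! D hD using hv
    have hb : ∀ j : ℕ, ‖v l₀‖ ≤
        ∑ l ∈ F.erase l₀, C * D l * Real.exp (l (toR m) - l₀ (toR m)) ^ j := by
      intro j
      have h1 := hU _ (Ew_map S l₀ (m ^ (j : ℤ)) ⟨D l₀, hD l₀ hl₀⟩) (m ^ (j : ℤ))⁻¹
      rw [← Module.End.mul_apply, ← map_mul, inv_mul_cancel, map_one, Module.End.one_apply] at h1
      refine h1.trans ?_
      have h2 : ‖S (m ^ (j : ℤ)) (v l₀)‖ ≤
          ∑ l ∈ F.erase l₀, D l * Real.exp (l (toR (m ^ (j : ℤ)))) := by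
        rw [hsum, map_neg, norm_neg, map_sum]
        exact (norm_sum_le _ _).trans (Finset.sum_le_sum fun l hl =>
          hD l (Finset.mem_of_mem_erase hl) _)
      refine (mul_le_mul_of_nonneg_left h2 (by positivity)).trans (le_of_eq ?_)
      rw [Finset.mul_sum]
      refine Finset.sum_congr rfl fun l _ => ?_
      rw [toR_inv, toR_zpow, map_neg, map_smul, map_smul, ← Real.exp_nat_mul, mul_sub,
        Real.exp_sub, Real.exp_neg]
      simp only [smul_eq_mul, Int.cast_natCast]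
      ring
    have ht : Filter.Tendsto (fun j : ℕ =>
        ∑ l ∈ F.erase l₀, C * D l * Real.exp (l (toR m) - l₀ (toR m)) ^ j) Filter.atTop
        (nhds (∑ l ∈ F.erase l₀, C * D l * 0)) :=
      tendsto_finsetSum _ fun l hl => Filter.Tendsto.const_mul _
        (tendsto_pow_atTop_nhds_zero_of_lt_one (Real.exp_pos _).le
          (Real.exp_lt_one_iff.2 (hlt l hl)))
    have := ge_of_tendsto' ht hb
    simpa using this
  intro l hl
  by_cases h : l = l₀
  · rw [h, hv0]
  · refine ih (F.erase l₀) (Finset.erase_ssubset hl₀) v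
      (fun l hl => hv l (Finset.mem_of_mem_erase hl)) ?_ l (Finset.mem_erase.2 ⟨h, hl⟩)
    rw [hv0] at hsum
    exact neg_eq_zero.1 hsum.symm

/-- `exists_linearIndependent` / `Module.Basis.ofSpan` inside `⋃ Ew S λ`, then reindex by `Fin d` -/
theorem exists_basis_Ew (S : Zk k →* Module.End ℝ (Fin d → ℝ)) (hS : ∀ i, SS (S (ee i))) :
    ∃ (b : Module.Basis (Fin d) ℝ (Fin d → ℝ)) (wt : Fin d → (Fin k → ℝ) →ₗ[ℝ] ℝ),
      ∀ i, b i ∈ Ew S (wt i) := by
  have hsp : ⊤ ≤ Submodule.span ℝ (⋃ lam, (Ew S lam : Set (Fin d → ℝ))) := by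
    rw [← iSup_Ew S hS, ← Submodule.iSup_eq_span]
  let b := Module.Basis.ofSpan hsp
  have := FiniteDimensional.fintypeBasisIndex b
  have hcard : Fintype.card ((linearIndepOn_empty ℝ id).extend
      (Set.empty_subset (⋃ lam, (Ew S lam : Set (Fin d → ℝ))))) = d := by
    rw [← Module.finrank_eq_card_basis b]; simp
  let e := Fintype.equivFinOfCardEq hcard
  have hb : ∀ i, ∃ lam, b (e.symm i) ∈ Ew S lam := fun i => by
    have := Module.Basis.ofSpan_subset hsp ⟨e.symm i, rfl⟩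
    exact Set.mem_iUnion.1 this
  choose wt hwt using hb
  exact ⟨b.reindex e, wt, fun i => by rw [Module.Basis.reindex_apply]; exact hwt i⟩

/-- If the standard basis is adapted then `Ew S μ` is spanned by standard basis vectors:
`x - ∑_{wt i = μ} x i • e_i = ∑_{wt i ≠ μ} x i • e_i` lies in `Ew S μ ⊓ ⨆_{ν ≠ μ} Ew S ν = ⊥`. -/
theorem diagτ_of_mem_Ew (S : Zk k →* Module.End ℝ (Fin d → ℝ))
    (wt : Fin d → (Fin k → ℝ) →ₗ[ℝ] ℝ) (h : ∀ i, (Pi.single i 1 : Fin d → ℝ) ∈ Ew S (wt i))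
    {μ : (Fin k → ℝ) →ₗ[ℝ] ℝ} {x : Fin d → ℝ} (hx : x ∈ Ew S μ) (v : Fin k → ℝ) :
    diagτ wt v x = Real.exp (μ v) • x := by
  classical
  let y : Fin d → ℝ := ∑ i ∈ Finset.univ.filter fun i => wt i ≠ μ, x i • (Pi.single i 1 : Fin d → ℝ)
  have hy : ∀ j, y j = if wt j ≠ μ then x j else 0 := by
    intro j
    simp [y, Finset.sum_apply, Pi.single_apply]
  have h1 : y ∈ ⨆ (ν) (_ : ν ≠ μ), Ew S ν := by
    refine Submodule.sum_mem _ fun i hi => Submodule.smul_mem _ _ ?_
    exact Submodule.mem_iSup_of_mem (wt i)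
      (Submodule.mem_iSup_of_mem (Finset.mem_filter.1 hi).2 (h i))
  have h2 : y ∈ Ew S μ := by
    have e : y = x - ∑ i ∈ Finset.univ.filter fun i => wt i = μ,
        x i • (Pi.single i 1 : Fin d → ℝ) := by
      ext j
      rw [hy]
      by_cases hj : wt j = μ <;> simp [Finset.sum_apply, Pi.single_apply, hj]
    rw [e]
    refine Submodule.sub_mem _ hx (Submodule.sum_mem _ fun i hi => Submodule.smul_mem _ _ ?_)
    rw [← (Finset.mem_filter.1 hi).2]
    exact h i
  have h3 : y = 0 := Submodule.disjoint_def.1 (iSupIndep_Ew S μ) y h2 h1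
  ext j
  change Real.exp (wt j v) * x j = Real.exp (μ v) * x j
  by_cases hj : wt j = μ
  · rw [hj]
  · have := hy j
    rw [h3, if_pos hj] at this
    rw [← this]; simp

end Crest.Agent.R182.B
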