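import Crest.Agent.R182.BMod
import Crest.Agent.R182.BHull
import Crest.Agent.R182.BDet

/-!
Row 182, part B, task `R182/BModel`: the model group attached to a twisted cocycle.
-/

set_option autoImplicit false

namespace Crest.Agent.R182.B

open scoped BigOperators
open Polynomial

theorem bmodel_ext {d : ℕ} {F : Type*} [AddCommGroup F] [Module ℝ F]
    {f g : (Fin d → ℝ) →ₗ[ℝ] F} (h : ∀ i, f (Pi.single i 1) = g (Pi.single i 1)) : f = g :=
  (Pi.basisFun ℝ (Fin d)).ext fun i => by rw [Pi.basisFun_apply]; exact h i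

theorem bmodel_lin {d d' : ℕ} (f : (Fin d → ℝ) →ₗ[ℝ] (Fin d' → ℝ)) :
    ∃ C : ℝ, 0 ≤ C ∧ ∀ x, ‖f x‖ ≤ C * ‖x‖ :=
  ⟨_, (LinearMap.toContinuousLinearMap f).opNorm_nonneg,
    fun x => (LinearMap.toContinuousLinearMap f).le_opNorm x⟩

theorem bmodel_bil {d : ℕ} (B : (Fin d → ℝ) →ₗ[ℝ] (Fin d → ℝ) →ₗ[ℝ] (Fin d → ℝ)) :
    ∃ C : ℝ, 0 ≤ C ∧ ∀ x y, ‖B x y‖ ≤ C * ‖x‖ * ‖y‖ := by
  let B' : (Fin d → ℝ) →L[ℝ] (Fin d → ℝ) →L[ℝ] (Fin d → ℝ) :=
    LinearMap.toContinuousLinearMap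
      ((LinearMap.toContinuousLinearMap (𝕜 := ℝ) (E := Fin d → ℝ) (F' := Fin d → ℝ)).toLinearMap ∘ₗ B)
  exact ⟨‖B'‖, B'.opNorm_nonneg, fun x y => B'.le_opNorm₂ x y⟩

theorem bmodel_br {d k : ℕ} {Γ : Type*} [Group Γ] (T : TW (Fin d → ℝ) k Γ)
    {l l' : (Fin k → ℝ) →ₗ[ℝ] ℝ} {x y : Fin d → ℝ} (hx : x ∈ Ew T.S l) (hy : y ∈ Ew T.S l') :
    T.nl.br x y ∈ Ew T.S (l + l') := by
  obtain ⟨C, hC⟩ := hx
  obtain ⟨C', hC'⟩ := hy
  obtain ⟨K, hK, hB⟩ := bmodel_bil T.nl.br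
  refine ⟨K * C * C', fun m => ?_⟩
  rw [T.S_br, LinearMap.add_apply, Real.exp_add]
  refine (hB _ _).trans ?_
  calc K * ‖T.S m x‖ * ‖T.S m y‖
      ≤ K * (C * Real.exp (l (toR m))) * (C' * Real.exp (l' (toR m))) :=
        mul_le_mul (mul_le_mul_of_nonneg_left (hC m) hK) (hC' m) (norm_nonneg _)
          (mul_nonneg hK ((norm_nonneg _).trans (hC m)))
    _ = _ := by ring

theorem bmodel_phi {d k : ℕ} {Γ : Type*} [Group Γ] (T : TW (Fin d → ℝ) k Γ)
    {l : (Fin k → ℝ) →ₗ[ℝ] ℝ} (hl : l ≠ 0) {x : Fin d → ℝ} (hx : x ∈ Ew T.S l) : T.φ x = 0 := by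
  obtain ⟨C, hC⟩ := hx
  obtain ⟨K, hK, hφ⟩ := bmodel_lin T.φ
  obtain ⟨m, hm⟩ : ∃ m : Zk k, l (toR m) < 0 := by
    obtain ⟨m, hm⟩ := exists_generic {l} (by simpa using hl)
    rcases lt_or_gt_of_ne (hm l (Finset.mem_singleton_self l)) with h | h
    · exact ⟨m, h⟩
    · exact ⟨m⁻¹, by rw [toR_inv, map_neg]; linarith⟩
  have hb : ∀ j : ℕ, ‖T.φ x‖ ≤ K * C * Real.exp (l (toR m)) ^ j := by
    intro j
    rw [← T.φ_S (m ^ (j : ℤ)) x]
    refine (hφ _).trans ((mul_le_mul_of_nonneg_left (hC _) hK).trans (le_of_eq ?_))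
    rw [toR_zpow, map_smul, ← Real.exp_nat_mul, smul_eq_mul, Int.cast_natCast, mul_assoc]
  have ht : Filter.Tendsto (fun j : ℕ => K * C * Real.exp (l (toR m)) ^ j) Filter.atTop
      (nhds (K * C * 0)) :=
    Filter.Tendsto.const_mul _ (tendsto_pow_atTop_nhds_zero_of_lt_one (Real.exp_pos _).le
      (Real.exp_lt_one_iff.2 hm))
  simpa using ge_of_tendsto' ht hb

theorem bmodel_adapted {d k : ℕ} {Γ : Type*} [Group Γ] (T : TW (Fin d → ℝ) k Γ)
    (wt : Fin d → (Fin k → ℝ) →ₗ[ℝ] ℝ) (h : ∀ i, (Pi.single i 1 : Fin d → ℝ) ∈ Ew T.S (wt i)) :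
    Adapted T wt := by
  have hτ := fun i v => diagτ_of_mem_Ew T.S wt h (h i) v
  refine ⟨fun v x y => ?_, fun v x => ?_, fun m v x => ?_, ?_⟩
  · have : T.nl.br.compl₁₂ (diagτ wt v) (diagτ wt v) = T.nl.br.compr₂ (diagτ wt v) := by
      refine bmodel_ext fun i => bmodel_ext fun j => ?_
      rw [LinearMap.compl₁₂_apply, LinearMap.compr₂_apply, hτ, hτ,
        diagτ_of_mem_Ew T.S wt h (bmodel_br T (h i) (h j)), LinearMap.add_apply, Real.exp_add,
        map_smul, map_smul, LinearMap.smul_apply, smul_smul, mul_comm]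
    exact LinearMap.congr_fun₂ this x y
  · have : T.φ ∘ₗ diagτ wt v = T.φ := by
      refine bmodel_ext fun i => ?_
      rw [LinearMap.comp_apply, hτ, map_smul]
      by_cases hi : wt i = 0
      · rw [hi, LinearMap.zero_apply, Real.exp_zero, one_smul]
      · rw [bmodel_phi T hi (h i), smul_zero]
    exact LinearMap.congr_fun this x
  · have : T.S m ∘ₗ diagτ wt v = diagτ wt v ∘ₗ T.S m := by
      refine bmodel_ext fun i => ?_
      rw [LinearMap.comp_apply, LinearMap.comp_apply, hτ, map_smul,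
        diagτ_of_mem_Ew T.S wt h (Ew_map T.S _ m (h i))]
    exact LinearMap.congr_fun this x
  · choose C hC using h
    refine ⟨∑ i, C i, fun m x => ?_⟩
    have e : x = ∑ i, x i • (Pi.single i 1 : Fin d → ℝ) := by
      ext j; simp [Finset.sum_apply, Pi.single_apply]
    conv_lhs => rw [e, map_sum, map_sum]
    rw [Finset.sum_mul]
    refine (norm_sum_le _ _).trans (Finset.sum_le_sum fun i _ => ?_)
    rw [map_smul, map_smul, hτ, map_smul, norm_smul, norm_smul, mul_comm (C i), map_neg,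
      Real.norm_of_nonneg (Real.exp_pos _).le]
    refine mul_le_mul (norm_le_pi_norm x i) ?_ (by positivity) (norm_nonneg _)
    rw [Real.exp_neg, inv_mul_le_iff₀ (Real.exp_pos _), mul_comm]
    exact hC i m

/-- Take `b`, `wt` from `exists_basis_Ew`, `T'` from `T.transport b.equivFun`; then
`Pi.single i 1 ∈ Ew T'.S (wt i)` (linear maps are bounded).  All four clauses are checked on basis
vectors `e_i` (linearity) with `diagτ_of_mem_Ew`: `br e_i e_j ∈ Ew (wt i + wt j)` (`S_br`, bilinear maps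
are bounded); `S m e_i ∈ Ew (wt i)` (`Ew_map`); if `wt i ≠ 0` then `φ e_i = 0` because
`‖φ e_i‖ = ‖φ (S m e_i)‖ ≤ C exp (wt i (toR m))` for all `m` (take `m = (ee j)^{± n}` with
`wt i (single j 1) ≠ 0`); `‖S m (diagτ wt (-toR m) x)‖ ≤ ∑ |x i| C_i`. -/
theorem TW.exists_adapted {d k : ℕ} {Γ : Type*} [Group Γ] (T : TW (Fin d → ℝ) k Γ) :
    ∃ (T' : TW (Fin d → ℝ) k Γ) (wt : Fin d → (Fin k → ℝ) →ₗ[ℝ] ℝ), Adapted T' wt := by
  obtain ⟨b, wt, hb⟩ := exists_basis_Ew T.S T.S_ss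
  obtain ⟨T', hT'⟩ := T.transport b.equivFun
  refine ⟨T', wt, bmodel_adapted T' wt fun i => ?_⟩
  obtain ⟨C, hC⟩ := hb i
  obtain ⟨K, hK, he⟩ := bmodel_lin b.equivFun.toLinearMap
  have e : b.equivFun (b i) = Pi.single i 1 := by
    ext j; simp [Pi.single_apply, eq_comm]
  refine ⟨K * C, fun m => ?_⟩
  rw [← e, hT', mul_assoc]
  exact (he _).trans (mul_le_mul_of_nonneg_left (hC m) hK)

/-- `U = ⨅ i, ker (wt i)`, `p : (Fin k → ℝ) → ((Fin k → ℝ) ⧸ U) ≃ (Fin k' → ℝ)`,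
`wt' i = (U.liftQ (wt i) _) ∘ e.symm`, so `wt' i (p v) = wt i v` and `diagτ wt' (p v) = diagτ wt v`;
`φ' = p ∘ T.φ`; `p` is onto; `Adapted.sum_wt`. -/
theorem Adapted.exists_model {d k : ℕ} {Γ : Type*} [Group Γ] {T : TW (Fin d → ℝ) k Γ}
    {wt : Fin d → (Fin k → ℝ) →ₗ[ℝ] ℝ} (h : Adapted T wt) :
    ∃ (k' : ℕ) (M : Model d k'), M.nl = T.nl ∧ ∀ x y, M.τ (M.φ x) y = diagτ wt (T.φ x) y := by
  let U : Submodule ℝ (Fin k → ℝ) := ⨅ i, LinearMap.ker (wt i)
  let e := (Module.finBasis ℝ ((Fin k → ℝ) ⧸ U)).equivFun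
  let p := e.toLinearMap ∘ₗ U.mkQ
  let wt' := fun i => (U.liftQ (wt i) (iInf_le _ i)) ∘ₗ e.symm.toLinearMap
  have hw : ∀ i v, wt' i (p v) = wt i v := fun i v => by simp [wt', p]
  have hp : Function.Surjective p := e.surjective.comp U.mkQ_surjective
  have hτ : ∀ v, diagτ wt' (p v) = diagτ wt v := fun v =>
    LinearMap.ext fun x => funext fun i => by
      change Real.exp (wt' i (p v)) * x i = Real.exp (wt i v) * x i
      rw [hw]
  refine ⟨_, { nl := T.nl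
               wt := wt'
               φ := p ∘ₗ T.φ
               τ_br := fun v x y => ?_
               φ_br := fun x y => by rw [LinearMap.comp_apply, T.φ_br, map_zero]
               φ_τ := fun v x => ?_
               φ_surj := hp.comp T.φ_surj
               sum_wt := LinearMap.ext fun v => ?_
               wt_span := fun v hv => ?_ }, rfl, fun x y => ?_⟩
  · obtain ⟨v, rfl⟩ := hp v
    rw [hτ, h.τ_br]
  · obtain ⟨v, rfl⟩ := hp v
    change p (T.φ (diagτ wt' (p v) x)) = p (T.φ x)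
    rw [hτ, h.φ_τ]
  · obtain ⟨v, rfl⟩ := hp v
    have := LinearMap.congr_fun h.sum_wt v
    rw [LinearMap.sum_apply] at this ⊢
    simp only [hw]
    exact this
  · obtain ⟨v, rfl⟩ := hp v
    have : v ∈ U := (Submodule.mem_iInf _).2 fun i => by rw [LinearMap.mem_ker, ← hw, hv]
    change e (U.mkQ v) = 0
    rw [Submodule.mkQ_apply, (Submodule.Quotient.mk_eq_zero U).2 this, map_zero]
  · change diagτ wt' (p (T.φ x)) y = _
    rw [hτ]

end Crest.Agent.R182.B
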