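import Crest.Agent.R182.BSplit

/-!
Row 182, part B, task `R182/BShadow`: the nilshadow.
-/

set_option autoImplicit false

namespace Crest.Agent.R182.B

open scoped BigOperators
open Polynomial

theorem shadow_comm {G : Type*} [Group G] {a b u v : G} (hab : Commute a b) (hau : Commute a u)
    (hav : Commute a v) (hbu : Commute b u) (hbv : Commute b v) :
    (a * u) * (b * v) * (a * u)⁻¹ * (b * v)⁻¹ = u * v * u⁻¹ * v⁻¹ := by
  have h1 : (a * u) * (b * v) = (a * b) * (u * v) := hbu.symm.mul_mul_mul_comm a v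
  have h2 : (b * v) * (a * u) = (a * b) * (v * u) := by
    rw [hav.symm.mul_mul_mul_comm b u, hab.eq]
  have h3 : Commute (a * b) (u * v * u⁻¹ * v⁻¹) :=
    (((hau.mul_right hav).mul_right hau.inv_right).mul_right hav.inv_right).mul_left
      (((hbu.mul_right hbv).mul_right hbu.inv_right).mul_right hbv.inv_right)
  calc (a * u) * (b * v) * (a * u)⁻¹ * (b * v)⁻¹ = (a * u) * (b * v) * ((b * v) * (a * u))⁻¹ := by group
    _ = (a * b) * (u * v * u⁻¹ * v⁻¹) * (a * b)⁻¹ := by rw [h1, h2]; group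
    _ = _ := by rw [h3.eq]; group

theorem shadow_nilp_conj {n : ℕ} (c : (Mat n)ˣ) {x : Mat n} (hx : IsNilpotent x) :
    IsNilpotent ((c : Mat n) * x * ((c⁻¹ : (Mat n)ˣ) : Mat n)) := by
  obtain ⟨k, hk⟩ := hx
  exact ⟨k, by rw [Units.conj_pow, hk, mul_zero, zero_mul]⟩

theorem shadow_br {n k : ℕ} {S : Submodule ℝ (Mat n)} (hL : Lie S) {y : Fin k → Mat n}
    (h4 : ∀ i, ∀ x ∈ S, y i * x - x * y i ∈ S) (h5 : ∀ i j, y i * y j - y j * y i ∈ S) :
    ∀ a ∈ S ⊔ Submodule.span ℝ (Set.range y), ∀ b ∈ S ⊔ Submodule.span ℝ (Set.range y),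
      a * b - b * a ∈ S := by
  have key : ∀ a : Mat n, (∀ x ∈ S, a * x - x * a ∈ S) → (∀ i, a * y i - y i * a ∈ S) →
      ∀ b ∈ S ⊔ Submodule.span ℝ (Set.range y), a * b - b * a ∈ S := by
    intro a h1 h2
    have : S ⊔ Submodule.span ℝ (Set.range y) ≤
        S.comap (LinearMap.mulLeft ℝ a - LinearMap.mulRight ℝ a) := by
      refine sup_le (fun x hx => h1 x hx) (Submodule.span_le.2 ?_)
      rintro _ ⟨i, rfl⟩
      exact h2 i
    exact fun b hb => this hb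
  have anti : ∀ a b : Mat n, a * b - b * a ∈ S → b * a - a * b ∈ S := fun a b h => by
    rw [← neg_sub]; exact S.neg_mem h
  intro a ha
  exact key a (fun x hx => anti _ _ (key x (hL x hx) (fun i => anti _ _ (h4 i x hx)) a ha))
    (fun i => anti _ _ (key (y i) (h4 i) (h5 i) a ha))

theorem shadow_anil {n k : ℕ} {S : Submodule ℝ (Mat n)} (hL : Lie S) (hN : ANil S)
    {y : Fin k → Mat n} (hy : ∀ i, IsNilpotent (y i))
    (h4 : ∀ i, ∀ x ∈ S, y i * x - x * y i ∈ S) (h5 : ∀ i j, y i * y j - y j * y i ∈ S) :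
    ANil (S ⊔ Submodule.span ℝ (Set.range y)) := by
  have key : ∀ t : Finset (Fin k), ANil (S ⊔ Submodule.span ℝ (y '' t)) := by
    intro t
    induction t using Finset.induction_on with
    | empty => simpa using hN
    | insert i t _ ih =>
      rw [Finset.coe_insert, Set.image_insert_eq, Submodule.span_insert, sup_comm (Submodule.span ℝ {y i}),
        ← sup_assoc]
      refine anil_sup ih (hy i) fun x hx => Submodule.mem_sup_left (shadow_br hL h4 h5 _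
        (Submodule.mem_sup_right (Submodule.subset_span ⟨i, rfl⟩)) x ?_)
      have hle : S ⊔ Submodule.span ℝ (y '' (t : Set (Fin k))) ≤ S ⊔ Submodule.span ℝ (Set.range y) :=
        sup_le_sup_left (Submodule.span_mono (Set.image_subset_range _ _)) _
      exact hle hx
  simpa using key Finset.univ

theorem shadow_exp_mul {n : ℕ} {S U : Submodule ℝ (Mat n)} (hSU : S ≤ U)
    (hbr : ∀ a ∈ U, ∀ b ∈ U, a * b - b * a ∈ S) (hN : ANil U) {a b : Mat n} (ha : a ∈ U) (hb : b ∈ U) :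
    ∃ z : Mat n, z - (a + b) ∈ S ∧ IsNilpotent.exp z = IsNilpotent.exp a * IsNilpotent.exp b := by
  have hL : Lie U := fun a ha b hb => hSU (hbr a ha b hb)
  refine ⟨_, ?_, subNL_exp_mul U hL hN ⟨a, ha⟩ ⟨b, hb⟩⟩
  have h1 : (subNL U hL hN).lcs 1 ≤ S.comap U.subtype := by
    rw [show (subNL U hL hN).lcs 1 = Submodule.span ℝ
      {z | ∃ x, ∃ y ∈ (subNL U hL hN).lcs 0, z = (subNL U hL hN).br x y} from rfl, Submodule.span_le]
    rintro z ⟨x, y, -, rfl⟩
    exact hbr _ x.2 _ y.2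
  exact h1 ((subNL U hL hN).mul_sub_add_mem_lcs ⟨a, ha⟩ ⟨b, hb⟩)

/-- Take `s`, `c` from `exists_split`, extend `s` to `ℤ^k` (`exists_hom_of_commute`, `Zk_induction`),
`u i = (s i)⁻¹ (c i).1 = exp (y i)` (`Bch.exists_log`: `y i` is nilpotent and commutes with everything
that commutes with `u i - 1`, e.g. all `s j`).  `u i` normalises `𝔫`, so `[y i, 𝔫] ⊆ 𝔫`
(`br_mem_of_conj`; `exp (-y i) = (u i)⁻¹`).  `u i * u j * (u i)⁻¹ * (u j)⁻¹` is the matrix of the
commutator of `c i`, `c j` (the `s` commute with everything), which has degree `1`, so it is `exp x`,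
`x ∈ 𝔫`; `exp (u i * y j * (u i)⁻¹) = exp x * exp (y j) = exp z`, `z - y j ∈ 𝔫` (`exp_conj`,
`exists_exp_mul_exp`), `Bch.exp_injective` and `br_mem_of_conj` give `[y i, y j] ∈ 𝔫`.
`ANil`: `anil_sup` and induction over a `Finset` of indices.
Last clause: let `𝔲 = 𝔫 ⊔ span (range y)`; all brackets of `𝔲` lie in `𝔫`, so in `subNL 𝔲`
`lcs 1 ≤ 𝔫` and `mul a b - (a + b) ∈ 𝔫` (`NL.mul_sub_add_mem_lcs`).  The `g : (Mat n)ˣ × Zk k` of the
required form are a subgroup (`exp a * s m * exp b * s m' = exp a * exp (s m * b * (s m)⁻¹) * s (m m')`,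
`(exp a * s m)⁻¹ = exp (-(s m)⁻¹ a (s m)) * s m⁻¹`) which contains the `c i` and the elements of `G` of
degree `1`.  By `Zk_induction` every `m` is the degree of an element of `G` of this form; divide. -/
theorem Hull.exists_shadow {n k : ℕ} (H : Hull n k) :
    ∃ (s : Zk k →* (Mat n)ˣ) (y : Fin k → Mat n), (∀ i, SS (s (ee i) : Mat n)) ∧
      (∀ m, ∀ x ∈ H.nn, (s m : Mat n) * x * (((s m)⁻¹ : (Mat n)ˣ) : Mat n) ∈ H.nn) ∧
      (∀ m i, Commute (s m : Mat n) (y i)) ∧ (∀ i, ∀ x ∈ H.nn, y i * x - x * y i ∈ H.nn) ∧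
      (∀ i j, y i * y j - y j * y i ∈ H.nn) ∧ ANil (H.nn ⊔ Submodule.span ℝ (Set.range y)) ∧
      ∀ g ∈ H.G, ∃ x ∈ H.nn,
        (g.1 : Mat n) = IsNilpotent.exp (x + ∑ i, toR g.2 i • y i) * (s g.2 : Mat n) := by
  obtain ⟨s₀, c, hcG, hc2, hss, hsc, hscc, hnil, hnorm⟩ := H.exists_split
  obtain ⟨s, hs⟩ := exists_hom_of_commute s₀ hsc
  set u : Fin k → (Mat n)ˣ := fun i => (s₀ i)⁻¹ * (c i).1 with hu
  have hlog : ∀ i, ∃ z : Mat n, IsNilpotent z ∧ IsNilpotent.exp z = (u i : Mat n) ∧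
      ∀ a, Commute a (u i : Mat n) → Commute a z := by
    intro i
    obtain ⟨M, hM⟩ := hnil i
    obtain ⟨z, h1, h2, h3⟩ := Bch.exists_log M _ hM
    exact ⟨z, h1, by rw [h2, add_sub_cancel]; rfl, fun a ha => h3 a (ha.sub_right (Commute.one_right a))⟩
  choose y hy hexp hcomm using hlog
  have hexpU : ∀ i, expU (y i) (hy i) = u i := fun i => Units.ext (hexp i)
  have hexp' : ∀ i, IsNilpotent.exp (-y i) = (((u i)⁻¹ : (Mat n)ˣ) : Mat n) := fun i => by
    rw [← hexpU i, coe_expU_inv]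
  have hsu₀ : ∀ i j, Commute (s₀ i) (u j) := fun i j => (hsc i j).inv_right.mul_right (hscc i j)
  have hsu : ∀ m j, Commute (s m) (u j) := fun m j =>
    Zk_induction (p := fun m => Commute (s m) (u j)) (by simp) (fun i => by rw [hs]; exact hsu₀ i j)
      (fun m m' h h' => by rw [map_mul]; exact h.mul_left h')
      (fun m h => by rw [map_inv]; exact h.inv_left) m
  have h2' : ∀ m, ∀ x ∈ H.nn, (s m : Mat n) * x * (((s m)⁻¹ : (Mat n)ˣ) : Mat n) ∈ H.nn ∧
      (((s m)⁻¹ : (Mat n)ˣ) : Mat n) * x * (s m : Mat n) ∈ H.nn := by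
    intro m
    refine Zk_induction (p := fun m => ∀ x ∈ H.nn,
      (s m : Mat n) * x * (((s m)⁻¹ : (Mat n)ˣ) : Mat n) ∈ H.nn ∧
      (((s m)⁻¹ : (Mat n)ˣ) : Mat n) * x * (s m : Mat n) ∈ H.nn) ?_ ?_ ?_ ?_ m
    · intro x hx; simpa using hx
    · intro i; rw [hs]; exact hnorm i
    · intro m m' h h' x hx
      rw [map_mul, mul_inv_rev, Units.val_mul, Units.val_mul]
      constructor
      · have := (h _ (h' x hx).1).1
        simpa only [mul_assoc] using this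
      · have := (h' _ (h x hx).2).2
        simpa only [mul_assoc] using this
    · intro m h x hx
      rw [map_inv, inv_inv]
      exact (h x hx).symm
  have h2 : ∀ m, ∀ x ∈ H.nn, (s m : Mat n) * x * (((s m)⁻¹ : (Mat n)ˣ) : Mat n) ∈ H.nn :=
    fun m x hx => (h2' m x hx).1
  have h3 : ∀ m i, Commute (s m : Mat n) (y i) := fun m i => hcomm i _ (hsu m i).units_val
  have hun : ∀ i, ∀ x ∈ H.nn, IsNilpotent.exp (y i) * x * IsNilpotent.exp (-y i) ∈ H.nn := by
    intro i x hx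
    rw [hexp, hexp', hu]
    simp only [mul_inv_rev, inv_inv, Units.val_mul]
    have := (hnorm i _ (H.conj _ (hcG i) x hx)).2
    simpa only [mul_assoc] using this
  have h4 : ∀ i, ∀ x ∈ H.nn, y i * x - x * y i ∈ H.nn := fun i x hx =>
    br_mem_of_conj H.nn (hy i) (hun i) (H.nn.sub_mem (hun i x hx) hx)
  have hcu : ∀ i, (c i).1 = s₀ i * u i := fun i => by simp [hu]
  have h5 : ∀ i j, y i * y j - y j * y i ∈ H.nn := by
    intro i j
    have hg : c i * c j * (c i)⁻¹ * (c j)⁻¹ ∈ H.G :=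
      H.G.mul_mem (H.G.mul_mem (H.G.mul_mem (hcG i) (hcG j)) (H.G.inv_mem (hcG i))) (H.G.inv_mem (hcG j))
    obtain ⟨x, hx, hxe⟩ := (H.ker _ (by
      simp only [Prod.snd_mul, Prod.snd_inv]
      rw [mul_comm (c i).2, mul_inv_cancel_right, mul_inv_cancel])).1 hg
    simp only [Prod.fst_mul, Prod.fst_inv] at hxe
    rw [hcu i, hcu j, shadow_comm (hsc i j) (hsu₀ i i) (hsu₀ i j) (hsu₀ j i) (hsu₀ j j)] at hxe
    obtain ⟨z, hz, hzy, hze⟩ := exists_exp_mul_exp H.lie H.nil (hy j) (h4 j) hx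
    have e : (u i : Mat n) * y j * (((u i)⁻¹ : (Mat n)ˣ) : Mat n) = z := by
      refine Bch.exp_injective (shadow_nilp_conj _ (hy j)) hz ?_
      rw [exp_conj _ (hy j), hze, ← hxe, hexp j, ← Units.val_mul, ← Units.val_mul, ← Units.val_mul,
        inv_mul_cancel_right]
    refine br_mem_of_conj H.nn (hy i) (hun i) ?_
    rw [hexp, hexp', e]
    exact hzy
  have h6 := shadow_anil H.lie H.nil hy h4 h5
  have hbr := shadow_br H.lie h4 h5
  refine ⟨s, y, fun i => by rw [hs]; exact hss i, h2, h3, h4, h5, h6, ?_⟩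
  have hmem : ∀ x ∈ H.nn, ∀ v : Fin k → ℝ,
      x + ∑ i, v i • y i ∈ H.nn ⊔ Submodule.span ℝ (Set.range y) := fun x hx v =>
    Submodule.add_mem_sup hx (Submodule.sum_mem _ fun i _ =>
      Submodule.smul_mem _ _ (Submodule.subset_span ⟨i, rfl⟩))
  have hconj : ∀ (m : Zk k) (x : Mat n) (v : Fin k → ℝ),
      (s m : Mat n) * (x + ∑ i, v i • y i) * (((s m)⁻¹ : (Mat n)ˣ) : Mat n) =
        (s m : Mat n) * x * (((s m)⁻¹ : (Mat n)ˣ) : Mat n) + ∑ i, v i • y i := by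
    intro m x v
    have hc : Commute (s m : Mat n) (∑ i, v i • y i) :=
      Commute.sum_right _ _ _ fun i _ => (h3 m i).smul_right _
    rw [mul_add, add_mul, hc.eq, mul_assoc (∑ i, v i • y i), Units.mul_inv, mul_one]
  let P : (Mat n)ˣ × Zk k → Prop := fun g => ∃ x ∈ H.nn,
    (g.1 : Mat n) = IsNilpotent.exp (x + ∑ i, toR g.2 i • y i) * (s g.2 : Mat n)
  have Pmul : ∀ g g', P g → P g' → P (g * g') := by
    rintro g g' ⟨x, hx, e⟩ ⟨x', hx', e'⟩
    obtain ⟨z, hz, hze⟩ := shadow_exp_mul le_sup_left hbr h6 (hmem x hx (toR g.2))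
      (hmem _ (h2 g.2 x' hx') (toR g'.2))
    refine ⟨_, H.nn.add_mem hz (H.nn.add_mem hx (h2 g.2 x' hx')), ?_⟩
    have e1 : z - (x + ∑ i, toR g.2 i • y i + ((s g.2 : Mat n) * x' *
        (((s g.2)⁻¹ : (Mat n)ˣ) : Mat n) + ∑ i, toR g'.2 i • y i)) + (x + (s g.2 : Mat n) * x' *
        (((s g.2)⁻¹ : (Mat n)ˣ) : Mat n)) + ∑ i, toR (g * g').2 i • y i = z := by
      simp only [Prod.snd_mul, toR_mul, Pi.add_apply, add_smul, Finset.sum_add_distrib]
      abel
    rw [e1, hze, ← hconj, exp_conj _ (h6.isNilpotent (hmem x' hx' _)), Prod.fst_mul, Units.val_mul, e, e',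
      Prod.snd_mul, map_mul, Units.val_mul]
    simp only [mul_assoc, Units.inv_mul_cancel_left]
  have Pinv : ∀ g, P g → P g⁻¹ := by
    rintro g ⟨x, hx, e⟩
    have hn := h6.isNilpotent (hmem x hx (toR g.2))
    have e1 : g.1 = expU _ hn * s g.2 := Units.ext e
    refine ⟨_, h2 g.2⁻¹ _ (H.nn.neg_mem hx), ?_⟩
    rw [← hconj, exp_conj _ (h6.isNilpotent (hmem _ (H.nn.neg_mem hx) _)), Prod.fst_inv, e1, mul_inv_rev,
      Units.val_mul, coe_expU_inv, Prod.snd_inv, map_inv, mul_assoc, Units.inv_mul, mul_one]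
    congr 2
    simp only [toR_inv, Pi.neg_apply, neg_smul, Finset.sum_neg_distrib, neg_add]
  have Pker : ∀ g ∈ H.G, g.2 = 1 → P g := by
    intro g hg h1
    obtain ⟨x, hx, e⟩ := (H.ker g h1).1 hg
    exact ⟨x, hx, by simp [h1, e]⟩
  have Pc : ∀ i, P (c i) := by
    intro i
    refine ⟨0, H.nn.zero_mem, ?_⟩
    rw [hc2, hs, toR_ee, zero_add, Finset.sum_eq_single i (fun j _ hj => by simp [hj]) (by simp),
      Pi.single_eq_same, one_smul, hexp, ← Units.val_mul, ← (hsu₀ i i).eq, ← hcu]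
  have Pall : ∀ m, ∃ g ∈ H.G, g.2 = m ∧ P g := by
    refine Zk_induction ⟨1, H.G.one_mem, rfl, Pker 1 H.G.one_mem rfl⟩
      (fun i => ⟨c i, hcG i, hc2 i, Pc i⟩) ?_ ?_
    · rintro _ _ ⟨g, hg, rfl, h⟩ ⟨g', hg', rfl, h'⟩
      exact ⟨g * g', H.G.mul_mem hg hg', rfl, Pmul g g' h h'⟩
    · rintro _ ⟨g, hg, rfl, h⟩
      exact ⟨g⁻¹, H.G.inv_mem hg, rfl, Pinv g h⟩
  intro g hg
  obtain ⟨g₀, hg₀, e, h⟩ := Pall g.2
  have := Pmul _ _ (Pker (g * g₀⁻¹) (H.G.mul_mem hg (H.G.inv_mem hg₀)) (by simp [e])) h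
  rwa [inv_mul_cancel_right] at this

end Crest.Agent.R182.B
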