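import Crest.Agent.R182.BFit

/-!
Row 182, part B, task `R182/BSplit`: the semisimple splitting.
-/

set_option autoImplicit false

namespace Crest.Agent.R182.B

open scoped BigOperators
open Polynomial

/-- The centraliser of `s` is again a hull.  `ker`: if `exp x` commutes with `s` then
`exp (s x s⁻¹) = exp x` (`exp_conj`), so `s x s⁻¹ = x` (`Bch.exp_injective`); conversely
`Bch.comm_exp`. -/
theorem Hull.exists_cent {n k : ℕ} (H : Hull n k) {c : (Mat n)ˣ × Zk k} (hc : c ∈ H.G)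
    {s : (Mat n)ˣ} (hJ : Jor c.1 s) :
    ∃ H' : Hull n k, (∀ g, g ∈ H'.G ↔ g ∈ H.G ∧ Commute (g.1 : Mat n) (s : Mat n)) ∧
      ∀ x, x ∈ H'.nn ↔ x ∈ H.nn ∧ Commute x (s : Mat n) := by
  let G' : Subgroup ((Mat n)ˣ × Zk k) :=
    { carrier := {g | g ∈ H.G ∧ Commute (g.1 : Mat n) (s : Mat n)}
      mul_mem' := fun ha hb => ⟨H.G.mul_mem ha.1 hb.1, ha.2.mul_left hb.2⟩
      one_mem' := ⟨H.G.one_mem, Commute.one_left _⟩
      inv_mem' := fun ha => ⟨H.G.inv_mem ha.1, ha.2.units_inv_left⟩ }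
  let N' : Submodule ℝ (Mat n) :=
    { carrier := {x | x ∈ H.nn ∧ Commute x (s : Mat n)}
      add_mem' := fun ha hb => ⟨H.nn.add_mem ha.1 hb.1, ha.2.add_left hb.2⟩
      zero_mem' := ⟨H.nn.zero_mem, Commute.zero_left _⟩
      smul_mem' := fun r _ ha => ⟨H.nn.smul_mem r ha.1, ha.2.smul_left r⟩ }
  refine ⟨⟨G', N', fun x hx y hy => ⟨H.lie x hx.1 y hy.1,
      (hx.2.mul_left hy.2).sub_left (hy.2.mul_left hx.2)⟩, H.nil.mono fun x hx => hx.1,
    fun g hg x hx => ⟨H.conj g hg.1 x hx.1, (hg.2.mul_left hx.2).mul_left hg.2.units_inv_left⟩,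
    fun g hg => ⟨fun h => ?_, ?_⟩, fun m => ?_⟩, fun _ => Iff.rfl, fun _ => Iff.rfl⟩
  · obtain ⟨x, hx, e⟩ := (H.ker g hg).1 h.1
    refine ⟨x, ⟨hx, ?_⟩, e⟩
    have h1 := H.nil.isNilpotent (hJ.inv H.nn (H.conj c hc) x hx).1
    have h2 := Bch.exp_injective h1 (H.nil.isNilpotent hx) (by
      rw [exp_conj s (H.nil.isNilpotent hx), ← e, ← h.2.eq, Units.mul_inv_cancel_right])
    change x * s = s * x
    conv_lhs => rw [← h2]
    rw [Units.inv_mul_cancel_right]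
  · rintro ⟨x, hx, e⟩
    exact ⟨(H.ker g hg).2 ⟨x, hx.1, e⟩, e ▸ (Bch.comm_exp hx.2.symm).symm⟩
  · obtain ⟨g, h1, h2, h3⟩ := H.cent_surj hc hJ m
    exact ⟨g, ⟨h1, h3⟩, h2⟩

private theorem bsplit_ind {n k : ℕ} (H : Hull n k) (T : Finset (Fin k)) :
    ∃ (H' : Hull n k) (s : Fin k → (Mat n)ˣ), (∀ g ∈ H'.G, g ∈ H.G) ∧ ∀ i ∈ T,
      SS (s i : Mat n) ∧ (∀ g ∈ H'.G, Commute (g.1 : Mat n) (s i : Mat n)) ∧
      (∀ j ∈ T, Commute (s i : Mat n) (s j : Mat n)) ∧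
      (∀ x ∈ H.nn, (s i : Mat n) * x * (((s i)⁻¹ : (Mat n)ˣ) : Mat n) ∈ H.nn ∧
        (((s i)⁻¹ : (Mat n)ˣ) : Mat n) * x * (s i : Mat n) ∈ H.nn) ∧
      ∀ g ∈ H'.G, g.2 = ee i →
        IsNilpotent ((((s i)⁻¹ : (Mat n)ˣ) : Mat n) * (g.1 : Mat n) - 1) := by
  induction T using Finset.induction_on with
  | empty => exact ⟨H, fun _ => 1, fun _ h => h, fun i hi => absurd hi (Finset.notMem_empty i)⟩
  | insert j T hj ih =>
    obtain ⟨H', s, hle, h⟩ := ih
    obtain ⟨c, hc, hcj⟩ := H'.surj (ee j)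
    obtain ⟨t, ht⟩ := exists_jor c.1
    obtain ⟨H'', hG, hn⟩ := H'.exists_cent hc ht
    have hne : ∀ i ∈ T, Function.update s j t i = s i := fun i hi =>
      Function.update_of_ne (fun e : i = j => hj (e ▸ hi)) _ _
    have hst : ∀ i ∈ T, Commute (s i : Mat n) (t : Mat n) := fun i hi =>
      ht.comm _ ((h i hi).2.1 c hc).symm
    refine ⟨H'', Function.update s j t, fun g hg => hle g ((hG g).1 hg).1, fun i hi' => ?_⟩
    rcases Finset.mem_insert.1 hi' with rfl | hi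
    · rw [Function.update_self]
      refine ⟨ht.ss, fun g hg => ((hG g).1 hg).2, fun l hl' => ?_,
        ht.inv H.nn (H.conj c (hle c hc)), fun g hg hgi => ?_⟩
      · rcases Finset.mem_insert.1 hl' with rfl | hl
        · rw [Function.update_self]
        · rw [hne l hl]; exact (hst l hl).symm
      · have hc'' : c ∈ H''.G := (hG c).2 ⟨hc, ht.comm _ (Commute.refl _)⟩
        obtain ⟨x, hx, e⟩ := (H''.ker (g * c⁻¹) (by simp [hgi, hcj])).1
          (H''.G.mul_mem hg (H''.G.inv_mem hc''))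
        have e' : (g.1 : Mat n) = IsNilpotent.exp x * (c.1 : Mat n) := by
          rw [← e]; simp
        rw [e']
        exact unip_exp_mul H'.lie H'.nil ht (H'.conj c hc) ((hn x).1 hx).1 ((hn x).1 hx).2
    · rw [hne i hi]
      obtain ⟨h1, h2, h3, h4, h5⟩ := h i hi
      refine ⟨h1, fun g hg => h2 g ((hG g).1 hg).1, fun l hl' => ?_, h4,
        fun g hg => h5 g ((hG g).1 hg).1⟩
      rcases Finset.mem_insert.1 hl' with e | hl
      · rw [e, Function.update_self]; exact hst i hi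
      · rw [hne l hl]; exact h3 l hl

/-- Induction on `j ≤ k` (or on a `Finset (Fin k)`): there are a hull `H'` with `H'.G ≤ H.G` and
`s : Fin k → (Mat n)ˣ` such that for all `i < j`: `SS (s i)`; `s i` commutes with `g.1` for `g ∈ H'.G`
and with `s i'`, `i' < j`; `(s i)^{±1}` normalise `H.nn`; `(s i)⁻¹ g.1 - 1` is nilpotent for every
`g ∈ H'.G` with `g.2 = ee i`.  Step: `c ∈ H'.G` with `c.2 = ee j`, `s` from `exists_jor c.1`, `H''` from
`exists_cent`, `Function.update`.  `s` commutes with `s i` by `Jor.comm`, normalises `H.nn` by `Jor.inv`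
and `H.conj`; if `g ∈ H''.G`, `g.2 = ee j` then `g c⁻¹ ∈ H''.G` has degree `1`, so `g.1 = exp x * c.1` with
`x ∈ H''.nn`, apply `unip_exp_mul` (to `S = H'.nn`).  At the end choose `c i ∈ H'.G` by `H'.surj`. -/
theorem Hull.exists_split {n k : ℕ} (H : Hull n k) :
    ∃ (s : Fin k → (Mat n)ˣ) (c : Fin k → (Mat n)ˣ × Zk k), (∀ i, c i ∈ H.G) ∧
      (∀ i, (c i).2 = ee i) ∧ (∀ i, SS (s i : Mat n)) ∧ (∀ i j, Commute (s i) (s j)) ∧
      (∀ i j, Commute (s i) (c j).1) ∧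
      (∀ i, IsNilpotent ((((s i)⁻¹ : (Mat n)ˣ) : Mat n) * ((c i).1 : Mat n) - 1)) ∧
      ∀ i, ∀ x ∈ H.nn, (s i : Mat n) * x * (((s i)⁻¹ : (Mat n)ˣ) : Mat n) ∈ H.nn ∧
        (((s i)⁻¹ : (Mat n)ˣ) : Mat n) * x * (s i : Mat n) ∈ H.nn := by
  obtain ⟨H', s, hle, h⟩ := bsplit_ind H Finset.univ
  choose c hc hce using fun i => H'.surj (ee i)
  refine ⟨s, c, fun i => hle _ (hc i), hce, fun i => (h i (Finset.mem_univ i)).1,
    fun i j => Commute.units_val_iff.1 ((h i (Finset.mem_univ i)).2.2.1 j (Finset.mem_univ j)),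
    fun i j => Commute.units_val_iff.1 ((h i (Finset.mem_univ i)).2.1 _ (hc j)).symm,
    fun i => (h i (Finset.mem_univ i)).2.2.2.2 _ (hc i) (hce i),
    fun i => (h i (Finset.mem_univ i)).2.2.2.1⟩

end Crest.Agent.R182.B
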