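import Crest.Agent.R182.BSwanA

/-!
Row 182, part B: common lemmas for `R182/BSwan1` and `R182/BSwan2` (relative augmentation ideals).
-/

set_option autoImplicit false

namespace Crest.Agent.R182.B

open scoped BigOperators

section Aug

variable {M : Type*} [Group M]

/-- the ideal of `ℤ[M]` generated by the `h - 1`, `h ∈ N₀` -/
noncomputable def augL (N₀ : Subgroup M) : Submodule ℤ (MonoidAlgebra ℤ M) :=
  Submodule.span ℤ {a | ∃ h ∈ N₀, ∃ m : M,
    a = MonoidAlgebra.of ℤ M (h * m) - MonoidAlgebra.of ℤ M m}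

theorem augL_gen {N₀ : Subgroup M} {h : M} (hh : h ∈ N₀) (m : M) :
    MonoidAlgebra.of ℤ M (h * m) - MonoidAlgebra.of ℤ M m ∈ augL N₀ :=
  Submodule.subset_span ⟨h, hh, m, rfl⟩

theorem augL_sub_one {N₀ : Subgroup M} {h : M} (hh : h ∈ N₀) :
    MonoidAlgebra.of ℤ M h - 1 ∈ augL N₀ := by
  have := augL_gen hh 1
  rwa [mul_one, map_one] at this

theorem augL_left (N₀ : Subgroup M) [hN : N₀.Normal] (r : MonoidAlgebra ℤ M) :
    ∀ a ∈ augL N₀, r * a ∈ augL N₀ := by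
  intro a ha
  induction r using MonoidAlgebra.induction_on with
  | add x y hx hy => rw [add_mul]; exact add_mem hx hy
  | smul c x hx => rw [smul_mul_assoc]; exact Submodule.smul_mem _ _ hx
  | of m' =>
    induction ha using Submodule.span_induction with
    | zero => rw [mul_zero]; exact zero_mem _
    | add x y _ _ hx hy => rw [mul_add]; exact add_mem hx hy
    | smul c x _ hx => rw [mul_smul_comm]; exact Submodule.smul_mem _ _ hx
    | mem x hx =>
      obtain ⟨h, hh, m, rfl⟩ := hx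
      have := augL_gen (hN.conj_mem h hh m') (m' * m)
      rw [show m' * h * m'⁻¹ * (m' * m) = m' * (h * m) by group] at this
      rw [mul_sub, ← map_mul, ← map_mul]
      exact this

theorem augL_right (N₀ : Subgroup M) (r : MonoidAlgebra ℤ M) :
    ∀ a ∈ augL N₀, a * r ∈ augL N₀ := by
  intro a ha
  induction r using MonoidAlgebra.induction_on with
  | add x y hx hy => rw [mul_add]; exact add_mem hx hy
  | smul c x hx => rw [mul_smul_comm]; exact Submodule.smul_mem _ _ hx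
  | of m' =>
    induction ha using Submodule.span_induction with
    | zero => rw [zero_mul]; exact zero_mem _
    | add x y _ _ hx hy => rw [add_mul]; exact add_mem hx hy
    | smul c x _ hx => rw [smul_mul_assoc]; exact Submodule.smul_mem _ _ hx
    | mem x hx =>
      obtain ⟨h, hh, m, rfl⟩ := hx
      have := augL_gen hh (m * m')
      rw [sub_mul, ← map_mul, ← map_mul, mul_assoc]
      exact this

/-- the matrices killed by all products of `j` factors `ρ₀ h - 1` -/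
def augQ {A : Type*} [Ring A] (N₀ : Subgroup M) (ρ₀ : M →* A) (j : ℕ) : Submodule ℤ A where
  carrier := {x | ∀ l : List M, (∀ h ∈ l, h ∈ N₀) → l.length = j →
    (l.map fun h => ρ₀ h - 1).prod * x = 0}
  zero_mem' := fun _ _ _ => mul_zero _
  add_mem' := fun hx hy l h1 h2 => by rw [mul_add, hx l h1 h2, hy l h1 h2, add_zero]
  smul_mem' := fun c x hx l h1 h2 => by rw [mul_smul_comm, hx l h1 h2, smul_zero]

theorem aug_prod_conj {A : Type*} [Ring A] (ρ₀ : M →* A) (m : M) (l : List M) :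
    (l.map fun h => ρ₀ h - 1).prod * ρ₀ m =
      ρ₀ m * ((l.map fun h => m⁻¹ * h * m).map fun h => ρ₀ h - 1).prod := by
  induction l with
  | nil => simp
  | cons h l ih =>
    simp only [List.map_cons, List.prod_cons]
    rw [mul_assoc, ih, ← mul_assoc, ← mul_assoc]
    congr 1
    rw [sub_mul, mul_sub, ← map_mul, ← map_mul, one_mul, mul_one]
    congr 2
    group

theorem augQ_mul {A : Type*} [Ring A] (N₀ : Subgroup M) [hN : N₀.Normal] (ρ₀ : M →* A) {j : ℕ}
    (m : M) {x : A} (hx : x ∈ augQ N₀ ρ₀ j) : ρ₀ m * x ∈ augQ N₀ ρ₀ j := by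
  intro l h1 h2
  rw [← mul_assoc, aug_prod_conj, mul_assoc, hx _ ?_ (by simpa using h2), mul_zero]
  intro h hh
  obtain ⟨h', hh', rfl⟩ := List.mem_map.1 hh
  have := hN.conj_mem h' (h1 h' hh') m⁻¹
  rwa [inv_inv] at this

theorem augQ_step {A : Type*} [Ring A] (N₀ : Subgroup M) (ρ₀ : M →* A) {j : ℕ}
    {h : M} (hh : h ∈ N₀) {x : A} (hx : x ∈ augQ N₀ ρ₀ (j + 1)) :
    (ρ₀ h - 1) * x ∈ augQ N₀ ρ₀ j := by
  intro l h1 h2
  have := hx (l ++ [h]) (by
    intro h' hh'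
    rcases List.mem_append.1 hh' with hh' | hh'
    · exact h1 h' hh'
    · rw [List.mem_singleton.1 hh']; exact hh) (by simp [h2])
  simpa [mul_assoc] using this

theorem augQ_aug {A : Type*} [Ring A] (N₀ : Subgroup M) [N₀.Normal] (ρ₀ : M →* A) {j : ℕ}
    {a : MonoidAlgebra ℤ M} (ha : a ∈ augL N₀) {x : A} (hx : x ∈ augQ N₀ ρ₀ (j + 1)) :
    MonoidAlgebra.lift ℤ A M ρ₀ a * x ∈ augQ N₀ ρ₀ j := by
  induction ha using Submodule.span_induction with
  | zero => rw [map_zero, zero_mul]; exact zero_mem _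
  | add x y _ _ hx hy => rw [map_add, add_mul]; exact add_mem hx hy
  | smul c x _ hx => rw [map_smul, smul_mul_assoc]; exact Submodule.smul_mem _ _ hx
  | mem y hy =>
    obtain ⟨h, hh, m, rfl⟩ := hy
    have := augQ_step N₀ ρ₀ hh (augQ_mul N₀ ρ₀ m hx)
    rw [map_sub, MonoidAlgebra.lift_of, MonoidAlgebra.lift_of, map_mul]
    rwa [← mul_assoc, sub_mul, one_mul] at this

/-- `Φ` kills `I^(c+1)` -/
theorem aug_lift_pow {A : Type*} [Ring A] (N₀ : Subgroup M) [N₀.Normal] (ρ₀ : M →* A) (c : ℕ)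
    (hc : ∀ l : List M, (∀ h ∈ l, h ∈ N₀) → l.length = c → (l.map fun h => ρ₀ h - 1).prod = 0)
    (I : Submodule ℤ (MonoidAlgebra ℤ M))
    (hI : ∀ a ∈ I, ∃ b ∈ augL N₀, MonoidAlgebra.lift ℤ A M ρ₀ a = MonoidAlgebra.lift ℤ A M ρ₀ b) :
    ∀ a ∈ I ^ (c + 1), MonoidAlgebra.lift ℤ A M ρ₀ a = 0 := by
  have key : ∀ i j, i + j = c → ∀ a ∈ I ^ i * ⊤, MonoidAlgebra.lift ℤ A M ρ₀ a ∈ augQ N₀ ρ₀ j := by
    intro i
    induction i with
    | zero =>
      intro j hj a _ l h1 h2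
      rw [hc l h1 (by omega), zero_mul]
    | succ i ih =>
      intro j hj a ha
      rw [pow_succ', mul_assoc] at ha
      refine Submodule.mul_induction_on ha (fun x hx y hy => ?_) fun x y hx hy => ?_
      · obtain ⟨b, hb, e⟩ := hI x hx
        rw [map_mul, e]
        exact augQ_aug N₀ ρ₀ hb (ih (j + 1) (by omega) y hy)
      · rw [map_add]; exact add_mem hx hy
  intro a ha
  have h1 : a ∈ I ^ c * ⊤ := by
    rw [pow_succ] at ha
    exact mul_le_mul_right (le_top : I ≤ ⊤) _ ha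
  simpa using key c 0 rfl a h1 [] (by simp) rfl

end Aug

section Filt

variable {R : Type*} [Ring R]

theorem filt_le_pow (I : Submodule ℤ R) (hr : ∀ r, ∀ a ∈ I, a * r ∈ I) (j : ℕ) :
    I ^ (j + 1) * ⊤ ≤ I ^ (j + 1) := by
  rw [pow_succ, mul_assoc]
  exact mul_le_mul_right (Submodule.mul_le.2 fun a ha r _ => hr r a ha) _

theorem filt_zero (I : Submodule ℤ R) : I ^ 0 * ⊤ = (⊤ : Submodule ℤ R) := by
  rw [pow_zero, one_mul]

theorem filt_succ (I : Submodule ℤ R) (j : ℕ) : I ^ (j + 1) * ⊤ = I * (I ^ j * ⊤) := by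
  rw [pow_succ', mul_assoc]

theorem filt_anti (I : Submodule ℤ R) (j : ℕ) : I ^ (j + 1) * ⊤ ≤ I ^ j * ⊤ := by
  rw [pow_succ, mul_assoc]
  exact mul_le_mul_right le_top _

theorem filt_left (I : Submodule ℤ R) (hl : ∀ r, ∀ a ∈ I, r * a ∈ I) (j : ℕ) (r : R) :
    ∀ a ∈ I ^ j * ⊤, r * a ∈ I ^ j * ⊤ := by
  cases j with
  | zero => intro a _; rw [filt_zero]; trivial
  | succ j =>
    intro a ha
    rw [filt_succ] at ha ⊢
    refine Submodule.mul_induction_on ha (fun x hx y hy => ?_) fun x y hx hy => ?_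
    · rw [← mul_assoc r x y]; exact Submodule.mul_mem_mul (hl r x hx) hy
    · rw [mul_add]; exact add_mem hx hy

theorem filt_map_mul (f : R →ₐ[ℤ] R) {A B : Submodule ℤ R} (hA : ∀ a ∈ A, f a ∈ A)
    (hB : ∀ a ∈ B, f a ∈ B) : ∀ a ∈ A * B, f a ∈ A * B := by
  intro a ha
  refine Submodule.mul_induction_on ha (fun x hx y hy => ?_) fun x y hx hy => ?_
  · rw [map_mul]; exact Submodule.mul_mem_mul (hA x hx) (hB y hy)
  · rw [map_add]; exact add_mem hx hy

theorem filt_map (f : R →ₐ[ℤ] R) {I : Submodule ℤ R} (hI : ∀ a ∈ I, f a ∈ I) (j : ℕ) :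
    ∀ a ∈ I ^ j * ⊤, f a ∈ I ^ j * ⊤ := by
  induction j with
  | zero => intro a _; rw [filt_zero]; trivial
  | succ j ih => rw [filt_succ]; exact filt_map_mul f hI ih

end Filt

namespace Ext

variable {M G : Type*} [Group M] [Group G] (e : Ext M G)

theorem Θ_sub_mem (N₀ : Subgroup M) (h : ∀ m, e.θ m * m⁻¹ ∈ N₀) (a : MonoidAlgebra ℤ M) :
    e.Θ a - a ∈ augL N₀ := by
  induction a using MonoidAlgebra.induction_on with
  | add x y hx hy =>
    rw [map_add, add_sub_add_comm]; exact add_mem hx hy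
  | smul c x hx => rw [map_smul, ← smul_sub]; exact Submodule.smul_mem _ _ hx
  | of m =>
    have := augL_gen (h m) m
    rwa [inv_mul_cancel_right, ← e.Θ_of] at this

theorem Θ_inv (N₀ : Subgroup M) (h : ∀ m, e.θ m * m⁻¹ ∈ N₀) (I : Submodule ℤ (MonoidAlgebra ℤ M))
    (hI : augL N₀ ≤ I) : ∀ a ∈ I, e.Θ a ∈ I ∧ e.Θ.symm a ∈ I := by
  intro a ha
  constructor
  · have := add_mem (hI (e.Θ_sub_mem N₀ h a)) ha
    rwa [sub_add_cancel] at this
  · have := sub_mem ha (hI (e.Θ_sub_mem N₀ h (e.Θ.symm a)))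
    rwa [AlgEquiv.apply_symm_apply, sub_sub_cancel] at this

/-- faithfulness -/
theorem faithful_aux {n n₀ : ℕ} (ρ₀ : M →* Matrix (Fin n₀) (Fin n₀) ℤ)
    (ρ : G →* Matrix (Fin n) (Fin n) ℤ) (q : MonoidAlgebra ℤ M →ₗ[ℤ] (Fin n → ℤ))
    (J : Submodule ℤ (MonoidAlgebra ℤ M)) (hJ : ∀ a ∈ J, MonoidAlgebra.lift ℤ _ M ρ₀ a = 0)
    (hq : ∀ a, q a = 0 ↔ ∃ z : ℤ, z ≠ 0 ∧ z • a ∈ J)
    (hρ : ∀ m a, (ρ (e.ι m)).mulVec (q a) = q (MonoidAlgebra.of ℤ M m * a)) {m : M}
    (hm : ρ (e.ι m) = 1) : ρ₀ m = 1 := by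
  have h1 := hρ m 1
  rw [hm, Matrix.one_mulVec, mul_one] at h1
  have h2 : q (MonoidAlgebra.of ℤ M m - 1) = 0 := by rw [map_sub, ← h1, sub_self]
  obtain ⟨z, hz, hz'⟩ := (hq _).1 h2
  have h3 := hJ _ hz'
  rw [map_smul, map_sub, MonoidAlgebra.lift_of, map_one, smul_eq_zero] at h3
  exact sub_eq_zero.1 (h3.resolve_left hz)

end Ext

end Crest.Agent.R182.B
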