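import Crest.Agent.R182.BSwanA
import Crest.Agent.R182.BSwan1Aux

/-!
Row 182, part B, task `R182/BSwan2`: the induction step of Swan's theorem above the nilpotent
normal subgroup.
-/

set_option autoImplicit false

namespace Crest.Agent.R182.B

open scoped BigOperators
open Polynomial

/-- Let `ρ₀ : M →* Matrix ..`, `c` be given by `URep M (N.comap ι)`, `R = ℤ[M]`,
`Φ = MonoidAlgebra.lift ℤ _ M ρ₀ : R →ₐ[ℤ] Matrix ..`, `K = ker Φ` (as a `ℤ`-submodule),
`L = span ℤ {of (h * m) - of m | ι h ∈ N, m : M}`, `I = K ⊔ L`.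
* `I` is a left ideal (`of m' * (of (h m) - of m) = of (h' m' m) - of (m' m)`, `h' = m' h m'⁻¹`) and a
  right ideal; `span F ⊔ K = ⊤` for a finite `F` (the range of `Φ` is a f.g. `ℤ`-module).
* `Θ a - a ∈ L` for all `a` (`θ m = (θ m * m⁻¹) * m`, `ι (θ m * m⁻¹) = t ι m t⁻¹ (ι m)⁻¹ ∈ N`), hence `Θ`
  and `Θ.symm` preserve `I` (`Θ.symm a = a - (Θ (Θ.symm a) - Θ.symm a)`).
* `Φ (I^j) ⊆ span {(l.map (ρ₀ · - 1)).prod * ρ₀ m | l ⊆ N.comap ι, |l| = j}` (induction with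
  `pow_succ'`; move `ρ₀ m` to the right by conjugating the list), so `I^(c+1) ≤ K`.
Take `ρ`, `q` from `swan_rep`.  Faithful on `N`: if `ρ (ι h) = 1` then `q (of h - 1) = 0`, so
`z • (ρ₀ h - 1) = 0` with `z ≠ 0`.  Unipotent: for a list `h_1, …, h_{c+1}`,
`∏ (ρ (ι h_i) - 1) *ᵥ q a = q (∏ (of h_i - 1) * a) = 0` as `∏ (of h_i - 1) * a ∈ I^(c+1)`
(`I^(c+1)` is a right ideal), and `q` is onto. -/
theorem Ext.swan2 {M G : Type*} [Group M] [Group G] (e : Ext M G) (hM : Group.FG M)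
    (N : Subgroup G) [N.Normal] (hN : N ≤ e.ι.range)
    (ht : ∀ m, e.t * e.ι m * e.t⁻¹ * (e.ι m)⁻¹ ∈ N) (h : URep M (N.comap e.ι)) : URep G N := by
  classical
  obtain ⟨n₀, ρ₀, c, hf, hc⟩ := h
  set N₀ := N.comap e.ι with hN₀
  set Φ := MonoidAlgebra.lift ℤ (Matrix (Fin n₀) (Fin n₀) ℤ) M ρ₀ with hΦ
  set K : Submodule ℤ (MonoidAlgebra ℤ M) := LinearMap.ker Φ.toLinearMap with hK
  have hKm : ∀ a, a ∈ K ↔ Φ a = 0 := fun a => Iff.rfl
  set I := K ⊔ augL N₀ with hI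
  have hl : ∀ r, ∀ a ∈ I, r * a ∈ I := by
    intro r a ha
    obtain ⟨x, hx, y, hy, rfl⟩ := Submodule.mem_sup.1 ha
    rw [mul_add]
    refine Submodule.add_mem_sup ?_ (augL_left N₀ r y hy)
    rw [hKm] at hx ⊢
    rw [map_mul, hx, mul_zero]
  have hr : ∀ r, ∀ a ∈ I, a * r ∈ I := by
    intro r a ha
    obtain ⟨x, hx, y, hy, rfl⟩ := Submodule.mem_sup.1 ha
    rw [add_mul]
    refine Submodule.add_mem_sup ?_ (augL_right N₀ r y hy)
    rw [hKm] at hx ⊢
    rw [map_mul, hx, zero_mul]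
  have hθ : ∀ m, e.θ m * m⁻¹ ∈ N₀ := by
    intro m
    rw [hN₀, Subgroup.mem_comap, map_mul, map_inv, e.ι_θ]
    exact ht m
  have hF : ∃ F : Finset (MonoidAlgebra ℤ M),
      Submodule.span ℤ (F : Set (MonoidAlgebra ℤ M)) ⊔ I = ⊤ := by
    obtain ⟨S, hS⟩ : (LinearMap.range Φ.toLinearMap).FG := IsNoetherian.noetherian _
    have h1 : (S : Set (Matrix (Fin n₀) (Fin n₀) ℤ)) ⊆ Φ.toLinearMap '' Set.univ := by
      intro s hs
      have : s ∈ LinearMap.range Φ.toLinearMap := hS ▸ Submodule.subset_span hs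
      obtain ⟨a, rfl⟩ := this
      exact ⟨a, trivial, rfl⟩
    obtain ⟨F, -, hFS⟩ := Finset.subset_set_image_iff.1 h1
    refine ⟨F, eq_top_iff.2 fun a _ => ?_⟩
    have h2 : Φ.toLinearMap a ∈ (Submodule.span ℤ (F : Set (MonoidAlgebra ℤ M))).map
        Φ.toLinearMap := by
      rw [Submodule.map_span, ← Finset.coe_image, hFS, hS]
      exact ⟨a, rfl⟩
    obtain ⟨b, hb, hab⟩ := h2
    have h3 : a - b ∈ K := by
      rw [hK, LinearMap.mem_ker, map_sub, hab, sub_self]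
    have := Submodule.add_mem_sup hb (Submodule.mem_sup_left h3 : a - b ∈ I)
    rwa [add_sub_cancel] at this
  obtain ⟨n, ρ, q, hq, hq0, hρ, -⟩ := e.swan_rep hM I hl (e.Θ_inv N₀ hθ I le_sup_right) hF c
  have hJ : ∀ a ∈ I ^ (c + 1), Φ a = 0 := aug_lift_pow N₀ ρ₀ c hc I (by
    intro a ha
    obtain ⟨x, hx, y, hy, rfl⟩ := Submodule.mem_sup.1 ha
    refine ⟨y, hy, ?_⟩
    rw [hKm] at hx
    change Φ (x + y) = Φ y
    rw [map_add, hx, zero_add])
  refine ⟨n, ρ, c + 1, fun g hg h1 => ?_, fun l h1 h2 => ?_⟩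
  · obtain ⟨m, rfl⟩ := hN hg
    rw [hf m hg (e.faithful_aux ρ₀ ρ q _ hJ hq0 hρ h1), map_one]
  · have key : ∀ l : List G, (∀ h ∈ l, h ∈ N) → ∀ a, ∃ b ∈ I ^ l.length * ⊤,
        ((l.map fun h => ρ h - 1).prod).mulVec (q a) = q b := by
      intro l
      induction l with
      | nil => intro _ a; exact ⟨a, by rw [List.length_nil, filt_zero]; trivial, by simp⟩
      | cons g l ih =>
        intro hl a
        obtain ⟨b, hb, e1⟩ := ih (fun h hh => hl h (List.mem_cons_of_mem _ hh)) a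
        have hg := hl g List.mem_cons_self
        obtain ⟨m, rfl⟩ := hN hg
        refine ⟨(MonoidAlgebra.of ℤ M m - 1) * b, ?_, ?_⟩
        · rw [List.length_cons, filt_succ]
          exact Submodule.mul_mem_mul (Submodule.mem_sup_right (augL_sub_one hg)) hb
        · rw [List.map_cons, List.prod_cons, ← Matrix.mulVec_mulVec, e1, Matrix.sub_mulVec, hρ,
            Matrix.one_mulVec, sub_mul, one_mul, map_sub]
    apply Matrix.toLin'.injective
    refine LinearMap.ext fun w => ?_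
    obtain ⟨a, rfl⟩ := hq w
    obtain ⟨b, hb, e1⟩ := key l h1 a
    rw [h2] at hb
    rw [Matrix.toLin'_apply, e1, map_zero, LinearMap.zero_apply, hq0]
    exact ⟨1, one_ne_zero, by rw [one_smul]; exact filt_le_pow I hr c hb⟩

end Crest.Agent.R182.B
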