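import Crest.Agent.R182.BSwan1
import Crest.Agent.R182.BSwan2
import Crest.Agent.R182.BChar

/-!
Row 182, part B, task `R182/BSwan`: Swan's theorem (the two inductions).
-/

set_option autoImplicit false

namespace Crest.Agent.R182.B

open scoped BigOperators
open Polynomial

/-- Induction on `PZ H`.  `⊥`: `n = 0`, `c = 0` (`↥⊥` is a subsingleton, `Matrix (Fin 0) ..` too).
Step: `G = ↥(H ⊔ ⟨g⟩)`, `M = ↥H`, `ι = Subgroup.inclusion`, `χ` from `exists_char`, `exists_ext`,
`Ext.swan1` (`pc_fg`; the coercion to `Γ` commutes with the iterates of `ad`). -/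
theorem urep_nil {Γ : Type*} [Group Γ] {H : Subgroup Γ} (h : PZ H) (hE : ∀ t ∈ H, Engel t) :
    URep H ⊤ := by
  induction h with
  | bot => exact ⟨0, 1, 0, fun _ _ _ => Subsingleton.elim _ _, fun _ _ _ => Subsingleton.elim _ _⟩
  | step H g hH hg hj ih =>
    obtain ⟨χ, h1, h2⟩ := exists_char hg hj
    have hgm : g ∈ H ⊔ Subgroup.zpowers g := Subgroup.mem_sup_right (Subgroup.mem_zpowers g)
    obtain ⟨e, -, -, e3⟩ := exists_ext
      (Subgroup.inclusion (le_sup_left : H ≤ H ⊔ Subgroup.zpowers g))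
      (Subgroup.inclusion_injective _) χ
      (fun x => by rw [h1, Subgroup.inclusion_range, Subgroup.mem_subgroupOf]) ⟨g, hgm⟩ (h2 _ rfl)
    refine e.swan1 ((Group.fg_iff_subgroup_fg H).2 (pc_fg hH.pc)) ?_
      (ih fun t ht => hE t (Subgroup.mem_sup_left ht))
    obtain ⟨E, hE'⟩ := hE g hgm
    refine ⟨E, fun m => Subtype.ext ?_⟩
    have : Function.Semiconj (Subtype.val)
        (fun b : ↥(H ⊔ Subgroup.zpowers g) => e.t * b * e.t⁻¹ * b⁻¹)
        (fun b => g * b * g⁻¹ * b⁻¹) := fun b => by simp [e3]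
    rw [this.iterate_right E]; exact hE' _

/-- the elements whose coordinates from `j` on vanish -/
def swanM {Γ : Type*} [Group Γ] {k : ℕ} (π : Γ →* Zk k) (j : ℕ) : Subgroup Γ where
  carrier := {γ | ∀ i : Fin k, j ≤ i → (π γ).toAdd i = 0}
  one_mem' := by simp
  mul_mem' ha hb i hi := by simp [ha i hi, hb i hi]
  inv_mem' ha i hi := by simp [ha i hi]

theorem mem_swanM {Γ : Type*} [Group Γ] {k : ℕ} {π : Γ →* Zk k} {j : ℕ} {γ : Γ} :
    γ ∈ swanM π j ↔ ∀ i : Fin k, j ≤ i → (π γ).toAdd i = 0 := Iff.rfl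

/-- **B3.**  `M_j = {γ | ∀ i, j ≤ i → (π γ) i = 0}` (the preimage of a subgroup of `ℤ^k`); prove
`URep M_j (π.ker.subgroupOf M_j)` by induction on `j ≤ k`.  `j = 0`: `urep_nil` for `M_0 = ker π`
(`PZ.of_le`) and `URep.comap`.  Step: `Ext.swan2` with `ι` the inclusion `M_j → M_{j+1}`, `χ` the
`j`-th coordinate of `π`, `t` a preimage of `ee j`; `M_j` is f.g. (`pc_fg`).  End: `URep.comap` along
`Γ →* M_k`. -/
theorem exists_urep {Γ : Type*} [Group Γ] (h : PZ (⊤ : Subgroup Γ)) {k : ℕ} (π : Γ →* Zk k)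
    (hπ : Function.Surjective π) (hE : ∀ t, π t = 1 → Engel t) : URep Γ π.ker := by
  have hPZ : ∀ M : Subgroup Γ, PZ M := fun M => h.of_le le_top
  have hker : ∀ j, π.ker ≤ swanM π j := fun j γ hγ i _ => by rw [MonoidHom.mem_ker.1 hγ]; rfl
  have key : ∀ j ≤ k, URep (swanM π j) (π.ker.subgroupOf (swanM π j)) := by
    intro j
    induction j with
    | zero =>
      refine fun _ => (urep_nil (hPZ _) fun t ht => hE t ?_).comap (MonoidHom.id _)
        Function.injective_id fun _ _ => trivial
      exact Multiplicative.toAdd.injective (funext fun i => ht i (Nat.zero_le _))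
    | succ j ih =>
      intro hj
      have hle : swanM π j ≤ swanM π (j + 1) := fun γ hγ i hi => hγ i (by omega)
      let j' : Fin k := ⟨j, hj⟩
      obtain ⟨t, ht⟩ := hπ (ee j')
      have htm : t ∈ swanM π (j + 1) := fun i hi => by
        rw [ht]; exact Pi.single_eq_of_ne (fun e => by rw [e] at hi; simp [j'] at hi) _
      let χ : swanM π (j + 1) →* Multiplicative ℤ :=
        { toFun := fun γ => Multiplicative.ofAdd ((π γ).toAdd j')
          map_one' := by simp
          map_mul' := fun a b => by simp [ofAdd_add] }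
      obtain ⟨e, e1, -, -⟩ := exists_ext (Subgroup.inclusion hle) (Subgroup.inclusion_injective _) χ
        (fun x => by
          rw [Subgroup.inclusion_range, Subgroup.mem_subgroupOf]
          refine ⟨fun hx i hi => ?_, fun hx => congrArg Multiplicative.ofAdd (hx j' le_rfl)⟩
          rcases hi.lt_or_eq with hi | hi
          · exact x.2 i hi
          · rw [show i = j' from Fin.ext hi.symm]; exact congrArg Multiplicative.toAdd hx)
        ⟨t, htm⟩ (by simp [χ, ht, ee])
      refine e.swan2 ((Group.fg_iff_subgroup_fg _).2 (pc_fg (hPZ _).pc)) _ ?_ (fun m => ?_) ?_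
      · rw [e1, Subgroup.inclusion_range]
        exact fun x hx => hker j hx
      · simp [Subgroup.mem_subgroupOf, MonoidHom.mem_ker]
      · rw [e1]; exact ih (by omega)
  exact (key k le_rfl).comap ((MonoidHom.id Γ).codRestrict _ fun γ i hi => absurd i.2 (by omega))
    (fun a b e => congrArg Subtype.val e) fun x hx => hx

end Crest.Agent.R182.B
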