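import Crest.Agent.R182.BFlag
import Crest.Agent.R182.BSwan1Aux

/-!
Row 182, part B, task `R182/BSwan1`: the induction step of Swan's theorem inside the nilpotent
normal subgroup.
-/

set_option autoImplicit false

namespace Crest.Agent.R182.B

open scoped BigOperators
open Polynomial

namespace Ext

variable {M G : Type*} [Group M] [Group G] (e : Ext M G)

/-- `D = Θ - 1` -/
noncomputable abbrev sw1D : Module.End ℤ (MonoidAlgebra ℤ M) :=
  (e.Θ : MonoidAlgebra ℤ M →ₐ[ℤ] MonoidAlgebra ℤ M).toLinearMap - 1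

theorem sw1D_apply (a : MonoidAlgebra ℤ M) : e.sw1D a = e.Θ a - a := rfl

theorem sw1_Θ_aug : ∀ a ∈ augL (⊤ : Subgroup M),
    e.Θ a ∈ augL (⊤ : Subgroup M) ∧ e.Θ.symm a ∈ augL (⊤ : Subgroup M) :=
  e.Θ_inv ⊤ (fun _ => trivial) _ le_rfl

theorem sw1_ad_iter (k : ℕ) (m : M) : e.ι ((fun m => e.θ m * m⁻¹)^[k] m) =
    (fun b => e.t * b * e.t⁻¹ * b⁻¹)^[k] (e.ι m) := by
  induction k with
  | zero => rfl
  | succ k ih =>
    rw [Function.iterate_succ_apply', Function.iterate_succ_apply', map_mul, map_inv, e.ι_θ, ih]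

theorem sw1_pow_of (k : ℕ) (m : M) : (e.sw1D ^ k) (MonoidAlgebra.of ℤ M m - 1) -
    (MonoidAlgebra.of ℤ M ((fun m => e.θ m * m⁻¹)^[k] m) - 1) ∈
      augL (⊤ : Subgroup M) * augL (⊤ : Subgroup M) := by
  induction k with
  | zero => simp
  | succ k ih =>
    set m' := (fun m => e.θ m * m⁻¹)^[k] m with hm'
    set y := (e.sw1D ^ k) (MonoidAlgebra.of ℤ M m - 1) - (MonoidAlgebra.of ℤ M m' - 1) with hy
    have h1 : e.Θ y ∈ augL (⊤ : Subgroup M) * augL (⊤ : Subgroup M) :=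
      filt_map_mul (e.Θ : MonoidAlgebra ℤ M →ₐ[ℤ] MonoidAlgebra ℤ M)
        (fun a ha => (e.sw1_Θ_aug a ha).1) (fun a ha => (e.sw1_Θ_aug a ha).1) y ih
    have h2 : (MonoidAlgebra.of ℤ M (e.θ m' * m'⁻¹) - 1) * (MonoidAlgebra.of ℤ M m' - 1) ∈
        augL (⊤ : Subgroup M) * augL (⊤ : Subgroup M) :=
      Submodule.mul_mem_mul (augL_sub_one trivial) (augL_sub_one trivial)
    have h3 : (e.sw1D ^ k) (MonoidAlgebra.of ℤ M m - 1) = y + (MonoidAlgebra.of ℤ M m' - 1) := by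
      rw [hy, sub_add_cancel]
    have h4 : MonoidAlgebra.of ℤ M (e.θ m' * m'⁻¹) * MonoidAlgebra.of ℤ M m' =
        MonoidAlgebra.of ℤ M (e.θ m') := by rw [← map_mul, inv_mul_cancel_right]
    rw [Function.iterate_succ_apply', ← hm', pow_succ', Module.End.mul_apply, h3]
    clear_value y
    rw [sw1D_apply, map_add, map_sub, map_one, e.Θ_of]
    convert add_mem (sub_mem h1 ih) h2 using 1
    rw [sub_mul, mul_sub, h4, mul_one, one_mul]
    abel

theorem sw1_aug {E : ℕ} (hE : ∀ m, (fun b => e.t * b * e.t⁻¹ * b⁻¹)^[E] (e.ι m) = 1) :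
    ∀ a ∈ augL (⊤ : Subgroup M),
      (e.sw1D ^ E) a ∈ augL (⊤ : Subgroup M) * augL (⊤ : Subgroup M) := by
  have h1 : ∀ m, (e.sw1D ^ E) (MonoidAlgebra.of ℤ M m - 1) ∈
      augL (⊤ : Subgroup M) * augL (⊤ : Subgroup M) := by
    intro m
    have h2 : (fun m => e.θ m * m⁻¹)^[E] m = 1 := e.inj (by rw [e.sw1_ad_iter, hE, map_one])
    have := e.sw1_pow_of E m
    rwa [h2, map_one, sub_self, sub_zero] at this
  intro a ha
  induction ha using Submodule.span_induction with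
  | zero => rw [map_zero]; exact zero_mem _
  | add x y _ _ hx hy => rw [map_add]; exact add_mem hx hy
  | smul c x _ hx => rw [map_smul]; exact Submodule.smul_mem _ _ hx
  | mem x hx =>
    obtain ⟨h, -, m, rfl⟩ := hx
    have := sub_mem (h1 (h * m)) (h1 m)
    rwa [← map_sub, sub_sub_sub_cancel_right] at this

theorem sw1_filt {E : ℕ} (hE : ∀ m, (fun b => e.t * b * e.t⁻¹ * b⁻¹)^[E] (e.ι m) = 1) (j : ℕ) :
    ∃ k : ℕ, ∀ a ∈ augL (⊤ : Subgroup M) ^ j * ⊤,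
      (e.sw1D ^ k) a ∈ augL (⊤ : Subgroup M) ^ (j + 1) * ⊤ := by
  have hΘ : ∀ a ∈ augL (⊤ : Subgroup M),
      (e.Θ : MonoidAlgebra ℤ M →ₐ[ℤ] MonoidAlgebra ℤ M) a ∈ augL (⊤ : Subgroup M) :=
    fun a ha => (e.sw1_Θ_aug a ha).1
  induction j with
  | zero =>
    refine ⟨1, fun a _ => ?_⟩
    rw [zero_add, pow_one, pow_one, sw1D_apply]
    have := Submodule.mul_mem_mul (e.Θ_sub_mem ⊤ (fun _ => trivial) a)
      (Submodule.mem_top : (1 : MonoidAlgebra ℤ M) ∈ (⊤ : Submodule ℤ (MonoidAlgebra ℤ M)))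
    rwa [mul_one] at this
  | succ j ih =>
    obtain ⟨k, hk⟩ := ih
    refine ⟨E + k, fun a ha => ?_⟩
    rw [filt_succ] at ha
    have := leibniz_mem (e.Θ : MonoidAlgebra ℤ M →ₐ[ℤ] MonoidAlgebra ℤ M) _ _ _ _ hΘ
      (filt_map_mul _ hΘ hΘ) (filt_map _ hΘ j) (filt_map _ hΘ (j + 1)) E k (e.sw1_aug hE) hk a ha
    rw [mul_assoc, ← filt_succ, sup_idem, ← filt_succ] at this
    exact this

end Ext

/-- Let `ρ₀`, `c` be given by `URep M ⊤`, `R = ℤ[M]`, `Φ = MonoidAlgebra.lift ℤ _ M ρ₀`,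
`L = span ℤ {of m - 1}` (the augmentation ideal: `of m' * (of m - 1) = (of (m' m) - 1) - (of m' - 1)`,
likewise on the right; `span {1} ⊔ L = ⊤`; `Θ`, `Θ.symm` preserve `L`).  `Φ (L^j)` lies in the span of
the products of `j` factors `ρ₀ m - 1`, so `Φ` kills `L^(c+1)`.  Take `ρ`, `q` from `swan_rep`.
If `ρ g = 1` and `χ g = 1` then `g = ι m`, `q (of m - 1) = 0`, `z • (ρ₀ m - 1) = 0`, `m = 1`.
Apply `flag_unip` to `σ = Matrix.toLinAlgEquiv' ∘ ρ` (or `Matrix.toLin'`), `M₀ = range ι`,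
`Fl 0 = ⊤`, `Fl (j+1) = (L^(j+1)).map q`, `r = c + 1`: every `σ g` preserves `Fl j` (true for `ι m`, `t`,
`t⁻¹`, use `exists_eq`), `(of m - 1) * L^j ⊆ L^(j+1)`.  With `D = Θ - 1`: `D R ⊆ L`;
`D (of m - 1) = (of (θ m m⁻¹) - 1) * of m ≡ of (θ m m⁻¹) - 1 mod L^2`, so by the Engel hypothesis
`D^e L ⊆ L^2` (`D` preserves `L^2`; `ι (θ m m⁻¹) = ad t (ι m)`); by `leibniz_mem` and induction on
`j`, `D^{e_j} L^(j+1) ⊆ L^(j+2)`.  Finish with `urep_of_block`. -/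
theorem Ext.swan1 {M G : Type*} [Group M] [Group G] (e : Ext M G) (hM : Group.FG M)
    (ht : ∃ E : ℕ, ∀ m, (fun b => e.t * b * e.t⁻¹ * b⁻¹)^[E] (e.ι m) = 1) (h : URep M ⊤) :
    URep G ⊤ := by
  classical
  obtain ⟨n₀, ρ₀, c, hf, hc⟩ := h
  obtain ⟨E, hE⟩ := ht
  set L := augL (⊤ : Subgroup M) with hL
  have hl : ∀ r, ∀ a ∈ L, r * a ∈ L := augL_left ⊤
  have hr : ∀ r, ∀ a ∈ L, a * r ∈ L := augL_right ⊤
  have hF : ∃ F : Finset (MonoidAlgebra ℤ M),
      Submodule.span ℤ (F : Set (MonoidAlgebra ℤ M)) ⊔ L = ⊤ := by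
    refine ⟨{1}, eq_top_iff.2 fun a ha => ?_⟩
    clear ha
    induction a using MonoidAlgebra.induction_on with
    | add x y hx hy => exact add_mem hx hy
    | smul c x hx => exact Submodule.smul_mem _ _ hx
    | of m =>
      have := Submodule.add_mem_sup
        (Submodule.subset_span (by simp) : (1 : MonoidAlgebra ℤ M) ∈
          Submodule.span ℤ (({1} : Finset (MonoidAlgebra ℤ M)) : Set (MonoidAlgebra ℤ M)))
        (augL_sub_one (N₀ := ⊤) (h := m) trivial)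
      rwa [add_sub_cancel] at this
  obtain ⟨n, ρ, q, hq, hq0, hρ, hρt⟩ := e.swan_rep hM L hl e.sw1_Θ_aug hF c
  have hJ := aug_lift_pow ⊤ ρ₀ c hc L fun a ha => ⟨a, ha, rfl⟩
  let σ : G →* Module.End ℤ (Fin n → ℤ) :=
    (Matrix.toLinAlgEquiv' : Matrix (Fin n) (Fin n) ℤ ≃ₐ[ℤ] _).toMonoidHom.comp ρ
  have hσ : ∀ g w, σ g w = (ρ g).mulVec w := fun g w => rfl
  let Fl : ℕ → Submodule ℤ (Fin n → ℤ) := fun j => (L ^ j * ⊤).map q
  have hinvι : ∀ m j, ∀ w ∈ Fl j, σ (e.ι m) w ∈ Fl j := by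
    rintro m j _ ⟨a, ha, rfl⟩
    rw [hσ, hρ]
    exact ⟨_, filt_left L hl j _ a ha, rfl⟩
  have hinvt : ∀ j, ∀ w ∈ Fl j, σ e.t w ∈ Fl j := by
    rintro j _ ⟨a, ha, rfl⟩
    rw [hσ, hρt]
    exact ⟨_, filt_map (e.Θ : MonoidAlgebra ℤ M →ₐ[ℤ] MonoidAlgebra ℤ M)
      (fun a ha => (e.sw1_Θ_aug a ha).1) j a ha, rfl⟩
  have hinvt' : ∀ j, ∀ w ∈ Fl j, σ e.t⁻¹ w ∈ Fl j := by
    rintro j _ ⟨a, ha, rfl⟩
    have h1 : σ e.t⁻¹ (q a) = q (e.Θ.symm a) := by
      have h2 := hρt (e.Θ.symm a)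
      rw [AlgEquiv.apply_symm_apply, ← hσ] at h2
      rw [← h2, ← Module.End.mul_apply, ← map_mul, inv_mul_cancel, map_one, Module.End.one_apply]
    rw [h1]
    exact ⟨_, filt_map (e.Θ.symm : MonoidAlgebra ℤ M →ₐ[ℤ] MonoidAlgebra ℤ M)
      (fun a ha => (e.sw1_Θ_aug a ha).2) j a ha, rfl⟩
  have hinvz : ∀ (z : ℤ) j, ∀ w ∈ Fl j, σ (e.t ^ z) w ∈ Fl j := by
    intro z j
    induction z using Int.induction_on with
    | zero => intro w hw; simpa using hw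
    | succ i ih =>
      intro w hw
      rw [zpow_add_one, map_mul, Module.End.mul_apply]
      exact ih _ (hinvt j w hw)
    | pred i ih =>
      intro w hw
      rw [zpow_sub_one, map_mul, Module.End.mul_apply]
      exact ih _ (hinvt' j w hw)
  obtain ⟨c', hc'⟩ := flag_unip σ (Set.range e.ι) e.t
    (fun g => by
      obtain ⟨m, j, rfl⟩ := e.exists_eq g
      exact ⟨_, ⟨m, rfl⟩, j, rfl⟩) Fl (c + 1)
    (by
      change (L ^ 0 * ⊤).map q = ⊤
      rw [filt_zero, Submodule.map_top, LinearMap.range_eq_top.2 hq])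
    (by
      rw [eq_bot_iff]
      rintro _ ⟨a, ha, rfl⟩
      rw [Submodule.mem_bot, hq0]
      exact ⟨1, one_ne_zero, by rw [one_smul]; exact filt_le_pow L hr c ha⟩)
    (fun j => Submodule.map_mono (filt_anti L j))
    (fun g j w hw => by
      obtain ⟨m, z, rfl⟩ := e.exists_eq g
      rw [map_mul, Module.End.mul_apply]
      exact hinvι m j _ (hinvz z j w hw))
    (by
      rintro _ ⟨m, rfl⟩ j _ ⟨a, ha, rfl⟩
      refine ⟨(MonoidAlgebra.of ℤ M m - 1) * a, ?_, ?_⟩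
      · rw [SetLike.mem_coe, filt_succ]
        exact Submodule.mul_mem_mul (augL_sub_one trivial) ha
      · rw [hσ, hρ, sub_mul, one_mul, map_sub])
    (by
      intro j
      obtain ⟨k, hk⟩ := e.sw1_filt hE j
      have key : ∀ (k : ℕ) a, ((σ e.t - 1) ^ k) (q a) = q ((e.sw1D ^ k) a) := by
        intro k
        induction k with
        | zero => intro a; simp
        | succ k ih =>
          intro a
          rw [pow_succ', pow_succ', Module.End.mul_apply, Module.End.mul_apply, ih,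
            LinearMap.sub_apply, hσ, hρt, Module.End.one_apply, Ext.sw1D_apply, map_sub]
      refine ⟨k, ?_⟩
      rintro _ ⟨a, ha, rfl⟩
      rw [key]
      exact ⟨_, hk a ha, rfl⟩)
  refine urep_of_block ρ e.χ (fun g h1 h2 => ?_) c' fun l hl' => ?_
  · obtain ⟨m, rfl⟩ := (e.ker g).1 h2
    rw [hf m trivial (e.faithful_aux ρ₀ ρ q _ hJ hq0 hρ h1), map_one]
  · apply (Matrix.toLinAlgEquiv' : Matrix (Fin n) (Fin n) ℤ ≃ₐ[ℤ] _).injective
    rw [map_zero, ← hc' l hl', map_list_prod, List.map_map]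
    congr 2
    funext g
    rw [Function.comp_apply, map_sub, map_one]
    rfl

end Crest.Agent.R182.B
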