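import Crest.Agent.R182.BDefs

/-!
Row 182, part B, task `R182/BSwanA`: Swan's lemma and the representation of `M ⋊ ⟨t⟩` on
`ℤ[M] / I^{c+1}` modulo torsion.  Two-sided ideals are treated as `ℤ`-submodules (with the
multiplication `Submodule.mul` of submodules of the `ℤ`-algebra).
-/

set_option autoImplicit false

namespace Crest.Agent.R182.B

open scoped BigOperators
open Polynomial

theorem swa_split {V : Type*} [AddCommGroup V] [Module ℤ V] {W U J : Submodule ℤ V} (hW : W.FG)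
    (h : W ≤ U ⊔ J) : ∃ A : Submodule ℤ V, A.FG ∧ A ≤ J ∧ W ≤ U ⊔ A := by
  classical
  obtain ⟨s, rfl⟩ := hW
  have h1 : ∀ f ∈ s, ∃ a ∈ J, f - a ∈ U := by
    intro f hf
    obtain ⟨u, hu, a, ha, e⟩ := Submodule.mem_sup.mp (h (Submodule.subset_span hf))
    exact ⟨a, ha, by rw [← e]; simpa using hu⟩
  choose! a ha hb using h1
  refine ⟨Submodule.span ℤ (s.image a : Set V), ⟨_, rfl⟩, ?_, ?_⟩
  · rw [Submodule.span_le]
    intro x hx
    obtain ⟨f, hf, rfl⟩ := Finset.mem_image.mp (Finset.mem_coe.mp hx)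
    exact ha f hf
  · rw [Submodule.span_le]
    intro f hf
    have : f = (f - a f) + a f := by abel
    rw [this]
    exact Submodule.add_mem_sup (hb f hf)
      (Submodule.subset_span (Finset.mem_coe.mpr (Finset.mem_image_of_mem a hf)))

/-- a left ideal of finite corank is finitely generated -/
theorem swa_gen {R : Type*} [Ring R] (X : Finset R) (hX : Subring.closure (X : Set R) = ⊤)
    (J : Submodule ℤ R) (hl : ∀ r, ∀ a ∈ J, r * a ∈ J) {U : Submodule ℤ R} (hU : U.FG)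
    (hUJ : U ⊔ J = ⊤) : ∃ P : Submodule ℤ R, P.FG ∧ P ≤ J ∧ J ≤ ⊤ * P := by
  set U' : Submodule ℤ R := U ⊔ Submodule.span ℤ {1} with hU'
  have hU'fg : U'.FG := hU.sup (Submodule.fg_span_singleton 1)
  have hVfg : (Submodule.span ℤ (X : Set R) * U').FG := Submodule.FG.mul ⟨X, rfl⟩ hU'fg
  have hU'J : U' ⊔ J = ⊤ := by
    rw [eq_top_iff, ← hUJ]
    exact sup_le_sup_right le_sup_left _
  obtain ⟨A, hA, hAJ, hAle⟩ := swa_split (U := U') (J := J) hVfg (by rw [hU'J]; exact le_top)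
  have hself : ∀ Q : Submodule ℤ R, Q ≤ ⊤ * Q := fun Q a ha => by
    simpa using Submodule.mul_mem_mul (Submodule.mem_top (x := (1 : R))) ha
  have hleft : ∀ (Q : Submodule ℤ R) (r : R), ∀ j ∈ (⊤ : Submodule ℤ R) * Q, r * j ∈ (⊤ : Submodule ℤ R) * Q := by
    intro Q r j hj
    refine Submodule.mul_induction_on hj (fun m _ n hn => ?_) (fun x y hx hy => ?_)
    · rw [← mul_assoc]; exact Submodule.mul_mem_mul Submodule.mem_top hn
    · rw [mul_add]; exact add_mem hx hy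
  have hJ0 : (⊤ : Submodule ℤ R) * A ≤ J := Submodule.mul_le.mpr fun m _ n hn => hl m n (hAJ hn)
  have hS : ∀ r : R, ∀ s ∈ U' ⊔ ⊤ * A, r * s ∈ U' ⊔ ⊤ * A := by
    intro r
    have hr : r ∈ Subring.closure (X : Set R) := by rw [hX]; trivial
    induction hr using Subring.closure_induction with
    | mem x hx =>
      intro s hs
      obtain ⟨u, hu, j, hj, rfl⟩ := Submodule.mem_sup.mp hs
      rw [mul_add]
      refine add_mem ?_ (Submodule.mem_sup_right (hleft A x j hj))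
      exact sup_le_sup_left (hself A) U' (hAle (Submodule.mul_mem_mul (Submodule.subset_span hx) hu))
    | zero => intro s _; rw [zero_mul]; exact zero_mem _
    | one => intro s hs; rwa [one_mul]
    | add x y _ _ hx hy => intro s hs; rw [add_mul]; exact add_mem (hx s hs) (hy s hs)
    | neg x _ hx => intro s hs; rw [neg_mul]; exact neg_mem (hx s hs)
    | mul x y _ _ hx hy => intro s hs; rw [mul_assoc]; exact hx _ (hy s hs)
  refine ⟨A ⊔ (J ⊓ U'), hA.sup (hU'fg.of_le inf_le_right), sup_le hAJ inf_le_left, fun j hj => ?_⟩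
  have h1 : (1 : R) ∈ U' ⊔ ⊤ * A :=
    Submodule.mem_sup_left (Submodule.mem_sup_right (Submodule.mem_span_singleton_self 1))
  have h2 := hS j 1 h1
  rw [mul_one] at h2
  obtain ⟨u, hu, j0, hj0, e⟩ := Submodule.mem_sup.mp h2
  have huJ : u ∈ J := by
    have : u = j - j0 := by rw [← e]; abel
    rw [this]
    exact sub_mem hj (hJ0 hj0)
  rw [← e]
  refine add_mem (hself _ (Submodule.mem_sup_right ⟨huJ, hu⟩)) ?_
  exact Submodule.mul_le.mpr (fun m hm n hn => Submodule.mul_mem_mul hm (Submodule.mem_sup_left hn)) hj0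

theorem swa_pow_left {R : Type*} [Ring R] (I : Submodule ℤ R) (hl : ∀ r, ∀ a ∈ I, r * a ∈ I) (c : ℕ) :
    ∀ r, ∀ a ∈ I ^ (c + 1), r * a ∈ I ^ (c + 1) := by
  intro r a ha
  rw [pow_succ'] at ha ⊢
  refine Submodule.mul_induction_on ha (fun m hm n hn => ?_) (fun x y hx hy => ?_)
  · rw [← mul_assoc]; exact Submodule.mul_mem_mul (hl r m hm) hn
  · rw [mul_add]; exact add_mem hx hy

/-- **Swan's lemma.**  First: if `J` is a left ideal with `span F ⊔ J = ⊤` then `J` is a finitely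
generated left ideal, `J = span ℤ {r * b | r : R, b ∈ B}`, `B ⊆ J` finite.  (Add `1` to `F`.  For `x ∈ X`,
`f ∈ F` write `x f = u + a`, `u ∈ span F`, `a ∈ J`; let `J₀` be the left ideal generated by these
finitely many `a`.  `{r | r * (span F ⊔ J₀) ⊆ span F ⊔ J₀}` is a subring containing `X`, so
`span F ⊔ J₀ = ⊤`.  `J ⊓ span F` is a f.g. `ℤ`-module (Noetherian) and `J = J₀ ⊔ (J ⊓ span F)`.)
Induction on `c`: `J = I^(c+1)` is a left ideal (`pow_succ'`), with generators `b`; write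
`r = u + a`, `u ∈ span F₀`, `a ∈ I`: `r b ∈ span {f b} ⊔ I * J`, `I * J = I^(c+2)`. -/
theorem swan_fg {R : Type*} [Ring R] (X : Finset R) (hX : Subring.closure (X : Set R) = ⊤)
    (I : Submodule ℤ R) (hl : ∀ r, ∀ a ∈ I, r * a ∈ I)
    (hI : ∃ F : Finset R, Submodule.span ℤ (F : Set R) ⊔ I = ⊤) (c : ℕ) :
    ∃ F : Finset R, Submodule.span ℤ (F : Set R) ⊔ I ^ (c + 1) = ⊤ := by
  induction c with
  | zero => simpa using hI
  | succ c ih =>
    obtain ⟨F, hF⟩ := ih
    obtain ⟨F₀, hF₀⟩ := hI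
    obtain ⟨P, hP, hPJ, hJP⟩ := swa_gen X hX (I ^ (c + 1)) (swa_pow_left I hl c) ⟨F, rfl⟩ hF
    have hfg : (Submodule.span ℤ (F : Set R) ⊔ Submodule.span ℤ (F₀ : Set R) * P).FG :=
      Submodule.FG.sup ⟨F, rfl⟩ (Submodule.FG.mul ⟨F₀, rfl⟩ hP)
    obtain ⟨F', hF'⟩ := hfg
    refine ⟨F', ?_⟩
    rw [hF', eq_top_iff, ← hF, sup_assoc]
    refine sup_le_sup_left (hJP.trans ?_) _
    rw [← hF₀, Submodule.sup_mul]
    refine sup_le_sup_left ?_ _
    rw [pow_succ' I (c + 1)]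
    exact Submodule.mul_le.mpr fun m hm n hn => Submodule.mul_mem_mul hm (hPJ hn)

/-- the torsion free quotient of an invariant submodule of finite corank -/
theorem swa_quot {Λ G V : Type*} [CommRing Λ] [IsDomain Λ] [IsPrincipalIdealRing Λ] [Group G]
    [AddCommGroup V] [Module Λ V] (A : G →* Module.End Λ V)
    (K : Submodule Λ V) (hK : ∀ g, ∀ a ∈ K, A g a ∈ K) {U : Submodule Λ V} (hU : U.FG) (hUK : U ⊔ K = ⊤) :
    ∃ (n : ℕ) (ρ : G →* Matrix (Fin n) (Fin n) Λ) (q : V →ₗ[Λ] (Fin n → Λ)),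
      Function.Surjective q ∧ (∀ a, q a = 0 ↔ ∃ z : Λ, z ≠ 0 ∧ z • a ∈ K) ∧
      ∀ g a, (ρ g).mulVec (q a) = q (A g a) := by
  let J : Submodule Λ V :=
    { carrier := {a | ∃ z : Λ, z ≠ 0 ∧ z • a ∈ K}
      zero_mem' := ⟨1, one_ne_zero, by simp⟩
      add_mem' := by
        rintro a b ⟨z, hz, ha⟩ ⟨w, hw, hb⟩
        refine ⟨z * w, mul_ne_zero hz hw, ?_⟩
        rw [smul_add]
        refine add_mem ?_ ?_
        · rw [mul_comm, mul_smul]; exact K.smul_mem _ ha
        · rw [mul_smul]; exact K.smul_mem _ hb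
      smul_mem' := by
        rintro c a ⟨z, hz, ha⟩
        refine ⟨z, hz, ?_⟩
        rw [smul_comm]
        exact K.smul_mem _ ha }
  have hmem : ∀ a, a ∈ J ↔ ∃ z : Λ, z ≠ 0 ∧ z • a ∈ K := fun a => Iff.rfl
  have hKJ : K ≤ J := fun a ha => ⟨1, one_ne_zero, by simpa using ha⟩
  have hJ : ∀ g, J ≤ J.comap (A g) := by
    rintro g a ⟨z, hz, ha⟩
    refine ⟨z, hz, ?_⟩
    rw [← map_smul]
    exact hK g _ ha
  have : Module.Finite Λ (V ⧸ J) := by
    refine ⟨?_⟩
    have : U.map J.mkQ = ⊤ := by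
      rw [Submodule.map_mkQ_eq_top, eq_top_iff, ← hUK, sup_comm]
      exact sup_le_sup_right hKJ _
    rw [← this]
    exact hU.map _
  have : Module.IsTorsionFree Λ (V ⧸ J) := by
    refine Module.IsTorsionFree.of_smul_eq_zero fun r m h => ?_
    obtain ⟨a, rfl⟩ := J.mkQ_surjective m
    rw [← map_smul, Submodule.mkQ_apply, Submodule.Quotient.mk_eq_zero, hmem] at h
    obtain ⟨z, hz, ha⟩ := h
    by_cases hr : r = 0
    · exact Or.inl hr
    · right
      rw [Submodule.mkQ_apply, Submodule.Quotient.mk_eq_zero, hmem]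
      exact ⟨z * r, mul_ne_zero hz hr, by rwa [mul_smul]⟩
  let b := Module.finBasis Λ (V ⧸ J)
  let A' : G →* Module.End Λ (V ⧸ J) :=
    { toFun := fun g => J.mapQ J (A g) (hJ g)
      map_one' := by
        apply LinearMap.ext
        intro m
        obtain ⟨a, rfl⟩ := J.mkQ_surjective m
        simp
      map_mul' := fun g g' => by
        apply LinearMap.ext
        intro m
        obtain ⟨a, rfl⟩ := J.mkQ_surjective m
        simp }
  refine ⟨_, (LinearMap.toMatrixAlgEquiv b : Module.End Λ (V ⧸ J) →* _).comp A',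
    b.equivFun.toLinearMap ∘ₗ J.mkQ, b.equivFun.surjective.comp J.mkQ_surjective, fun a => ?_, fun g a => ?_⟩
  · rw [← hmem, ← Submodule.Quotient.mk_eq_zero]
    simp only [LinearMap.comp_apply, LinearEquiv.coe_coe, Submodule.mkQ_apply, EmbeddingLike.map_eq_zero_iff]
  · have := LinearMap.toMatrix_mulVec_repr b b (A' g) (J.mkQ a)
    exact this

/-- The data of an infinite cyclic extension `G = M ⋊ ⟨t⟩`. -/
structure Ext (M G : Type*) [Group M] [Group G] where
  ι : M →* G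
  inj : Function.Injective ι
  χ : G →* Multiplicative ℤ
  ker : ∀ g, χ g = 1 ↔ g ∈ ι.range
  t : G
  χ_t : χ t = Multiplicative.ofAdd 1
  θ : M ≃* M
  ι_θ : ∀ m, ι (θ m) = t * ι m * t⁻¹

theorem exists_ext {M G : Type*} [Group M] [Group G] (ι : M →* G) (inj : Function.Injective ι)
    (χ : G →* Multiplicative ℤ) (ker : ∀ g, χ g = 1 ↔ g ∈ ι.range) (t : G)
    (χ_t : χ t = Multiplicative.ofAdd 1) : ∃ e : Ext M G, e.ι = ι ∧ e.χ = χ ∧ e.t = t := by
  have : ι.range.Normal := by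
    have : ι.range = χ.ker := by
      ext g
      rw [MonoidHom.mem_ker, ker]
    rw [this]
    infer_instance
  refine ⟨⟨ι, inj, χ, ker, t, χ_t, (MonoidHom.ofInjective inj).trans
    ((MulAut.conjNormal (H := ι.range) t).trans (MonoidHom.ofInjective inj).symm), fun m => ?_⟩, rfl, rfl, rfl⟩
  rw [MulEquiv.trans_apply, MulEquiv.trans_apply, MonoidHom.apply_ofInjective_symm]
  rfl

namespace Ext

variable {M G : Type*} [Group M] [Group G] (e : Ext M G)

/-- conjugation by `t` on the group ring -/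
noncomputable def Θ : MonoidAlgebra ℤ M ≃ₐ[ℤ] MonoidAlgebra ℤ M := MonoidAlgebra.domCongr ℤ ℤ e.θ

theorem Θ_of (m : M) : e.Θ (MonoidAlgebra.of ℤ M m) = MonoidAlgebra.of ℤ M (e.θ m) := by
  simp [Θ]

theorem exists_eq (g : G) : ∃ (m : M) (j : ℤ), g = e.ι m * e.t ^ j := by
  have h : e.χ (g * (e.t ^ (e.χ g).toAdd)⁻¹) = 1 := by
    rw [map_mul, map_inv, map_zpow, e.χ_t, ← ofAdd_zsmul, smul_eq_mul, mul_one, ofAdd_toAdd, mul_inv_cancel]
  obtain ⟨m, hm⟩ := (e.ker _).mp h
  exact ⟨m, (e.χ g).toAdd, by rw [hm, inv_mul_cancel_right]⟩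

theorem swa_χ_ι (m : M) : e.χ (e.ι m) = 1 := (e.ker _).mpr ⟨m, rfl⟩

theorem swa_exists_act (g : G) (m : M) : ∃ m' : M, e.ι m' = g * e.ι m * (e.t ^ (e.χ g).toAdd)⁻¹ := by
  apply (e.ker _).mp
  rw [map_mul, map_mul, e.swa_χ_ι, mul_one, map_inv, map_zpow, e.χ_t, ← ofAdd_zsmul, smul_eq_mul, mul_one,
    ofAdd_toAdd, mul_inv_cancel]

/-- the action of `G` on the set `M` -/
noncomputable def swaAct (g : G) (m : M) : M := (e.swa_exists_act g m).choose

theorem ι_swaAct (g : G) (m : M) : e.ι (e.swaAct g m) = g * e.ι m * (e.t ^ (e.χ g).toAdd)⁻¹ :=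
  (e.swa_exists_act g m).choose_spec

theorem swaAct_one : e.swaAct 1 = id := by
  funext m
  apply e.inj
  rw [ι_swaAct]
  simp

theorem swaAct_mul (g g' : G) : e.swaAct (g * g') = e.swaAct g ∘ e.swaAct g' := by
  funext m
  apply e.inj
  rw [Function.comp_apply, ι_swaAct, ι_swaAct, ι_swaAct, map_mul, toAdd_mul, zpow_add]
  group

theorem swaAct_ι (m' m : M) : e.swaAct (e.ι m') m = m' * m := by
  apply e.inj
  rw [ι_swaAct, e.swa_χ_ι]
  simp

theorem swaAct_t (m : M) : e.swaAct e.t m = e.θ m := by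
  apply e.inj
  rw [ι_swaAct, e.χ_t, e.ι_θ]
  simp

/-- the action on the group ring -/
noncomputable def swaRep : G →* Module.End ℤ (MonoidAlgebra ℤ M) where
  toFun g := MonoidAlgebra.mapDomainLinearMap ℤ ℤ (e.swaAct g)
  map_one' := by
    rw [swaAct_one]
    apply LinearMap.ext
    intro a
    induction a using MonoidAlgebra.induction_linear with
    | zero => simp
    | add x y hx hy => rw [map_add, map_add, hx, hy]
    | single m r => simp
  map_mul' g g' := by
    rw [swaAct_mul, MonoidAlgebra.mapDomainLinearMap_comp]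
    rfl

theorem swaRep_single (g : G) (m : M) (r : ℤ) :
    e.swaRep g (MonoidAlgebra.single m r) = MonoidAlgebra.single (e.swaAct g m) r :=
  MonoidAlgebra.mapDomainLinearMap_single _ _ _

theorem swaRep_ι (m : M) (a : MonoidAlgebra ℤ M) : e.swaRep (e.ι m) a = MonoidAlgebra.of ℤ M m * a := by
  induction a using MonoidAlgebra.induction_linear with
  | zero => simp
  | add x y hx hy => rw [map_add, mul_add, hx, hy]
  | single m' r => rw [swaRep_single, swaAct_ι]; simp [MonoidAlgebra.single_mul_single]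

theorem swaRep_t (a : MonoidAlgebra ℤ M) : e.swaRep e.t a = e.Θ a := by
  induction a using MonoidAlgebra.induction_linear with
  | zero => simp
  | add x y hx hy => rw [map_add, map_add, hx, hy]
  | single m' r => rw [swaRep_single, swaAct_t]; simp [Θ]

theorem swaRep_t_inv (a : MonoidAlgebra ℤ M) : e.swaRep e.t⁻¹ a = e.Θ.symm a := by
  obtain ⟨b, rfl⟩ := e.Θ.surjective a
  rw [AlgEquiv.symm_apply_apply, ← swaRep_t, ← Module.End.mul_apply, ← map_mul, inv_mul_cancel, map_one,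
    Module.End.one_apply]

theorem swa_map_pow {Λ R : Type*} [CommRing Λ] [Ring R] [Algebra Λ R] (f : R ≃ₐ[Λ] R) (I : Submodule Λ R)
    (hI : ∀ a ∈ I, f a ∈ I) (c : ℕ) : ∀ a ∈ I ^ (c + 1), f a ∈ I ^ (c + 1) := by
  induction c with
  | zero => simpa using hI
  | succ c ih =>
    intro a ha
    rw [pow_succ' I (c + 1)] at ha ⊢
    refine Submodule.mul_induction_on ha (fun m hm n hn => ?_) (fun x y hx hy => ?_)
    · rw [map_mul]; exact Submodule.mul_mem_mul (hI m hm) (ih n hn)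
    · rw [map_add]; exact add_mem hx hy

theorem swa_closure (hM : Group.FG M) :
    ∃ X : Finset (MonoidAlgebra ℤ M), Subring.closure (X : Set (MonoidAlgebra ℤ M)) = ⊤ := by
  classical
  obtain ⟨T, hT⟩ := Gro.exists_gen M
  refine ⟨T.image (MonoidAlgebra.of ℤ M), ?_⟩
  set S := Subring.closure ((T.image (MonoidAlgebra.of ℤ M) : Finset (MonoidAlgebra ℤ M)) :
    Set (MonoidAlgebra ℤ M)) with hS
  have h1 : ∀ s ∈ T, MonoidAlgebra.of ℤ M s ∈ S := fun s hs =>
    Subring.subset_closure (Finset.mem_coe.mpr (Finset.mem_image_of_mem _ hs))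
  have h2 : ∀ m : M, MonoidAlgebra.of ℤ M m ∈ S ∧ MonoidAlgebra.of ℤ M m⁻¹ ∈ S := by
    intro m
    have hm : m ∈ Subgroup.closure (T : Set M) := by rw [hT.closure]; trivial
    induction hm using Subgroup.closure_induction with
    | mem x hx => exact ⟨h1 x hx, h1 _ (hT.inv_mem x hx)⟩
    | one => rw [inv_one, map_one]; exact ⟨one_mem _, one_mem _⟩
    | mul x y _ _ hx hy =>
      rw [mul_inv_rev, map_mul, map_mul]
      exact ⟨mul_mem hx.1 hy.1, mul_mem hy.2 hx.2⟩
    | inv x _ hx => rw [inv_inv]; exact ⟨hx.2, hx.1⟩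
  rw [eq_top_iff]
  intro a _
  induction a using MonoidAlgebra.induction_on with
  | of m => exact (h2 m).1
  | add x y hx hy => exact add_mem (hx trivial) (hy trivial)
  | smul r x hx => exact zsmul_mem (hx trivial) r

/-- `G` acts on the set `M` by `ι (g • m) = g * ι m * t ^ (-χ g)` (so `ι m' • m = m' m`, `t • m = θ m`),
hence `ℤ`-linearly on `R = ℤ[M]` (`Finsupp.lmapDomain` / `MonoidAlgebra.mapDomain`).  Let
`J = {a | ∃ z ≠ 0, z • a ∈ I^(c+1)}`; the `g` which map `I^(c+1)` (hence `J`) into itself form a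
submonoid containing `ι m`, `t`, `t⁻¹` (`Θ` and `Θ.symm` are ring automorphisms preserving `I`), so
all of `G` (`exists_eq`).  `W = R ⧸ J` is finitely generated (`swan_fg`, with `X` the image of a finite
symmetric generating set `Gro.exists_gen`) and torsion free, hence free
(`Module.free_of_finite_type_torsion_free'`); take a basis (`Module.finBasis`),
`q = b.equivFun ∘ mkQ`, `ρ g = LinearMap.toMatrixAlgEquiv b (mapQ ..)`. -/
theorem swan_rep (hM : Group.FG M) (I : Submodule ℤ (MonoidAlgebra ℤ M))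
    (hl : ∀ r, ∀ a ∈ I, r * a ∈ I) (hΘ : ∀ a ∈ I, e.Θ a ∈ I ∧ e.Θ.symm a ∈ I)
    (hI : ∃ F : Finset (MonoidAlgebra ℤ M), Submodule.span ℤ (F : Set (MonoidAlgebra ℤ M)) ⊔ I = ⊤)
    (c : ℕ) :
    ∃ (n : ℕ) (ρ : G →* Matrix (Fin n) (Fin n) ℤ) (q : MonoidAlgebra ℤ M →ₗ[ℤ] (Fin n → ℤ)),
      Function.Surjective q ∧ (∀ a, q a = 0 ↔ ∃ z : ℤ, z ≠ 0 ∧ z • a ∈ I ^ (c + 1)) ∧
      (∀ m a, (ρ (e.ι m)).mulVec (q a) = q (MonoidAlgebra.of ℤ M m * a)) ∧
      ∀ a, (ρ e.t).mulVec (q a) = q (e.Θ a) := by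
  obtain ⟨X, hX⟩ := swa_closure hM
  obtain ⟨F, hF⟩ := swan_fg X hX I hl hI c
  have hι : ∀ m, ∀ a ∈ I ^ (c + 1), e.swaRep (e.ι m) a ∈ I ^ (c + 1) := by
    intro m a ha
    rw [swaRep_ι]
    exact swa_pow_left I hl c _ a ha
  have ht : ∀ a ∈ I ^ (c + 1), e.swaRep e.t a ∈ I ^ (c + 1) := by
    intro a ha
    rw [swaRep_t]
    exact swa_map_pow e.Θ I (fun a ha => (hΘ a ha).1) c a ha
  have ht' : ∀ a ∈ I ^ (c + 1), e.swaRep e.t⁻¹ a ∈ I ^ (c + 1) := by
    intro a ha
    rw [swaRep_t_inv]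
    exact swa_map_pow e.Θ.symm I (fun a ha => (hΘ a ha).2) c a ha
  have hz : ∀ j : ℤ, ∀ a ∈ I ^ (c + 1), e.swaRep (e.t ^ j) a ∈ I ^ (c + 1) := by
    intro j
    induction j using Int.induction_on with
    | zero => intro a ha; simpa using ha
    | succ j ih =>
      intro a ha
      rw [zpow_add_one, map_mul, Module.End.mul_apply]
      exact ih _ (ht a ha)
    | pred j ih =>
      intro a ha
      rw [zpow_sub_one, map_mul, Module.End.mul_apply]
      exact ih _ (ht' a ha)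
  have hK : ∀ g, ∀ a ∈ I ^ (c + 1), e.swaRep g a ∈ I ^ (c + 1) := by
    intro g a ha
    obtain ⟨m, j, rfl⟩ := e.exists_eq g
    rw [map_mul, Module.End.mul_apply]
    exact hι m _ (hz j a ha)
  obtain ⟨n, ρ, q, h1, h2, h3⟩ := swa_quot e.swaRep (I ^ (c + 1)) hK ⟨F, rfl⟩ hF
  refine ⟨n, ρ, q, h1, h2, fun m a => ?_, fun a => ?_⟩
  · rw [h3, swaRep_ι]
  · rw [h3, swaRep_t]

end Ext

end Crest.Agent.R182.B
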