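import Crest.Agent.R182.GeoBasic

/-! Row 182, task `R182/LinNrm`: the invariant norm and its isometry group. -/

set_option autoImplicit false

namespace Crest.Agent.R182

open scoped BigOperators
open MeasureTheory

section aux

variable {V : Type} [NormedAddCommGroup V] [NormedSpace ℝ V] [FiniteDimensional ℝ V]

omit [FiniteDimensional ℝ V] in
theorem lnr_dense_ne {f : V →ₗ[ℝ] ℝ} (hf : f ≠ 0) : Dense {u | f u ≠ 0} := by
  have h : interior ((LinearMap.ker f : Submodule ℝ V) : Set V) = ∅ := by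
    by_contra hne
    exact hf (LinearMap.ker_eq_top.1
      (Submodule.eq_top_of_nonempty_interior' _ (Set.nonempty_iff_ne_empty.2 hne)))
  exact interior_eq_empty_iff_dense_compl.1 h

theorem lnr_dense_all {ι : Type} [Finite ι] (f : ι → V →ₗ[ℝ] ℝ) :
    Dense {u | ∀ i, f i ≠ 0 → f i u ≠ 0} := by
  have h := dense_iInter_of_isOpen (f := fun i : {i // f i ≠ 0} => {u | f i.1 u ≠ 0})
    (fun i => isOpen_ne_fun (f i.1).continuous_of_finiteDimensional continuous_const)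
    (fun i => lnr_dense_ne i.2)
  refine h.mono fun u hu i hi => ?_
  exact Set.mem_iInter.1 hu ⟨i, hi⟩

/-- the isometry group of a polyhedral norm is finite -/
theorem lnr_finite (p : V → ℝ) (hp : Continuous p) (Λ : Set (V →ₗ[ℝ] ℝ)) (hΛ : Λ.Finite)
    (hle : ∀ l ∈ Λ, ∀ u, l u ≤ p u) (hex : ∀ u, ∃ l ∈ Λ, p u = l u)
    (h0 : ∀ u, p u ≤ p 0 → u = 0) : {w : V ≃ₗ[ℝ] V | ∀ u, p (w u) = p u}.Finite := by
  classical
  have := hΛ.to_subtype
  let Ex : Set (V →ₗ[ℝ] ℝ) := {l | ∃ x, ∀ᶠ y in nhds x, p y = l y}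
  have hEx : Ex ⊆ Λ := by
    rintro l ⟨x, hx⟩
    obtain ⟨y, hy1, hy2⟩ := (lnr_dense_all fun l' : Λ => l - l'.1).inter_nhds_nonempty hx
    obtain ⟨l', hl', e⟩ := hex y
    by_contra hl
    refine hy1 ⟨l', hl'⟩ (fun e' => hl ?_) ?_
    · rw [sub_eq_zero.1 e']; exact hl'
    · have hy3 : p y = l y := hy2
      rw [LinearMap.sub_apply, ← hy3, ← e, sub_self]
  have hgen : ∀ x ∈ {u | ∀ q : Λ × Λ, q.1.1 - q.2.1 ≠ 0 → (q.1.1 - q.2.1) u ≠ 0},
      ∃ l ∈ Ex, p x = l x := by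
    intro x hx
    obtain ⟨l, hl, e⟩ := hex x
    refine ⟨l, ⟨x, ?_⟩, e⟩
    have h1 : ∀ᶠ y in nhds x, ∀ l' ∈ Λ, l' y ≤ l y := by
      refine (Filter.eventually_all_finite hΛ).2 fun l' hl' => ?_
      by_cases h : l' = l
      · subst h; exact Filter.Eventually.of_forall fun _ => le_rfl
      · have h2 : l' x < l x := by
          refine lt_of_le_of_ne (e ▸ hle l' hl' x) fun e' => ?_
          exact hx (⟨l', hl'⟩, ⟨l, hl⟩) (sub_ne_zero.2 h) (by simp [e'])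
        exact (l'.continuous_of_finiteDimensional.continuousAt.eventually_lt
          l.continuous_of_finiteDimensional.continuousAt h2).mono fun _ => le_of_lt
    refine h1.mono fun y hy => le_antisymm ?_ (hle l hl y)
    obtain ⟨l', hl', e'⟩ := hex y
    rw [e']; exact hy l' hl'
  have hsep : ∀ u, (∀ l ∈ Ex, l u = 0) → u = 0 := by
    intro u hu
    have h1 : ∀ x, p x ≤ p (x - u) := by
      refine fun x => closure_minimal (t := {x | p x ≤ p (x - u)}) (fun y hy => ?_)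
        (isClosed_le hp (hp.comp (continuous_id.sub continuous_const)))
        (lnr_dense_all (fun q : Λ × Λ => q.1.1 - q.2.1) x)
      obtain ⟨l, hl, e⟩ := hgen y hy
      have := hle l (hEx hl) (y - u)
      rw [map_sub, hu l hl, sub_zero] at this
      exact e.trans_le this
    exact h0 u (by simpa using h1 u)
  have hfin : Finite Ex := (hΛ.subset hEx).to_subtype
  have hact : ∀ w : {w : V ≃ₗ[ℝ] V | ∀ u, p (w u) = p u}, ∀ l ∈ Ex, l ∘ₗ w.1.toLinearMap ∈ Ex := by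
    rintro w l ⟨x, hx⟩
    refine ⟨w.1.symm x, ?_⟩
    have ht : Filter.Tendsto w.1 (nhds (w.1.symm x)) (nhds x) := by
      have := (w.1.toLinearMap.continuous_of_finiteDimensional).tendsto (w.1.symm x)
      simpa using this
    exact (ht.eventually hx).mono fun y hy => by rw [← w.2 y]; exact hy
  rw [← Set.finite_coe_iff]
  refine Finite.of_injective
    (fun w : {w : V ≃ₗ[ℝ] V | ∀ u, p (w u) = p u} => fun l : Ex => (⟨_, hact w l.1 l.2⟩ : Ex))
    fun w w' h => Subtype.ext (LinearEquiv.ext fun u => sub_eq_zero.1 (hsep _ fun l hl => ?_))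
  have := LinearMap.congr_fun (congrArg Subtype.val (congrFun h ⟨l, hl⟩)) u
  simp only [LinearMap.comp_apply, LinearEquiv.coe_coe] at this
  rw [map_sub, this, sub_self]

theorem lnr_margin {ι : Type} [Finite ι] (f : ι → ℝ) : ∃ c : ℝ, 0 < c ∧ ∀ i, f i ≠ 0 → c ≤ |f i| := by
  cases isEmpty_or_nonempty {i // f i ≠ 0} with
  | inl h => exact ⟨1, one_pos, fun i hi => (h.false ⟨i, hi⟩).elim⟩
  | inr h =>
    obtain ⟨i, hi⟩ := Finite.exists_min fun i : {i // f i ≠ 0} => |f i.1|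
    exact ⟨|f i.1|, abs_pos.2 i.2, fun j hj => hi ⟨j, hj⟩⟩

end aux

namespace Frame

variable (F : Frame)

/-- positive relation `∑ n j μ j = 0`, `n j ≥ 1` (`one_le_of_Bs`, `sum_μ`, `Bs_nonempty`), `μ_span` -/
theorem norm_le_of_mu : ∃ C : ℝ, 1 ≤ C ∧ ∀ (u : F.V) (η : ℝ), 0 ≤ η → (∀ j, F.μ j u ≤ η) →
    ‖u‖ ≤ C * η := by
  obtain ⟨n, hn⟩ := F.N.Bs_nonempty F.X Set.univ
  have h1 := F.N.one_le_of_Bs F.X F.ξ F.ξ_X F.ξ_mon hn
  have h2 := F.sum_μ n hn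
  obtain ⟨K, -, hK⟩ := LinearMap.exists_antilipschitzWith (LinearMap.pi F.μ)
    (LinearMap.ker_eq_bot'.2 fun u hu => F.μ_span u fun j => congrFun hu j)
  have hN : (0 : ℝ) ≤ ∑ j, (n j : ℝ) := Finset.sum_nonneg fun _ _ => Nat.cast_nonneg _
  refine ⟨1 + K * (1 + ∑ j, (n j : ℝ)), le_add_of_nonneg_right (by positivity),
    fun u η hη h => ?_⟩
  have h3 : ∑ j, (n j : ℝ) * F.μ j u = 0 := by
    simpa [LinearMap.sum_apply] using LinearMap.congr_fun h2 u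
  have h4 : ‖LinearMap.pi F.μ u‖ ≤ (1 + ∑ j, (n j : ℝ)) * η := by
    refine (pi_norm_le_iff_of_nonneg (by positivity)).2 fun j => ?_
    have h5 : (n j : ℝ) * (η - F.μ j u) ≤ ∑ i, (n i : ℝ) * (η - F.μ i u) :=
      Finset.single_le_sum (f := fun i => (n i : ℝ) * (η - F.μ i u))
        (fun i _ => mul_nonneg (Nat.cast_nonneg _) (sub_nonneg.2 (h i))) (Finset.mem_univ j)
    have h6 : ∑ i, (n i : ℝ) * (η - F.μ i u) = (∑ i, (n i : ℝ)) * η := by
      simp only [mul_sub, Finset.sum_sub_distrib, h3, sub_zero, Finset.sum_mul]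
    have h7 : (1 : ℝ) ≤ n j := by exact_mod_cast h1 j
    have h8 := mul_le_mul_of_nonneg_right h7 (sub_nonneg.2 (h j))
    have h9 := mul_nonneg hN hη
    rw [LinearMap.pi_apply, Real.norm_eq_abs, abs_le]
    constructor <;> linarith [h j]
  have h5 := hK.le_mul_dist u 0
  rw [map_zero, dist_zero_right, dist_zero_right] at h5
  have h6 := mul_le_mul_of_nonneg_left h4 K.2
  calc ‖u‖ ≤ K * ((1 + ∑ j, (n j : ℝ)) * η) := h5.trans h6
    _ ≤ _ := by nlinarith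

theorem norm_le_of_mu' : ∃ C : ℝ, 1 ≤ C ∧ ∀ (u : F.V) (η : ℝ), 0 ≤ η → (∀ j, -η ≤ F.μ j u) →
    ‖u‖ ≤ C * η := by
  obtain ⟨C, h1, h2⟩ := F.norm_le_of_mu
  refine ⟨C, h1, fun u η hη h => ?_⟩
  rw [← norm_neg]
  exact h2 _ η hη fun j => by rw [map_neg]; linarith [h j]

theorem exists_opt (h : F.J → ℝ) : ∃ n : F.J → ℕ, (∀ j, 1 ≤ n j) ∧ ∑ j, (n j : ℝ) • F.μ j = 0 ∧
    F.lvol h = ∑ j, (n j : ℝ) * h j ∧ ∀ h', ∑ j, (n j : ℝ) * h' j ≤ F.lvol h' := by
  obtain ⟨n, hn, e⟩ := F.N.exists_lvol F.X Set.univ h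
  exact ⟨n, F.N.one_le_of_Bs F.X F.ξ F.ξ_X F.ξ_mon hn, F.sum_μ n hn, e,
    fun h' => F.N.le_lvol F.X h' hn⟩

theorem lvol_le_add : ∃ C : ℝ, 1 ≤ C ∧ ∀ (h h' : F.J → ℝ) (c : ℝ), 0 ≤ c →
    (∀ j, h j ≤ h' j + c) → F.lvol h ≤ F.lvol h' + C * c := by
  obtain ⟨C, h1, h2⟩ := F.N.lvol_lip F.X
  exact ⟨C, h1, fun h h' c => h2 Set.univ h h' c⟩

theorem lvol_zero : F.lvol 0 = 0 := by
  obtain ⟨n, -, -, e, -⟩ := F.exists_opt 0
  simpa using e

theorem nrm_nonneg (u : F.V) : 0 ≤ F.nrm u := by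
  obtain ⟨n, -, -, e, -⟩ := F.exists_opt (F.mup u)
  rw [nrm, e]
  exact Finset.sum_nonneg fun j _ => mul_nonneg (Nat.cast_nonneg _) (le_max_right _ _)

/-- `mup (-u) = mup u - mu u` and `lvol_add_mu` -/
theorem nrm_neg (u : F.V) : F.nrm (-u) = F.nrm u := by
  have : F.mup (-u) = F.mup u + F.mu (-u) := by
    funext j
    simp only [mup, mu, Pi.add_apply, map_neg]
    rcases le_total (F.μ j u) 0 with h | h
    · rw [max_eq_left (neg_nonneg.2 h), max_eq_right h, zero_add]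
    · rw [max_eq_right (neg_nonpos.2 h), max_eq_left h, add_neg_cancel]
  rw [nrm, this, lvol_add_mu, nrm]

theorem nrm_smul (c : ℝ) (u : F.V) : F.nrm (c • u) = |c| * F.nrm u := by
  have key : ∀ (c : ℝ) (u : F.V), 0 ≤ c → F.nrm (c • u) = c * F.nrm u := by
    intro c u hc
    have e : ∀ n : F.J → ℕ,
        ∑ j, (n j : ℝ) * F.mup (c • u) j = c * ∑ j, (n j : ℝ) * F.mup u j := fun n => by
      rw [Finset.mul_sum]
      refine Finset.sum_congr rfl fun j _ => ?_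
      simp only [mup, map_smul, smul_eq_mul]
      rw [mul_left_comm, mul_max_of_nonneg _ _ hc, mul_zero]
    obtain ⟨n₁, -, -, e1, l1⟩ := F.exists_opt (F.mup (c • u))
    obtain ⟨n₂, -, -, e2, l2⟩ := F.exists_opt (F.mup u)
    refine le_antisymm ?_ ?_
    · rw [nrm, e1, e]; exact mul_le_mul_of_nonneg_left (l1 _) hc
    · rw [nrm, e2, ← e]; exact l2 _
  rcases le_total 0 c with h | h
  · rw [key c u h, abs_of_nonneg h]
  · rw [← neg_neg c, neg_smul, nrm_neg, key _ _ (neg_nonneg.2 h), abs_neg,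
      abs_of_nonneg (neg_nonneg.2 h)]

theorem nrm_add_le (u u' : F.V) : F.nrm (u + u') ≤ F.nrm u + F.nrm u' := by
  obtain ⟨n, -, -, e, l⟩ := F.exists_opt (F.mup (u + u'))
  refine le_trans ?_ (add_le_add (l (F.mup u)) (l (F.mup u')))
  rw [nrm, e, ← Finset.sum_add_distrib]
  refine Finset.sum_le_sum fun j _ => ?_
  rw [← mul_add]
  refine mul_le_mul_of_nonneg_left ?_ (Nat.cast_nonneg _)
  simp only [mup, map_add]
  exact max_le (add_le_add (le_max_left _ _) (le_max_left _ _))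
    (add_nonneg (le_max_right _ _) (le_max_right _ _))

theorem nrm_equiv : ∃ C : ℝ, 1 ≤ C ∧ ∀ u, ‖u‖ ≤ C * F.nrm u ∧ F.nrm u ≤ C * ‖u‖ := by
  obtain ⟨C₁, h1, h2⟩ := F.norm_le_of_mu
  obtain ⟨C₂, h3, h4⟩ := F.lvol_le_add
  obtain ⟨C₃, h5, h6⟩ := F.norm_mu_le
  have h7 : 0 ≤ C₂ * C₃ := by positivity
  refine ⟨C₁ + C₂ * C₃, by linarith, fun u => ⟨?_, ?_⟩⟩
  · obtain ⟨n, hn, -, e, -⟩ := F.exists_opt (F.mup u)
    have h8 := h2 u (F.nrm u) (F.nrm_nonneg u) fun j => by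
      have a1 : (n j : ℝ) * F.mup u j ≤ ∑ i, (n i : ℝ) * F.mup u i :=
        Finset.single_le_sum (f := fun i => (n i : ℝ) * F.mup u i)
          (fun i _ => mul_nonneg (Nat.cast_nonneg _) (le_max_right _ _)) (Finset.mem_univ j)
      have a2 : (1 : ℝ) ≤ n j := by exact_mod_cast hn j
      have a3 : F.μ j u ≤ F.mup u j := le_max_left _ _
      have a4 := mul_le_mul_of_nonneg_right a2 (show 0 ≤ F.mup u j from le_max_right _ _)
      rw [nrm, e]; linarith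
    nlinarith [mul_nonneg h7 (F.nrm_nonneg u)]
  · have h8 := h4 (F.mup u) 0 (C₃ * ‖u‖) (by positivity) fun j => by
      rw [Pi.zero_apply, zero_add]
      exact max_le ((le_abs_self _).trans (h6 j u)) (by positivity)
    rw [lvol_zero] at h8
    have := mul_nonneg (zero_le_one.trans h1) (norm_nonneg u)
    rw [nrm]; nlinarith

theorem lnr_nrm_zero : F.nrm 0 = 0 := by
  have := F.nrm_smul 0 0
  simpa using this

theorem lnr_eq_zero {u : F.V} (hu : F.nrm u ≤ 0) : u = 0 := by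
  obtain ⟨C, h1, h2⟩ := F.nrm_equiv
  exact norm_le_zero_iff.1 ((h2 u).1.trans (mul_nonpos_of_nonneg_of_nonpos (zero_le_one.trans h1) hu))

theorem lnr_sub_le (u u' : F.V) : F.nrm u ≤ F.nrm u' + F.nrm (u - u') := by
  simpa using F.nrm_add_le u' (u - u')

theorem lnr_continuous : Continuous F.nrm := by
  obtain ⟨C, h1, h2⟩ := F.nrm_equiv
  refine (LipschitzWith.of_le_add_mul ⟨C, zero_le_one.trans h1⟩ fun u u' => ?_).continuous
  rw [dist_eq_norm]
  exact (F.lnr_sub_le u u').trans (add_le_add le_rfl (h2 _).2)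

@[simp] theorem nrm_W (w : F.W) (u : F.V) : F.nrm (w.1 u) = F.nrm u := w.2 u

/-- `nrm` is the maximum of finitely many linear functionals `ℓ = ∑_{j ∈ A} n j μ j`
(`n ∈ Bs`, `A ⊆ J`).  Call `ℓ` exposed if `ℓ = nrm` on a non-empty open set; the exposed functionals
form a finite set that separates points (the closed sets `{ℓ = nrm}` cover `V`; Baire or measure: those
with non-empty interior have dense union, so `nrm = max` over exposed `ℓ`), and `W` permutes them.  So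
`W` embeds into a finite permutation group. -/
instance : Finite F.W := by
  classical
  refine (lnr_finite F.nrm F.lnr_continuous
    ((fun q : (F.J → ℕ) × Finset F.J => ∑ j ∈ q.2, (q.1 j : ℝ) • F.μ j) ''
      (F.N.Bs F.X Set.univ ×ˢ Set.univ))
    (((F.N.Bs_finite F.X Set.univ).prod Set.finite_univ).image _) ?_ (fun u => ?_)
    fun u hu => F.lnr_eq_zero (by rwa [lnr_nrm_zero] at hu)).to_subtype
  · rintro _ ⟨⟨n, A⟩, ⟨hn, -⟩, rfl⟩ u
    refine le_trans ?_ (F.N.le_lvol F.X (F.mup u) hn)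
    simp only [LinearMap.sum_apply, LinearMap.smul_apply, smul_eq_mul]
    refine le_trans (Finset.sum_le_sum fun j _ => ?_) (Finset.sum_le_sum_of_subset_of_nonneg
      (Finset.subset_univ A) fun j _ _ => mul_nonneg (Nat.cast_nonneg _) (le_max_right _ _))
    exact mul_le_mul_of_nonneg_left (le_max_left _ _) (Nat.cast_nonneg _)
  · obtain ⟨n, hn, e⟩ := F.N.exists_lvol F.X Set.univ (F.mup u)
    refine ⟨_, ⟨(n, Finset.univ.filter fun j => 0 < F.μ j u), ⟨hn, trivial⟩, rfl⟩, ?_⟩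
    simp only [LinearMap.sum_apply, LinearMap.smul_apply, smul_eq_mul]
    rw [nrm, lvol, e, Finset.sum_filter]
    refine Finset.sum_congr rfl fun j _ => ?_
    split_ifs with h
    · rw [mup, max_eq_left h.le]
    · rw [mup, max_eq_right (not_lt.1 h), mul_zero]

noncomputable instance : Fintype F.W := Fintype.ofFinite _

theorem norm_W_le : ∃ C : ℝ, 1 ≤ C ∧ ∀ (w : F.W) u, ‖w.1 u‖ ≤ C * ‖u‖ := by
  obtain ⟨C, h1, h2⟩ := F.nrm_equiv
  refine ⟨C * C, one_le_mul_of_one_le_of_one_le h1 h1, fun w u => (h2 _).1.trans ?_⟩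
  rw [nrm_W, mul_assoc]
  exact mul_le_mul_of_nonneg_left (h2 u).2 (zero_le_one.trans h1)

/-- distinct labels differ on a basis vector of `L` -/
theorem W_sep : ∃ c : ℝ, 0 < c ∧ ∀ w w' : F.W, w ≠ w' →
    ∃ i, c ≤ ‖w.1 (F.φL (Pi.single i 1)) - w'.1 (F.φL (Pi.single i 1))‖ := by
  obtain ⟨c, hc, h⟩ := lnr_margin fun q : F.W × F.W × Fin F.m =>
    ‖q.1.1 (F.φL (Pi.single q.2.2 1)) - q.2.1.1 (F.φL (Pi.single q.2.2 1))‖
  refine ⟨c, hc, fun w w' hw => ?_⟩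
  by_contra hcon
  refine hw (Subtype.ext (LinearEquiv.ext fun u => ?_))
  obtain ⟨v, rfl⟩ := F.φL_surj u
  have : w.1.toLinearMap ∘ₗ F.φL = w'.1.toLinearMap ∘ₗ F.φL := by
    refine (Pi.basisFun ℝ (Fin F.m)).ext fun i => ?_
    by_contra hne
    refine hcon ⟨i, ?_⟩
    have := h (w, w', i) (norm_ne_zero_iff.2 (sub_ne_zero.2 (by simpa using hne)))
    rwa [abs_norm] at this
  exact LinearMap.congr_fun this v

theorem gen_margin (𝒱 : Finset F.L) : ∃ c : ℝ, 0 < c ∧ ∀ v ∈ 𝒱, ∀ (w : F.W) (j : F.J),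
    F.μ j (w.1 (F.φL v)) ≠ 0 → c ≤ |F.μ j (w.1 (F.φL v))| := by
  obtain ⟨c, hc, h⟩ := lnr_margin fun q : 𝒱 × F.W × F.J => F.μ q.2.2 (q.2.1.1 (F.φL q.1.1))
  exact ⟨c, hc, fun v hv w j => h (⟨v, hv⟩, w, j)⟩

/-- generic vectors are dense and form an open set: a basis of generic vectors -/
theorem exists_gen_basis : ∃ b : Module.Basis (Fin F.m) ℝ F.L, ∀ i, F.Gen (b i) := by
  have hd : Dense {v | F.Gen v} := by
    refine Dense.mono (fun v hv w j => ?_) (lnr_dense_all fun q : F.W × F.J =>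
      F.μ q.2 ∘ₗ q.1.1.toLinearMap ∘ₗ F.φL)
    refine hv (w, j) fun e => F.μ_ne j ?_
    refine LinearMap.ext fun u => ?_
    obtain ⟨v', hv'⟩ := F.φL_surj (w.1.symm u)
    simpa [hv'] using LinearMap.congr_fun e v'
  have hs : ⊤ ≤ Submodule.span ℝ {v | F.Gen v} := by
    intro v _
    have h1 : Dense ((Submodule.span ℝ {v | F.Gen v} : Submodule ℝ F.L) : Set F.L) :=
      hd.mono Submodule.subset_span
    have h2 := h1.closure_eq
    rw [(Submodule.closed_of_finiteDimensional _).closure_eq] at h2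
    exact h2.ge (Set.mem_univ v)
  refine ⟨(Module.Basis.ofSpan hs).reindex
    ((Module.Basis.ofSpan hs).indexEquiv (Pi.basisFun ℝ (Fin F.m))), fun i => ?_⟩
  rw [Module.Basis.reindex_apply]
  exact Module.Basis.ofSpan_subset hs (Set.mem_range_self _)

theorem lnr_nrm_φL : ∃ c : ℝ, 0 < c ∧ ∀ v v', F.nrm (F.φL v) ≤ F.nrm (F.φL v') + c * ‖v - v'‖ := by
  obtain ⟨C, h1, h2⟩ := F.nrm_equiv
  refine ⟨C * (‖LinearMap.toContinuousLinearMap F.φL‖ + 1), by positivity, fun v v' => ?_⟩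
  refine (F.lnr_sub_le _ (F.φL v')).trans (add_le_add le_rfl ((h2 _).2.trans ?_))
  rw [← map_sub, mul_assoc]
  refine mul_le_mul_of_nonneg_left ?_ (zero_le_one.trans h1)
  refine ((LinearMap.toContinuousLinearMap F.φL).le_opNorm (v - v')).trans ?_
  exact mul_le_mul_of_nonneg_right (le_add_of_nonneg_right zero_le_one) (norm_nonneg _)

theorem lnr_exact (𝒜 : F.L →ₗ[ℝ] F.V) (h : ∀ v, ‖v‖ ≤ 1 → F.nrm (𝒜 v) = F.nrm (F.φL v)) :
    ∃ w : F.W, ∀ v, 𝒜 v = w.1 (F.φL v) := by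
  have h1 : ∀ v, F.nrm (𝒜 v) = F.nrm (F.φL v) := fun v => by
    have h2 := h ((‖v‖ + 1)⁻¹ • v) (by
      rw [norm_smul, norm_inv, Real.norm_of_nonneg (by positivity), inv_mul_le_iff₀ (by positivity)]
      linarith)
    rw [map_smul, map_smul, nrm_smul, nrm_smul] at h2
    exact mul_left_cancel₀ (abs_pos.2 (by positivity)).ne' h2
  obtain ⟨s, hs⟩ := F.exists_section
  have h2 : ∀ u, F.nrm ((𝒜 ∘ₗ s) u) = F.nrm u := fun u => by rw [LinearMap.comp_apply, h1, hs]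
  have h3 : Function.Injective (𝒜 ∘ₗ s) := (injective_iff_map_eq_zero _).2 fun u hu =>
    F.lnr_eq_zero (by rw [← h2, hu, lnr_nrm_zero])
  refine ⟨⟨LinearEquiv.ofInjectiveEndo _ h3, h2⟩, fun v => sub_eq_zero.1 (F.lnr_eq_zero ?_)⟩
  change F.nrm (𝒜 v - 𝒜 (s (F.φL v))) ≤ 0
  rw [← map_sub, h1, map_sub, hs, sub_self, lnr_nrm_zero]

theorem lnr_compact (R ε : ℝ) (hε : 0 < ε) : ∃ δ : ℝ, 0 < δ ∧ ∀ 𝒜 : F.L →L[ℝ] F.V, ‖𝒜‖ ≤ R →
    (∀ v, ‖v‖ ≤ 1 → |F.nrm (𝒜 v) - F.nrm (F.φL v)| ≤ δ) →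
    ∃ w : F.W, ∀ v, ‖𝒜 v - w.1 (F.φL v)‖ ≤ ε * ‖v‖ := by
  let T : F.W → F.L →L[ℝ] F.V := fun w =>
    LinearMap.toContinuousLinearMap (w.1.toLinearMap ∘ₗ F.φL)
  have hK : IsCompact (Metric.closedBall (0 : F.L →L[ℝ] F.V) R ∩ ⋂ w, {𝒜 | ε ≤ ‖𝒜 - T w‖}) :=
    (isCompact_closedBall _ _).inter_right (isClosed_iInter fun w =>
      isClosed_le continuous_const (continuous_id.sub continuous_const).norm)
  obtain ⟨n, hn⟩ := hK.elim_directed_family_closed
    (fun n : ℕ => ⋂ v ∈ {v : F.L | ‖v‖ ≤ 1},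
      {𝒜 : F.L →L[ℝ] F.V | |F.nrm (𝒜 v) - F.nrm (F.φL v)| ≤ 1 / ((n : ℝ) + 1)})
    (fun n => isClosed_biInter fun v _ => isClosed_le
      ((F.lnr_continuous.comp (ContinuousLinearMap.apply ℝ F.V v).continuous).sub
        continuous_const).abs continuous_const)
    (by
      refine Set.eq_empty_of_forall_notMem fun 𝒜 ⟨⟨_, h2⟩, h3⟩ => ?_
      obtain ⟨w, hw⟩ := F.lnr_exact 𝒜.toLinearMap fun v hv => by
        refine sub_eq_zero.1 (abs_nonpos_iff.1 (le_of_forall_pos_le_add fun e he => ?_))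
        obtain ⟨n, hn⟩ := exists_nat_one_div_lt he
        have := Set.mem_iInter₂.1 (Set.mem_iInter.1 h3 n) v hv
        rw [zero_add]
        exact le_trans this hn.le
      have h4 : ε ≤ ‖𝒜 - T w‖ := Set.mem_iInter.1 h2 w
      have h5 : 𝒜 = T w := ContinuousLinearMap.ext hw
      rw [h5, sub_self, norm_zero] at h4
      exact absurd h4 (not_le.2 hε))
    (directed_of_isDirected_le fun n n' hn => Set.iInter₂_mono fun v _ 𝒜 h =>
      show |F.nrm (𝒜 v) - F.nrm (F.φL v)| ≤ 1 / ((n : ℝ) + 1) from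
        le_trans (b := 1 / ((n' : ℝ) + 1)) h (Nat.one_div_le_one_div hn))
  refine ⟨1 / ((n : ℝ) + 1), by positivity, fun 𝒜 h1 h2 => ?_⟩
  by_contra hcon
  refine (Set.eq_empty_iff_forall_notMem.1 hn) 𝒜
    ⟨⟨mem_closedBall_zero_iff.2 h1, Set.mem_iInter.2 fun w => ?_⟩, Set.mem_iInter₂.2 h2⟩
  by_contra h3
  refine hcon ⟨w, fun v => ((𝒜 - T w).le_opNorm v).trans ?_⟩
  exact mul_le_mul_of_nonneg_right (not_le.1 h3).le (norm_nonneg _)

/-- **Compactness.**  Take for `𝒱` an `η`-net of the ball of radius `A + 1` containing the basis.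
The hypotheses extend to all `v` in that ball with error `C η`; so with `𝒜 = φL ∘ B`,
`nrm (φL v) - C η ≤ nrm (𝒜 v) ≤ nrm (φL B' B v) + C η ≤ nrm (φL v) + C η` for `‖v‖ ≤ 1`.  The set of `𝒜`
with `‖𝒜‖ ≤ C A` is compact, and `nrm ∘ 𝒜 = nrm ∘ φL` forces `𝒜 = w ∘ φL` with `w ∈ W`. -/
theorem near_W (A ε : ℝ) (hε : 0 < ε) : ∃ (η : ℝ) (𝒱 : Finset F.L), 0 < η ∧
    ∀ B B' : F.L →ₗ[ℝ] F.L, (∀ v, ‖B v‖ ≤ A * ‖v‖) → (∀ v, ‖B' v‖ ≤ A * ‖v‖) →
      (∀ v ∈ 𝒱, F.nrm (F.φL v) - η ≤ F.nrm (F.φL (B v))) →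
      (∀ v ∈ 𝒱, F.nrm (F.φL v) - η ≤ F.nrm (F.φL (B' v))) →
      (∀ v ∈ 𝒱, ‖B' (B v) - v‖ ≤ η) →
      ∃ w : F.W, ∀ v, ‖F.φL (B v) - w.1 (F.φL v)‖ ≤ ε * ‖v‖ := by
  obtain ⟨c, hc, hcφ⟩ := F.lnr_nrm_φL
  set A' : ℝ := |A| + 1 with hA'
  have hA1 : 1 ≤ A' := le_add_of_nonneg_left (abs_nonneg A)
  obtain ⟨δ, hδ, hcomp⟩ := F.lnr_compact (‖LinearMap.toContinuousLinearMap F.φL‖ * A') ε hε
  set C : ℝ := 1 + c + c * A' + c * (2 + A' * A') with hC
  have hC0 : 0 < C := by positivity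
  obtain ⟨t, -, ht, hcov⟩ := finite_cover_balls_of_compact
    (isCompact_closedBall (0 : F.L) A') (div_pos hδ hC0)
  refine ⟨δ / C, ht.toFinset, div_pos hδ hC0, fun B B' hB hB' h1 h2 h3 => ?_⟩
  have hAA : ∀ v : F.L, A * ‖v‖ ≤ A' * ‖v‖ := fun v =>
    mul_le_mul_of_nonneg_right ((le_abs_self A).trans (le_add_of_nonneg_right zero_le_one))
      (norm_nonneg v)
  replace hB := fun v => (hB v).trans (hAA v)
  replace hB' := fun v => (hB' v).trans (hAA v)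
  set η := δ / C with hη
  have hη0 : 0 < η := div_pos hδ hC0
  have hnet : ∀ v : F.L, ‖v‖ ≤ A' → ∃ v₀ ∈ ht.toFinset, ‖v - v₀‖ ≤ η := fun v hv => by
    obtain ⟨v₀, h4, h5⟩ := Set.mem_iUnion₂.1 (hcov (mem_closedBall_zero_iff.2 hv))
    exact ⟨v₀, ht.mem_toFinset.2 h4, (mem_ball_iff_norm.1 h5).le⟩
  have hlow : ∀ B : F.L →ₗ[ℝ] F.L, (∀ v, ‖B v‖ ≤ A' * ‖v‖) →
      (∀ v ∈ ht.toFinset, F.nrm (F.φL v) - η ≤ F.nrm (F.φL (B v))) → ∀ v : F.L, ‖v‖ ≤ A' →
      F.nrm (F.φL v) - (1 + c + c * A') * η ≤ F.nrm (F.φL (B v)) := by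
    intro B hB h1 v hv
    obtain ⟨v₀, h4, h5⟩ := hnet v hv
    have a1 := hcφ v v₀
    have a2 := hcφ (B v₀) (B v)
    have a3 : ‖B v₀ - B v‖ ≤ A' * η := by
      rw [← map_sub]
      refine (hB _).trans (mul_le_mul_of_nonneg_left ?_ (zero_le_one.trans hA1))
      rwa [norm_sub_rev]
    have a4 := mul_le_mul_of_nonneg_left a3 hc.le
    have a5 := mul_le_mul_of_nonneg_left h5 hc.le
    have := h1 v₀ h4
    linarith
  have hinv : ∀ v : F.L, ‖v‖ ≤ A' → ‖B' (B v) - v‖ ≤ (2 + A' * A') * η := by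
    intro v hv
    obtain ⟨v₀, h4, h5⟩ := hnet v hv
    have e : B' (B v) - v = (B' (B v₀) - v₀) + B' (B (v - v₀)) - (v - v₀) := by
      simp only [map_sub]; abel
    have a1 : ‖B' (B (v - v₀))‖ ≤ A' * (A' * η) :=
      (hB' _).trans (mul_le_mul_of_nonneg_left ((hB _).trans
        (mul_le_mul_of_nonneg_left h5 (zero_le_one.trans hA1))) (zero_le_one.trans hA1))
    have a2 := norm_sub_le ((B' (B v₀) - v₀) + B' (B (v - v₀))) (v - v₀)
    have a3 := norm_add_le (B' (B v₀) - v₀) (B' (B (v - v₀)))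
    have := h3 v₀ h4
    rw [e]; linarith
  refine hcomp (LinearMap.toContinuousLinearMap (F.φL ∘ₗ B)) ?_ fun v hv => ?_
  · refine ContinuousLinearMap.opNorm_le_bound _ (by positivity) fun v => ?_
    refine ((LinearMap.toContinuousLinearMap F.φL).le_opNorm (B v)).trans ?_
    rw [mul_assoc]
    exact mul_le_mul_of_nonneg_left (hB v) (norm_nonneg _)
  · have a1 := hlow B hB h1 v (hv.trans hA1)
    have a2 := hlow B' hB' h2 (B v) ((hB v).trans (mul_le_of_le_one_right (zero_le_one.trans hA1) hv))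
    have a3 := hcφ (B' (B v)) v
    have a4 := mul_le_mul_of_nonneg_left (hinv v (hv.trans hA1)) hc.le
    have a5 : C * η = δ := mul_div_cancel₀ _ hC0.ne'
    have a6 : 0 ≤ c * ((2 + A' * A') * η) := by positivity
    change |F.nrm (F.φL (B v)) - F.nrm (F.φL v)| ≤ δ
    rw [abs_le, ← a5, hC]
    constructor <;> linarith

end Frame

end Crest.Agent.R182
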