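import Crest.Agent.R182.Defs2
import Crest.Agent.R182.LinNrm

/-! Row 182, task `R182/Line`: labels along one line (deterministic). -/

set_option autoImplicit false

namespace Crest.Agent.R182

open scoped BigOperators
open MeasureTheory

theorem line_tele {V : Type} [AddCommGroup V] (Φ : ℕ → V) (R t : ℕ) :
    ∑ s ∈ Finset.range t, (Φ (s + R) - Φ s) = ∑ i ∈ Finset.range R, (Φ (t + i) - Φ i) := by
  have h1 := Finset.sum_range_add Φ t R
  have h2 := Finset.sum_range_add Φ R t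
  rw [add_comm R t, h1] at h2
  simp only [add_comm R] at h2
  rw [Finset.sum_sub_distrib, Finset.sum_sub_distrib, sub_eq_sub_iff_add_eq_add, add_comm, ← h2,
    add_comm]

open Classical in
theorem line_card (P : ℕ → Prop) (n : ℕ) :
    (({s : ℕ | s < n ∧ P s}.ncard : ℕ) : ℝ) = ∑ s ∈ Finset.range n, if P s then (1 : ℝ) else 0 := by
  rw [Finset.sum_boole, ← Set.ncard_coe_finset]
  congr 2
  ext s
  simp

/-- averaging along a line, abstract form -/
theorem line_avg {V : Type} [NormedAddCommGroup V] [NormedSpace ℝ V] (Φ a : ℕ → V) (P : ℕ → Prop)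
    {L δ β : ℝ} {R n : ℕ} (hR : 1 ≤ R) (hδ : 0 ≤ δ)
    (hL : ∀ s i : ℕ, ‖Φ (s + i) - Φ s‖ ≤ L * (i + 1)) (ha : ∀ s, ‖a s‖ ≤ L)
    (hg : ∀ s, ¬P s → ¬P (s + R) → ‖Φ (s + R) - Φ s - (R : ℝ) • a s‖ ≤ δ)
    (hβ : ({s : ℕ | s < n ∧ P s}.ncard : ℝ) ≤ β) {t : ℕ} (ht : t ≤ n) :
    R * ‖Φ t - Φ 0 - ∑ s ∈ Finset.range t, a s‖ ≤ n * δ + R * (6 * L * β + 5 * L * R) := by
  classical
  have hL0 : 0 ≤ L := (norm_nonneg _).trans (ha 0)
  have hR' : (1 : ℝ) ≤ R := by exact_mod_cast hR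
  set b : ℕ → ℝ := fun s => if P s then 1 else 0 with hb
  have hb0 : ∀ s, 0 ≤ b s := fun s => by simp only [hb]; split_ifs <;> norm_num
  have hb1 : ∀ s, b s ≤ 1 := fun s => by simp only [hb]; split_ifs <;> norm_num
  rw [line_card] at hβ
  change ∑ s ∈ Finset.range n, b s ≤ β at hβ
  have k1 : ∑ s ∈ Finset.range t, b s ≤ β :=
    (Finset.sum_le_sum_of_subset_of_nonneg (Finset.range_mono ht) fun s _ _ => hb0 s).trans hβ
  have k2 : ∑ s ∈ Finset.range t, b (s + R) ≤ β + R := by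
    have e1 := Finset.sum_range_add b R t
    have e2 := Finset.sum_range_add b n R
    have e3 : ∑ s ∈ Finset.range (R + t), b s ≤ ∑ s ∈ Finset.range (n + R), b s :=
      Finset.sum_le_sum_of_subset_of_nonneg (Finset.range_mono (by omega)) fun s _ _ => hb0 s
    have e4 : 0 ≤ ∑ s ∈ Finset.range R, b s := Finset.sum_nonneg fun s _ => hb0 s
    have e5 : ∑ s ∈ Finset.range R, b (n + s) ≤ R := by
      simpa using Finset.sum_le_card_nsmul (Finset.range R) (fun s => b (n + s)) 1 fun s _ => hb1 _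
    simp only [add_comm R] at e1 e3
    linarith
  have k3 : ∀ s, ‖Φ (s + R) - Φ s - (R : ℝ) • a s‖ ≤ δ + 3 * L * R * (b s + b (s + R)) := by
    intro s
    by_cases h : ¬P s ∧ ¬P (s + R)
    · have := hg s h.1 h.2
      have h0 : 0 ≤ 3 * L * R * (b s + b (s + R)) := by
        have := hb0 s
        have := hb0 (s + R)
        positivity
      linarith
    · have h1 : 1 ≤ b s + b (s + R) := by
        have := hb0 s
        have := hb0 (s + R)
        rcases not_and_or.1 h with h | h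
        · have : b s = 1 := if_pos (not_not.1 h)
          linarith
        · have : b (s + R) = 1 := if_pos (not_not.1 h)
          linarith
      have h2 : ‖(R : ℝ) • a s‖ ≤ R * L := by
        rw [norm_smul, Real.norm_natCast]
        exact mul_le_mul_of_nonneg_left (ha s) (by positivity)
      have h3 := norm_sub_le (Φ (s + R) - Φ s) ((R : ℝ) • a s)
      have h4 := hL s R
      have h5 : 3 * L * R * 1 ≤ 3 * L * R * (b s + b (s + R)) :=
        mul_le_mul_of_nonneg_left h1 (by positivity)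
      nlinarith
  have k4 : ‖∑ s ∈ Finset.range t, (Φ (s + R) - Φ s - (R : ℝ) • a s)‖ ≤
      n * δ + 3 * L * R * (2 * β + R) := by
    refine (norm_sum_le_of_le _ fun s _ => k3 s).trans ?_
    rw [Finset.sum_add_distrib, ← Finset.mul_sum, Finset.sum_add_distrib, Finset.sum_const,
      Finset.card_range, nsmul_eq_mul]
    have : (t : ℝ) ≤ n := by exact_mod_cast ht
    have h5 : 3 * L * R * (∑ s ∈ Finset.range t, b s + ∑ s ∈ Finset.range t, b (s + R)) ≤
        3 * L * R * (2 * β + R) := mul_le_mul_of_nonneg_left (by linarith) (by positivity)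
    nlinarith
  have k5 : ‖∑ i ∈ Finset.range R, ((Φ (t + i) - Φ t) - (Φ (0 + i) - Φ 0))‖ ≤ R * (2 * L * R) := by
    refine (norm_sum_le_of_le (n := fun _ => 2 * L * R) _ fun i hi => ?_).trans ?_
    · have h1 := hL t i
      have h2 := hL 0 i
      have h3 := norm_sub_le (Φ (t + i) - Φ t) (Φ (0 + i) - Φ 0)
      have h4 : (i : ℝ) + 1 ≤ R := by exact_mod_cast Finset.mem_range.1 hi
      have h5 : L * (i + 1) ≤ L * R := mul_le_mul_of_nonneg_left h4 hL0
      linarith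
    · simp
  have k6 : (R : ℝ) • (Φ t - Φ 0 - ∑ s ∈ Finset.range t, a s) =
      ∑ s ∈ Finset.range t, (Φ (s + R) - Φ s - (R : ℝ) • a s) -
        ∑ i ∈ Finset.range R, ((Φ (t + i) - Φ t) - (Φ (0 + i) - Φ 0)) := by
    rw [Finset.sum_sub_distrib (f := fun s => Φ (s + R) - Φ s), line_tele, ← Finset.smul_sum]
    simp only [zero_add, Finset.sum_sub_distrib, Finset.sum_const, Finset.card_range, smul_sub,
      ← Nat.cast_smul_eq_nsmul ℝ]
    abel
  have k7 := congrArg norm k6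
  rw [norm_smul, Real.norm_natCast] at k7
  rw [k7]
  refine (norm_sub_le _ _).trans ?_
  nlinarith

namespace Frame

variable (F : Frame)

/-- common core of `line_sum` and `line_const` -/
theorem line_core (K : ℝ) (v : F.L) : ∃ C : ℝ, 1 ≤ C ∧ ∀ f q, F.QI K f q → ∀ (r ε β : ℝ),
    C ≤ r → 0 ≤ ε → ∀ (x : F.G) (n : ℕ) (a : ℕ → F.V) (P : ℕ → Prop),
      (∀ s, a s = 0 ∨ ∃ w : F.W, a s = w.1 (F.φL v)) →
      (∀ s R : ℕ, F.M.len (F.lin v R) ≤ r → ¬P s → ¬P (s + R) →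
        ‖F.M.ht (f (x * F.lin v s * F.lin v R)) - F.M.ht (f (x * F.lin v s)) - (R : ℝ) • a s‖ ≤
          ε * r) →
      ({s : ℕ | s < n ∧ P s}.ncard : ℝ) ≤ β →
      ∀ t : ℕ, t ≤ n → ‖F.M.ht (f (x * F.lin v t)) - F.M.ht (f x) - ∑ s ∈ Finset.range t, a s‖ ≤
        C * (ε * n + β + r) := by
  obtain ⟨C1, hC1, h1⟩ := F.len_lin
  obtain ⟨C2, hC2, h2⟩ := F.qi_lip
  obtain ⟨C3, hC3, h3⟩ := F.norm_W_le
  set A : ℝ := C1 * (1 + ‖v‖) + 1 with hA
  set L : ℝ := C2 * |K| * (A + 1) + C3 * ‖F.φL v‖ with hL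
  have hA1 : 1 ≤ A := by
    have : 0 ≤ C1 * (1 + ‖v‖) := by positivity
    linarith
  have hL1 : 0 ≤ C2 * |K| * (A + 1) := by positivity
  have hL2 : 0 ≤ C3 * ‖F.φL v‖ := by positivity
  have hL0 : 0 ≤ L := by linarith
  have hlen : ∀ i : ℕ, F.M.len (F.lin v i) ≤ C1 + i * (C1 * ‖v‖) := by
    intro i
    have := h1 v i
    rw [Nat.abs_cast] at this
    linarith
  refine ⟨2 * A + 6 * L, by linarith, fun f q H r ε β hr hε x n a P ha hg hβ t ht => ?_⟩
  have hβ0 : 0 ≤ β := (Nat.cast_nonneg _).trans hβ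
  have hK : |K| = K := abs_of_nonneg (by linarith [H.one_le])
  set R : ℕ := ⌊r / A⌋₊ with hR
  have hA0 : 0 < A := by linarith
  have hR1 : 1 ≤ R := Nat.le_floor (by rw [Nat.cast_one, le_div_iff₀ hA0]; linarith)
  have hR1' : (1 : ℝ) ≤ R := by exact_mod_cast hR1
  have hR2 : R * A ≤ r := by
    rw [← le_div_iff₀ hA0]
    exact Nat.floor_le (div_nonneg (by linarith) hA0.le)
  have hR3 : r ≤ 2 * A * R := by
    have := Nat.lt_floor_add_one (r / A)
    rw [div_lt_iff₀ hA0, ← hR] at this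
    nlinarith
  have hR4 : (R : ℝ) ≤ r := by nlinarith
  have hmul : ∀ s i : ℕ, x * F.lin v ((s + i : ℕ) : ℝ) = x * F.lin v s * F.lin v i := by
    intro s i
    rw [Nat.cast_add, F.lin_add, mul_assoc]
  have key := line_avg (fun s : ℕ => F.M.ht (f (x * F.lin v s))) a P (L := L) (δ := ε * r)
    (β := β) (R := R) (n := n) hR1 (mul_nonneg hε (by linarith)) ?_ ?_ ?_ hβ ht
  · simp only [Nat.cast_zero, lin_zero, mul_one] at key
    refine le_of_mul_le_mul_left (key.trans ?_) (show (0 : ℝ) < R by linarith)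
    have hn : (0 : ℝ) ≤ n := Nat.cast_nonneg n
    have e1 : n * (ε * r) ≤ n * (ε * (2 * A * R)) := by gcongr
    have e2 : 5 * L * R ≤ 5 * L * r := by gcongr
    have e3 : 2 * A * (ε * n) + 6 * L * β + 5 * L * r ≤ (2 * A + 6 * L) * (ε * n + β + r) := by
      have := mul_nonneg hε hn
      have : 0 ≤ r := by linarith
      have : 0 ≤ L * (ε * n) := by positivity
      have : 0 ≤ A * β := by positivity
      have : 0 ≤ A * r := by positivity
      have : 0 ≤ L * r := by positivity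
      nlinarith
    have e4 : R * (2 * A * (ε * n) + 6 * L * β + 5 * L * R) ≤
        R * ((2 * A + 6 * L) * (ε * n + β + r)) :=
      mul_le_mul_of_nonneg_left (by linarith) (by linarith)
    nlinarith
  · intro s i
    have e1 := (h2 K f q H (x * F.lin v s) (F.lin v i)).1
    have e2 := hlen i
    have hi : (0 : ℝ) ≤ i := Nat.cast_nonneg i
    have e3 : F.M.len (F.lin v i) + 1 ≤ (A + 1) * (i + 1) := by
      have : 0 ≤ C1 * ‖v‖ := by positivity
      have : 0 ≤ C1 * i := by positivity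
      rw [hA]
      nlinarith
    have e4 : C2 * K * (F.M.len (F.lin v i) + 1) ≤ C2 * K * ((A + 1) * (i + 1)) :=
      mul_le_mul_of_nonneg_left e3 (by rw [← hK]; positivity)
    have e5 : C2 * |K| * (A + 1) * (i + 1) ≤ L * (i + 1) :=
      mul_le_mul_of_nonneg_right (by linarith) (by linarith)
    rw [hK] at e5
    simp only [hmul]
    linarith
  · intro s
    rcases ha s with h0 | ⟨w, hw⟩
    · rw [h0, norm_zero]
      exact hL0
    · rw [hw]
      linarith [h3 w (F.φL v)]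
  · intro s hs hs'
    simp only [hmul]
    refine hg s R ((hlen R).trans ?_) hs hs'
    refine le_trans ?_ hR2
    rw [hA]
    nlinarith

variable {F} in
theorem Lab.line {f : F.G → F.G} {r ε : ℝ} {𝒢 : F.W → Set F.G} (h : F.Lab f r ε 𝒢) {v : F.L}
    {z : F.G} {t : ℝ} {w w' : F.W} (hz : z ∈ 𝒢 w) (hz' : z * F.lin v t ∈ 𝒢 w')
    (ht : F.M.len (F.lin v t) ≤ r) :
    ‖F.M.ht (f (z * F.lin v t)) - F.M.ht (f z) - t • w.1 (F.φL v)‖ ≤ ε * r := by
  have := (h.2 w w' z _ hz hz' (by rwa [F.M.dd_mul_right])).2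
  rwa [Model.ht_mul, add_sub_cancel_left, ht_lin, map_smul] at this

/-- Let `Φ t = ht (f (x lin t)) - ht (f x)` and `r' = ⌊c r⌋` with `len (lin v t) ≤ r` for `t ≤ r'`.
If `x lin s` and `x lin (s + r')` are labelled, `‖Φ (s + r') - Φ s - r' a s‖ ≤ ε r` (`Lab`); otherwise
the left side is `≤ C r` (`qi_lip`, `norm_W_le`); at most `2 β + r'` values `s < t` are of the second
kind.  `∑_{s<t} (Φ (s + r') - Φ s) = ∑_{i<r'} (Φ (t + i) - Φ i) = r' Φ t + O(r' r)`. -/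
theorem line_sum (K : ℝ) (v : F.L) : ∃ C : ℝ, 1 ≤ C ∧ ∀ f q, F.QI K f q → ∀ (r ε β : ℝ)
    (𝒢 : F.W → Set F.G), C ≤ r → 0 ≤ ε → F.Lab f r ε 𝒢 → ∀ (x : F.G) (n : ℕ) (a : ℕ → F.V),
      (∀ (s : ℕ) w, x * F.lin v s ∈ 𝒢 w → a s = w.1 (F.φL v)) →
      (∀ s : ℕ, x * F.lin v s ∉ ⋃ w, 𝒢 w → a s = 0) →
      ({s : ℕ | s < n ∧ x * F.lin v s ∉ ⋃ w, 𝒢 w}.ncard : ℝ) ≤ β →
      ∀ t : ℕ, t ≤ n → ‖F.M.ht (f (x * F.lin v t)) - F.M.ht (f x) - ∑ s ∈ Finset.range t, a s‖ ≤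
        C * (ε * n + β + r) := by
  obtain ⟨C, hC, h⟩ := F.line_core K v
  refine ⟨C, hC, fun f q H r ε β 𝒢 hr hε hL x n a ha ha0 hβ => ?_⟩
  refine h f q H r ε β hr hε x n a (fun s => x * F.lin v s ∉ ⋃ w, 𝒢 w) (fun s => ?_)
    (fun s R hR hs hs' => ?_) hβ
  · by_cases hs : x * F.lin v s ∈ ⋃ w, 𝒢 w
    · obtain ⟨w, hw⟩ := Set.mem_iUnion.1 hs
      exact Or.inr ⟨w, ha s w hw⟩
    · exact Or.inl (ha0 s hs)
  · obtain ⟨w, hw⟩ := Set.mem_iUnion.1 (not_not.1 hs)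
    obtain ⟨w', hw'⟩ := Set.mem_iUnion.1 (not_not.1 hs')
    rw [Nat.cast_add, F.lin_add, ← mul_assoc] at hw'
    rw [ha s w hw]
    exact hL.line hw hw' hR

/-- version with one label `w` at all but `β` points -/
theorem line_const (K : ℝ) (v : F.L) : ∃ C : ℝ, 1 ≤ C ∧ ∀ f q, F.QI K f q → ∀ (r ε β : ℝ)
    (𝒢 : F.W → Set F.G), C ≤ r → 0 ≤ ε → F.Lab f r ε 𝒢 → ∀ (x : F.G) (n : ℕ) (w : F.W),
      ({s : ℕ | s < n ∧ x * F.lin v s ∉ 𝒢 w}.ncard : ℝ) ≤ β →
      ∀ t : ℕ, t ≤ n → ‖F.M.ht (f (x * F.lin v t)) - F.M.ht (f x) - (t : ℝ) • w.1 (F.φL v)‖ ≤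
        C * (ε * n + β + r) := by
  obtain ⟨C, hC, h⟩ := F.line_core K v
  refine ⟨C, hC, fun f q H r ε β 𝒢 hr hε hL x n w hβ t ht => ?_⟩
  have := h f q H r ε β hr hε x n (fun _ => w.1 (F.φL v)) (fun s => x * F.lin v s ∉ 𝒢 w)
    (fun s => Or.inr ⟨w, rfl⟩) (fun s R hR hs hs' => ?_) hβ t ht
  · rwa [Finset.sum_const, Finset.card_range, ← Nat.cast_smul_eq_nsmul ℝ] at this
  · have hw' := not_not.1 hs'
    rw [Nat.cast_add, F.lin_add, ← mul_assoc] at hw'
    exact hL.line (not_not.1 hs) hw' hR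

/-- Let `h j = max_{t ≤ n} ∑_{s<t} μ j (a s)`, attained at `t_j`, and `m` optimal for `h`
(`exists_opt`).  `∑_j m j h j = lvol h ≥ n ν₀ - C (E + E') ≥ ∑_{s<n} ∑_j m j (μ j (a s))⁺ - C (E + E')`.
As `h j ≤ ∑_{s<n} (μ j (a s))⁺` and `m j ≥ 1`, for each `j`:
`∑_{s<t_j} (μ j (a s))⁻ + ∑_{t_j ≤ s < n} (μ j (a s))⁺ ≤ C (E + E')`.  A pair `(s, s + t)` as in the
statement has `s < t_j` or `s + t ≥ t_j`. -/
theorem switch_count : ∃ C : ℝ, 1 ≤ C ∧ ∀ (n : ℕ) (a Φ : ℕ → F.V) (ν₀ E E' c : ℝ), 0 < c → 0 ≤ E → 0 ≤ E' →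
    (∀ s < n, F.nrm (a s) ≤ ν₀) → (∀ s < n, ∀ j, F.μ j (a s) ≠ 0 → c ≤ |F.μ j (a s)|) →
    (∀ t ≤ n, ‖Φ t - ∑ s ∈ Finset.range t, a s‖ ≤ E) →
    (∀ h : F.J → ℝ, (∀ t ≤ n, ∀ j, F.μ j (Φ t) ≤ h j) → n * ν₀ - E' ≤ F.lvol h) →
    ∀ (j : F.J) (t : ℕ), c * ({s : ℕ | s + t < n ∧ F.μ j (a s) < 0 ∧ 0 < F.μ j (a (s + t))}.ncard : ℝ)
      ≤ C * (E + E') := by
  classical
  obtain ⟨C1, hC1, h1⟩ := F.norm_mu_le
  obtain ⟨C2, hC2, h2⟩ := F.lvol_le_add
  have hC12 : 0 ≤ C2 * C1 := by positivity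
  refine ⟨2 * (1 + C2 * C1), by linarith, fun n a Φ ν₀ E E' c hc hE hE' hν hm hΦ hbig j t => ?_⟩
  have hT : ∀ j : F.J, ∃ T ≤ n, ∀ t ≤ n, ∑ s ∈ Finset.range t, F.μ j (a s) ≤
      ∑ s ∈ Finset.range T, F.μ j (a s) := by
    intro j
    obtain ⟨T, hT, hT'⟩ := Finset.exists_max_image (Finset.range (n + 1))
      (fun t => ∑ s ∈ Finset.range t, F.μ j (a s)) ⟨0, by simp⟩
    exact ⟨T, Nat.lt_succ_iff.1 (Finset.mem_range.1 hT),
      fun t ht => hT' t (Finset.mem_range.2 (Nat.lt_succ_iff.2 ht))⟩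
  choose T hTn hT using hT
  set h : F.J → ℝ := fun j => ∑ s ∈ Finset.range (T j), F.μ j (a s) with hh
  have k1 : n * ν₀ - E' ≤ F.lvol h + C2 * (C1 * E) := by
    refine (hbig (fun j => h j + C1 * E) fun t ht j => ?_).trans
      (h2 _ h _ (by positivity) fun j => le_rfl)
    have e1 := (le_abs_self _).trans (h1 j (Φ t - ∑ s ∈ Finset.range t, a s))
    have e2 := mul_le_mul_of_nonneg_left (hΦ t ht) hC1.le
    have e3 := hT j t ht
    rw [map_sub, map_sum] at e1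
    simp only [hh]
    linarith
  obtain ⟨m, hm1, -, hm3, hm4⟩ := F.exists_opt h
  set g : F.J → ℕ → ℝ := fun j s => max (F.μ j (a s)) 0 - if s < T j then F.μ j (a s) else 0
    with hg
  have hg0 : ∀ j s, 0 ≤ g j s := by
    intro j s
    simp only [hg]
    split_ifs
    · linarith [le_max_left (F.μ j (a s)) 0]
    · linarith [le_max_right (F.μ j (a s)) 0]
  have hgs : ∀ j, ∑ s ∈ Finset.range n, g j s =
      ∑ s ∈ Finset.range n, max (F.μ j (a s)) 0 - h j := by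
    intro j
    simp only [hg, hh]
    rw [Finset.sum_sub_distrib, ← Finset.sum_filter]
    congr 2
    ext s
    have := hTn j
    simp only [Finset.mem_filter, Finset.mem_range]
    omega
  have k2 : ∑ j, (m j : ℝ) * ∑ s ∈ Finset.range n, max (F.μ j (a s)) 0 ≤ n * ν₀ := by
    simp only [Finset.mul_sum]
    rw [Finset.sum_comm]
    have := Finset.sum_le_card_nsmul (Finset.range n)
      (fun s => ∑ j, (m j : ℝ) * max (F.μ j (a s)) 0) ν₀
      fun s hs => (hm4 (F.mup (a s))).trans (hν s (Finset.mem_range.1 hs))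
    simpa using this
  have k3 : ∑ s ∈ Finset.range n, g j s ≤ E' + C2 * (C1 * E) := by
    have e0 : ∀ j, 0 ≤ ∑ s ∈ Finset.range n, g j s := fun j => Finset.sum_nonneg fun s _ => hg0 j s
    have e1 : (m j : ℝ) * ∑ s ∈ Finset.range n, g j s ≤
        ∑ j, (m j : ℝ) * ∑ s ∈ Finset.range n, g j s :=
      Finset.single_le_sum (f := fun j => (m j : ℝ) * ∑ s ∈ Finset.range n, g j s)
        (fun j _ => mul_nonneg (Nat.cast_nonneg _) (e0 j)) (Finset.mem_univ j)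
    have e2 : (1 : ℝ) ≤ m j := by exact_mod_cast hm1 j
    have e3 : ∑ j, (m j : ℝ) * ∑ s ∈ Finset.range n, g j s =
        ∑ j, (m j : ℝ) * ∑ s ∈ Finset.range n, max (F.μ j (a s)) 0 - F.lvol h := by
      rw [hm3, ← Finset.sum_sub_distrib]
      exact Finset.sum_congr rfl fun j _ => by rw [hgs, mul_sub]
    have e4 := mul_le_mul_of_nonneg_right e2 (e0 j)
    linarith
  set A : Finset ℕ := (Finset.range n).filter
    fun s => s + t < n ∧ F.μ j (a s) < 0 ∧ 0 < F.μ j (a (s + t)) with hA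
  have hAe : {s : ℕ | s + t < n ∧ F.μ j (a s) < 0 ∧ 0 < F.μ j (a (s + t))} = (A : Set ℕ) := by
    ext s
    simp only [hA, Set.mem_ofPred_eq, Finset.coe_filter, Finset.mem_range]
    exact ⟨fun h => ⟨by omega, h⟩, fun h => h.2⟩
  rw [hAe, Set.ncard_coe_finset]
  have k4 : ∀ s ∈ A, c ≤ g j s + g j (s + t) := by
    intro s hs
    obtain ⟨hs0, hs1, hs2, hs3⟩ := Finset.mem_filter.1 hs
    by_cases hsT : s < T j
    · have e1 := hm s (Finset.mem_range.1 hs0) j hs2.ne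
      have e2 : g j s = -F.μ j (a s) := by
        simp only [hg, if_pos hsT, max_eq_right hs2.le, zero_sub]
      rw [abs_of_neg hs2] at e1
      linarith [hg0 j (s + t)]
    · have e1 := hm (s + t) hs1 j hs3.ne'
      have e2 : g j (s + t) = F.μ j (a (s + t)) := by
        simp only [hg, if_neg (show ¬s + t < T j by omega), max_eq_left hs3.le, sub_zero]
      rw [abs_of_pos hs3] at e1
      linarith [hg0 j s]
  have k5 : ∑ s ∈ A, g j s ≤ ∑ s ∈ Finset.range n, g j s :=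
    Finset.sum_le_sum_of_subset_of_nonneg (Finset.filter_subset _ _) fun s _ _ => hg0 j s
  have k6 : ∑ s ∈ A, g j (s + t) ≤ ∑ s ∈ Finset.range n, g j s := by
    rw [← Finset.sum_image (g := fun s => s + t) (f := g j) fun s _ s' _ h => by simpa using h]
    refine Finset.sum_le_sum_of_subset_of_nonneg (fun s hs => ?_) fun s _ _ => hg0 j s
    obtain ⟨s', hs', rfl⟩ := Finset.mem_image.1 hs
    exact Finset.mem_range.2 (Finset.mem_filter.1 hs').2.1
  have k7 := Finset.card_nsmul_le_sum A _ c k4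
  rw [Finset.sum_add_distrib, nsmul_eq_mul] at k7
  have : 0 ≤ C2 * C1 * E' := by positivity
  nlinarith

end Frame

end Crest.Agent.R182
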