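import Crest.Agent.R182.FL
import Crest.Agent.R182.Line

/-! Row 182, task `R182/BT`: the box theorem. -/

set_option autoImplicit false

namespace Crest.Agent.R182

open scoped BigOperators
open MeasureTheory

namespace Frame

variable (F : Frame)

/-- for most `x` one label occupies most of the fibre -/
theorem bt_bad (ν la : Measure F.G) [IsProbabilityMeasure ν] [IsProbabilityMeasure la]
    (𝒢 : F.W → Set F.G) (hm : ∀ w, MeasurableSet (𝒢 w))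
    (hd : ∀ w w' z, z ∈ 𝒢 w → z ∈ 𝒢 w' → w = w') {γ ε : ℝ} (hγ : 0 < γ)
    (h1 : (F.conv ν la).real (⋃ w, 𝒢 w)ᶜ ≤ ε)
    (h2 : ∀ w w', w ≠ w' → ((ν.prod la).prod la).real
      {p | p.1.1 * p.1.2 ∈ 𝒢 w ∧ p.1.1 * p.2 ∈ 𝒢 w'} ≤ ε) :
    ν.real {x | ∀ w, γ ≤ la.real {d | x * d ∉ 𝒢 w}} ≤ (2 + (Nat.card F.W : ℝ) ^ 2) * ε / γ := by
  classical
  have := Fintype.ofFinite F.W
  have hε : 0 ≤ ε := measureReal_nonneg.trans h1
  have hU : MeasurableSet (⋃ w, 𝒢 w) := MeasurableSet.iUnion hm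
  have m1 : Measurable fun p : (F.G × F.G) × F.G => p.1.1 * p.1.2 := by fun_prop
  have m2 : Measurable fun p : (F.G × F.G) × F.G => p.1.1 * p.2 := by fun_prop
  set E : Set ((F.G × F.G) × F.G) := {p | ¬∃ w, p.1.1 * p.1.2 ∈ 𝒢 w ∧ p.1.1 * p.2 ∈ 𝒢 w} with hE
  have hEm : MeasurableSet E := by
    have : E = (⋃ w, ((fun p : (F.G × F.G) × F.G => p.1.1 * p.1.2) ⁻¹' 𝒢 w ∩
        (fun p : (F.G × F.G) × F.G => p.1.1 * p.2) ⁻¹' 𝒢 w))ᶜ := by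
      ext p; simp [hE]
    rw [this]
    exact (MeasurableSet.iUnion fun w => (m1 (hm w)).inter (m2 (hm w))).compl
  have hc : (ν.prod la).real {q : F.G × F.G | q.1 * q.2 ∈ (⋃ w, 𝒢 w)ᶜ} ≤ ε := by
    rwa [conv, map_measureReal_apply measurable_mul hU.compl] at h1
  have hq : MeasurableSet {q : F.G × F.G | q.1 * q.2 ∈ (⋃ w, 𝒢 w)ᶜ} := measurable_mul hU.compl
  have e1 : ((ν.prod la).prod la).real {p | p.1.1 * p.1.2 ∈ (⋃ w, 𝒢 w)ᶜ} ≤ ε := by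
    refine le_of_eq_of_le ?_ hc
    exact (measurePreserving_fst (μ := ν.prod la) (ν := la)).measureReal_preimage
      hq.nullMeasurableSet
  have e2 : ((ν.prod la).prod la).real {p | p.1.1 * p.2 ∈ (⋃ w, 𝒢 w)ᶜ} ≤ ε := by
    refine le_of_eq_of_le ?_ hc
    exact ((measurePreserving_fst (μ := ν) (ν := la)).prod
      (MeasurePreserving.id la)).measureReal_preimage hq.nullMeasurableSet
  have e3 : ((ν.prod la).prod la).real (⋃ q : F.W × F.W,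
      {p | q.1 ≠ q.2 ∧ p.1.1 * p.1.2 ∈ 𝒢 q.1 ∧ p.1.1 * p.2 ∈ 𝒢 q.2}) ≤
      (Nat.card F.W : ℝ) ^ 2 * ε := by
    refine (measureReal_iUnion_fintype_le _).trans ?_
    refine (Finset.sum_le_card_nsmul _ _ ε fun q _ => ?_).trans ?_
    · by_cases hq : q.1 = q.2
      · simp [hq, hε]
      · simpa [hq] using h2 q.1 q.2 hq
    · simp [sq]
  have e4 : ((ν.prod la).prod la).real E ≤ (2 + (Nat.card F.W : ℝ) ^ 2) * ε := by
    have hsub : E ⊆ ({p | p.1.1 * p.1.2 ∈ (⋃ w, 𝒢 w)ᶜ} ∪ {p | p.1.1 * p.2 ∈ (⋃ w, 𝒢 w)ᶜ}) ∪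
        ⋃ q : F.W × F.W, {p | q.1 ≠ q.2 ∧ p.1.1 * p.1.2 ∈ 𝒢 q.1 ∧ p.1.1 * p.2 ∈ 𝒢 q.2} := by
      intro p hp
      by_cases a1 : p.1.1 * p.1.2 ∈ ⋃ w, 𝒢 w
      · by_cases a2 : p.1.1 * p.2 ∈ ⋃ w, 𝒢 w
        · obtain ⟨w, hw⟩ := Set.mem_iUnion.1 a1
          obtain ⟨w', hw'⟩ := Set.mem_iUnion.1 a2
          refine Or.inr (Set.mem_iUnion.2 ⟨(w, w'), fun e => hp ⟨w, hw, ?_⟩, hw, hw'⟩)
          have e' : w = w' := e
          rwa [e']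
        · exact Or.inl (Or.inr a2)
      · exact Or.inl (Or.inl a1)
    refine (measureReal_mono hsub).trans ((measureReal_union_le _ _).trans ?_)
    have := measureReal_union_le (μ := (ν.prod la).prod la)
      {p | p.1.1 * p.1.2 ∈ (⋃ w, 𝒢 w)ᶜ} {p | p.1.1 * p.2 ∈ (⋃ w, 𝒢 w)ᶜ}
    linarith
  have e5 := real_slice_le (ν.prod la) la hEm hγ
  have e6 : ν.real {x | ∀ w, γ ≤ la.real {d | x * d ∉ 𝒢 w}} =
      (ν.prod la).real ({x | ∀ w, γ ≤ la.real {d | x * d ∉ 𝒢 w}} ×ˢ Set.univ) := by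
    simp [measureReal_def, Measure.prod_prod]
  rw [e6]
  refine le_trans (measureReal_mono ?_) (e5.trans (by gcongr))
  rintro ⟨x, d₀⟩ ⟨hx, -⟩
  obtain ⟨w, hw⟩ : ∃ w, ∀ w', x * d₀ ∈ 𝒢 w' → w' = w := by
    by_cases h : ∃ w, x * d₀ ∈ 𝒢 w
    · obtain ⟨w, hw⟩ := h
      exact ⟨w, fun w' hw' => hd _ _ _ hw' hw⟩
    · exact ⟨1, fun w' hw' => (h ⟨w', hw'⟩).elim⟩
  refine (hx w).trans (measureReal_mono fun d hd' => ?_)
  rintro ⟨w', a1, a2⟩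
  exact hd' (hw w' a1 ▸ a2)

/-- a point of the small fibre from which all the lines are mostly in `Y` -/
theorem bt_pick (la la' : Measure F.G) [IsProbabilityMeasure la] [IsProbabilityMeasure la']
    (𝒱 : Finset F.L) (n : ℕ) (x : F.G) (Y : Set F.G) {C γ β : ℝ} (hC : 0 ≤ C) (hβ : 0 < β)
    (hY : la.real {d | x * d ∉ Y} ≤ γ)
    (hdom : ∀ v ∈ 𝒱, ∀ s < n, F.rt la' (F.lin v (s : ℕ)) ≤ ENNReal.ofReal C • la)
    (hlt : (𝒱.card * n : ℝ) * (C * γ) / β < 1) {P : F.G → Prop} (hP : ∀ᵐ d ∂la', P d) :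
    ∃ d, P d ∧ ∀ v ∈ 𝒱, ({s : ℕ | s < n ∧ x * d * F.lin v s ∉ Y}.ncard : ℝ) ≤ β := by
  classical
  have h1 := real_count_le la' (𝒱 ×ˢ Finset.range n)
    (fun i => {d | x * d * F.lin i.1 (i.2 : ℕ) ∉ Y}) (ε := C * γ) hβ (fun i hi => by
      obtain ⟨a1, a2⟩ := Finset.mem_product.1 hi
      have e := F.real_le_rt la' (F.lin i.1 (i.2 : ℕ)) {d | x * d ∉ Y}
      simp only [Set.mem_ofPred_eq, ← mul_assoc] at e
      rw [e]
      refine (real_le_of_le_smul hC (hdom _ a1 _ (Finset.mem_range.1 a2)) _).trans ?_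
      gcongr)
  rw [Finset.card_product, Finset.card_range, Nat.cast_mul] at h1
  obtain ⟨d, hd, hPd⟩ := exists_not_mem_of_real_lt la' (h1.trans_lt hlt) hP
  refine ⟨d, hPd, fun v hv => le_trans ?_ (not_lt.1 hd)⟩
  rw [Nat.cast_le]
  refine Set.ncard_le_ncard_of_injOn (fun s => (v, s)) ?_ ?_
    ((𝒱 ×ˢ Finset.range n).finite_toSet.subset fun i hi => hi.1)
  · rintro s ⟨h1, h2⟩
    exact ⟨Finset.mem_product.2 ⟨hv, Finset.mem_range.2 h1⟩, h2⟩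
  · intro s _ s' _ h
    exact (Prod.ext_iff.1 h).2

theorem bt_lin_neg (v : F.L) (t : ℝ) : F.lin (-v) t = F.lin v (-t) := by
  simp [lin]

set_option maxHeartbeats 1000000 in
/-- one-sided version -/
theorem bt_nat (𝒱 : Finset F.L) (K : ℝ) : ∃ θ : ℝ, 0 < θ ∧ θ ≤ 1 ∧ ∀ ε : ℝ, 0 < ε →
    ∃ S₀ τ : ℝ, 0 < τ ∧ ∀ f q, F.QI K f q → ∀ S : ℝ, S₀ ≤ S →
    ∀ ν : Measure F.G, IsProbabilityMeasure ν → F.BInv ν (fun _ => S / 2) τ →
      ν.real {x | ¬∃ w : F.W, ∀ v ∈ 𝒱, ∀ t : ℕ, (t : ℝ) ≤ θ * S →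
        ‖F.M.ht (f (x * F.lin v t)) - F.M.ht (f x) - (t : ℝ) • w.1 (F.φL v)‖ ≤ ε * S} ≤ ε := by
  obtain ⟨c₁, A, hc₁, hc₁1, hA, hFL⟩ := F.FL K
  obtain ⟨c₂, hc₂, hc₂1, hdom⟩ := F.uD_translate_le_uD c₁ hc₁ hc₁1
  obtain ⟨C₅, hC₅, hhat⟩ := F.dn_hat
  obtain ⟨M₀, hM₀⟩ := Finite.exists_le fun v : 𝒱 => ‖v.1‖
  obtain ⟨M, hM1, hM⟩ : ∃ M : ℝ, 1 ≤ M ∧ ∀ v ∈ 𝒱, ‖v‖ ≤ M :=
    ⟨max M₀ 1, le_max_right _ _, fun v hv => (hM₀ ⟨v, hv⟩).trans (le_max_left _ _)⟩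
  choose CL' hCL' hline using F.line_const K
  obtain ⟨CL₀, hCL₀⟩ := Finite.exists_le fun v : 𝒱 => CL' v.1
  obtain ⟨CL, hCL1, hCL⟩ : ∃ CL : ℝ, 1 ≤ CL ∧ ∀ v ∈ 𝒱, CL' v ≤ CL :=
    ⟨max CL₀ 1, le_max_right _ _, fun v hv => (hCL₀ ⟨v, hv⟩).trans (le_max_left _ _)⟩
  obtain ⟨Cq, hCq, hlip⟩ := F.qi_lip
  set θ := min 1 (c₂ / (2 * A * C₅ * M)) with hθ
  have hA0 : 0 < A := by linarith
  have hM0 : 0 < M := by linarith
  have hCL0 : 0 < CL := by linarith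
  have hθ0 : 0 < θ := lt_min one_pos (by positivity)
  have hθ1 : θ ≤ 1 := min_le_left _ _
  have hθ2 : θ * (2 * A * C₅ * M) ≤ c₂ := by
    have : θ ≤ c₂ / (2 * A * C₅ * M) := min_le_right _ _
    rwa [le_div_iff₀ (by positivity)] at this
  refine ⟨θ, hθ0, hθ1, fun ε hε => ?_⟩
  obtain ⟨Kq, hKq⟩ : ∃ Kq, Kq = Cq * |K| := ⟨_, rfl⟩
  have hKq0 : 0 ≤ Kq := by rw [hKq]; positivity
  obtain ⟨ε₁, hε₁⟩ : ∃ ε₁, ε₁ = ε / (8 * (Kq + 1)) := ⟨_, rfl⟩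
  have hε₁0 : 0 < ε₁ := by rw [hε₁]; positivity
  have hε₁1 : 2 * Kq * ε₁ ≤ ε / 4 := by
    have : ε₁ * (8 * (Kq + 1)) = ε := by rw [hε₁]; field_simp
    nlinarith
  obtain ⟨κ, C₆, hκ, hκ1, hC₆, hconj⟩ := F.len_conj_D 1 ε₁ hε₁0
  have hσ0 : 0 < min c₂ κ := lt_min hc₂ hκ
  obtain ⟨Cσ, hCσ, hdom⟩ := hdom (min c₂ κ) hσ0 (min_le_left _ _)
  obtain ⟨η, hη⟩ : ∃ η, η = ε / (4 * CL) := ⟨_, rfl⟩
  have hη0 : 0 < η := by rw [hη]; positivity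
  have hη1 : CL * η = ε / 4 := by rw [hη]; field_simp
  obtain ⟨γ, hγ⟩ : ∃ γ, γ = η / ((𝒱.card + 1) * Cσ) := ⟨_, rfl⟩
  have hγ0 : 0 < γ := by rw [hγ]; positivity
  have hγ1 : (𝒱.card + 1) * (Cσ * γ) = η := by rw [hγ]; field_simp
  set ε' := min η (ε * γ / (2 + (Nat.card F.W : ℝ) ^ 2)) with hε'
  have hε'0 : 0 < ε' := lt_min hη0 (by positivity)
  have hε'1 : ε' ≤ η := min_le_left _ _
  have hε'2 : (2 + (Nat.card F.W : ℝ) ^ 2) * ε' / γ ≤ ε := by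
    have : ε' ≤ ε * γ / (2 + (Nat.card F.W : ℝ) ^ 2) := min_le_right _ _
    rw [le_div_iff₀ (by positivity)] at this
    rw [div_le_iff₀ hγ0]
    linarith
  obtain ⟨r₁, R₀, τ, hτ, hFL⟩ := hFL ε' CL hε'0
  refine ⟨1 + 2 * A * |R₀| + 4 * (CL * |r₁| + 2 * Kq * (C₆ + 1)) / ε, τ, hτ,
    fun f q hf S hS ν hν hinv => ?_⟩
  have e1 : 0 ≤ 2 * A * |R₀| := by positivity
  have e2 : 0 ≤ 4 * (CL * |r₁| + 2 * Kq * (C₆ + 1)) / ε := by positivity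
  have hS1 : 1 ≤ S := by linarith
  have hS0 : 0 < S := by linarith
  have hS2 : CL * |r₁| + 2 * Kq * (C₆ + 1) ≤ ε / 4 * S := by
    have : 4 * (CL * |r₁| + 2 * Kq * (C₆ + 1)) / ε ≤ S := by linarith
    rw [div_le_iff₀ hε] at this
    linarith
  obtain ⟨R, hR⟩ : ∃ R, R = S / (2 * A) := ⟨_, rfl⟩
  have hRS : R * (2 * A) = S := by rw [hR]; field_simp
  have hR0 : 0 < R := by rw [hR]; positivity
  have hRS' : R ≤ S := by nlinarith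
  have hR1 : R₀ ≤ R := by
    refine (le_abs_self _).trans ?_
    rw [hR, le_div_iff₀ (by positivity)]
    linarith
  obtain ⟨r, 𝒢, hr0, hr1, hLab, h1, h2⟩ := hFL f q hf R (S / 2) hR1 (by linarith) ν hν hinv
  have := F.isProb_uD R hc₁
  have := F.isProb_uD R hσ0
  have hbad := F.bt_bad ν (F.uD R c₁) 𝒢 hLab.1 (fun w w' z hz hz' =>
    (hLab.2 w w' z z hz hz' (by rw [F.M.dd_self]; linarith)).1) hγ0 h1 h2
  refine le_trans (measureReal_mono fun x hx => ?_) (hbad.trans hε'2)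
  intro w
  by_contra hw
  refine hx ⟨w, ?_⟩
  have hn : (⌊θ * S⌋₊ : ℝ) ≤ θ * S := Nat.floor_le (by positivity)
  have hnS : (⌊θ * S⌋₊ : ℝ) ≤ S := hn.trans (by nlinarith)
  have hdn : ∀ v ∈ 𝒱, ∀ t : ℕ, (t : ℝ) ≤ θ * S → F.dn R ((t : ℝ) • F.hat v) ≤ c₂ := by
    intro v hv t ht
    refine (hhat R hR0 v t).trans ?_
    rw [div_le_iff₀ hR0, Nat.abs_cast]
    calc C₅ * t * ‖v‖ ≤ C₅ * (θ * S) * M := by gcongr; exact hM v hv
      _ = θ * (2 * A * C₅ * M) * R := by rw [← hRS]; ring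
      _ ≤ c₂ * R := by gcongr
  obtain ⟨d, ⟨hdD, hdσ⟩, hcount⟩ := F.bt_pick (F.uD R c₁) (F.uD R (min c₂ κ)) 𝒱 ⌊θ * S⌋₊ x (𝒢 w)
    (β := η * S) hCσ.le (by positivity) (not_le.1 hw).le (fun v hv s hs =>
      hdom R _ (F.D.smul_mem _ (F.hat_mem v)) (hdn v hv s (le_trans (by exact_mod_cast hs.le) hn)))
    (by
      rw [div_lt_one (by positivity), ← hγ1]
      have h3 : 0 < Cσ * γ := by positivity
      have h4 : (𝒱.card : ℝ) * ⌊θ * S⌋₊ ≤ 𝒱.card * S := by gcongr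
      nlinarith [mul_le_mul_of_nonneg_right h4 h3.le, mul_pos h3 hS0])
    (F.uD_ae R hσ0)
  intro v hv t ht
  have h3 := hline v f q hf r ε' (η * S) 𝒢 ((hCL v hv).trans hr0) hε'0.le hLab (x * d) _ w
    (hcount v hv) t (Nat.le_floor ht)
  have hK : Cq * K = Kq := by rw [hKq, abs_of_nonneg (by linarith [hf.one_le])]
  have hmove : ∀ k ∈ F.D, F.dn R k ≤ 1 →
      ‖F.M.ht (f (x * d * F.M.ofE k)) - F.M.ht (f (x * F.M.ofE k))‖ ≤ Kq * (ε₁ * S + C₆ + 1) := by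
    intro k hk hk1
    have h4 := hconj R hR0 k hk _ hdD hk1 (hdσ.trans (min_le_right _ _))
    have h5 := (hlip K f q hf (x * F.M.ofE k) ((F.M.ofE k)⁻¹ * d * F.M.ofE k)).1
    have e : x * F.M.ofE k * ((F.M.ofE k)⁻¹ * d * F.M.ofE k) = x * d * F.M.ofE k := by group
    rw [e, hK] at h5
    refine h5.trans (mul_le_mul_of_nonneg_left ?_ hKq0)
    rw [Model.ofE_toE] at h4
    have h6 : ε₁ * R ≤ ε₁ * S := by gcongr
    linarith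
  have h4 := hmove _ (F.D.smul_mem (t : ℝ) (F.hat_mem v)) ((hdn v hv t ht).trans (by linarith))
  have h5 := hmove 0 F.D.zero_mem (by rw [(F.isLN_dn R).zero]; exact zero_le_one)
  rw [Model.ofE_zero, mul_one, mul_one] at h5
  change ‖F.M.ht (f (x * d * F.lin v t)) - F.M.ht (f (x * F.lin v t))‖ ≤ _ at h4
  have e : F.M.ht (f (x * F.lin v t)) - F.M.ht (f x) - (t : ℝ) • w.1 (F.φL v) =
      (F.M.ht (f (x * d * F.lin v t)) - F.M.ht (f (x * d)) - (t : ℝ) • w.1 (F.φL v)) -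
        (F.M.ht (f (x * d * F.lin v t)) - F.M.ht (f (x * F.lin v t))) +
        (F.M.ht (f (x * d)) - F.M.ht (f x)) := by abel
  rw [e]
  refine (norm_add_le _ _).trans ((add_le_add (norm_sub_le _ _) le_rfl).trans ?_)
  have h6 : CL' v * (ε' * ⌊θ * S⌋₊ + η * S + r) ≤ CL * (η * S + η * S + |r₁|) := by
    refine mul_le_mul (hCL v hv) ?_ ?_ hCL0.le
    · have h7 : ε' * ⌊θ * S⌋₊ ≤ η * S := by gcongr
      linarith [le_abs_self r₁]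
    · have : 0 ≤ r := by linarith
      positivity
  have h7 : CL * (η * S + η * S + |r₁|) = ε / 2 * S + CL * |r₁| := by
    linear_combination 2 * S * hη1
  have h8 : 2 * Kq * ε₁ * S ≤ ε / 4 * S := by gcongr
  linarith

/-- `R = S / (2 A)`; `θ` so small that `dn R (t • hat v) ≤ c₂` for `|t| ≤ θ S + 1`, `v ∈ 𝒱`
(`uD_translate_le_uD`, `dn_hat`).  Given `ε` take `σ ≤ min c₂ κ` with `κ` from `len_conj_D`.  On
`(ν ⊗ uD R σ) ⊗ uD R c₁ ∋ ((x, d), d₀)` the event `B_{v,t}`: "not (`x d lin v t` and `x d₀` lie in one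
`𝒢 w`)" has probability `≤ C_σ (2 + |W|²) ε'` (domination in the variable `d`, and `FL`).  By
`real_count_le` (over `v ∈ 𝒱`, `|t| ≤ θ S`) and `real_slice_le`, for most `x` there are `d, d₀` with at
most `η S` bad pairs `(v, t)` and `x d₀ ∈ 𝒢 w`; `line_const` for `v` and `-v` (`lin v (-t) = lin (-v) t`)
at the point `x d`; finally `len_conj_D`, `len_D` and `qi_lip` move the lines from `x d` to `x`. -/
theorem BT (𝒱 : Finset F.L) (K : ℝ) : ∃ θ : ℝ, 0 < θ ∧ θ ≤ 1 ∧ F.BTs 𝒱 K θ := by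
  classical
  obtain ⟨θ, h0, h1, h⟩ := F.bt_nat (𝒱 ∪ 𝒱.image fun v => -v) K
  refine ⟨θ, h0, h1, fun ε hε => ?_⟩
  obtain ⟨S₀, τ, hτ, h⟩ := h ε hε
  refine ⟨S₀, τ, hτ, fun f q hf S hS ν hν hinv => ?_⟩
  refine le_trans (measureReal_mono fun x hx => ?_) (h f q hf S hS ν hν hinv)
  rintro ⟨w, hw⟩
  refine hx ⟨w, fun v hv t ht => ?_⟩
  obtain ⟨n, rfl | rfl⟩ := t.eq_nat_or_neg
  · rw [Int.cast_natCast, Nat.abs_cast] at ht
    rw [Int.cast_natCast]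
    exact hw v (Finset.mem_union_left _ hv) n ht
  · rw [Int.cast_neg, Int.cast_natCast, abs_neg, Nat.abs_cast] at ht
    have := hw (-v) (Finset.mem_union_right _ (Finset.mem_image_of_mem _ hv)) n ht
    rw [F.bt_lin_neg, map_neg, map_neg, smul_neg, ← neg_smul] at this
    rw [Int.cast_neg, Int.cast_natCast]
    exact this

end Frame

end Crest.Agent.R182
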