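import Crest.Agent.R182.BShadow
import Crest.Agent.R182.BHull

/-!
Row 182, part B, task `R182/BTW`: from the linear picture to the abstract twisted cocycle.
-/

set_option autoImplicit false

namespace Crest.Agent.R182.B

open scoped BigOperators
open Polynomial

/-- `ψ (x, v) = x + ∑ v i • y i` -/
noncomputable def btw_psi {n k : ℕ} (S : Submodule ℝ (Mat n)) (y : Fin k → Mat n) :
    (S × (Fin k → ℝ)) →ₗ[ℝ] Mat n :=
  S.subtype.coprod (Fintype.linearCombination ℝ y)

theorem btw_psi_apply {n k : ℕ} (S : Submodule ℝ (Mat n)) (y : Fin k → Mat n)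
    (e : S × (Fin k → ℝ)) : btw_psi S y e = (e.1 : Mat n) + ∑ i, e.2 i • y i := by
  simp [btw_psi, Fintype.linearCombination_apply]

theorem btw_psi_of_snd {n k : ℕ} (S : Submodule ℝ (Mat n)) (y : Fin k → Mat n)
    {e : S × (Fin k → ℝ)} (he : e.2 = 0) : btw_psi S y e = (e.1 : Mat n) := by
  simp [btw_psi_apply, he]

theorem btw_psi_mem {n k : ℕ} (S : Submodule ℝ (Mat n)) (y : Fin k → Mat n)
    (e : S × (Fin k → ℝ)) : btw_psi S y e ∈ S ⊔ Submodule.span ℝ (Set.range y) := by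
  rw [btw_psi_apply]
  exact Submodule.add_mem_sup e.1.2 (Submodule.sum_mem _ fun i _ =>
    Submodule.smul_mem _ _ (Submodule.subset_span (Set.mem_range_self i)))

theorem btw_ext {n k : ℕ} {S : Submodule ℝ (Mat n)} {y : Fin k → Mat n}
    {e e' : S × (Fin k → ℝ)} (h2 : e.2 = e'.2) (h : btw_psi S y e = btw_psi S y e') : e = e' := by
  rw [btw_psi_apply, btw_psi_apply, h2] at h
  exact Prod.ext (Subtype.ext (add_right_cancel h)) h2

theorem btw_NL {n k : ℕ} {S : Submodule ℝ (Mat n)} (hL : Lie S) {y : Fin k → Mat n}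
    (h4 : ∀ i, ∀ x ∈ S, y i * x - x * y i ∈ S) (h5 : ∀ i j, y i * y j - y j * y i ∈ S)
    (hN : ANil (S ⊔ Submodule.span ℝ (Set.range y))) :
    ∃ N : NL (S × (Fin k → ℝ)),
      (∀ e e', btw_psi S y (N.br e e') =
        btw_psi S y e * btw_psi S y e' - btw_psi S y e' * btw_psi S y e) ∧
      (∀ e e', (N.br e e').2 = 0) ∧
      (∀ e e', IsNilpotent.exp (btw_psi S y (N.mul e e')) =
        IsNilpotent.exp (btw_psi S y e) * IsNilpotent.exp (btw_psi S y e')) ∧
      ∀ e e', (N.mul e e').2 = e.2 + e'.2 := by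
  have hbr : ∀ e e' : S × (Fin k → ℝ),
      btw_psi S y e * btw_psi S y e' - btw_psi S y e' * btw_psi S y e ∈ S := fun e e' =>
    shadow_br hL h4 h5 _ (btw_psi_mem S y e) _ (btw_psi_mem S y e')
  let br : (S × (Fin k → ℝ)) →ₗ[ℝ] (S × (Fin k → ℝ)) →ₗ[ℝ] (S × (Fin k → ℝ)) :=
    LinearMap.mk₂ ℝ (fun e e' => ((⟨_, hbr e e'⟩ : S), (0 : Fin k → ℝ)))
      (fun _ _ _ => Prod.ext (Subtype.ext (by simp [add_mul, mul_add]; abel)) (by simp))
      (fun _ _ _ => Prod.ext (Subtype.ext (by simp [smul_sub])) (by simp))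
      (fun _ _ _ => Prod.ext (Subtype.ext (by simp [add_mul, mul_add]; abel)) (by simp))
      (fun _ _ _ => Prod.ext (Subtype.ext (by simp [smul_sub])) (by simp))
  have hb1 : ∀ e e', btw_psi S y (br e e') =
      btw_psi S y e * btw_psi S y e' - btw_psi S y e' * btw_psi S y e := fun e e' =>
    btw_psi_of_snd S y (e := br e e') rfl
  have hb2 : ∀ e e', (br e e').2 = 0 := fun e e' => rfl
  have : FiniteDimensional ℝ (TrivSqZeroExt ℝ (Fin k → ℝ)) :=
    inferInstanceAs (FiniteDimensional ℝ (ℝ × (Fin k → ℝ)))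
  obtain ⟨c, hc⟩ := id hN
  let r : (S × (Fin k → ℝ)) →ₗ[ℝ] (Mat n × TrivSqZeroExt ℝ (Fin k → ℝ)) :=
    (btw_psi S y).prod ((TrivSqZeroExt.inrHom ℝ (Fin k → ℝ)).comp (LinearMap.snd ℝ _ _))
  have hr1 : ∀ e, (r e).1 = btw_psi S y e := fun e => rfl
  have hr2 : ∀ e, (r e).2 = TrivSqZeroExt.inr e.2 := fun e => rfl
  obtain ⟨N, hNb⟩ := exists_NL br r
    (fun e e' h => btw_ext (TrivSqZeroExt.inr_injective (R := ℝ) (congrArg Prod.snd h))
      (congrArg Prod.fst h))
    (fun e e' => Prod.ext (hb1 e e') (by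
      rw [Prod.snd_sub, Prod.snd_mul, Prod.snd_mul, hr2, hr2, hr2, hb2,
        TrivSqZeroExt.inr_mul_inr, TrivSqZeroExt.inr_mul_inr, sub_zero, TrivSqZeroExt.inr_zero]))
    (c + 2) (fun l hl => by
      match l, hl with
      | a :: b :: l, hl =>
        have h1 := map_list_prod (RingHom.fst (Mat n) (TrivSqZeroExt ℝ (Fin k → ℝ))) (l.map r)
        have h2 : ((l.map r).map (RingHom.fst (Mat n) (TrivSqZeroExt ℝ (Fin k → ℝ)))).prod = 0 :=
          hc _ (fun a ha => by
            rw [List.map_map] at ha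
            obtain ⟨e, -, rfl⟩ := List.mem_map.1 ha
            exact btw_psi_mem S y e) (by simpa using hl)
        rw [h2, RingHom.coe_fst] at h1
        rw [List.map_cons, List.map_cons, List.prod_cons, List.prod_cons]
        refine Prod.ext ?_ ?_
        · rw [Prod.fst_mul, Prod.fst_mul, h1, mul_zero, mul_zero, Prod.fst_zero]
        · rw [← mul_assoc, Prod.snd_mul, Prod.snd_mul, hr2, hr2, TrivSqZeroExt.inr_mul_inr,
            zero_mul, Prod.snd_zero])
  have hU : Lie (S ⊔ Submodule.span ℝ (Set.range y)) := fun a ha b hb =>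
    Submodule.mem_sup_left (shadow_br hL h4 h5 a ha b hb)
  refine ⟨N, by rw [hNb]; exact hb1, by rw [hNb]; exact hb2, fun e e' => ?_, fun e e' => ?_⟩
  · have := N.map_mul (subNL _ hU hN) ((btw_psi S y).codRestrict _ (btw_psi_mem S y))
      (fun a b => Subtype.ext (by rw [hNb]; exact hb1 a b)) e e'
    have h2 := congrArg (fun z : ↥(S ⊔ Submodule.span ℝ (Set.range y)) =>
      IsNilpotent.exp (z : Mat n)) this
    exact h2.trans (subNL_exp_mul _ hU hN _ _)
  · have : N.lcs 1 ≤ LinearMap.ker (LinearMap.snd ℝ S (Fin k → ℝ)) := by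
      rw [show N.lcs 1 = Submodule.span ℝ {z | ∃ x, ∃ y ∈ N.lcs 0, z = N.br x y} from rfl,
        Submodule.span_le]
      rintro z ⟨a, b, -, rfl⟩
      rw [hNb]
      exact hb2 a b
    have h2 := this (N.mul_sub_add_mem_lcs e e')
    rw [LinearMap.mem_ker, map_sub, map_add, sub_eq_zero] at h2
    exact h2

theorem btw_S {n k : ℕ} {S : Submodule ℝ (Mat n)} (s : Zk k →* (Mat n)ˣ)
    (h2 : ∀ m, ∀ x ∈ S, (s m : Mat n) * x * (((s m)⁻¹ : (Mat n)ˣ) : Mat n) ∈ S) :
    ∃ T : Zk k →* Module.End ℝ (S × (Fin k → ℝ)),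
      (∀ m e, ((T m e).1 : Mat n) = conjE (s m) e.1) ∧ ∀ m e, (T m e).2 = e.2 := by
  have h : ∀ m, ∀ x ∈ S, conjE (s m) x ∈ S := fun m x hx => by
    rw [conjE_apply]; exact h2 m x hx
  refine ⟨{ toFun := fun m => ((conjE (s m)).restrict (h m)).prodMap LinearMap.id
            map_one' := ?_
            map_mul' := fun m m' => ?_ }, fun m e => rfl, fun m e => rfl⟩
  · refine LinearMap.ext fun e => Prod.ext (Subtype.ext ?_) rfl
    change conjE (s 1) (e.1 : Mat n) = e.1
    simp [conjE_apply]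
  · refine LinearMap.ext fun e => Prod.ext (Subtype.ext ?_) rfl
    change conjE (s (m * m')) (e.1 : Mat n) = conjE (s m) (conjE (s m') e.1)
    simp [conjE_apply, mul_assoc]

theorem btw_ss {n k : ℕ} {S : Submodule ℝ (Mat n)} {c : (Mat n)ˣ} (hc : SS (c : Mat n))
    {T : Module.End ℝ (S × (Fin k → ℝ))} (h1 : ∀ e, ((T e).1 : Mat n) = conjE c e.1)
    (h2 : ∀ e, (T e).2 = e.2) : SS T := by
  obtain ⟨p, hp, hp1, hp2⟩ := hc.conjE.exists_root_one
  have key : ∀ (q : ℝ[X]) (e : S × (Fin k → ℝ)),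
      ((aeval T q e).1 : Mat n) = aeval (conjE c) q e.1 ∧ (aeval T q e).2 = q.eval 1 • e.2 := by
    intro q
    induction q using Polynomial.induction_on with
    | C a => intro e; simp
    | add p q hp hq => intro e; simp [hp e, hq e, add_smul]
    | monomial j a ih =>
      intro e
      obtain ⟨i1, i2⟩ := ih (T e)
      rw [pow_succ, ← mul_assoc, map_mul (aeval T), map_mul (aeval (conjE c)), aeval_X, aeval_X,
        Module.End.mul_apply, Module.End.mul_apply, i1, i2, h1, h2, eval_mul (q := X), eval_X,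
        mul_one]
      exact ⟨rfl, rfl⟩
  refine ⟨p, hp, LinearMap.ext fun e => Prod.ext (Subtype.ext ?_) ?_⟩
  · rw [(key p e).1, hp2]; rfl
  · rw [(key p e).2, hp1, zero_smul]; rfl

/-- Let `n, ρ, c` come from `URep`, `H` from `exists_hull`, `s`, `y` from `exists_shadow`, `D` from
`exists_log_int c`.  `E = H.nn × (Fin k → ℝ)`, `ψ (x, v) = x + ∑ v i • y i ∈ 𝔲 = 𝔫 ⊔ span (range y)`,
`φ = snd`, `br e e' = (⟨ψ e * ψ e' - ψ e' * ψ e, _⟩, 0)`.  `exists_NL` with
`A = Mat n × TrivSqZeroExt ℝ (Fin k → ℝ)`, `e ↦ (ψ e, inr (φ e))` (injective; products of `c' + 2`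
elements vanish).  `ψ : E → 𝔲` is a Lie homomorphism to `subNL 𝔲`, so
`exp (ψ (mul e e')) = exp (ψ e) * exp (ψ e')` (`NL.map_mul`, `subNL_exp_mul`), and
`φ (mul e e') = φ e + φ e'` (as `Model.φ_mul`).  `S m (x, v) = (s m * x * (s m)⁻¹, v)`, so
`ψ (S m e) = s m * ψ e * (s m)⁻¹`.  `S_ss`: `SS.conjE`, `SS.exists_root_one` (`aeval (S m) p` acts on the
two components by `aeval (conjE (s m)) p` and `p.eval 1`).  `X γ` is an `e` with `φ e = toR (π γ)` and
`castM (ρ γ) = exp (ψ e) * s (π γ)`; such an `e` is unique (`Bch.exp_injective`), which gives `X_mul`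
(`exp_conj`).  `X h = 0`, `π h = 1` give `ρ h = 1`.  `bf e e' = D^2 * ∑ p q, e.1 p q * e'.1 p q`.
`gen`: apply the last clause of `exists_hull` to the image in `Mat n` of `T.comap (inl)`.
Finally `TW.transport` along `(Module.finBasis ℝ E).equivFun`. -/
theorem exists_TW {Γ : Type*} [Group Γ] {k : ℕ} (π : Γ →* Zk k) (hπ : Function.Surjective π)
    (h : URep Γ π.ker) : ∃ d : ℕ, Nonempty (TW (Fin d → ℝ) k Γ) := by
  obtain ⟨n, ρ, c, hf, hc⟩ := h
  obtain ⟨H, hG, hgen⟩ := exists_hull π hπ ρ c hc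
  obtain ⟨s, y, h1, h2, h3, h4, h5, hN, h7⟩ := H.exists_shadow
  obtain ⟨D, hD, hlog⟩ := exists_log_int c
  obtain ⟨N, hb1, hb2, hm1, hm2⟩ := btw_NL H.lie h4 h5 hN
  obtain ⟨T, hT1, hT2⟩ := btw_S (S := H.nn) s h2
  have hnil : ∀ e, IsNilpotent (btw_psi H.nn y e) := fun e =>
    hN.isNilpotent (btw_psi_mem H.nn y e)
  have huniq : ∀ e e' : H.nn × (Fin k → ℝ), e.2 = e'.2 →
      IsNilpotent.exp (btw_psi H.nn y e) = IsNilpotent.exp (btw_psi H.nn y e') → e = e' :=
    fun e e' a b => btw_ext a (Bch.exp_injective (hnil e) (hnil e') b)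
  have hψT : ∀ m e, btw_psi H.nn y (T m e) =
      (s m : Mat n) * btw_psi H.nn y e * (((s m)⁻¹ : (Mat n)ˣ) : Mat n) := by
    intro m e
    rw [btw_psi_apply, btw_psi_apply, hT1, hT2, conjE_apply, mul_add, add_mul, Finset.mul_sum,
      Finset.sum_mul]
    congr 1
    refine Finset.sum_congr rfl fun i _ => ?_
    rw [mul_smul_comm, smul_mul_assoc, (h3 m i).eq, Units.mul_inv_cancel_right]
  have hex : ∀ γ, ∃ e : H.nn × (Fin k → ℝ), e.2 = toR (π γ) ∧
      castM (ρ γ) = IsNilpotent.exp (btw_psi H.nn y e) * (s (π γ) : Mat n) := by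
    intro γ
    obtain ⟨g, hg, e1, e2⟩ := hG γ
    obtain ⟨x, hx, e3⟩ := h7 g hg
    exact ⟨(⟨x, hx⟩, toR (π γ)), rfl, by rw [← e1, e3, e2, btw_psi_apply]⟩
  choose X hX2 hX1 using hex
  have hK2 : ∀ h, π h = 1 → (X h).2 = 0 := fun h hh => by rw [hX2, hh, toR_one]
  have hK1 : ∀ h, π h = 1 → IsNilpotent.exp (btw_psi H.nn y (X h)) = castM (ρ h) :=
    fun h hh => by rw [hX1, hh, map_one, Units.val_one, mul_one]
  have hint : ∀ h, π h = 1 → ∃ w : Matrix (Fin n) (Fin n) ℤ,
      (D : ℝ) • ((X h).1 : Mat n) = castM w := by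
    intro h hh
    rw [← btw_psi_of_snd H.nn y (hK2 h hh)]
    refine hlog n (ρ h - 1) ?_ _ (hnil _) (by rw [hK1 h hh, map_sub, map_one, add_sub_cancel])
    simpa using hc (List.replicate c h) (fun a ha => by
      rw [List.eq_of_mem_replicate ha]; exact hh) (by simp)
  let bf : (H.nn × (Fin k → ℝ)) →ₗ[ℝ] (H.nn × (Fin k → ℝ)) →ₗ[ℝ] ℝ :=
    LinearMap.mk₂ ℝ (fun e e' => ∑ p, ∑ q, ((D : ℝ) * (e.1 : Mat n) p q) * (D * (e'.1 : Mat n) p q))
      (fun _ _ _ => by simp [mul_add, add_mul, Finset.sum_add_distrib])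
      (fun _ _ _ => by simp [Finset.mul_sum, mul_left_comm, mul_assoc])
      (fun _ _ _ => by simp [mul_add, Finset.sum_add_distrib])
      (fun _ _ _ => by simp [Finset.mul_sum, mul_left_comm])
  have hbf : ∀ e e', bf e e' =
      ∑ p, ∑ q, ((D : ℝ) * (e.1 : Mat n) p q) * (D * (e'.1 : Mat n) p q) := fun _ _ => rfl
  let W : TW (H.nn × (Fin k → ℝ)) k Γ :=
    { nl := N
      φ := LinearMap.snd ℝ _ _
      S := T
      π := π
      X := X
      bf := bf
      φ_br := hb2
      φ_surj := fun v => ⟨(0, v), rfl⟩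
      φ_S := hT2
      S_br := fun m e e' => btw_ext (y := y) (by rw [hT2, hb2, hb2]) (by
        rw [hψT, hb1, hb1, hψT, hψT]
        simp only [mul_sub, sub_mul, mul_assoc, Units.inv_mul_cancel_left])
      S_ss := fun i => btw_ss (h1 i) (hT1 _) (hT2 _)
      π_surj := hπ
      φ_X := hX2
      X_mul := fun γ γ' => huniq _ _ (by rw [hm2, hT2, hX2, hX2, hX2, map_mul, toR_mul]) (by
        apply (s (π (γ * γ'))).isUnit.mul_right_cancel
        rw [← hX1, hm1, hψT, exp_conj _ (hnil _), map_mul, map_mul, hX1, hX1, map_mul, map_mul,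
          Units.val_mul]
        simp only [mul_assoc, Units.inv_mul_cancel_left])
      X_inj := fun h hh h0 => hf h hh (castM_injective (by
        rw [← hK1 h hh, h0, map_zero, IsNilpotent.exp_zero, map_one]))
      bf_pos := fun e he h0 => by
        have hne : (e.1 : Mat n) ≠ 0 := fun h => h0 (Prod.ext (Subtype.ext h) he)
        have : ∃ p q, (e.1 : Mat n) p q ≠ 0 := by
          by_contra hcon
          push Not at hcon
          exact hne (Matrix.ext hcon)
        obtain ⟨p, q, hpq⟩ := this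
        rw [hbf]
        refine Finset.sum_pos' (fun p _ => Finset.sum_nonneg fun q _ => mul_self_nonneg _)
          ⟨p, Finset.mem_univ _, Finset.sum_pos' (fun q _ => mul_self_nonneg _)
            ⟨q, Finset.mem_univ _, mul_self_pos.2 (mul_ne_zero (Nat.cast_ne_zero.2 hD) hpq)⟩⟩
      bf_int := fun h h' hh hh' => by
        obtain ⟨w, hw⟩ := hint h hh
        obtain ⟨w', hw'⟩ := hint h' hh'
        refine ⟨∑ p, ∑ q, w p q * w' p q, ?_⟩
        rw [hbf]
        push_cast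
        refine Finset.sum_congr rfl fun p _ => Finset.sum_congr rfl fun q _ => ?_
        rw [← castM_apply, ← castM_apply, ← hw, ← hw']
        rfl
      gen := fun U hU hL e he => by
        have := hgen ((U.comap (LinearMap.inl ℝ H.nn (Fin k → ℝ))).map H.nn.subtype)
          (by
            rintro x hx ⟨h, hh, e1⟩
            refine ⟨⟨x, hx⟩, ?_, rfl⟩
            have e2 : ((⟨x, hx⟩, 0) : H.nn × (Fin k → ℝ)) = X h :=
              huniq _ _ (hK2 h hh).symm (by rw [hK1 h hh, btw_psi_of_snd H.nn y rfl, e1])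
            change ((⟨x, hx⟩, 0) : H.nn × (Fin k → ℝ)) ∈ U
            rw [e2]
            exact hU h hh)
          (by
            rintro _ ⟨a, ha, rfl⟩ _ ⟨b, hb, rfl⟩
            refine ⟨(N.br (a, 0) (b, 0)).1, ?_, ?_⟩
            · change ((N.br (a, 0) (b, 0)).1, (0 : Fin k → ℝ)) ∈ U
              have e3 : N.br (a, 0) (b, 0) = ((N.br (a, 0) (b, 0)).1, (0 : Fin k → ℝ)) :=
                Prod.ext rfl (hb2 _ _)
              rw [← e3]
              exact hL _ ha _ hb
            · have := hb1 (a, 0) (b, 0)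
              rw [btw_psi_of_snd H.nn y (hb2 _ _), btw_psi_of_snd H.nn y (e := (a, 0)) rfl,
                btw_psi_of_snd H.nn y (e := (b, 0)) rfl] at this
              exact this) e.1.2
        obtain ⟨a, ha, e1⟩ := this
        have e2 : ((a, 0) : H.nn × (Fin k → ℝ)) = e := Prod.ext (Subtype.ext e1) (Eq.symm he)
        rw [← e2]
        exact ha }
  obtain ⟨W', -⟩ := W.transport (Module.finBasis ℝ (H.nn × (Fin k → ℝ))).equivFun
  exact ⟨_, ⟨W'⟩⟩

end Crest.Agent.R182.B
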