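import Crest.Agent.R182.LN

/-! Row 182: boxes spanned by Lie monomials in letters of prescribed (logarithmic) sizes.
Definitions only: DO NOT CHANGE (owner helper37). -/

set_option autoImplicit false

namespace Crest.Agent.R182

open scoped BigOperators

/-- logarithmic size of a monomial -/
def sz {ι : Type} (h : ι → ℝ) (l : List ι) : ℝ := (l.map h).sum

namespace NL

variable {E : Type} [AddCommGroup E] [Module ℝ E] (N : NL E) {ι : Type} (X : ι → E)

/-- right-nested Lie monomials `[X i₁, [X i₂, … X i_r]]` -/
def mon : List ι → E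
  | [] => 0
  | [j] => X j
  | i :: j :: l => N.br (X i) (mon (j :: l))

/-- span of the monomials containing a letter of `P`.  `idl X univ` is the subalgebra generated by
the letters, `idl X P` the ideal of it generated by the letters in `P`. -/
def idl (P : Set ι) : Submodule ℝ E :=
  Submodule.span ℝ {x | ∃ l : List ι, (∃ j ∈ l, j ∈ P) ∧ x = N.mon X l}

/-- gauge of the absolutely convex hull of the scaled monomials `exp (sz h l) • mon l` -/
noncomputable def bq (P : Set ι) (h : ι → ℝ) (x : E) : ℝ :=
  sInf {s | ∃ c : List ι →₀ ℝ, (∀ l ∈ c.support, ∃ j ∈ l, j ∈ P) ∧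
    (c.sum fun l a => (a * Real.exp (sz h l)) • N.mon X l) = x ∧ s = c.sum fun _ a => |a|}

/-- the box norm (a Lie norm on `idl X P`) -/
noncomputable def bI (P : Set ι) (h : ι → ℝ) (x : E) : ℝ := 2 ^ N.m * N.bq X P h x

variable [Fintype ι] [DecidableEq ι]

/-- letter multiplicities of the monomial bases of `idl X P` -/
def Bs (P : Set ι) : Set (ι → ℕ) :=
  {n | ∃ (r : ℕ) (ls : Fin r → List ι), (∀ a, ∃ j ∈ ls a, j ∈ P) ∧
    LinearIndependent ℝ (fun a => N.mon X (ls a)) ∧
    Submodule.span ℝ (Set.range fun a => N.mon X (ls a)) = N.idl X P ∧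
    ∀ j, n j = ∑ a, (ls a).count j}

/-- logarithm of the volume of the box, up to an additive constant -/
noncomputable def lvol (P : Set ι) (h : ι → ℝ) : ℝ :=
  sSup ((fun n : ι → ℕ => ∑ j, (n j : ℝ) * h j) '' N.Bs X P)

end NL

end Crest.Agent.R182
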