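import Crest.Agent.R182.BoxAlgAux

/-! Row 182, task `R182/BoxAlg`: algebra of the box norms.
Key fact: `ad (mon l)` is a signed sum of at most `2^(len l - 1)` products
`ad (X j₁) ⋯ ad (X j_r)` with `j₁ ⋯ j_r` a permutation of `l` (Jacobi, induction on `l`), and
`mon l = 0` for `len l > N.m` (`mon l ∈ lcs (len l - 1)`). -/

set_option autoImplicit false

namespace Crest.Agent.R182

open scoped BigOperators

theorem sz_add {ι : Type} (h h' : ι → ℝ) (l : List ι) : sz (h + h') l = sz h l + sz h' l := by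
  induction l with
  | nil => simp
  | cons j l ih => simp only [ba_sz_cons, ih, Pi.add_apply]; ring

theorem sz_const {ι : Type} (c : ℝ) (l : List ι) : sz (fun _ => c) l = l.length * c := by
  induction l with
  | nil => simp
  | cons j l ih => simp only [ba_sz_cons, ih, List.length_cons]; push_cast; ring

theorem sz_mono {ι : Type} {h h' : ι → ℝ} (hh : ∀ j, h j ≤ h' j) (l : List ι) :
    sz h l ≤ sz h' l := by
  induction l with
  | nil => simp
  | cons j l ih => simp only [ba_sz_cons]; linarith [hh j]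

theorem sz_eq_sum {ι : Type} [Fintype ι] [DecidableEq ι] (h : ι → ℝ) (l : List ι) :
    sz h l = ∑ j, (l.count j : ℝ) * h j := by
  induction l with
  | nil => simp
  | cons i l ih =>
    simp only [ba_sz_cons, ih, List.count_cons, beq_iff_eq, Nat.cast_add, Nat.cast_ite,
      Nat.cast_one, Nat.cast_zero, add_mul, Finset.sum_add_distrib, ite_mul, one_mul, zero_mul,
      Finset.sum_ite_eq, Finset.mem_univ, if_true]
    ring

theorem ba_exists_bound {ι : Type} [Finite ι] (m : ℕ) (f : List ι → ℝ) :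
    ∃ B : ℝ, 0 ≤ B ∧ ∀ l : List ι, l.length ≤ m → f l ≤ B := by
  obtain ⟨B, hB⟩ := ((List.finite_length_le ι m).image f).bddAbove
  exact ⟨max B 0, le_max_right _ _, fun l hl => (hB ⟨l, hl, rfl⟩).trans (le_max_left _ _)⟩

namespace NL

section Alg

variable {E : Type} [AddCommGroup E] [Module ℝ E] (N : NL E) {ι : Type} (X : ι → E)

theorem mon_cons (i : ι) {l : List ι} (hl : l ≠ []) :
    N.mon X (i :: l) = N.br (X i) (N.mon X l) := by
  exact N.ba_mon_cons X i hl

theorem mon_mem_lcs (l : List ι) : N.mon X l ∈ N.lcs (l.length - 1) := by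
  exact N.ba_mon_mem_lcs X l

theorem mon_eq_zero {l : List ι} (hl : N.m < l.length) : N.mon X l = 0 := by
  exact N.ba_mon_eq_zero X hl

theorem mon_mem {P : Set ι} {l : List ι} (hl : ∃ j ∈ l, j ∈ P) : N.mon X l ∈ N.idl X P := by
  exact N.ba_mon_mem X hl

theorem letter_mem {P : Set ι} {j : ι} (hj : j ∈ P) : X j ∈ N.idl X P := by
  exact N.ba_mon_mem X (l := [j]) ⟨j, List.mem_singleton_self j, hj⟩

theorem idl_mono {P P' : Set ι} (h : P ⊆ P') : N.idl X P ≤ N.idl X P' := by
  apply Submodule.span_mono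
  rintro _ ⟨l, ⟨j, hj, hjP⟩, rfl⟩
  exact ⟨l, ⟨j, hj, h hjP⟩, rfl⟩

theorem br_mem_idl {P : Set ι} {x y : E} (hx : x ∈ N.idl X Set.univ) (hy : y ∈ N.idl X P) :
    N.br x y ∈ N.idl X P := by
  induction hx using Submodule.span_induction with
  | mem x hx =>
    obtain ⟨l, -, rfl⟩ := hx
    exact (N.bq_br_mon X P 0 l hy).1
  | zero => simp
  | add a b _ _ ha hb => rw [map_add, LinearMap.add_apply]; exact Submodule.add_mem _ ha hb
  | smul c a _ ha => rw [map_smul, LinearMap.smul_apply]; exact Submodule.smul_mem _ _ ha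

theorem idl_le {S : Submodule ℝ E} (hS : ∀ x ∈ S, ∀ y ∈ S, N.br x y ∈ S) (hX : ∀ j, X j ∈ S) :
    N.idl X Set.univ ≤ S := by
  refine Submodule.span_le.2 ?_
  rintro _ ⟨l, hl, rfl⟩
  clear hl
  induction l with
  | nil => exact S.zero_mem
  | cons i l ih =>
    cases l with
    | nil => exact hX i
    | cons j l => exact hS _ (hX i) _ ih

/-- a linear map that kills brackets is determined on the letters -/
theorem map_mon_eq_zero {E' : Type} [AddCommGroup E'] [Module ℝ E'] (f : E →ₗ[ℝ] E')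
    (hf : ∀ x y, f (N.br x y) = 0) {l : List ι} (hl : 2 ≤ l.length) : f (N.mon X l) = 0 := by
  match l, hl with
  | i :: j :: l, _ => exact hf _ _

/-- diagonal automorphisms -/
theorem map_mon (T : E →ₗ[ℝ] E) (hT : ∀ x y, T (N.br x y) = N.br (T x) (T y)) (c : ι → ℝ)
    (hc : ∀ j, T (X j) = Real.exp (c j) • X j) (l : List ι) :
    T (N.mon X l) = Real.exp (sz c l) • N.mon X l := by
  induction l with
  | nil => simp [mon]
  | cons i l ih =>
    rcases eq_or_ne l [] with rfl | hl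
    · simpa [mon] using hc i
    · rw [N.mon_cons X i hl, hT, hc, ih, ba_sz_cons, Real.exp_add]
      simp only [map_smul, LinearMap.smul_apply, smul_smul, mul_comm]

/-- if `ξ` kills the monomials of length `≥ 2` it kills all brackets in the subalgebra -/
theorem xi_br (ξ : E →ₗ[ℝ] ℝ) (hξ : ∀ l : List ι, 2 ≤ l.length → ξ (N.mon X l) = 0) {x y : E}
    (hx : x ∈ N.idl X Set.univ) (hy : y ∈ N.idl X Set.univ) : ξ (N.br x y) = 0 := by
  have h1 : ∀ i, ∀ y ∈ N.idl X Set.univ, ξ (N.br (X i) y) = 0 := by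
    intro i y hy
    induction hy using Submodule.span_induction with
    | mem y hy =>
      obtain ⟨l, ⟨j, hj, -⟩, rfl⟩ := hy
      have hl := List.ne_nil_of_mem hj
      rw [← N.mon_cons X i hl]
      apply hξ
      have := List.length_pos_iff.2 hl
      simp only [List.length_cons]
      omega
    | zero => simp
    | add a b _ _ ha hb => rw [map_add, map_add, ha, hb, add_zero]
    | smul c a _ ha => rw [map_smul, map_smul, ha, smul_zero]
  have h2 : ∀ l : List ι, ∀ y ∈ N.idl X Set.univ, ξ (N.br (N.mon X l) y) = 0 := by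
    intro l
    induction l with
    | nil => intro y _; simp [mon]
    | cons i l ih =>
      intro y hy
      rcases eq_or_ne l [] with rfl | hl
      · exact h1 i y hy
      · rw [N.mon_cons X i hl, ba_br_br, map_sub, h1 i _ (N.bq_br_mon X _ 0 l hy).1,
          ih _ (N.bq_br_letter X _ 0 i hy).1, sub_zero]
  induction hx using Submodule.span_induction with
  | mem x hx =>
    obtain ⟨l, -, rfl⟩ := hx
    exact h2 l y hy
  | zero => simp
  | add a b _ _ ha hb => rw [map_add, LinearMap.add_apply, map_add, ha, hb, add_zero]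
  | smul c a _ ha => rw [map_smul, LinearMap.smul_apply, map_smul, ha, smul_zero]

theorem xi_mul (ξ : E →ₗ[ℝ] ℝ) (hξ : ∀ l : List ι, 2 ≤ l.length → ξ (N.mon X l) = 0) {x y : E}
    (hx : x ∈ N.idl X Set.univ) (hy : y ∈ N.idl X Set.univ) : ξ (N.mul x y) = ξ x + ξ y := by
  obtain ⟨l, hl0, hl⟩ := N.mul_formula
  have hmem : ∀ w : LW, w.eval N.br x y ∈ N.idl X Set.univ := by
    intro w
    induction w with
    | X => exact hx
    | Y => exact hy
    | br a b iha ihb => exact N.br_mem_idl X iha ihb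
  rw [hl, map_add, map_add, map_list_sum, List.sum_eq_zero, add_zero]
  intro t ht
  simp only [List.map_map, List.mem_map, Function.comp_apply] at ht
  obtain ⟨⟨c, w⟩, hp, rfl⟩ := ht
  have h1 := hl0 _ hp
  rw [map_smul]
  cases w with
  | X => simp [LW.degY] at h1
  | Y => simp [LW.degX] at h1
  | br a b =>
    have : ξ (N.br (a.eval N.br x y) (b.eval N.br x y)) = 0 := N.xi_br X ξ hξ (hmem a) (hmem b)
    simp only [LW.eval, this, smul_zero]

theorem bI_nonneg (P : Set ι) (h : ι → ℝ) (x : E) : 0 ≤ N.bI X P h x := by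
  exact mul_nonneg (by positivity) (N.bq_nonneg X P h x)

theorem bI_mon {P : Set ι} (h : ι → ℝ) {l : List ι} (hl : ∃ j ∈ l, j ∈ P) :
    N.bI X P h (N.mon X l) ≤ 2 ^ N.m * Real.exp (-sz h l) := by
  exact mul_le_mul_of_nonneg_left (N.bq_mon X h hl) (by positivity)

theorem bI_letter {P : Set ι} (h : ι → ℝ) {j : ι} (hj : j ∈ P) :
    N.bI X P h (X j) ≤ 2 ^ N.m * Real.exp (-h j) := by
  simpa [mon] using N.bI_mon X h (l := [j]) ⟨j, List.mem_singleton_self j, hj⟩

/-- universal property -/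
theorem le_bI {E' : Type} [AddCommGroup E'] [Module ℝ E'] (S' : Submodule ℝ E') (q : E' → ℝ)
    (hadd : ∀ y ∈ S', ∀ z ∈ S', q (y + z) ≤ q y + q z)
    (hsmul : ∀ (c : ℝ), ∀ y ∈ S', q (c • y) = |c| * q y) (T : E →ₗ[ℝ] E') {P : Set ι} (h : ι → ℝ)
    {A : ℝ} (hA : 0 ≤ A)
    (hT : ∀ l : List ι, (∃ j ∈ l, j ∈ P) → l.length ≤ N.m →
      T (N.mon X l) ∈ S' ∧ q (T (N.mon X l)) ≤ A * Real.exp (-sz h l))
    {x : E} (hx : x ∈ N.idl X P) : T x ∈ S' ∧ 2 ^ N.m * q (T x) ≤ A * N.bI X P h x := by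
  obtain ⟨h1, h2⟩ := N.le_bq_univ X S' q hadd hsmul T h hA hT hx
  refine ⟨h1, (mul_le_mul_of_nonneg_left h2 (by positivity)).trans (le_of_eq ?_)⟩
  unfold bI
  ring

theorem bI_add (P : Set ι) (h : ι → ℝ) {x y : E} (hx : x ∈ N.idl X P) (hy : y ∈ N.idl X P) :
    N.bI X P h (x + y) ≤ N.bI X P h x + N.bI X P h y := by
  unfold bI
  rw [← mul_add]
  exact mul_le_mul_of_nonneg_left (N.bq_add X P h hx hy) (by positivity)

theorem bI_smul (P : Set ι) (h : ι → ℝ) (c : ℝ) {x : E} (hx : x ∈ N.idl X P) :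
    N.bI X P h (c • x) = |c| * N.bI X P h x := by
  unfold bI
  rw [N.bq_smul X P h c hx]
  ring

theorem bI_br (P : Set ι) (h : ι → ℝ) {x y : E} (hx : x ∈ N.idl X Set.univ)
    (hy : y ∈ N.idl X P) :
    N.bI X P h (N.br x y) ≤ N.bI X Set.univ h x * N.bI X P h y := by
  have := (N.le_bI X (N.idl X P) (N.bq X P h) (fun _ hy _ hz => N.bq_add X P h hy hz)
    (fun c _ hy => N.bq_smul X P h c hy) (N.br.flip y) h (N.bI_nonneg X P h y) ?_ hx).2
  · rw [mul_comm (N.bI X Set.univ h x)]
    exact this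
  · intro l _ hl
    obtain ⟨h1, h2⟩ := N.bq_br_mon X P h l hy
    refine ⟨h1, h2.trans ?_⟩
    have h3 : (2 : ℝ) ^ l.length ≤ 2 ^ N.m := pow_le_pow_right₀ one_le_two hl
    have h4 := mul_nonneg (Real.exp_pos (-sz h l)).le (N.bq_nonneg X P h y)
    unfold bI
    nlinarith

theorem bI_anti {P P' : Set ι} (hP : P ⊆ P') (h : ι → ℝ) {x : E} (hx : x ∈ N.idl X P) :
    N.bI X P' h x ≤ N.bI X P h x := by
  refine mul_le_mul_of_nonneg_left (N.le_bq X hx fun c hc => N.bq_le X ⟨fun l hl => ?_, hc.2⟩)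
    (by positivity)
  obtain ⟨j, hj, hjP⟩ := hc.1 l hl
  exact ⟨j, hj, hP hjP⟩

/-- comparison of sizes, monomial by monomial -/
theorem bI_le_of_sz (P : Set ι) {h h' : ι → ℝ} (c : ℝ)
    (hh : ∀ l : List ι, (∃ j ∈ l, j ∈ P) → l.length ≤ N.m → sz h l + c ≤ sz h' l) {x : E}
    (hx : x ∈ N.idl X P) : N.bI X P h' x ≤ Real.exp (-c) * N.bI X P h x := by
  refine (N.le_bI X (N.idl X P) (N.bq X P h') (fun _ hy _ hz => N.bq_add X P h' hy hz)
    (fun c _ hy => N.bq_smul X P h' c hy) LinearMap.id h (Real.exp_pos _).le ?_ hx).2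
  intro l hl hl'
  refine ⟨N.mon_mem X hl, (N.bq_mon X h' hl).trans ?_⟩
  rw [← Real.exp_add]
  exact Real.exp_le_exp.2 (by linarith [hh l hl hl'])

theorem bI_shift (P : Set ι) {h h' : ι → ℝ} {c : ℝ} (hc : 0 ≤ c) (hh : ∀ j, h j + c ≤ h' j)
    {x : E} (hx : x ∈ N.idl X P) : N.bI X P h' x ≤ Real.exp (-c) * N.bI X P h x := by
  refine N.bI_le_of_sz X P c ?_ hx
  rintro l ⟨j, hj, -⟩ -
  have h1 := sz_mono (h := h + fun _ => c) hh l
  rw [sz_add, sz_const] at h1
  have h2 : (1 : ℝ) ≤ l.length := by exact_mod_cast List.length_pos_iff.2 (List.ne_nil_of_mem hj)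
  nlinarith

theorem bI_mono (P : Set ι) {h h' : ι → ℝ} (hh : ∀ j, h j ≤ h' j) {x : E}
    (hx : x ∈ N.idl X P) : N.bI X P h' x ≤ N.bI X P h x := by
  simpa using N.bI_shift X P (c := 0) le_rfl (by simpa using hh) hx

theorem bI_shift' (P : Set ι) {h h' : ι → ℝ} {c : ℝ} (hc : 0 ≤ c) (hh : ∀ j, h j ≤ h' j + c)
    {x : E} (hx : x ∈ N.idl X P) : N.bI X P h' x ≤ Real.exp (N.m * c) * N.bI X P h x := by
  have := N.bI_le_of_sz X P (h := h) (h' := h') (-(N.m * c)) ?_ hx
  · rwa [neg_neg] at this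
  · intro l _ hl
    have h1 := sz_mono (h' := h' + fun _ => c) hh l
    rw [sz_add, sz_const] at h1
    have h2 : (l.length : ℝ) ≤ N.m := by exact_mod_cast hl
    nlinarith

/-- every monomial of the ideal contains a letter of `P`, which can absorb the excess -/
theorem bI_absorb (P : Set ι) {h h' : ι → ℝ} {c : ℝ} (hc : 0 ≤ c)
    (hP : ∀ j ∈ P, h j + N.m * c ≤ h' j) (hP' : ∀ j, h j ≤ h' j + c) {x : E}
    (hx : x ∈ N.idl X P) : N.bI X P h' x ≤ N.bI X P h x := by
  have := N.bI_le_of_sz X P (h := h) (h' := h') 0 ?_ hx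
  · simpa using this
  · rintro l ⟨j, hj, hjP⟩ hl
    obtain ⟨s, t, rfl⟩ := List.append_of_mem hj
    have h1 := sz_mono (h' := h' + fun _ => c) hP' s
    have h2 := sz_mono (h' := h' + fun _ => c) hP' t
    rw [sz_add, sz_const] at h1 h2
    have h3 : (s.length : ℝ) + t.length ≤ N.m := by
      simp only [List.length_append, List.length_cons] at hl
      exact_mod_cast (by omega : s.length + t.length ≤ N.m)
    simp only [ba_sz_append, ba_sz_cons]
    nlinarith [hP j hjP]

/-- minimality among Lie norms -/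
theorem le_bI_of_isLN {S : Submodule ℝ E} {p : E → ℝ} (hp : IsLN N S p) (h : ι → ℝ)
    (hX : ∀ j, X j ∈ S ∧ p (X j) ≤ Real.exp (-h j)) {x : E} (hx : x ∈ N.idl X Set.univ) :
    x ∈ S ∧ p x ≤ N.bI X Set.univ h x := by
  have key : ∀ l : List ι, l ≠ [] → N.mon X l ∈ S ∧ p (N.mon X l) ≤ Real.exp (-sz h l) := by
    intro l
    induction l with
    | nil => intro hl; exact absurd rfl hl
    | cons i l ih =>
      intro _
      rcases eq_or_ne l [] with rfl | hl
      · simpa [mon] using hX i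
      · obtain ⟨h1, h2⟩ := ih hl
        rw [N.mon_cons X i hl]
        refine ⟨hp.br_mem _ (hX i).1 _ h1, (hp.br_le _ (hX i).1 _ h1).trans ?_⟩
        rw [ba_sz_cons, neg_add, Real.exp_add]
        exact mul_le_mul (hX i).2 h2 (hp.nonneg h1) (Real.exp_pos _).le
  obtain ⟨h1, h2⟩ := N.le_bq_univ X S p hp.add_le hp.smul LinearMap.id (P := Set.univ) h
    zero_le_one (by
      rintro l ⟨j, hj, -⟩ -
      simpa using key l (List.ne_nil_of_mem hj)) hx
  refine ⟨h1, h2.trans ?_⟩
  exact mul_le_mul_of_nonneg_right (one_le_pow₀ one_le_two) (N.bq_nonneg X _ h x)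

theorem bI_map (P : Set ι) (h : ι → ℝ) (T : E →ₗ[ℝ] E)
    (hT : ∀ x y, T (N.br x y) = N.br (T x) (T y)) (c : ι → ℝ)
    (hc : ∀ j, T (X j) = Real.exp (c j) • X j) {x : E} (hx : x ∈ N.idl X P) :
    T x ∈ N.idl X P ∧ N.bI X P (h + c) (T x) ≤ N.bI X P h x := by
  have := N.le_bI X (N.idl X P) (N.bq X P (h + c)) (fun _ hy _ hz => N.bq_add X P _ hy hz)
    (fun c _ hy => N.bq_smul X P _ c hy) T h zero_le_one ?_ hx
  · rw [one_mul] at this
    exact this
  · intro l hl _
    have hm := N.mon_mem X hl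
    rw [N.map_mon X T hT c hc, N.bq_smul X P _ _ hm, abs_of_pos (Real.exp_pos _)]
    refine ⟨Submodule.smul_mem _ _ hm, ?_⟩
    refine (mul_le_mul_of_nonneg_left (N.bq_mon X (h + c) hl) (Real.exp_pos _).le).trans
      (le_of_eq ?_)
    rw [← Real.exp_add, sz_add, one_mul]
    congr 1
    ring

/-- an inner derivation of `E` that is bounded on the letters (Leibniz rule and `bI_br`) -/
theorem bI_deriv : ∃ C : ℝ, 1 ≤ C ∧ ∀ (h : ι → ℝ) (a : E) (A : ℝ), 0 ≤ A →
    (∀ j, N.br a (X j) ∈ N.idl X Set.univ ∧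
      N.bI X Set.univ h (N.br a (X j)) ≤ A * Real.exp (-h j)) →
    ∀ x ∈ N.idl X Set.univ, N.br a x ∈ N.idl X Set.univ ∧
      N.bI X Set.univ h (N.br a x) ≤ C * A * N.bI X Set.univ h x := by
  refine ⟨(N.m + 1) * 2 ^ N.m, ?_, ?_⟩
  · have h1 : (1 : ℝ) ≤ 2 ^ N.m := one_le_pow₀ one_le_two
    have h2 : (0 : ℝ) ≤ N.m := Nat.cast_nonneg _
    nlinarith
  intro h a A hA ha x hx
  have h2m : (1 : ℝ) ≤ 2 ^ N.m := one_le_pow₀ one_le_two
  have key : ∀ l : List ι, l ≠ [] → N.br a (N.mon X l) ∈ N.idl X Set.univ ∧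
      N.bq X Set.univ h (N.br a (N.mon X l)) ≤ l.length * A * Real.exp (-sz h l) := by
    intro l
    induction l with
    | nil => intro hl; exact absurd rfl hl
    | cons i l ih =>
      intro _
      have hq := N.bq_nonneg X Set.univ h (N.br a (X i))
      rcases eq_or_ne l [] with rfl | hl
      · refine ⟨(ha i).1, ?_⟩
        have := (ha i).2
        unfold bI at this
        simp only [mon, List.length_cons, List.length_nil, ba_sz_cons, ba_sz_nil, add_zero,
          zero_add, Nat.cast_one, one_mul]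
        nlinarith
      · obtain ⟨h1, h2⟩ := ih hl
        obtain ⟨j, hj⟩ := List.exists_mem_of_ne_nil l hl
        have hl' : ∃ j ∈ l, j ∈ (Set.univ : Set ι) := ⟨j, hj, trivial⟩
        have hm := N.mon_mem X hl'
        rw [N.mon_cons X i hl, N.br_jacobi]
        have m1 := N.br_mem_idl X (ha i).1 hm
        obtain ⟨m2, b2⟩ := N.bq_br_letter X Set.univ h i h1
        refine ⟨Submodule.add_mem _ m1 m2, (N.bq_add X _ h m1 m2).trans ?_⟩
        have b1 : N.bq X Set.univ h (N.br (N.br a (X i)) (N.mon X l)) ≤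
            A * Real.exp (-h i) * Real.exp (-sz h l) := by
          have c1 := N.bI_br X Set.univ h (ha i).1 hm
          have c2 := N.bI_mon X h hl'
          have c3 := mul_le_mul (ha i).2 c2 (N.bI_nonneg X _ h _) (by positivity)
          have c4 := c1.trans c3
          unfold bI at c4
          have p : (0 : ℝ) < 2 ^ N.m := by positivity
          refine le_of_mul_le_mul_left (c4.trans (le_of_eq ?_)) p
          ring
        have b3 := mul_le_mul_of_nonneg_left h2 (Real.exp_pos (-h i)).le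
        rw [ba_sz_cons, neg_add, Real.exp_add, List.length_cons]
        push_cast
        nlinarith
  have := N.le_bI X (N.idl X Set.univ) (N.bq X Set.univ h)
    (fun _ hy _ hz => N.bq_add X _ h hy hz) (fun c _ hy => N.bq_smul X _ h c hy) (N.br a)
    (P := Set.univ) h (A := N.m * A) (by positivity) ?_ hx
  · refine ⟨this.1, this.2.trans ?_⟩
    refine mul_le_mul_of_nonneg_right (mul_le_mul_of_nonneg_right ?_ hA) (N.bI_nonneg X _ h x)
    have h2 : (0 : ℝ) ≤ N.m := Nat.cast_nonneg _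
    nlinarith
  · rintro l ⟨j, hj, -⟩ hl
    obtain ⟨h1, h2⟩ := key l (List.ne_nil_of_mem hj)
    refine ⟨h1, h2.trans ?_⟩
    have h3 : (l.length : ℝ) ≤ N.m := by exact_mod_cast hl
    gcongr

theorem abs_xi_le (ξ : E →ₗ[ℝ] ℝ) (i : ι) (hξi : |ξ (X i)| ≤ 1) (hξ0 : ∀ j, j ≠ i → ξ (X j) = 0)
    (hξ : ∀ l : List ι, 2 ≤ l.length → ξ (N.mon X l) = 0) (h : ι → ℝ) {x : E}
    (hx : x ∈ N.idl X Set.univ) : |ξ x| ≤ Real.exp (h i) * N.bI X Set.univ h x := by
  obtain ⟨-, h2⟩ := N.le_bq_univ X (⊤ : Submodule ℝ ℝ) (fun t => |t|)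
    (fun y _ z _ => abs_add_le y z) (fun c y _ => by simp [abs_mul]) ξ (P := Set.univ) h
    (Real.exp_pos (h i)).le (by
      rintro l ⟨j, hj, -⟩ -
      refine ⟨trivial, ?_⟩
      match l, hj with
      | [k], _ =>
        by_cases hk : k = i
        · subst hk
          simpa [mon, ← Real.exp_add] using hξi
        · simp only [mon, hξ0 k hk, abs_zero]
          positivity
      | k :: k' :: l, _ =>
        rw [hξ _ (by simp), abs_zero]
        positivity) hx
  refine h2.trans (mul_le_mul_of_nonneg_left ?_ (Real.exp_pos _).le)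
  exact le_mul_of_one_le_left (N.bq_nonneg X _ h x) (one_le_pow₀ one_le_two)

end Alg

section Normed

variable {E : Type} [NormedAddCommGroup E] [NormedSpace ℝ E] [FiniteDimensional ℝ E] (N : NL E)
  {ι : Type} [Fintype ι] (X : ι → E)

theorem isLN_bI (P : Set ι) (h : ι → ℝ) : IsLN N (N.idl X P) (N.bI X P h) := by
  refine ⟨fun x hx y hy => N.br_mem_idl X (N.idl_mono X (Set.subset_univ P) hx) hy,
    fun x hx y hy => N.bI_add X P h hx hy, fun c x hx => N.bI_smul X P h c hx, ?_, ?_⟩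
  · intro x hx h0
    obtain ⟨B, hB0, hB⟩ := ba_exists_bound N.m fun l => ‖N.mon X l‖ * Real.exp (sz h l)
    have := (N.le_bI X (⊤ : Submodule ℝ E) (fun t => ‖t‖) (fun y _ z _ => norm_add_le y z)
      (fun c y _ => by simp [norm_smul]) LinearMap.id (P := P) h hB0 ?_ hx).2
    · rw [h0, mul_zero] at this
      have p : (0 : ℝ) < 2 ^ N.m := by positivity
      have h1 : ‖x‖ ≤ 0 := le_of_mul_le_mul_left (by simpa using this) p
      exact norm_le_zero_iff.1 h1
    · intro l _ hl
      refine ⟨trivial, ?_⟩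
      rw [Real.exp_neg, ← div_eq_mul_inv, le_div_iff₀ (Real.exp_pos _)]
      exact hB l hl
  · intro x hx y hy
    exact (N.bI_br X P h (N.idl_mono X (Set.subset_univ P) hx) hy).trans
      (mul_le_mul_of_nonneg_right (N.bI_anti X (Set.subset_univ P) h hx) (N.bI_nonneg X P h y))

theorem bI_zero_norm : ∃ C : ℝ, 1 ≤ C ∧ ∀ (P : Set ι), ∀ x ∈ N.idl X P,
    ‖x‖ ≤ C * N.bI X P 0 x ∧ N.bI X P 0 x ≤ C * ‖x‖ := by
  choose C hC0 hC using fun P : Set ι => (N.isLN_bI X P 0).exists_norm_le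
  obtain ⟨B, hB⟩ := Finite.exists_le C
  refine ⟨max B 1, le_max_right _ _, fun P x hx => ?_⟩
  have h1 : C P ≤ max B 1 := (hB P).trans (le_max_left _ _)
  exact ⟨(hC P x hx).1.trans (mul_le_mul_of_nonneg_right h1 (N.bI_nonneg X P 0 x)),
    (hC P x hx).2.trans (mul_le_mul_of_nonneg_right h1 (norm_nonneg x))⟩

/-- split off the monomials without letters of `P` -/
theorem bI_split : ∃ C : ℝ, 1 ≤ C ∧ ∀ (P : Set ι) (h : ι → ℝ) (η : ℝ), 0 ≤ η →
    (∀ j, j ∉ P → h j ≤ η) → ∀ x ∈ N.idl X Set.univ, ∃ y ∈ N.idl X P,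
      N.bI X P h y ≤ 2 * N.bI X Set.univ h x ∧
        ‖x - y‖ ≤ C * Real.exp (N.m * η) * N.bI X Set.univ h x := by
  classical
  obtain ⟨B, hB0, hB⟩ := ba_exists_bound N.m fun l => ‖N.mon X l‖
  refine ⟨2 * B + 1, by linarith, fun P h η hη hP x hx => ?_⟩
  have h2m : (1 : ℝ) ≤ 2 ^ N.m := one_le_pow₀ one_le_two
  rcases (N.bq_nonneg X Set.univ h x).eq_or_lt with h0 | h0
  · have hx0 : x = 0 := (N.isLN_bI X Set.univ h).eq_zero x hx (by unfold bI; rw [← h0, mul_zero])
    subst hx0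
    refine ⟨0, Submodule.zero_mem _, ?_, ?_⟩ <;> simp [bI, N.bq_zero]
  obtain ⟨c, hc, hlt⟩ := N.exists_baRep_lt X hx (t := 2 * N.bq X Set.univ h x) (by linarith)
  let p : List ι → Prop := fun l => ∃ j ∈ l, j ∈ P
  have hy : N.baRep X P h (N.baL X h (c.filter p)) (c.filter p) := by
    refine ⟨fun l hl => ?_, rfl⟩
    rw [Finsupp.support_filter] at hl
    exact (Finset.mem_filter.1 hl).2
  refine ⟨_, N.baRep_mem X hy, ?_, ?_⟩
  · have := (N.bq_le X hy).trans (baN_filter p c)
    unfold bI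
    nlinarith
  · have e : x - N.baL X h (c.filter p) = N.baL X h (c.filter fun l => ¬ p l) := by
      rw [sub_eq_iff_eq_add', ← map_add, Finsupp.filter_add_filter_not, hc.2]
    rw [e]
    have h1 := (N.ba_le_rep X (⊤ : Submodule ℝ E) (fun t => ‖t‖) (fun y _ z _ => norm_add_le y z)
      (fun c y _ => by simp [norm_smul]) LinearMap.id h (A := B * Real.exp (N.m * η))
      (by positivity) (c.filter fun l => ¬ p l) ?_).2
    · refine h1.trans ?_
      have h2 := baN_filter (fun l => ¬ p l) c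
      have h3 : baN (c.filter fun l => ¬ p l) ≤ 2 * N.bI X Set.univ h x := by
        unfold bI
        nlinarith
      have h4 := N.bI_nonneg X Set.univ h x
      have h5 := Real.exp_pos (N.m * η)
      calc B * Real.exp (N.m * η) * baN (c.filter fun l => ¬ p l)
          ≤ B * Real.exp (N.m * η) * (2 * N.bI X Set.univ h x) :=
            mul_le_mul_of_nonneg_left h3 (by positivity)
        _ ≤ _ := by nlinarith [mul_nonneg h5.le h4]
    · intro l hl hlen
      refine ⟨trivial, ?_⟩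
      rw [Finsupp.support_filter] at hl
      have hnp : ∀ j ∈ l, j ∉ P := fun j hj hjP => (Finset.mem_filter.1 hl).2 ⟨j, hj, hjP⟩
      have hsz : sz h l ≤ l.length * η := by
        clear hl hlen
        induction l with
        | nil => simp
        | cons i l ih =>
          have a1 := ih fun j hj => hnp j (List.mem_cons_of_mem _ hj)
          have a2 := hP i (hnp i List.mem_cons_self)
          rw [ba_sz_cons, List.length_cons]
          push_cast
          linarith
      have h3 : (l.length : ℝ) ≤ N.m := by exact_mod_cast hlen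
      have h4 : 1 ≤ Real.exp (N.m * η) * Real.exp (-sz h l) := by
        rw [← Real.exp_add]
        exact Real.one_le_exp (by nlinarith)
      have h5 := hB l hlen
      rw [mul_assoc]
      exact h5.trans (le_mul_of_one_le_right hB0 h4)

end Normed

end NL

end Crest.Agent.R182
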