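import Crest.Agent.R182.Box

/-! Row 182, task `R182/BoxAlg`: auxiliary facts on the gauge `bq`. -/

set_option autoImplicit false

namespace Crest.Agent.R182

open scoped BigOperators

@[simp] theorem ba_sz_nil {ι : Type} (h : ι → ℝ) : sz h [] = 0 := by simp [sz]

@[simp] theorem ba_sz_cons {ι : Type} (h : ι → ℝ) (j : ι) (l : List ι) :
    sz h (j :: l) = h j + sz h l := by simp [sz]

@[simp] theorem ba_sz_append {ι : Type} (h : ι → ℝ) (l l' : List ι) :
    sz h (l ++ l') = sz h l + sz h l' := by simp [sz]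

/-- `ℓ¹` norm of a coefficient family -/
noncomputable def baN {κ : Type} (c : κ →₀ ℝ) : ℝ := c.sum fun _ a => |a|

theorem baN_eq {κ : Type} (c : κ →₀ ℝ) {s : Finset κ} (hs : c.support ⊆ s) :
    baN c = ∑ l ∈ s, |c l| :=
  Finsupp.sum_of_support_subset c hs _ (by simp)

theorem baN_nonneg {κ : Type} (c : κ →₀ ℝ) : 0 ≤ baN c :=
  Finset.sum_nonneg fun _ _ => abs_nonneg _

theorem baN_add {κ : Type} (c c' : κ →₀ ℝ) : baN (c + c') ≤ baN c + baN c' := by
  classical
  rw [baN_eq (c + c') Finsupp.support_add, baN_eq c (s := c.support ∪ c'.support)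
    Finset.subset_union_left, baN_eq c' (s := c.support ∪ c'.support) Finset.subset_union_right,
    ← Finset.sum_add_distrib]
  exact Finset.sum_le_sum fun l _ => abs_add_le _ _

theorem baN_smul {κ : Type} (a : ℝ) (c : κ →₀ ℝ) : baN (a • c) = |a| * baN c := by
  rw [baN_eq (a • c) Finsupp.support_smul, baN_eq c subset_rfl, Finset.mul_sum]
  exact Finset.sum_congr rfl fun l _ => by simp [abs_mul]

theorem baN_single {κ : Type} (l : κ) (a : ℝ) : baN (Finsupp.single l a) = |a| := by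
  rw [baN, Finsupp.sum_single_index (by simp)]

theorem baN_filter {κ : Type} (p : κ → Prop) [DecidablePred p] (c : κ →₀ ℝ) :
    baN (c.filter p) ≤ baN c := by
  have hs : (c.filter p).support ⊆ c.support := by
    rw [Finsupp.support_filter]
    exact Finset.filter_subset _ _
  rw [baN_eq (c.filter p) hs, baN_eq c subset_rfl]
  refine Finset.sum_le_sum fun l _ => ?_
  rw [Finsupp.filter_apply]
  split_ifs <;> simp

theorem ba_seminorm_sum {E' : Type} [AddCommGroup E'] [Module ℝ E'] {S' : Submodule ℝ E'}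
    {q : E' → ℝ} (hadd : ∀ y ∈ S', ∀ z ∈ S', q (y + z) ≤ q y + q z) (h0 : q 0 = 0) {κ : Type}
    (s : Finset κ) (f : κ → E') (hf : ∀ l ∈ s, f l ∈ S') :
    q (∑ l ∈ s, f l) ≤ ∑ l ∈ s, q (f l) := by
  classical
  induction s using Finset.induction_on with
  | empty => simp [h0]
  | insert a s ha ih =>
    rw [Finset.sum_insert ha, Finset.sum_insert ha]
    have h1 : ∀ l ∈ s, f l ∈ S' := fun l hl => hf l (Finset.mem_insert_of_mem hl)
    have := hadd _ (hf a (Finset.mem_insert_self _ _)) _ (S'.sum_mem h1)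
    linarith [ih h1]

namespace NL

variable {E : Type} [AddCommGroup E] [Module ℝ E] (N : NL E) {ι : Type} (X : ι → E)

theorem ba_mon_cons (i : ι) {l : List ι} (hl : l ≠ []) :
    N.mon X (i :: l) = N.br (X i) (N.mon X l) := by
  cases l with
  | nil => exact absurd rfl hl
  | cons j l => rfl

theorem ba_mon_mem_lcs (l : List ι) : N.mon X l ∈ N.lcs (l.length - 1) := by
  induction l with
  | nil => exact Submodule.zero_mem _
  | cons i l ih =>
    cases l with
    | nil => exact Submodule.mem_top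
    | cons j l => exact N.br_mem_lcs_succ _ ih

theorem ba_lcs_anti {i j : ℕ} (h : i ≤ j) : N.lcs j ≤ N.lcs i := by
  induction h with
  | refl => exact le_rfl
  | step _ ih => exact (N.lcs_succ_le _).trans ih

theorem ba_mon_eq_zero {l : List ι} (hl : N.m < l.length) : N.mon X l = 0 := by
  have := N.ba_lcs_anti (i := N.m) (j := l.length - 1) (by omega) (N.ba_mon_mem_lcs X l)
  rwa [N.lcs_eq_bot, Submodule.mem_bot] at this

theorem ba_mon_mem {P : Set ι} {l : List ι} (hl : ∃ j ∈ l, j ∈ P) : N.mon X l ∈ N.idl X P :=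
  Submodule.subset_span ⟨l, hl, rfl⟩

/-- the combination of scaled monomials with coefficients `c` -/
noncomputable def baL (h : ι → ℝ) : (List ι →₀ ℝ) →ₗ[ℝ] E :=
  Finsupp.linearCombination ℝ fun l => Real.exp (sz h l) • N.mon X l

theorem baL_eq (h : ι → ℝ) (c : List ι →₀ ℝ) :
    N.baL X h c = c.sum fun l a => (a * Real.exp (sz h l)) • N.mon X l := by
  simp [baL, Finsupp.linearCombination_apply, mul_smul]

/-- `c` is an admissible representation of `x` -/
def baRep (P : Set ι) (h : ι → ℝ) (x : E) (c : List ι →₀ ℝ) : Prop :=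
  (∀ l ∈ c.support, ∃ j ∈ l, j ∈ P) ∧ N.baL X h c = x

theorem bq_eq (P : Set ι) (h : ι → ℝ) (x : E) :
    N.bq X P h x = sInf (baN '' {c | N.baRep X P h x c}) := by
  unfold bq
  congr 1
  ext s
  simp only [Set.mem_image, Set.mem_ofPred_eq, baRep, baL_eq, baN]
  constructor
  · rintro ⟨c, h1, h2, h3⟩
    exact ⟨c, ⟨h1, h2⟩, h3.symm⟩
  · rintro ⟨c, ⟨h1, h2⟩, h3⟩
    exact ⟨c, h1, h2, h3.symm⟩

theorem baRep_add {P : Set ι} {h : ι → ℝ} {x y : E} {c c' : List ι →₀ ℝ}
    (hc : N.baRep X P h x c) (hc' : N.baRep X P h y c') : N.baRep X P h (x + y) (c + c') := by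
  classical
  refine ⟨fun l hl => ?_, by rw [map_add, hc.2, hc'.2]⟩
  rcases Finset.mem_union.1 (Finsupp.support_add hl) with h1 | h1
  · exact hc.1 l h1
  · exact hc'.1 l h1

theorem baRep_smul {P : Set ι} {h : ι → ℝ} {x : E} {c : List ι →₀ ℝ} (a : ℝ)
    (hc : N.baRep X P h x c) : N.baRep X P h (a • x) (a • c) :=
  ⟨fun l hl => hc.1 l (Finsupp.support_smul hl), by rw [map_smul, hc.2]⟩

theorem baRep_mon {P : Set ι} (h : ι → ℝ) {l : List ι} (hl : ∃ j ∈ l, j ∈ P) :
    N.baRep X P h (N.mon X l) (Finsupp.single l (Real.exp (-sz h l))) := by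
  refine ⟨fun l' hl' => ?_, ?_⟩
  · rw [Finset.mem_singleton.1 (Finsupp.support_single_subset hl')]
    exact hl
  · simp [baL, smul_smul, ← Real.exp_add]

theorem exists_baRep {P : Set ι} (h : ι → ℝ) {x : E} (hx : x ∈ N.idl X P) :
    ∃ c, N.baRep X P h x c := by
  induction hx using Submodule.span_induction with
  | mem x hx =>
    obtain ⟨l, hl, rfl⟩ := hx
    exact ⟨_, N.baRep_mon X h hl⟩
  | zero => exact ⟨0, by simp, map_zero _⟩
  | add x y _ _ hx hy =>
    obtain ⟨c, hc⟩ := hx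
    obtain ⟨c', hc'⟩ := hy
    exact ⟨_, N.baRep_add X hc hc'⟩
  | smul a x _ hx =>
    obtain ⟨c, hc⟩ := hx
    exact ⟨_, N.baRep_smul X a hc⟩

theorem baRep_mem {P : Set ι} {h : ι → ℝ} {x : E} {c : List ι →₀ ℝ} (hc : N.baRep X P h x c) :
    x ∈ N.idl X P := by
  rw [← hc.2, baL_eq]
  exact Submodule.sum_mem _ fun l hl => Submodule.smul_mem _ _ (N.ba_mon_mem X (hc.1 l hl))

theorem bq_nonneg (P : Set ι) (h : ι → ℝ) (x : E) : 0 ≤ N.bq X P h x := by
  rw [bq_eq]
  apply Real.sInf_nonneg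
  rintro _ ⟨c, -, rfl⟩
  exact baN_nonneg c

theorem bq_le {P : Set ι} {h : ι → ℝ} {x : E} {c : List ι →₀ ℝ} (hc : N.baRep X P h x c) :
    N.bq X P h x ≤ baN c := by
  rw [bq_eq]
  refine csInf_le ⟨0, ?_⟩ ⟨c, hc, rfl⟩
  rintro _ ⟨c, -, rfl⟩
  exact baN_nonneg c

theorem le_bq {P : Set ι} {h : ι → ℝ} {x : E} (hx : x ∈ N.idl X P) {t : ℝ}
    (ht : ∀ c, N.baRep X P h x c → t ≤ baN c) : t ≤ N.bq X P h x := by
  rw [bq_eq]
  obtain ⟨c, hc⟩ := N.exists_baRep X h hx
  refine le_csInf ⟨_, c, hc, rfl⟩ ?_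
  rintro _ ⟨c, hc, rfl⟩
  exact ht c hc

theorem le_mul_bq {P : Set ι} {h : ι → ℝ} {x : E} (hx : x ∈ N.idl X P) {t A : ℝ} (hA : 0 ≤ A)
    (ht : ∀ c, N.baRep X P h x c → t ≤ A * baN c) : t ≤ A * N.bq X P h x := by
  rcases hA.eq_or_lt with rfl | hA
  · obtain ⟨c, hc⟩ := N.exists_baRep X h hx
    simpa using ht c hc
  · rw [← div_le_iff₀' hA]
    exact N.le_bq X hx fun c hc => (div_le_iff₀' hA).2 (ht c hc)

theorem exists_baRep_lt {P : Set ι} {h : ι → ℝ} {x : E} (hx : x ∈ N.idl X P) {t : ℝ}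
    (ht : N.bq X P h x < t) : ∃ c, N.baRep X P h x c ∧ baN c < t := by
  by_contra hcon
  push Not at hcon
  exact absurd (N.le_bq X hx hcon) (not_le.2 ht)

theorem bq_zero (P : Set ι) (h : ι → ℝ) : N.bq X P h 0 = 0 := by
  refine le_antisymm ?_ (N.bq_nonneg X P h 0)
  have := N.bq_le X (P := P) (h := h) (x := 0) (c := 0) ⟨by simp, map_zero _⟩
  simpa [baN] using this

theorem bq_mon {P : Set ι} (h : ι → ℝ) {l : List ι} (hl : ∃ j ∈ l, j ∈ P) :
    N.bq X P h (N.mon X l) ≤ Real.exp (-sz h l) := by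
  have := N.bq_le X (N.baRep_mon X h hl)
  rwa [baN_single, abs_of_pos (Real.exp_pos _)] at this

theorem bq_add (P : Set ι) (h : ι → ℝ) {x y : E} (hx : x ∈ N.idl X P) (hy : y ∈ N.idl X P) :
    N.bq X P h (x + y) ≤ N.bq X P h x + N.bq X P h y := by
  have h1 : N.bq X P h (x + y) - N.bq X P h x ≤ N.bq X P h y := by
    refine N.le_bq X hy fun c' hc' => ?_
    have h2 : N.bq X P h (x + y) - baN c' ≤ N.bq X P h x := by
      refine N.le_bq X hx fun c hc => ?_
      have := (N.bq_le X (N.baRep_add X hc hc')).trans (baN_add c c')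
      linarith
    linarith
  linarith

theorem bq_smul_le (P : Set ι) (h : ι → ℝ) (a : ℝ) {x : E} (hx : x ∈ N.idl X P) :
    N.bq X P h (a • x) ≤ |a| * N.bq X P h x :=
  N.le_mul_bq X hx (abs_nonneg a) fun c hc => by
    rw [← baN_smul]; exact N.bq_le X (N.baRep_smul X a hc)

theorem bq_smul (P : Set ι) (h : ι → ℝ) (a : ℝ) {x : E} (hx : x ∈ N.idl X P) :
    N.bq X P h (a • x) = |a| * N.bq X P h x := by
  refine le_antisymm (N.bq_smul_le X P h a hx) ?_
  rcases eq_or_ne a 0 with rfl | ha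
  · simp [N.bq_nonneg]
  · have h1 := N.bq_smul_le X P h a⁻¹ (Submodule.smul_mem _ a hx)
    rw [inv_smul_smul₀ ha, abs_inv] at h1
    have h2 : 0 < |a| := abs_pos.2 ha
    calc |a| * N.bq X P h x ≤ |a| * (|a|⁻¹ * N.bq X P h (a • x)) :=
          mul_le_mul_of_nonneg_left h1 h2.le
      _ = _ := by field_simp

/-- estimate for one representation -/
theorem ba_le_rep {E' : Type} [AddCommGroup E'] [Module ℝ E'] (S' : Submodule ℝ E') (q : E' → ℝ)
    (hadd : ∀ y ∈ S', ∀ z ∈ S', q (y + z) ≤ q y + q z)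
    (hsmul : ∀ (c : ℝ), ∀ y ∈ S', q (c • y) = |c| * q y) (T : E →ₗ[ℝ] E') (h : ι → ℝ)
    {A : ℝ} (hA : 0 ≤ A) (c : List ι →₀ ℝ)
    (hT : ∀ l ∈ c.support, l.length ≤ N.m →
      T (N.mon X l) ∈ S' ∧ q (T (N.mon X l)) ≤ A * Real.exp (-sz h l)) :
    T (N.baL X h c) ∈ S' ∧ q (T (N.baL X h c)) ≤ A * baN c := by
  have h0 : q 0 = 0 := by simpa using hsmul 0 0 S'.zero_mem
  have hT' : ∀ l ∈ c.support,
      T (N.mon X l) ∈ S' ∧ q (T (N.mon X l)) ≤ A * Real.exp (-sz h l) := by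
    intro l hl
    by_cases h1 : l.length ≤ N.m
    · exact hT l hl h1
    · rw [N.ba_mon_eq_zero X (not_le.1 h1), map_zero, h0]
      exact ⟨S'.zero_mem, by positivity⟩
  rw [baL_eq, Finsupp.sum, map_sum]
  have hm : ∀ l ∈ c.support, T ((c l * Real.exp (sz h l)) • N.mon X l) ∈ S' := fun l hl => by
    rw [map_smul]; exact S'.smul_mem _ (hT' l hl).1
  refine ⟨S'.sum_mem hm, (ba_seminorm_sum hadd h0 _ _ hm).trans ?_⟩
  rw [baN_eq c subset_rfl, Finset.mul_sum]
  refine Finset.sum_le_sum fun l hl => ?_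
  rw [map_smul, hsmul _ _ (hT' l hl).1, abs_mul, abs_of_pos (Real.exp_pos _)]
  calc |c l| * Real.exp (sz h l) * q (T (N.mon X l))
      ≤ |c l| * Real.exp (sz h l) * (A * Real.exp (-sz h l)) :=
        mul_le_mul_of_nonneg_left (hT' l hl).2 (by positivity)
    _ = A * |c l| * (Real.exp (sz h l) * Real.exp (-sz h l)) := by ring
    _ = A * |c l| := by rw [← Real.exp_add]; simp

/-- universal property of `bq` -/
theorem le_bq_univ {E' : Type} [AddCommGroup E'] [Module ℝ E'] (S' : Submodule ℝ E') (q : E' → ℝ)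
    (hadd : ∀ y ∈ S', ∀ z ∈ S', q (y + z) ≤ q y + q z)
    (hsmul : ∀ (c : ℝ), ∀ y ∈ S', q (c • y) = |c| * q y) (T : E →ₗ[ℝ] E') {P : Set ι} (h : ι → ℝ)
    {A : ℝ} (hA : 0 ≤ A)
    (hT : ∀ l : List ι, (∃ j ∈ l, j ∈ P) → l.length ≤ N.m →
      T (N.mon X l) ∈ S' ∧ q (T (N.mon X l)) ≤ A * Real.exp (-sz h l))
    {x : E} (hx : x ∈ N.idl X P) : T x ∈ S' ∧ q (T x) ≤ A * N.bq X P h x := by
  have key : ∀ c, N.baRep X P h x c → T x ∈ S' ∧ q (T x) ≤ A * baN c := by
    intro c hc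
    rw [← hc.2]
    exact N.ba_le_rep X S' q hadd hsmul T h hA c fun l hl => hT l (hc.1 l hl)
  obtain ⟨c, hc⟩ := N.exists_baRep X h hx
  exact ⟨(key c hc).1, N.le_mul_bq X hx hA fun c hc => (key c hc).2⟩

/-- bracket with a letter -/
theorem bq_br_letter (P : Set ι) (h : ι → ℝ) (i : ι) {y : E} (hy : y ∈ N.idl X P) :
    N.br (X i) y ∈ N.idl X P ∧ N.bq X P h (N.br (X i) y) ≤ Real.exp (-h i) * N.bq X P h y := by
  refine N.le_bq_univ X (N.idl X P) (N.bq X P h) (fun _ hy _ hz => N.bq_add X P h hy hz)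
    (fun c _ hy => N.bq_smul X P h c hy) (N.br (X i)) h (Real.exp_pos _).le ?_ hy
  rintro l ⟨j, hj, hjP⟩ -
  have hl : ∃ j ∈ i :: l, j ∈ P := ⟨j, List.mem_cons_of_mem _ hj, hjP⟩
  rw [← N.ba_mon_cons X i (List.ne_nil_of_mem hj)]
  refine ⟨N.ba_mon_mem X hl, (N.bq_mon X h hl).trans (le_of_eq ?_)⟩
  rw [← Real.exp_add, ba_sz_cons]
  congr 1
  ring

theorem ba_br_br (x y z : E) : N.br (N.br x y) z = N.br x (N.br y z) - N.br y (N.br x z) := by
  rw [N.br_jacobi x y z]; abel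

/-- bracket with a monomial -/
theorem bq_br_mon (P : Set ι) (h : ι → ℝ) (l : List ι) : ∀ {y : E}, y ∈ N.idl X P →
    N.br (N.mon X l) y ∈ N.idl X P ∧
      N.bq X P h (N.br (N.mon X l) y) ≤ 2 ^ l.length * Real.exp (-sz h l) * N.bq X P h y := by
  induction l with
  | nil =>
    intro y _
    simp only [mon, map_zero, LinearMap.zero_apply, N.bq_zero]
    exact ⟨Submodule.zero_mem _, mul_nonneg (by positivity) (N.bq_nonneg X P h y)⟩
  | cons i l ih =>
    intro y hy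
    have hq := N.bq_nonneg X P h y
    rcases eq_or_ne l [] with rfl | hl
    · obtain ⟨h1, h2⟩ := N.bq_br_letter X P h i hy
      refine ⟨h1, h2.trans ?_⟩
      simp only [List.length_cons, List.length_nil, ba_sz_cons, ba_sz_nil, add_zero, zero_add,
        pow_one]
      have := Real.exp_pos (-h i)
      nlinarith
    · rw [N.ba_mon_cons X i hl, ba_br_br]
      obtain ⟨a1, a2⟩ := ih hy
      obtain ⟨b1, b2⟩ := N.bq_br_letter X P h i a1
      obtain ⟨c1, c2⟩ := N.bq_br_letter X P h i hy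
      obtain ⟨d1, d2⟩ := ih c1
      refine ⟨Submodule.sub_mem _ b1 d1, ?_⟩
      have e1 := N.bq_add X P h b1 (Submodule.smul_mem _ (-1) d1)
      rw [N.bq_smul X P h _ d1, neg_one_smul, ← sub_eq_add_neg, abs_neg, abs_one, one_mul] at e1
      have e2 : Real.exp (-sz h (i :: l)) = Real.exp (-h i) * Real.exp (-sz h l) := by
        rw [← Real.exp_add, ba_sz_cons]; congr 1; ring
      rw [e2, List.length_cons, pow_succ]
      have p1 := Real.exp_pos (-h i)
      have p2 : 0 < (2 : ℝ) ^ l.length * Real.exp (-sz h l) := by positivity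
      have b3 := mul_le_mul_of_nonneg_left a2 p1.le
      have d3 := mul_le_mul_of_nonneg_left c2 p2.le
      nlinarith

end NL

end Crest.Agent.R182
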