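import Crest.Agent.R182.LNM

/-! Row 182, task `R182/ImageGe`: lower bound for the measure of an antilipschitz image. -/

set_option autoImplicit false

namespace Crest.Agent.R182

open scoped BigOperators
open MeasureTheory

/-- an antilipschitz map (on a set) does not shrink Lebesgue measure by more than `K ^ D` -/
theorem imageGe_vol_le {D : ℕ} (Ψ : (Fin D → ℝ) → (Fin D → ℝ)) (𝒯 : Set (Fin D → ℝ)) (K : ℝ)
    (hK : 0 ≤ K) (h : ∀ t ∈ 𝒯, ∀ t' ∈ 𝒯, ‖t - t'‖ ≤ K * ‖Ψ t - Ψ t'‖) :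
    volume 𝒯 ≤ ENNReal.ofReal (K ^ D) * volume (Ψ '' 𝒯) := by
  classical
  have hinj : Set.InjOn Ψ 𝒯 := by
    intro t ht t' ht' hh
    have := h t ht t' ht'
    rw [hh, sub_self, norm_zero, mul_zero] at this
    exact sub_eq_zero.1 (norm_le_zero_iff.1 this)
  set G := Function.invFunOn Ψ 𝒯 with hG
  have hGl : ∀ t ∈ 𝒯, G (Ψ t) = t := fun t ht => hinj.leftInvOn_invFunOn ht
  have hlip : LipschitzOnWith (Real.toNNReal K) G (Ψ '' 𝒯) := by
    refine LipschitzOnWith.of_dist_le_mul ?_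
    rintro _ ⟨t, ht, rfl⟩ _ ⟨t', ht', rfl⟩
    rw [hGl t ht, hGl t' ht', dist_eq_norm, dist_eq_norm, Real.coe_toNNReal K hK]
    exact h t ht t' ht'
  have hsub : 𝒯 ⊆ G '' (Ψ '' 𝒯) := fun t ht => ⟨Ψ t, ⟨t, ht, rfl⟩, hGl t ht⟩
  have h1 := hlip.hausdorffMeasure_image_le (d := (Fintype.card (Fin D) : ℝ)) (by positivity)
  rw [hausdorffMeasure_pi_real] at h1
  refine (measure_mono hsub).trans (h1.trans (le_of_eq ?_))
  congr 1
  rw [Fintype.card_fin, ENNReal.rpow_natCast, ENNReal.ofReal_pow hK]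
  rfl

namespace NL

variable {E : Type} [NormedAddCommGroup E] [NormedSpace ℝ E] [FiniteDimensional ℝ E]
  [MeasurableSpace E] [BorelSpace E] (N : NL E)

/-- images under the chart: if `Φ` is as in `chart`, then `hm S (Φ '' 𝒯) ≥ c · vol · volume 𝒯`.
In Auerbach coordinates `Φ` is antilipschitz with constant depending on `A` and `D` only
(`AntilipschitzWith.le_hausdorffMeasure_image` or `LipschitzOnWith.hausdorffMeasure_image_le` for the
inverse, `hausdorffMeasure_pi_real`), and `hm S` is a multiple of the image of Lebesgue measure,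
the unit ball being contained in the unit cube. -/
theorem hm_image_ge (A : ℝ) (hA : 1 ≤ A) : ∃ c : ℝ, 0 < c ∧ ∀ S p, IsLN N S p →
    ∀ (Φ : (Fin (Module.finrank ℝ S) → ℝ) → E) (𝒯 : Set (Fin (Module.finrank ℝ S) → ℝ)),
      (∀ t ∈ 𝒯, Φ t ∈ S) → (∀ t ∈ 𝒯, ∀ t' ∈ 𝒯, ‖t - t'‖ ≤ A * p (Φ t - Φ t')) →
      ENNReal.ofReal (c * vol S p) * volume 𝒯 ≤ hm S (Φ '' 𝒯) := by
  classical
  set n := Module.finrank ℝ E with hn
  set K : ℝ := A * (n + 1) with hKdef
  have hn0 : (0 : ℝ) ≤ n := Nat.cast_nonneg n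
  have hK1 : 1 ≤ K := by rw [hKdef]; nlinarith
  have hK0 : 0 < K := by linarith
  refine ⟨((2 * K) ^ n)⁻¹, by positivity, ?_⟩
  intro S p hp Φ 𝒯 hΦ hanti
  obtain ⟨b, hb1, hb2⟩ := hp.exists_auerbach
  have hDn : Module.finrank ℝ S ≤ n := Submodule.finrank_le S
  set e : S ≃L[ℝ] (Fin (Module.finrank ℝ S) → ℝ) := b.equivFun.toContinuousLinearEquiv with he
  have he_apply : ∀ (x : S) i, e x i = b.repr x i := fun x i => by
    simp [he]
  set μ : Measure (Fin (Module.finrank ℝ S) → ℝ) := (Measure.addHaar : Measure S).map e with hμ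
  have : μ.IsAddHaarMeasure := e.isAddHaarMeasure_map _
  have hκ := Measure.isAddLeftInvariant_eq_smul μ volume
  set κ := Measure.addHaarScalarFactor μ volume with hκdef
  have hB : ∀ B : Set S, (Measure.addHaar : Measure S) B = κ * volume (e '' B) := by
    intro B
    have h1 : μ (e '' B) = (Measure.addHaar : Measure S) B := by
      have hme : MeasurableEmbedding e := e.toHomeomorph.measurableEmbedding
      rw [hμ, hme.map_apply]
      congr 1
      exact e.injective.preimage_image B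
    rw [← h1, hκ]
    rfl
  -- the unit ball
  have hvol : vol S p ≤ κ * 2 ^ Module.finrank ℝ S := by
    have hsub : e '' (Subtype.val ⁻¹' bl S p 1) ⊆ Metric.closedBall 0 1 := by
      rintro _ ⟨x, hx, rfl⟩
      rw [mem_closedBall_zero_iff, pi_norm_le_iff_of_nonneg zero_le_one]
      intro i
      rw [he_apply, Real.norm_eq_abs]
      exact (hb2 x i).trans hx.2
    have h2 : hm S (bl S p 1) ≤ ENNReal.ofReal (κ * 2 ^ Module.finrank ℝ S) := by
      rw [hm_apply, hB, ENNReal.ofReal_mul κ.coe_nonneg, ENNReal.ofReal_coe_nnreal]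
      gcongr
      refine (measure_mono hsub).trans (le_of_eq ?_)
      rw [Real.volume_pi_closedBall _ zero_le_one]
      simp
    exact ENNReal.toReal_le_of_le_ofReal (by positivity) h2
  -- the map in coordinates
  set Ψ : (Fin (Module.finrank ℝ S) → ℝ) → (Fin (Module.finrank ℝ S) → ℝ) :=
    fun t => if h : Φ t ∈ S then e ⟨Φ t, h⟩ else 0 with hΨ
  have hΨ_apply : ∀ t (ht : t ∈ 𝒯), Ψ t = e ⟨Φ t, hΦ t ht⟩ := fun t ht => by
    simp only [hΨ, dif_pos (hΦ t ht)]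
  have hpn : ∀ x : S, p x ≤ (n + 1) * ‖e x‖ := by
    intro x
    have hx : (x : E) = ∑ i, (b.repr x i) • (b i : E) := by
      conv_lhs => rw [← b.sum_repr x]
      rw [Submodule.coe_sum]
      rfl
    have h1 : p x ≤ ∑ i, p ((b.repr x i) • (b i : E)) := by
      conv_lhs => rw [hx]
      exact hp.sum_le _ fun i _ => S.smul_mem _ (b i).2
    have h2 : ∀ i, p ((b.repr x i) • (b i : E)) ≤ ‖e x‖ := by
      intro i
      rw [hp.smul _ _ (b i).2]
      have h3 : |b.repr x i| ≤ ‖e x‖ := by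
        rw [← he_apply, ← Real.norm_eq_abs]
        exact norm_le_pi_norm (e x) i
      calc |b.repr x i| * p (b i) ≤ |b.repr x i| * 1 :=
            mul_le_mul_of_nonneg_left (hb1 i) (abs_nonneg _)
        _ ≤ ‖e x‖ := by rw [mul_one]; exact h3
    have h4 : ∑ i, p ((b.repr x i) • (b i : E)) ≤ Module.finrank ℝ S * ‖e x‖ := by
      refine (Finset.sum_le_sum fun i _ => h2 i).trans (le_of_eq ?_)
      simp
    have h5 : (Module.finrank ℝ S : ℝ) ≤ n + 1 := by
      have : (Module.finrank ℝ S : ℝ) ≤ n := by exact_mod_cast hDn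
      linarith
    exact h1.trans (h4.trans (mul_le_mul_of_nonneg_right h5 (norm_nonneg _)))
  have hanti' : ∀ t ∈ 𝒯, ∀ t' ∈ 𝒯, ‖t - t'‖ ≤ K * ‖Ψ t - Ψ t'‖ := by
    intro t ht t' ht'
    rw [hΨ_apply t ht, hΨ_apply t' ht', ← map_sub]
    have h1 := hpn (⟨Φ t, hΦ t ht⟩ - ⟨Φ t', hΦ t' ht'⟩)
    refine (hanti t ht t' ht').trans ?_
    rw [hKdef, mul_assoc]
    exact mul_le_mul_of_nonneg_left h1 (by linarith)
  have hT := imageGe_vol_le Ψ 𝒯 K hK0.le hanti'
  have himg : Ψ '' 𝒯 ⊆ e '' (Subtype.val ⁻¹' (Φ '' 𝒯)) := by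
    rintro _ ⟨t, ht, rfl⟩
    exact ⟨⟨Φ t, hΦ t ht⟩, ⟨t, ht, rfl⟩, (hΨ_apply t ht).symm⟩
  have hc : ((2 * K) ^ n)⁻¹ * vol S p * K ^ Module.finrank ℝ S ≤ κ := by
    have h1 : (2 * K) ^ Module.finrank ℝ S ≤ (2 * K) ^ n :=
      pow_le_pow_right₀ (by linarith) hDn
    have h2 : (0 : ℝ) < (2 * K) ^ n := by positivity
    have h3 : (0 : ℝ) ≤ κ := κ.coe_nonneg
    calc ((2 * K) ^ n)⁻¹ * vol S p * K ^ Module.finrank ℝ S
        ≤ ((2 * K) ^ n)⁻¹ * (κ * 2 ^ Module.finrank ℝ S) * K ^ Module.finrank ℝ S := by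
          gcongr
      _ = κ * ((2 * K) ^ Module.finrank ℝ S / (2 * K) ^ n) := by
          rw [mul_pow 2 K (Module.finrank ℝ S), div_eq_mul_inv]; ring
      _ ≤ κ * 1 := by
          gcongr
          exact (div_le_one h2).2 h1
      _ = κ := mul_one _
  have hv0 : 0 ≤ ((2 * K) ^ n)⁻¹ * vol S p := by
    have : 0 ≤ vol S p := measureReal_nonneg
    positivity
  calc ENNReal.ofReal (((2 * K) ^ n)⁻¹ * vol S p) * volume 𝒯
      ≤ ENNReal.ofReal (((2 * K) ^ n)⁻¹ * vol S p) *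
          (ENNReal.ofReal (K ^ Module.finrank ℝ S) * volume (Ψ '' 𝒯)) := by gcongr
    _ = ENNReal.ofReal (((2 * K) ^ n)⁻¹ * vol S p * K ^ Module.finrank ℝ S) *
          volume (Ψ '' 𝒯) := by
        rw [← mul_assoc, ← ENNReal.ofReal_mul hv0]
    _ ≤ κ * volume (e '' (Subtype.val ⁻¹' (Φ '' 𝒯))) := by
        refine mul_le_mul' ?_ (measure_mono himg)
        rw [← ENNReal.ofReal_coe_nnreal]
        exact ENNReal.ofReal_le_ofReal hc
    _ = hm S (Φ '' 𝒯) := by rw [hm_apply, hB]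

end NL

end Crest.Agent.R182
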