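import Crest.Agent.R182.Near

/-! Row 182, task `R182/Recur`: recurrence along a nearly invariant flow. -/

set_option autoImplicit false

namespace Crest.Agent.R182

open scoped BigOperators
open MeasureTheory

theorem recur_fubini {Ω Ω' : Type} [MeasurableSpace Ω] [MeasurableSpace Ω'] (ν : Measure Ω)
    (μ : Measure Ω') [IsFiniteMeasure ν] [IsFiniteMeasure μ] {D : Set (Ω × Ω')} (hD : MeasurableSet D) :
    ∫ x, μ.real {y | (x, y) ∈ D} ∂ν = ∫ y, ν.real {x | (x, y) ∈ D} ∂μ := by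
  have e1 : (ν.prod μ).real D = ∫ x, μ.real {y | (x, y) ∈ D} ∂ν := by
    rw [measureReal_def, Measure.prod_apply hD,
      ← integral_toReal (measurable_measure_prodMk_left hD).aemeasurable
        (ae_of_all _ fun x => measure_lt_top _ _)]
    rfl
  have e2 : (ν.prod μ).real D = ∫ y, ν.real {x | (x, y) ∈ D} ∂μ := by
    rw [measureReal_def, Measure.prod_apply_symm hD,
      ← integral_toReal (measurable_measure_prodMk_right hD).aemeasurable
        (ae_of_all _ fun x => measure_lt_top _ _)]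
    rfl
  rw [← e1, e2]

theorem recur_integrable {Ω : Type} [MeasurableSpace Ω] (μ : Measure Ω) [IsFiniteMeasure μ]
    {F : Ω → ℝ} (hF : Measurable F) {M : ℝ} (h0 : ∀ x, 0 ≤ F x) (hM : ∀ x, F x ≤ M) :
    Integrable F μ :=
  Integrable.of_bound hF.aestronglyMeasurable M (ae_of_all _ fun x => by
    rw [Real.norm_eq_abs, abs_of_nonneg (h0 x)]; exact hM x)

/-- reverse Markov inequality -/
theorem recur_rev_markov {Ω : Type} [MeasurableSpace Ω] (μ : Measure Ω) [IsFiniteMeasure μ]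
    {F : Ω → ℝ} (hF : Measurable F) {M a : ℝ} (ha : 0 ≤ a) (h0 : ∀ x, 0 ≤ F x) (hM : ∀ x, F x ≤ M) :
    ∫ x, F x ∂μ ≤ μ.real {x | a ≤ F x} * M + μ.real Set.univ * a := by
  have hS : MeasurableSet {x | a ≤ F x} := measurableSet_le measurable_const hF
  have hi : Integrable ({x | a ≤ F x}.indicator fun _ => M) μ := (integrable_const M).indicator hS
  have e : μ.real {x | a ≤ F x} * M + μ.real Set.univ * a =
      ∫ x, ({x | a ≤ F x}.indicator (fun _ => M) x + a) ∂μ := by
    rw [integral_add hi (integrable_const a), integral_indicator hS]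
    simp
  rw [e]
  refine integral_mono (recur_integrable μ hF h0 hM) (hi.add (integrable_const a)) fun x => ?_
  by_cases hx : a ≤ F x
  · have : x ∈ {x | a ≤ F x} := hx
    simp only [Set.indicator_of_mem this]
    linarith [hM x]
  · have : x ∉ {x | a ≤ F x} := hx
    simp only [Set.indicator_of_notMem this]
    linarith [not_le.mp hx]

/-- Recurrence along a flow.  `∫∫_{s,s' ∈ [0,η]} ν (B_s ∩ B_s') = ∫ (∫ 1_B (φ x s) ds)² dν ≥
η² (δ - τ)²` with `B_s = {x | φ x s ∈ B}` (Cauchy–Schwarz), and `ν (B_s ∩ B_s') ≤ ν (B ∩ B_{s'-s}) + τ`.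
Hence `∫_{[-η,η]} ν (B ∩ B_t) dt ≥ η δ² / 2` when `τ ≤ δ² / 8`. -/
theorem flow_recur {Ω : Type} [MeasurableSpace Ω] (ν : Measure Ω) [IsProbabilityMeasure ν]
    (φ : Ω → ℝ → Ω) (hφ : Measurable fun q : Ω × ℝ => φ q.1 q.2)
    (hadd : ∀ x s t, φ (φ x s) t = φ x (s + t)) {η δ τ : ℝ} (hη : 0 < η) (hδ : 0 < δ) (hδ1 : δ ≤ 1)
    (hτ : τ ≤ δ ^ 2 / 8) (hinv : ∀ t, |t| ≤ η → Near ν (ν.map fun x => φ x t) τ) {B : Set Ω}
    (hB : MeasurableSet B) (hBδ : δ ≤ ν.real B) :
    ENNReal.ofReal (η * δ ^ 2 / 8) ≤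
        volume ({t | δ ^ 2 / 8 ≤ ν.real {x | x ∈ B ∧ φ x t ∈ B}} ∩ Set.Icc (-η) η) ∧
      δ ^ 2 / 8 ≤ ν.real {x | x ∈ B ∧
        ENNReal.ofReal (η * δ ^ 2 / 8) ≤ volume ({t | φ x t ∈ B} ∩ Set.Icc (-η) η)} := by
  set μ₁ : Measure ℝ := volume.restrict (Set.Icc 0 η) with hμ₁
  set μ₂ : Measure ℝ := volume.restrict (Set.Icc (-η) η) with hμ₂
  haveI : IsFiniteMeasure μ₁ := by rw [hμ₁]; infer_instance
  haveI : IsFiniteMeasure μ₂ := by rw [hμ₂]; infer_instance
  have hu₁ : μ₁.real Set.univ = η := by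
    simp [hμ₁, measureReal_def, hη.le]
  have hu₂ : μ₂.real Set.univ = 2 * η := by
    rw [hμ₂, measureReal_def, Measure.restrict_apply_univ, Real.volume_Icc,
      ENNReal.toReal_ofReal (by linarith)]
    ring
  have hτ0 : 0 ≤ τ := (hinv 0 (by simpa using hη.le)).nonneg
  have hφs : ∀ s, Measurable fun x => φ x s := fun s => hφ.comp measurable_prodMk_right
  have hφx : ∀ x, Measurable fun s => φ x s := fun x => hφ.comp measurable_prodMk_left
  have hD₁ : MeasurableSet {q : Ω × ℝ | φ q.1 q.2 ∈ B} := hφ hB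
  have hD₂ : MeasurableSet {q : Ω × ℝ | q.1 ∈ B ∧ φ q.1 q.2 ∈ B} := (measurable_fst hB).inter hD₁
  set f : Ω → ℝ := fun x => μ₁.real {s | φ x s ∈ B} with hf
  set G : Ω → ℝ := fun x => μ₂.real {t | x ∈ B ∧ φ x t ∈ B} with hG
  set h : ℝ → ℝ := fun t => ν.real {x | x ∈ B ∧ φ x t ∈ B} with hh
  have hfm : Measurable f := (measurable_measure_prodMk_left hD₁).ennreal_toReal
  have hGm : Measurable G := (measurable_measure_prodMk_left hD₂).ennreal_toReal
  have hhm : Measurable h := (measurable_measure_prodMk_right hD₂).ennreal_toReal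
  have hf0 : ∀ x, 0 ≤ f x := fun x => measureReal_nonneg
  have hG0 : ∀ x, 0 ≤ G x := fun x => measureReal_nonneg
  have hh0 : ∀ t, 0 ≤ h t := fun t => measureReal_nonneg
  have hf1 : ∀ x, f x ≤ η := fun x =>
    hu₁ ▸ measureReal_mono (Set.subset_univ _) (measure_ne_top _ _)
  have hG1 : ∀ x, G x ≤ 2 * η := fun x =>
    hu₂ ▸ measureReal_mono (Set.subset_univ _) (measure_ne_top _ _)
  have hh1 : ∀ t, h t ≤ 1 := fun t => measureReal_le_one
  have hae₁ : ∀ᵐ s ∂μ₁, s ∈ Set.Icc 0 η := ae_restrict_mem measurableSet_Icc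
  have habs : ∀ s ∈ Set.Icc 0 η, |s| ≤ η := fun s hs => abs_le.mpr ⟨by linarith [hs.1], hs.2⟩
  -- Step A
  have hA : η * (δ - τ) ≤ ∫ x, f x ∂ν := by
    have e : ∫ x, f x ∂ν = ∫ s, ν.real {x | φ x s ∈ B} ∂μ₁ := recur_fubini ν μ₁ hD₁
    rw [e]
    have e2 : η * (δ - τ) = ∫ _s, (δ - τ) ∂μ₁ := by rw [integral_const, hu₁, smul_eq_mul]
    rw [e2]
    refine integral_mono_ae (integrable_const _) (recur_integrable μ₁
      (measurable_measure_prodMk_right hD₁).ennreal_toReal (fun s => measureReal_nonneg)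
      (fun s => measureReal_le_one)) ?_
    filter_upwards [hae₁] with s hs
    have := hinv s (habs s hs) B hB
    rw [map_measureReal_apply (hφs s) hB] at this
    have e3 : ν.real ((fun x => φ x s) ⁻¹' B) = ν.real {x | φ x s ∈ B} := rfl
    linarith
  have hδτ : 0 ≤ δ - τ := by nlinarith
  have hfi : Integrable f ν := recur_integrable ν hfm hf0 hf1
  have hf2i : Integrable (fun x => f x * f x) ν :=
    recur_integrable ν (hfm.mul hfm) (M := η * η) (fun x => mul_nonneg (hf0 x) (hf0 x))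
      (fun x => mul_le_mul (hf1 x) (hf1 x) (hf0 x) hη.le)
  -- Step B
  have hB2 : (η * (δ - τ)) ^ 2 ≤ ∫ x, f x * f x ∂ν := by
    have hc : 0 ≤ η * (δ - τ) := mul_nonneg hη.le hδτ
    have e : ∫ x, (2 * (η * (δ - τ)) * f x - (η * (δ - τ)) ^ 2) ∂ν =
        2 * (η * (δ - τ)) * ∫ x, f x ∂ν - (η * (δ - τ)) ^ 2 := by
      rw [integral_sub (hfi.const_mul _) (integrable_const _), integral_const_mul]; simp
    have h1 : ∫ x, (2 * (η * (δ - τ)) * f x - (η * (δ - τ)) ^ 2) ∂ν ≤ ∫ x, f x * f x ∂ν :=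
      integral_mono ((hfi.const_mul _).sub (integrable_const _)) hf2i fun x => by
        simp only; nlinarith [sq_nonneg (f x - η * (δ - τ))]
    rw [e] at h1
    nlinarith [mul_le_mul_of_nonneg_left hA hc]
  -- Step C
  have hC : ∀ x, f x * f x ≤ ∫ s, G (φ x s) ∂μ₁ := by
    intro x
    have hS : MeasurableSet {s | φ x s ∈ B} := hφx x hB
    have e : f x * f x = ∫ s, {s | φ x s ∈ B}.indicator (fun _ => f x) s ∂μ₁ := by
      rw [integral_indicator hS]; simp [hf]
    rw [e]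
    refine integral_mono_ae ((integrable_const _).indicator hS)
      (recur_integrable μ₁ (hGm.comp (hφx x)) (fun s => hG0 _) (fun s => hG1 _)) ?_
    filter_upwards [hae₁] with s hs
    by_cases hx : φ x s ∈ B
    · have : s ∈ {s | φ x s ∈ B} := hx
      simp only [Set.indicator_of_mem this]
      refine ENNReal.toReal_mono (measure_ne_top _ _) ?_
      rw [hμ₁, hμ₂, Measure.restrict_apply' measurableSet_Icc, Measure.restrict_apply' measurableSet_Icc,
        ← measure_preimage_add volume s ({s | φ x s ∈ B} ∩ Set.Icc 0 η)]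
      refine measure_mono fun t ht => ?_
      obtain ⟨h1, h2, h3⟩ := ht
      refine ⟨⟨hx, ?_⟩, by linarith [hs.2], by linarith [hs.1]⟩
      rw [hadd]; exact h1
    · have : s ∉ {s | φ x s ∈ B} := hx
      simp only [Set.indicator_of_notMem this]
      exact hG0 _
  -- Step D
  have hGφ : Integrable (Function.uncurry fun x s => G (φ x s)) (ν.prod μ₁) :=
    recur_integrable _ (hGm.comp hφ) (fun q => hG0 _) (fun q => hG1 _)
  have hD : ∫ x, f x * f x ∂ν ≤ η * (∫ x, G x ∂ν + 2 * η * τ) := by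
    refine (integral_mono hf2i hGφ.integral_prod_left hC).trans ?_
    have e := integral_integral_swap hGφ
    simp only [Function.uncurry_apply_pair] at e ⊢
    rw [e]
    have e2 : η * (∫ x, G x ∂ν + 2 * η * τ) = ∫ _s, (∫ x, G x ∂ν + 2 * η * τ) ∂μ₁ := by
      rw [integral_const, hu₁, smul_eq_mul]
    rw [e2]
    refine integral_mono_ae hGφ.integral_prod_right (integrable_const _) ?_
    filter_upwards [hae₁] with s hs
    haveI : IsProbabilityMeasure (ν.map fun x => φ x s) :=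
      Measure.isProbabilityMeasure_map (hφs s).aemeasurable
    have := (hinv s (habs s hs)).symm.integral_le hGm hG0 hG1
    rwa [integral_map (hφs s).aemeasurable hGm.aestronglyMeasurable] at this
  have hI : η * δ ^ 2 / 2 ≤ ∫ x, G x ∂ν := by
    have h1 : η * (η * (δ - τ) ^ 2) ≤ η * (∫ x, G x ∂ν + 2 * η * τ) := by
      refine le_trans (le_of_eq (by ring)) (hB2.trans hD)
    have h2 := le_of_mul_le_mul_left h1 hη
    have h3 : 7 / 8 * δ ≤ δ - τ := by nlinarith
    have h4 : (7 / 8 * δ) ^ 2 ≤ (δ - τ) ^ 2 := pow_le_pow_left₀ (by positivity) h3 2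
    have h5 : δ ^ 2 / 2 ≤ (δ - τ) ^ 2 - 2 * τ := by nlinarith
    nlinarith [mul_le_mul_of_nonneg_left h5 hη.le]
  have hE : ∫ x, G x ∂ν = ∫ t, h t ∂μ₂ := recur_fubini ν μ₂ hD₂
  have hδ2 : 0 < δ ^ 2 := by positivity
  have hηδ : 0 < η * δ ^ 2 := by positivity
  constructor
  · have h1 := recur_rev_markov μ₂ hhm (a := δ ^ 2 / 8) (by positivity) hh0 hh1
    rw [hu₂, ← hE] at h1
    have h2 : η * δ ^ 2 / 8 ≤ μ₂.real {t | δ ^ 2 / 8 ≤ h t} := by nlinarith
    rw [← Measure.restrict_apply' measurableSet_Icc]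
    exact ENNReal.ofReal_le_of_le_toReal h2
  · have h1 := recur_rev_markov ν hGm (a := η * δ ^ 2 / 8) (by positivity) hG0 hG1
    rw [probReal_univ] at h1
    have h2 : δ ^ 2 / 8 ≤ ν.real {x | η * δ ^ 2 / 8 ≤ G x} := by
      by_contra hlt
      have := mul_lt_mul_of_pos_right (not_le.mp hlt) (show 0 < 2 * η by linarith)
      nlinarith
    refine h2.trans (measureReal_mono (fun x hx => ?_) (measure_ne_top _ _))
    have hx' : η * δ ^ 2 / 8 ≤ G x := hx
    have hxB : x ∈ B := by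
      by_contra hn
      have : G x = 0 := by simp [hG, hn]
      linarith
    refine ⟨hxB, ?_⟩
    rw [← Measure.restrict_apply' measurableSet_Icc]
    refine ENNReal.ofReal_le_of_le_toReal (hx'.trans (le_of_eq ?_))
    simp [hG, hxB, measureReal_def, hμ₂]

end Crest.Agent.R182
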