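import Crest.Agent.R182.BoxFac
import Crest.Agent.R182.Recur
import Crest.Agent.R182.ImageGe

/-! Row 182, task `R182/BoxCL`: a set of positive measure, for a measure that is nearly invariant
under a box, contains a point from which a positive proportion of the box is reachable by boundedly
many one-letter moves inside the set. -/

set_option autoImplicit false

namespace Crest.Agent.R182

open scoped BigOperators
open MeasureTheory

set_option linter.unusedSectionVars false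

/-- the recurrence loss -/
noncomputable def clD (δ : ℝ) : ℕ → ℝ
  | 0 => δ
  | k + 1 => clD δ k ^ 2 / 8

theorem clD_pos {δ : ℝ} (h : 0 < δ) (k : ℕ) : 0 < clD δ k := by
  induction k with
  | zero => exact h
  | succ k ih => rw [clD]; positivity

theorem clD_le_one {δ : ℝ} (h : 0 < δ) (h1 : δ ≤ 1) (k : ℕ) : clD δ k ≤ 1 := by
  induction k with
  | zero => exact h1
  | succ k ih => rw [clD]; nlinarith [clD_pos h k]

theorem clD_anti {δ : ℝ} (h : 0 < δ) (h1 : δ ≤ 1) : Antitone (clD δ) :=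
  antitone_nat_of_succ_le fun k => by
    rw [clD]; nlinarith [clD_pos h k, clD_le_one h h1 k]

section Pth

variable {E : Type} [NormedAddCommGroup E] [NormedSpace ℝ E] [MeasurableSpace E] [BorelSpace E]
  {Ω : Type} [MeasurableSpace Ω] (act : Ω → E → Ω) (B : Set Ω) (η : ℝ)

/-- successive moves in the directions `Z a` stay in `B` -/
def ClPth : (n : ℕ) → (Fin n → E) → Ω → (Fin n → ℝ) → Prop
  | 0, _, ω, _ => ω ∈ B
  | n + 1, Z, ω, t => ω ∈ B ∧ |t 0| ≤ η ∧
      ClPth n (fun a => Z a.succ) (act ω (t 0 • Z 0)) fun a => t a.succ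

variable {act B η}

omit [MeasurableSpace Ω] in
theorem ClPth.mem {n : ℕ} {Z : Fin n → E} {ω : Ω} {t : Fin n → ℝ} (h : ClPth act B η n Z ω t) :
    ω ∈ B := by
  cases n with
  | zero => exact h
  | succ n => exact h.1

omit [MeasurableSpace Ω] in
theorem ClPth.abs_le {n : ℕ} {Z : Fin n → E} {ω : Ω} {t : Fin n → ℝ} (h : ClPth act B η n Z ω t)
    (a : Fin n) : |t a| ≤ η := by
  induction n generalizing ω with
  | zero => exact a.elim0
  | succ n ih => exact Fin.cases h.2.1 (fun a => ih h.2.2 a) a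

theorem clPth_meas (hact : Measurable fun q : Ω × E => act q.1 q.2) (hB : MeasurableSet B) (n : ℕ)
    (Z : Fin n → E) : MeasurableSet {q : Ω × (Fin n → ℝ) | ClPth act B η n Z q.1 q.2} := by
  induction n with
  | zero => exact measurable_fst hB
  | succ n ih =>
    have h1 : MeasurableSet {q : Ω × (Fin (n + 1) → ℝ) | |q.2 0| ≤ η} :=
      measurableSet_le (by fun_prop) measurable_const
    refine (measurable_fst hB).inter (h1.inter ?_)
    have hm : Measurable fun q : Ω × (Fin (n + 1) → ℝ) =>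
        (act q.1 (q.2 0 • Z 0), fun a : Fin n => q.2 a.succ) :=
      (hact.comp (measurable_fst.prodMk (by fun_prop))).prodMk (by fun_prop)
    exact hm (ih fun a => Z a.succ)

theorem cl_fub (ν : Measure Ω) [IsProbabilityMeasure ν]
    (hact : Measurable fun q : Ω × E => act q.1 q.2) (hB : MeasurableSet B) (hη : 0 < η)
    {δ τ : ℝ} (h0 : 0 < δ) (h1 : δ ≤ 1) {k : ℕ} (hδ : clD δ k ≤ ν.real B) (n : ℕ)
    (hτ : τ ≤ clD δ (k + n)) (Z : Fin n → E)
    (hadd : ∀ a x (s t : ℝ), act (act x (s • Z a)) (t • Z a) = act x ((s + t) • Z a))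
    (hinv : ∀ a (t : ℝ), |t| ≤ η → Near ν (ν.map fun x => act x (t • Z a)) τ) :
    ∃ B₀, MeasurableSet B₀ ∧ B₀ ⊆ B ∧ clD δ (k + n) ≤ ν.real B₀ ∧ ∀ ω ∈ B₀,
      ENNReal.ofReal ((η * clD δ (k + n)) ^ n) ≤ volume {t | ClPth act B η n Z ω t} := by
  induction n with
  | zero =>
    refine ⟨B, hB, subset_rfl, hδ, fun ω hω => ?_⟩
    have : {t | ClPth act B η 0 Z ω t} = Set.univ := Set.eq_univ_of_forall fun _ => hω
    rw [this, volume_pi, Measure.pi_univ]; simp
  | succ n ih =>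
    have ha : clD δ (k + (n + 1)) ≤ clD δ (k + n) := clD_anti h0 h1 (by omega)
    obtain ⟨B₁, m1, s1, d1, v1⟩ := ih (hτ.trans ha) (fun a => Z a.succ) (fun a => hadd a.succ)
      fun a => hinv a.succ
    have hφ : Measurable fun q : Ω × ℝ => act q.1 (q.2 • Z 0) :=
      hact.comp (measurable_fst.prodMk (by fun_prop))
    have hr := (flow_recur ν (fun x t => act x (t • Z 0)) hφ (hadd 0) hη (clD_pos h0 _)
      (clD_le_one h0 h1 _) hτ (hinv 0) m1 d1).2
    refine ⟨_, ?_, fun x hx => s1 hx.1, hr, fun ω hω => ?_⟩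
    · have : MeasurableSet {x | ENNReal.ofReal (η * clD δ (k + n) ^ 2 / 8) ≤
          volume ({t : ℝ | act x (t • Z 0) ∈ B₁} ∩ Set.Icc (-η) η)} :=
        measurableSet_le measurable_const (measurable_measure_prodMk_left (ν := volume)
          (s := {q : Ω × ℝ | act q.1 (q.2 • Z 0) ∈ B₁} ∩ Prod.snd ⁻¹' Set.Icc (-η) η)
          ((hφ m1).inter (measurable_snd measurableSet_Icc)))
      exact m1.inter this
    · have hS : MeasurableSet {q : ℝ × (Fin n → ℝ) | |q.1| ≤ η ∧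
          ClPth act B η n (fun a => Z a.succ) (act ω (q.1 • Z 0)) q.2} := by
        have h1 : MeasurableSet {q : ℝ × (Fin n → ℝ) | |q.1| ≤ η} :=
          measurableSet_le (by fun_prop) measurable_const
        refine h1.inter ?_
        have hm : Measurable fun q : ℝ × (Fin n → ℝ) => (act ω (q.1 • Z 0), q.2) :=
          (hact.comp (measurable_const.prodMk (by fun_prop))).prodMk measurable_snd
        exact hm (clPth_meas hact hB n _)
      have e : {t | ClPth act B η (n + 1) Z ω t} =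
          MeasurableEquiv.piFinSuccAbove (fun _ => ℝ) 0 ⁻¹' {q : ℝ × (Fin n → ℝ) | |q.1| ≤ η ∧
            ClPth act B η n (fun a => Z a.succ) (act ω (q.1 • Z 0)) q.2} := by
        ext t
        exact ⟨fun h => h.2, fun h => ⟨s1 hω.1, h⟩⟩
      rw [e, (volume_preserving_piFinSuccAbove (fun _ => ℝ) 0).measure_preimage
        hS.nullMeasurableSet, Measure.volume_eq_prod, Measure.prod_apply hS]
      have hI : MeasurableSet ({t : ℝ | act ω (t • Z 0) ∈ B₁} ∩ Set.Icc (-η) η) :=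
        ((hφ.comp (measurable_const.prodMk measurable_id)) m1).inter measurableSet_Icc
      have hp := clD_pos h0 (k + (n + 1))
      calc ENNReal.ofReal ((η * clD δ (k + (n + 1))) ^ (n + 1))
          ≤ ENNReal.ofReal ((η * clD δ (k + n)) ^ n) *
              volume ({t : ℝ | act ω (t • Z 0) ∈ B₁} ∩ Set.Icc (-η) η) := by
            rw [pow_succ, ENNReal.ofReal_mul (by positivity)]
            refine mul_le_mul' (ENNReal.ofReal_le_ofReal (by gcongr)) (le_trans (le_of_eq ?_) hω.2)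
            rw [mul_div_assoc]; rfl
        _ ≤ _ := by
            rw [← setLIntegral_const, ← lintegral_indicator hI]
            refine lintegral_mono fun t => ?_
            by_cases ht : t ∈ {t : ℝ | act ω (t • Z 0) ∈ B₁} ∩ Set.Icc (-η) η
            · rw [Set.indicator_of_mem ht]
              exact (v1 _ ht.1).trans (measure_mono fun u hu => ⟨abs_le.2 ht.2, hu⟩)
            · rw [Set.indicator_of_notMem ht]; exact zero_le

end Pth

namespace NL

variable {E : Type} [NormedAddCommGroup E] [NormedSpace ℝ E] [FiniteDimensional ℝ E]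
  [MeasurableSpace E] [BorelSpace E] (N : NL E)

variable {ι : Type} [Fintype ι] (X : ι → E)

section Rch

variable {Ω : Type} (act : Ω → E → Ω) (A : Set Ω) (h : ι → ℝ)

/-- `y` is reached from `ω` by at most `k` one-letter moves inside `A` -/
inductive ClR : Ω → E → ℕ → Prop
  | nil {ω : Ω} (k : ℕ) : ω ∈ A → ClR ω 0 k
  | cons {ω : Ω} (i : ι) (s : ℝ) {y : E} {k : ℕ} : ω ∈ A → |s| ≤ Real.exp (h i) →
      ClR (act ω (s • X i)) y k → ClR ω (N.mul (s • X i) y) (k + 1)

variable {N X act A h}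

omit [MeasurableSpace E] [BorelSpace E] in
theorem cl_mul_mem {x y : E} (hx : x ∈ N.idl X Set.univ) (hy : y ∈ N.idl X Set.univ) :
    N.mul x y ∈ N.idl X Set.univ := (N.isLN_bI X Set.univ 0).mul_mem hx hy

omit [FiniteDimensional ℝ E] [MeasurableSpace E] [BorelSpace E] [Fintype ι] in
theorem cl_letter (s : ℝ) (i : ι) : s • X i ∈ N.idl X Set.univ :=
  Submodule.smul_mem _ _ (N.letter_mem X (Set.mem_univ i))

omit [FiniteDimensional ℝ E] [MeasurableSpace E] [BorelSpace E] [Fintype ι] in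
theorem ClR.mem {ω : Ω} {y : E} {k : ℕ} (r : ClR N X act A h ω y k) : ω ∈ A := by
  cases r <;> assumption

omit [MeasurableSpace E] [BorelSpace E] in
theorem ClR.memS {ω : Ω} {y : E} {k : ℕ} (r : ClR N X act A h ω y k) : y ∈ N.idl X Set.univ := by
  induction r with
  | nil => exact zero_mem _
  | cons i s _ _ _ ih => exact cl_mul_mem (cl_letter s i) ih

omit [FiniteDimensional ℝ E] [MeasurableSpace E] [BorelSpace E] [Fintype ι] in
theorem ClR.mono {ω : Ω} {y : E} {k k' : ℕ} (r : ClR N X act A h ω y k) (hk : k ≤ k') :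
    ClR N X act A h ω y k' := by
  induction r generalizing k' with
  | nil _ hω => exact .nil _ hω
  | cons i s hω hs _ ih =>
    obtain ⟨k'', rfl⟩ : ∃ k'', k' = k'' + 1 := ⟨k' - 1, by omega⟩
    exact .cons i s hω hs (ih (by omega))

variable (h0 : ∀ ω, act ω 0 = ω)
  (hm : ∀ ω, ∀ x ∈ N.idl X Set.univ, ∀ y ∈ N.idl X Set.univ, act (act ω x) y = act ω (N.mul x y))
include h0 hm

omit [MeasurableSpace E] [BorelSpace E] in
theorem ClR.append {ω : Ω} {y y' : E} {k k' : ℕ} (r : ClR N X act A h ω y k)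
    (r' : ClR N X act A h (act ω y) y' k') : ClR N X act A h ω (N.mul y y') (k + k') := by
  induction r with
  | nil k hω => rw [h0] at r'; rw [N.zero_mul']; exact r'.mono (by omega)
  | cons i s hω hs r ih =>
    rw [← hm _ _ (cl_letter s i) _ r.memS] at r'
    rw [N.mul_assoc', add_right_comm]
    exact .cons i s hω hs (ih r')

omit [MeasurableSpace E] [BorelSpace E] in
theorem ClR.end_mem {ω : Ω} {y : E} {k : ℕ} (r : ClR N X act A h ω y k) : act ω y ∈ A := by
  induction r with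
  | nil k hω => rwa [h0]
  | cons i s hω hs r ih => rwa [← hm _ _ (cl_letter s i) _ r.memS]

omit [FiniteDimensional ℝ E] [MeasurableSpace E] [BorelSpace E] [Fintype ι] h0 hm in
theorem ClR.single {ω : Ω} {i : ι} {s : ℝ} (hω : ω ∈ A) (hs : |s| ≤ Real.exp (h i))
    (hω' : act ω (s • X i) ∈ A) : ClR N X act A h ω (s • X i) 1 := by
  have := ClR.cons (N := N) i s hω hs (.nil 0 hω')
  rwa [N.mul_zero'] at this

omit [MeasurableSpace E] [BorelSpace E] in
theorem ClR.rev {ω : Ω} {y : E} {k : ℕ} (r : ClR N X act A h ω y k) :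
    ClR N X act A h (act ω y) (-y) k := by
  induction r with
  | nil k hω => rw [h0, neg_zero]; exact .nil _ hω
  | cons i s hω hs r ih =>
    rw [← hm _ _ (cl_letter s i) _ r.memS, N.neg_mul_rev]
    refine ih.append h0 hm ?_
    rw [hm _ _ r.memS _ (neg_mem r.memS), N.mul_neg', h0, ← neg_smul]
    refine .single r.mem (by rwa [abs_neg]) ?_
    rwa [hm _ _ (cl_letter s i) _ (cl_letter _ i), neg_smul, N.mul_neg', h0]

omit [MeasurableSpace E] [BorelSpace E] in
theorem ClR.toList {ω : Ω} {y : E} {k : ℕ} (r : ClR N X act A h ω y k) :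
    ∃ l : List (ι × ℝ), l.length ≤ k ∧ (∀ q ∈ l, |q.2| ≤ Real.exp (h q.1)) ∧
      N.prod (l.map fun q => q.2 • X q.1) = y ∧
      ∀ b, act ω (N.prod ((l.take b).map fun q => q.2 • X q.1)) ∈ A := by
  induction r with
  | nil k hω => exact ⟨[], by simp, by simp, by simp, by simpa [h0]⟩
  | cons i s hω hs r ih =>
    obtain ⟨l, l1, l2, l3, l4⟩ := ih
    refine ⟨(i, s) :: l, by simpa, by simpa [hs] using l2, by simp [l3], fun b => ?_⟩
    cases b with
    | zero => simpa [h0]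
    | succ b =>
      rw [List.take_succ_cons, List.map_cons, N.prod_cons, ← hm _ _ (cl_letter s i)]
      · exact l4 b
      · refine (N.isLN_bI X Set.univ 0).prod_mem fun x hx => ?_
        obtain ⟨q, -, rfl⟩ := List.mem_map.1 hx
        exact cl_letter _ _

omit [MeasurableSpace E] [BorelSpace E] in
theorem ClR.snoc {ω : Ω} {g : E} {k : ℕ} {i : ι} {s : ℝ} (hs : |s| ≤ Real.exp (h i))
    (r : ClR N X act A h ω g k) (r' : ClR N X act A h (act ω (N.Ad g (s • X i))) g k) :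
    ClR N X act A h ω (N.mul g (s • X i)) (k + 1) := by
  refine r.append h0 hm (.single (r.end_mem h0 hm) hs ?_)
  have := r'.end_mem h0 hm
  rwa [← N.mul_mul_neg, hm _ _ (cl_mul_mem (cl_mul_mem r.memS (cl_letter s i)) (neg_mem r.memS)) _
    r.memS, N.mul_assoc', N.neg_mul', N.mul_zero', ← hm _ _ r.memS _ (cl_letter s i)] at this

omit [MeasurableSpace E] [BorelSpace E] in
theorem ClR.conj {ω : Ω} {g : E} {k : ℕ} {i : ι} {s : ℝ} (hs : |s| ≤ Real.exp (h i))
    (r : ClR N X act A h ω g k) (r' : ClR N X act A h (act ω (N.Ad g (s • X i))) g k) :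
    ClR N X act A h ω (N.Ad g (s • X i)) (k + 1 + k) := by
  have r1 := r.snoc h0 hm hs r'
  have r2 := r'.rev h0 hm
  rw [← N.mul_mul_neg] at r2 ⊢
  refine r1.append h0 hm ?_
  rwa [hm _ _ (cl_mul_mem r1.memS (neg_mem r.memS)) _ r.memS, N.mul_assoc', N.neg_mul',
    N.mul_zero'] at r2

theorem cl_path {B : Set Ω} (hBA : B ⊆ A) {η : ℝ} {k n : ℕ} {Z : Fin n → E}
    (hZ : ∀ a, ∀ x ∈ B, ∀ t : ℝ, |t| ≤ η → act x (t • Z a) ∈ B → ClR N X act A h x (t • Z a) k)
    {ω : Ω} {t : Fin n → ℝ} (hp : ClPth act B η n Z ω t) :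
    ClR N X act A h ω (N.prod (List.ofFn fun a => t a • Z a)) (n * k) := by
  induction n generalizing ω with
  | zero => simpa using ClR.nil 0 (hBA hp)
  | succ n ih =>
    rw [List.ofFn_succ, N.prod_cons, Nat.succ_mul, add_comm (n * k) k]
    exact (hZ 0 ω hp.1 _ hp.2.1 hp.2.2.mem).append h0 hm (ih (fun a => hZ a.succ) hp.2.2)

end Rch

/-- the product of scaled letters -/
noncomputable def clP (h : ι → ℝ) (l : List (ι × ℝ)) : E :=
  N.prod (l.map fun q => (q.2 * Real.exp (h q.1)) • X q.1)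

/-- the conjugated letters -/
noncomputable def clZ (h : ι → ℝ) (a : List (ι × ℝ) × ι) : E :=
  N.Ad (N.clP X h a.1) (Real.exp (h a.2) • X a.2)

omit [MeasurableSpace E] [BorelSpace E] in
theorem cl_bound : ∃ A : ℝ, 1 ≤ A ∧ ∀ (h : ι → ℝ) (a : List (ι × ℝ) × ι), a.1.length ≤ N.m →
    (∀ q ∈ a.1, |q.2| ≤ 1) →
      N.clZ X h a ∈ N.idl X Set.univ ∧ N.bI X Set.univ h (N.clZ X h a) ≤ A := by
  obtain ⟨C, e, hC, hp⟩ := N.ln_prod_bdd N.m
  refine ⟨max 1 ((1 + C * (1 + 2 ^ N.m) ^ e * 2 ^ N.m) ^ N.m * 2 ^ N.m), le_max_left _ _,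
    fun h a h1 h2 => ?_⟩
  have hL := N.isLN_bI X Set.univ h
  have hl : ∀ (s : ℝ) i, |s| ≤ 1 →
      N.bI X Set.univ h ((s * Real.exp (h i)) • X i) ≤ 2 ^ N.m := by
    intro s i hs
    rw [N.bI_smul X _ _ _ (N.letter_mem X (Set.mem_univ i)), abs_mul, abs_of_pos (Real.exp_pos _)]
    calc _ ≤ 1 * Real.exp (h i) * (2 ^ N.m * Real.exp (-h i)) :=
          mul_le_mul (by gcongr) (N.bI_letter X h (Set.mem_univ i)) (N.bI_nonneg X _ _ _)
            (by positivity)
      _ = _ := by rw [Real.exp_neg]; field_simp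
  have hl' : ∀ x ∈ a.1.map fun q => (q.2 * Real.exp (h q.1)) • X q.1,
      x ∈ N.idl X Set.univ ∧ N.bI X Set.univ h x ≤ 2 ^ N.m := by
    intro x hx
    obtain ⟨q, hq, rfl⟩ := List.mem_map.1 hx
    exact ⟨cl_letter _ _, hl _ _ (h2 q hq)⟩
  have hg : N.clP X h a.1 ∈ N.idl X Set.univ := hL.prod_mem fun x hx => (hl' x hx).1
  have hg' := hp _ _ hL _ (by simpa using h1) _ (by positivity) hl'
  refine ⟨hL.Ad_mem hg (cl_letter _ _), le_trans ?_ (le_max_right _ _)⟩
  refine (N.ln_Ad _ _ hL.add_le hL.smul _ (A := C * (1 + 2 ^ N.m) ^ e * 2 ^ N.m) (by positivity)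
    (fun y hy => ⟨hL.br_mem _ hg _ hy, (hL.br_le _ hg _ hy).trans
      (mul_le_mul_of_nonneg_right hg' (hL.nonneg hy))⟩) (cl_letter _ _)).trans ?_
  have := hl 1 a.2 (by simp)
  rw [one_mul] at this
  gcongr

theorem cl_step {Ω : Type} [MeasurableSpace Ω] (ν : Measure Ω) [IsProbabilityMeasure ν]
    {act : Ω → E → Ω} (hact : Measurable fun q : Ω × E => act q.1 q.2) (h0 : ∀ ω, act ω 0 = ω)
    (hm : ∀ ω, ∀ x ∈ N.idl X Set.univ, ∀ y ∈ N.idl X Set.univ,
      act (act ω x) y = act ω (N.mul x y))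
    {h h' : ι → ℝ} (hh : ∀ i, h' i ≤ h i) {δ τ : ℝ} (hδ0 : 0 < δ) (hδ1 : δ ≤ 1)
    (hinv : ∀ a : List (ι × ℝ) × ι, a.1.length ≤ N.m → (∀ q ∈ a.1, |q.2| ≤ 1) →
      N.clZ X h' a ∈ N.idl X Set.univ ∧
        ∀ t : ℝ, |t| ≤ 1 → Near ν (ν.map fun x => act x (t • N.clZ X h' a)) τ)
    {A B : Set Ω} (hB : MeasurableSet B) (hBA : B ⊆ A) {k K : ℕ} (hk : k + N.m + 1 ≤ K)
    (hτ : τ ≤ clD δ K) (hBδ : clD δ k ≤ ν.real B) {P : List (ι × ℝ) × ι → Prop}
    (hgr : ∀ T : List (ι × ℝ) → ι → Set ℝ,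
      (∀ l i, ENNReal.ofReal (clD δ K) ≤ volume (T l i ∩ Set.Icc (-1) 1)) →
      ∃ (l : List (ι × ℝ)) (j : ι), l.length ≤ N.m ∧
        (∀ (b : ℕ) (hb : b < l.length), (l[b]).2 ∈ T (l.take b) (l[b]).1 ∩ Set.Icc (-1) 1) ∧
        P (l, j)) :
    ∃ a : List (ι × ℝ) × ι, a.1.length ≤ N.m ∧ (∀ q ∈ a.1, |q.2| ≤ 1) ∧ P a ∧
      ∃ B', MeasurableSet B' ∧ B' ⊆ B ∧ clD δ (k + N.m) ≤ ν.real B' ∧
        ∀ x ∈ B', ClR N X act A h x (N.clP X h' a.1) N.m := by
  let Good : List (ι × ℝ) → Prop := fun l => ∃ B', MeasurableSet B' ∧ B' ⊆ B ∧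
    clD δ (k + l.length) ≤ ν.real B' ∧ ∀ x ∈ B', ClR N X act A h x (N.clP X h' l) l.length
  obtain ⟨l, j, l1, l2, l3⟩ := hgr (fun l i => {t | l.length ≤ N.m → (∀ q ∈ l, |q.2| ≤ 1) →
      Good l → |t| ≤ 1 → Good (l ++ [(i, t)])}) fun l i => by
    by_cases hc : l.length ≤ N.m ∧ (∀ q ∈ l, |q.2| ≤ 1) ∧ Good l
    · obtain ⟨c1, c2, B', m1, s1, d1, r1⟩ := hc
      obtain ⟨z1, z2⟩ := hinv (l, i) c1 c2
      have hφ : Measurable fun q : Ω × ℝ => act q.1 (q.2 • N.clZ X h' (l, i)) :=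
        hact.comp (measurable_fst.prodMk (by fun_prop))
      have hK : clD δ K ≤ clD δ (k + l.length + 1) := clD_anti hδ0 hδ1 (by omega)
      have hr := (flow_recur ν (fun x t => act x (t • N.clZ X h' (l, i))) hφ
        (fun x s t => by
          rw [hm _ _ (Submodule.smul_mem _ _ z1) _ (Submodule.smul_mem _ _ z1), N.smul_mul_smul])
        one_pos (clD_pos hδ0 _) (clD_le_one hδ0 hδ1 _) (hτ.trans hK) z2 m1 d1).1
      refine le_trans (ENNReal.ofReal_le_ofReal (by rw [one_mul]; exact hK))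
        (hr.trans (measure_mono (Set.inter_subset_inter_left _ fun t ht _ _ _ ht1 => ?_)))
      refine ⟨_, m1.inter ((hφ.comp (measurable_id.prodMk measurable_const)) m1),
        fun x hx => s1 hx.1, by rw [List.length_append, List.length_singleton]; exact ht,
        fun x hx => ?_⟩
      have e : N.clP X h' (l ++ [(i, t)]) =
          N.mul (N.clP X h' l) ((t * Real.exp (h' i)) • X i) := by
        simp [clP, N.prod_append]
      rw [e, List.length_append, List.length_singleton]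
      refine (r1 x hx.1).snoc h0 hm ?_ (r1 _ ?_)
      · rw [abs_mul, abs_of_pos (Real.exp_pos _)]
        exact (mul_le_of_le_one_left (Real.exp_pos _).le ht1).trans (Real.exp_le_exp.2 (hh i))
      · rw [mul_smul, map_smul]; exact hx.2
    · have : {t | l.length ≤ N.m → (∀ q ∈ l, |q.2| ≤ 1) → Good l → |t| ≤ 1 →
          Good (l ++ [(i, t)])} = Set.univ :=
        Set.eq_univ_of_forall fun t a b c => absurd ⟨a, b, c⟩ hc
      rw [this, Set.univ_inter, Real.volume_Icc]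
      exact ENNReal.ofReal_le_ofReal (by linarith [clD_le_one hδ0 hδ1 K])
  have l4 : ∀ q ∈ l, |q.2| ≤ 1 := by
    intro q hq
    obtain ⟨b, hb, rfl⟩ := List.getElem_of_mem hq
    exact abs_le.2 (l2 b hb).2
  have l5 : ∀ b ≤ l.length, Good (l.take b) := by
    intro b
    induction b with
    | zero =>
      exact fun _ => ⟨B, hB, subset_rfl, by simpa using hBδ, fun x hx => by
        simpa [clP] using ClR.nil 0 (hBA hx)⟩
    | succ b ih =>
      intro hb
      rw [← List.take_append_getElem (by omega : b < l.length)]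
      exact (l2 b (by omega)).1 (by simp; omega) (fun q hq => l4 q (List.mem_of_mem_take hq))
        (ih (by omega)) (abs_le.2 (l2 b (by omega)).2)
  obtain ⟨B', m1, s1, d1, r1⟩ := l5 _ le_rfl
  rw [List.take_length] at d1 r1
  exact ⟨(l, j), l1, l4, l3, B', m1, s1, (clD_anti hδ0 hδ1 (by omega)).trans d1,
    fun x hx => (r1 x hx).mono l1⟩

/-- **CL-core.**  Replace `h` by `h - c` (`c` a constant; `vol` changes by a bounded factor,
`IsLN.vol_le`, `bI_shift'`) so that all partial products below have norm `≤ 1`.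
(1) `indep` with `R l` recording a measurable `B ⊆ A` of measure `≥ δ_{len l}` such that for each chosen
direction `Ad g Y_j`, `g = y₁ ⋯ y_r`, all `act x (y₁ ⋯ y_b) ∈ A` for `x ∈ B`: in `greedy` take
`T l i = {t | ν (B_l ∩ B_l · (t Y_i)⁻¹) ≥ δ'}` (`flow_recur`, first part; here
`B_l = {x ∈ B | all act x (y₁ ⋯ y_b) ∈ A}`, and one applies `flow_recur` to the translated set or to the
conjugated flow `t ↦ act x (t • Ad (y₁ ⋯ y_b) Y_i)`).
(2) With the final `B` and directions `Z_1, …, Z_D`, put `B_D = B`,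
`B_{a-1} = {x ∈ B_a | volume {t ∈ [-η,η] | act x (t Z_a) ∈ B_a} ≥ c_a}` (`flow_recur`, second part).
For `ω ∈ B_0` the set `𝒯` of `t` with `act ω (t₁ Z₁ ⋯ t_a Z_a) ∈ B_a` for all `a` has volume `≥ ∏ c_a`
(Fubini); `chart`, `hm_image_ge`.  A move `t Z_a = g • (t Y_j) • (-g)` between two points of `B` is a
chain of `≤ 2 m + 1` one-letter moves inside `A`. -/
theorem cl_core : ∃ n₀ : ℕ, ∀ δ : ℝ, 0 < δ → ∃ c τ : ℝ, 0 < c ∧ 0 < τ ∧
    ∀ (Ω : Type) [MeasurableSpace Ω] (ν : Measure Ω) [IsProbabilityMeasure ν] (act : Ω → E → Ω),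
      (Measurable fun q : Ω × E => act q.1 q.2) → (∀ ω, act ω 0 = ω) →
      (∀ ω, ∀ x ∈ N.idl X Set.univ, ∀ y ∈ N.idl X Set.univ,
        act (act ω x) y = act ω (N.mul x y)) →
      ∀ h : ι → ℝ, (∀ y ∈ N.idl X Set.univ, N.bI X Set.univ h y ≤ 1 →
        Near ν (ν.map fun ω => act ω y) τ) →
      ∀ A : Set Ω, MeasurableSet A → δ ≤ ν.real A →
        ∃ ω ∈ A, ENNReal.ofReal (c * vol (N.idl X Set.univ) (N.bI X Set.univ h)) ≤
          hm (N.idl X Set.univ) {y | ∃ l : List (ι × ℝ), l.length ≤ n₀ ∧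
            (∀ q ∈ l, |q.2| ≤ Real.exp (h q.1)) ∧ N.prod (l.map fun q => q.2 • X q.1) = y ∧
            ∀ b, act ω (N.prod ((l.take b).map fun q => q.2 • X q.1)) ∈ A} := by
  set D := Module.finrank ℝ (N.idl X Set.univ) with hD
  refine ⟨D * (N.m + 1 + N.m), fun δ' hδ' => ?_⟩
  set δ := min δ' 1 with hδ
  have hδ0 : 0 < δ := lt_min hδ' one_pos
  have hδ1 : δ ≤ 1 := min_le_right _ _
  set K := N.m * D + N.m + 1 + D with hK
  obtain ⟨A₂, hA₂, hbd⟩ := N.cl_bound X
  obtain ⟨c₁, hc₁, hgr⟩ := N.greedy X (clD δ K) (clD_pos hδ0 _)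
  obtain ⟨A', hA', hind⟩ := N.indep A₂ c₁ hA₂ hc₁
  obtain ⟨η, hη0, hη1, hch⟩ := N.chart A' (hA₂.trans hA')
  obtain ⟨c₃, hc₃, him⟩ := N.hm_image_ge (2 * A') (by linarith)
  have hκ : 0 ≤ Real.log A₂ := Real.log_nonneg hA₂
  have hp := clD_pos hδ0 (N.m * D + D)
  refine ⟨c₃ * (η * clD δ (N.m * D + D)) ^ D / Real.exp (N.m * Real.log A₂) ^ D, clD δ K,
    by positivity, clD_pos hδ0 _, fun Ω _ ν _ act hact h0 hm h hnear A hA hAδ => ?_⟩
  set h' : ι → ℝ := fun i => h i - Real.log A₂ with hh'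
  have hh : ∀ i, h' i ≤ h i := fun i => by simp only [hh']; linarith
  have hL := N.isLN_bI X Set.univ h
  have hL' := N.isLN_bI X Set.univ h'
  have hinv : ∀ a : List (ι × ℝ) × ι, a.1.length ≤ N.m → (∀ q ∈ a.1, |q.2| ≤ 1) →
      N.clZ X h' a ∈ N.idl X Set.univ ∧
        ∀ t : ℝ, |t| ≤ 1 → Near ν (ν.map fun x => act x (t • N.clZ X h' a)) (clD δ K) := by
    intro a a1 a2
    obtain ⟨z1, z2⟩ := hbd h' a a1 a2
    refine ⟨z1, fun t ht => hnear _ (Submodule.smul_mem _ _ z1) ?_⟩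
    rw [hL.smul _ _ z1]
    refine mul_le_one₀ ht (hL.nonneg z1) ?_
    refine (N.bI_shift X Set.univ hκ (h := h') (fun j => by simp [hh']) z1).trans ?_
    rw [Real.exp_neg, Real.exp_log (by linarith), inv_mul_le_iff₀ (by linarith), mul_one]
    exact z2
  have hAδ' : clD δ 0 ≤ ν.real A := (min_le_left _ _).trans hAδ
  obtain ⟨u, u1, u2, u3⟩ := hind _ _ hL' (List (ι × ℝ) × ι) (fun L => L.length ≤ D →
      ∃ B, MeasurableSet B ∧ B ⊆ A ∧ clD δ (N.m * L.length) ≤ ν.real B ∧ ∀ a ∈ L,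
        (a.1.length ≤ N.m ∧ ∀ q ∈ a.1, |q.2| ≤ 1) ∧
          ∀ x ∈ B, ClR N X act A h x (N.clP X h' a.1) N.m) (N.clZ X h')
    (fun _ => ⟨A, hA, subset_rfl, by simpa using hAδ', by simp⟩) (by
      intro L hR ξ ξ1 ξ2
      by_cases hlen : L.length < D
      · obtain ⟨B, m1, s1, d1, r1⟩ := hR hlen.le
        obtain ⟨a, a1, a2, a3, B', m2, s2, d2, r2⟩ := N.cl_step X ν hact h0 hm hh hδ0 hδ1 hinv m1 s1
          (K := K) (by have := Nat.mul_le_mul_left N.m hlen.le; omega) le_rfl d1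
          (P := fun a => c₁ ≤ |ξ (N.clZ X h' a)|) (hgr h' ξ ξ1 ξ2)
        refine ⟨a, fun _ => ⟨B', m2, s2.trans s1, by simpa [mul_add] using d2, fun a' ha' => ?_⟩,
          (hbd h' a a1 a2).1, (hbd h' a a1 a2).2, a3⟩
        rcases List.mem_append.1 ha' with h1 | h1
        · exact ⟨(r1 a' h1).1, fun x hx => (r1 a' h1).2 x (s2 hx)⟩
        · rw [List.mem_singleton.1 h1]; exact ⟨⟨a1, a2⟩, r2⟩
      · obtain ⟨a, a1, a2, a3, -⟩ := N.cl_step X ν hact h0 hm hh hδ0 hδ1 hinv hA subset_rfl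
          (K := K) (by omega) le_rfl hAδ'
          (P := fun a => c₁ ≤ |ξ (N.clZ X h' a)|) (hgr h' ξ ξ1 ξ2)
        exact ⟨a, fun h1 => absurd h1 (by simp; omega), (hbd h' a a1 a2).1, (hbd h' a a1 a2).2,
          a3⟩)
  obtain ⟨B, m1, s1, d1, r1⟩ := u1 (by simp [hD])
  rw [List.length_ofFn] at d1
  have r2 := fun a => r1 (u a) (List.mem_ofFn.2 ⟨a, rfl⟩)
  obtain ⟨B₀, -, s2, d2, v2⟩ := cl_fub (act := act) ν hact m1 hη0 hδ0 hδ1 (k := N.m * D) d1 D
    (τ := clD δ K)
    (clD_anti hδ0 hδ1 (by omega)) (fun a => N.clZ X h' (u a))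
    (fun a x s t => by
      rw [hm _ _ (Submodule.smul_mem _ _ (u2 a).1) _ (Submodule.smul_mem _ _ (u2 a).1),
        N.smul_mul_smul])
    fun a t ht => (hinv _ (r2 a).1.1 (r2 a).1.2).2 t (ht.trans hη1)
  obtain ⟨ω, hω⟩ : B₀.Nonempty := by
    rw [Set.nonempty_iff_ne_empty]; rintro rfl
    simp at d2; linarith
  refine ⟨ω, s1 (s2 hω), ?_⟩
  have hmem : ∀ t : Fin D → ℝ,
      N.prod (List.ofFn fun a => t a • N.clZ X h' (u a)) ∈ N.idl X Set.univ := fun t =>
    hL.prod_mem fun x hx => by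
      obtain ⟨a, rfl⟩ := List.mem_ofFn.1 hx
      exact Submodule.smul_mem _ _ (u2 a).1
  have key := him _ _ hL' (fun t => N.prod (List.ofFn fun a => t a • N.clZ X h' (u a)))
    {t | ClPth act B η D (fun a => N.clZ X h' (u a)) ω t} (fun t _ => hmem t) (by
      intro t ht t' ht'
      have c1 := (hch _ _ hL' _ (fun a => ⟨(u2 a).1, (u2 a).2.trans hA'⟩) u3).1 t t'
        ((pi_norm_le_iff_of_nonneg hη0.le).2 ht.abs_le)
        ((pi_norm_le_iff_of_nonneg hη0.le).2 ht'.abs_le)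
      have c2 := u3 (t - t')
      simp only [Pi.sub_apply] at c2
      have hs : ∑ a, (t a - t' a) • N.clZ X h' (u a) ∈ N.idl X Set.univ :=
        Submodule.sum_mem _ fun a _ => Submodule.smul_mem _ _ (u2 a).1
      have hd := sub_mem (hmem t) (hmem t')
      have c3 := hL'.sub_le hd (sub_mem hd hs)
      rw [sub_sub_cancel] at c3
      have hA0 : 0 < A' := by linarith
      have c4 : A' * ((2 * A')⁻¹ * ‖t - t'‖) = ‖t - t'‖ / 2 := by field_simp
      nlinarith [mul_le_mul_of_nonneg_left (c3.trans (add_le_add le_rfl c1)) hA0.le])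
  refine le_trans ?_ (((mul_le_mul_right (v2 ω hω) _).trans key).trans (measure_mono ?_))
  · have hv := hL'.vol_le hL (Real.exp_pos _) fun x hx =>
      N.bI_shift' X Set.univ hκ (h := h) (h' := h') (fun j => by simp [hh']) hx
    have := hL'.vol_pos
    rw [← ENNReal.ofReal_mul (by positivity)]
    apply ENNReal.ofReal_le_ofReal
    rw [div_mul_eq_mul_div, div_le_iff₀ (by positivity)]
    calc _ ≤ c₃ * (η * clD δ (N.m * D + D)) ^ D * (Real.exp (N.m * Real.log A₂) ^ D *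
          vol (N.idl X Set.univ) (N.bI X Set.univ h')) := by gcongr
      _ = _ := by ring
  · rintro _ ⟨t, ht, rfl⟩
    refine ClR.toList h0 hm (cl_path h0 hm s1 (fun a x hx s hs hx' => ?_) ht)
    have e : s • N.clZ X h' (u a) =
        N.Ad (N.clP X h' (u a).1) ((s * Real.exp (h' (u a).2)) • X (u a).2) := by
      rw [mul_smul, map_smul]; rfl
    rw [e] at hx' ⊢
    refine ((r2 a).2 x hx).conj h0 hm ?_ ((r2 a).2 _ hx')
    rw [abs_mul, abs_of_pos (Real.exp_pos _)]
    exact (mul_le_of_le_one_left (Real.exp_pos _).le (hs.trans hη1)).trans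
      (Real.exp_le_exp.2 (hh _))

end NL

end Crest.Agent.R182
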