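import Crest.Agent.R182.LN

/-! Row 182, task `R182/BoxChart`: coordinates of the second kind, uniformly in the norm. -/

set_option autoImplicit false

namespace Crest.Agent.R182

open scoped BigOperators

namespace NL

variable {E : Type} [NormedAddCommGroup E] [NormedSpace ℝ E] [FiniteDimensional ℝ E] (N : NL E)

/-- Lipschitz bound for the nonlinear part of a product of `k` small factors -/
theorem chart_lip (k : ℕ) : ∃ K : ℝ, 0 ≤ K ∧ ∀ S p, IsLN N S p → ∀ (x x' : Fin k → E) (ε δ : ℝ),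
    0 ≤ ε → ε ≤ 1 → 0 ≤ δ →
    (∀ a, x a ∈ S ∧ x' a ∈ S ∧ p (x a) ≤ ε ∧ p (x' a) ≤ ε ∧ p (x a - x' a) ≤ δ) →
    p (N.prod (List.ofFn x) - N.prod (List.ofFn x') - ∑ a, (x a - x' a)) ≤ K * ε * δ := by
  induction k with
  | zero =>
    refine ⟨0, le_rfl, fun S p h x x' ε δ _ _ _ _ => ?_⟩
    simp [h.zero]
  | succ k ih =>
    obtain ⟨K, hK0, hK⟩ := ih
    obtain ⟨C, e, hC1, hC⟩ := N.ln_mul_lip
    obtain ⟨C', e', hC1', hC'⟩ := N.ln_prod_bdd k
    set B : ℝ := C' * 2 ^ e' with hB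
    have hB1 : 1 ≤ B := one_le_mul_of_one_le_of_one_le hC1' (one_le_pow₀ (by norm_num))
    refine ⟨C * (1 + B) ^ e * B * (1 + K + k) + K, by positivity, ?_⟩
    intro S p h x x' ε δ hε0 hε1 hδ hx
    have hprod : ∀ y : Fin k → E, (∀ a, y a ∈ S ∧ p (y a) ≤ ε) →
        N.prod (List.ofFn y) ∈ S ∧ p (N.prod (List.ofFn y)) ≤ B * ε := by
      intro y hy
      have hmem : ∀ z ∈ List.ofFn y, z ∈ S ∧ p z ≤ ε := by
        intro z hz
        obtain ⟨a, rfl⟩ := List.mem_ofFn.mp hz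
        exact hy a
      refine ⟨h.prod_mem fun z hz => (hmem z hz).1, ?_⟩
      refine (hC' S p h (List.ofFn y) (by simp) ε hε0 hmem).trans ?_
      refine mul_le_mul_of_nonneg_right ?_ hε0
      exact mul_le_mul_of_nonneg_left (pow_le_pow_left₀ (by linarith) (by linarith) _) (by linarith)
    obtain ⟨hP, hPb⟩ := hprod (fun a => x a.succ) fun a => ⟨(hx _).1, (hx _).2.2.1⟩
    obtain ⟨hP', hPb'⟩ := hprod (fun a => x' a.succ) fun a => ⟨(hx _).2.1, (hx _).2.2.2.1⟩
    have hrec := hK S p h (fun a => x a.succ) (fun a => x' a.succ) ε δ hε0 hε1 hδ fun a => hx _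
    rw [List.ofFn_succ, List.ofFn_succ, N.prod_cons, N.prod_cons, Fin.sum_univ_succ]
    set P := N.prod (List.ofFn fun a : Fin k => x a.succ) with hPdef
    set P' := N.prod (List.ofFn fun a : Fin k => x' a.succ) with hPdef'
    set T := ∑ a : Fin k, (x a.succ - x' a.succ) with hT
    have hTS : T ∈ S := Submodule.sum_mem _ fun a _ => S.sub_mem (hx _).1 (hx _).2.1
    have hTb : p T ≤ k * δ := by
      refine (h.sum_le Finset.univ fun a _ => S.sub_mem (hx _).1 (hx _).2.1).trans ?_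
      refine (Finset.sum_le_card_nsmul _ _ δ fun a _ => (hx _).2.2.2.2).trans ?_
      simp
    have hεB : ε ≤ B * ε := le_mul_of_one_le_left hε0 hB1
    have h1 := hC S p h (x 0) (hx 0).1 P hP (x' 0) (hx 0).2.1 P' hP' (B * ε)
      ((hx 0).2.2.1.trans hεB) hPb ((hx 0).2.2.2.1.trans hεB) hPb'
    have hPP : p (P - P') ≤ (K + k) * δ := by
      have h2 := h.add_le (P - P' - T) (S.sub_mem (S.sub_mem hP hP') hTS) T hTS
      rw [sub_add_cancel] at h2
      have h3 : K * ε * δ ≤ K * δ := by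
        rw [mul_assoc]
        exact mul_le_mul_of_nonneg_left (mul_le_of_le_one_left hδ hε1) hK0
      linarith
    have hBε : B * ε ≤ B := mul_le_of_le_one_right (by linarith) hε1
    have h4 : C * (1 + B * ε) ^ e * (B * ε) * (p (x 0 - x' 0) + p (P - P')) ≤
        C * (1 + B) ^ e * (B * ε) * ((1 + K + k) * δ) := by
      have h5 := (hx 0).2.2.2.2
      have h6 := h.nonneg (S.sub_mem (hx 0).1 (hx 0).2.1)
      have h7 := h.nonneg (S.sub_mem hP hP')
      have h8 : 0 ≤ B * ε := by positivity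
      gcongr
      linarith
    have hm1 : (N.mul (x 0) P - x 0 - P) - (N.mul (x' 0) P' - x' 0 - P') ∈ S :=
      S.sub_mem (S.sub_mem (S.sub_mem (h.mul_mem (hx 0).1 hP) (hx 0).1) hP)
        (S.sub_mem (S.sub_mem (h.mul_mem (hx 0).2.1 hP') (hx 0).2.1) hP')
    have h9 := h.add_le _ hm1 (P - P' - T) (S.sub_mem (S.sub_mem hP hP') hTS)
    have e1 : N.mul (x 0) P - N.mul (x' 0) P' - (x 0 - x' 0 + T) =
        (N.mul (x 0) P - x 0 - P) - (N.mul (x' 0) P' - x' 0 - P') + (P - P' - T) := by abel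
    rw [e1]
    have e2 : (C * (1 + B) ^ e * B * (1 + K + k) + K) * ε * δ =
        C * (1 + B) ^ e * (B * ε) * ((1 + K + k) * δ) + K * ε * δ := by ring
    rw [e2]
    linarith

theorem chart_prod_zero (k : ℕ) : N.prod (List.ofFn fun _ : Fin k => (0 : E)) = 0 := by
  induction k with
  | zero => simp
  | succ k ih => rw [List.ofFn_succ, N.prod_cons, ih, N.mul_zero']

/-- **Local chart.**  `Y a` (`a : Fin D`, `D = finrank S`) have norm `≤ A` and are quantitatively
independent: `‖t‖ ≤ A * p (∑ t a • Y a)`, and every `x ∈ S` is some `∑ t a • Y a`.  Then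
`Φ t = prod (t a • Y a)` is, for `‖t‖ ≤ η`, a small Lipschitz perturbation of the linear map
(`ln_mul_lip` and induction on the number of factors): it is antilipschitz and its image contains a
ball (`ApproximatesLinearOn.surjOn_closedBall_of_nonlinearRightInverse`, or a contraction argument,
in the coordinates `t`). -/
theorem chart (A : ℝ) (hA : 1 ≤ A) : ∃ η : ℝ, 0 < η ∧ η ≤ 1 ∧ ∀ S p, IsLN N S p →
    ∀ Y : Fin (Module.finrank ℝ S) → E, (∀ a, Y a ∈ S ∧ p (Y a) ≤ A) →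
      (∀ t : Fin (Module.finrank ℝ S) → ℝ, ‖t‖ ≤ A * p (∑ a, t a • Y a)) →
      (∀ t t' : Fin (Module.finrank ℝ S) → ℝ, ‖t‖ ≤ η → ‖t'‖ ≤ η →
        p (N.prod (List.ofFn fun a => t a • Y a) - N.prod (List.ofFn fun a => t' a • Y a) -
          ∑ a, (t a - t' a) • Y a) ≤ (2 * A)⁻¹ * ‖t - t'‖) ∧
      ∀ x ∈ S, p x ≤ η / (2 * A) →
        ∃ t : Fin (Module.finrank ℝ S) → ℝ, ‖t‖ ≤ η ∧
          N.prod (List.ofFn fun a => t a • Y a) = x := by
  classical
  choose K hK0 hK using N.chart_lip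
  set M : ℝ := ∑ k ∈ Finset.range (Module.finrank ℝ E + 1), K k with hM
  have hM0 : 0 ≤ M := Finset.sum_nonneg fun k _ => hK0 k
  have hA0 : 0 < A := by linarith
  have hA3 : A ≤ A ^ 3 := le_self_pow₀ hA (by norm_num)
  have hden : A ≤ 2 * (M + 1) * A ^ 3 := by nlinarith [pow_pos hA0 3]
  have hden0 : 0 < 2 * (M + 1) * A ^ 3 := by positivity
  set η : ℝ := (2 * (M + 1) * A ^ 3)⁻¹ with hη
  have hη0 : 0 < η := by positivity
  have hηA : η * A ≤ 1 := by
    rw [hη, inv_mul_le_iff₀ hden0]; linarith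
  have hη1 : η ≤ 1 := (le_mul_of_one_le_right hη0.le hA).trans hηA
  refine ⟨η, hη0, hη1, ?_⟩
  intro S p h Y hY hind
  have hKM : K (Module.finrank ℝ S) ≤ M :=
    Finset.single_le_sum (f := K) (fun k _ => hK0 k)
      (Finset.mem_range.mpr (Nat.lt_succ_of_le (Submodule.finrank_le S)))
  have hsm : ∀ (c : ℝ) a, p (c • Y a) ≤ |c| * A := by
    intro c a
    rw [h.smul c _ (hY a).1]
    exact mul_le_mul_of_nonneg_left (hY a).2 (abs_nonneg c)
  have hlip : ∀ t t' : Fin (Module.finrank ℝ S) → ℝ, ‖t‖ ≤ η → ‖t'‖ ≤ η →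
      p (N.prod (List.ofFn fun a => t a • Y a) - N.prod (List.ofFn fun a => t' a • Y a) -
        ∑ a, (t a - t' a) • Y a) ≤ (2 * A)⁻¹ * ‖t - t'‖ := by
    intro t t' ht ht'
    have h1 := hK _ S p h (fun a => t a • Y a) (fun a => t' a • Y a) (η * A) (‖t - t'‖ * A)
      (by positivity) hηA (by positivity) fun a => by
        refine ⟨S.smul_mem _ (hY a).1, S.smul_mem _ (hY a).1, (hsm _ a).trans ?_, (hsm _ a).trans ?_, ?_⟩
        · exact mul_le_mul_of_nonneg_right ((norm_le_pi_norm t a).trans ht) hA0.le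
        · exact mul_le_mul_of_nonneg_right ((norm_le_pi_norm t' a).trans ht') hA0.le
        · rw [← sub_smul]
          exact (hsm _ a).trans (mul_le_mul_of_nonneg_right (norm_le_pi_norm (t - t') a) hA0.le)
    simp only [← sub_smul] at h1
    refine h1.trans ?_
    have h2 : K (Module.finrank ℝ S) * (η * A) * (‖t - t'‖ * A) ≤ (M + 1) * (η * A) * (‖t - t'‖ * A) := by
      gcongr
      linarith
    refine h2.trans (le_of_eq ?_)
    rw [hη]
    field_simp
  refine ⟨hlip, ?_⟩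
  intro x hxS hx
  -- the linear map is onto `S`
  have hsurj : ∀ z ∈ S, ∃ t : Fin (Module.finrank ℝ S) → ℝ, ∑ a, t a • Y a = z := by
    let L : (Fin (Module.finrank ℝ S) → ℝ) →ₗ[ℝ] S :=
      Fintype.linearCombination ℝ fun a => (⟨Y a, (hY a).1⟩ : S)
    have hL : ∀ t, ((L t : S) : E) = ∑ a, t a • Y a := by
      intro t
      simp [L, Fintype.linearCombination_apply]
    have hinj : Function.Injective L := by
      rw [injective_iff_map_eq_zero]
      intro t ht
      have h1 := hind t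
      rw [← hL, ht, ZeroMemClass.coe_zero, h.zero, mul_zero] at h1
      exact norm_le_zero_iff.mp h1
    have hs : Function.Surjective L :=
      (LinearMap.injective_iff_surjective_of_finrank_eq_finrank (by simp)).mp hinj
    intro z hz
    obtain ⟨t, ht⟩ := hs ⟨z, hz⟩
    exact ⟨t, by rw [← hL, ht]⟩
  choose! σ hσ using hsurj
  set Φ : (Fin (Module.finrank ℝ S) → ℝ) → E := fun t => N.prod (List.ofFn fun a => t a • Y a) with hΦ
  set L : (Fin (Module.finrank ℝ S) → ℝ) → E := fun t => ∑ a, t a • Y a with hLdef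
  have hΦS : ∀ t, Φ t ∈ S := by
    intro t
    refine h.prod_mem fun z hz => ?_
    obtain ⟨a, rfl⟩ := List.mem_ofFn.mp hz
    exact S.smul_mem _ (hY a).1
  have hLS : ∀ t, L t ∈ S := fun t => Submodule.sum_mem _ fun a _ => S.smul_mem _ (hY a).1
  have hLsub : ∀ t t', L (t - t') = L t - L t' := by
    intro t t'
    simp only [hLdef, Pi.sub_apply, sub_smul, Finset.sum_sub_distrib]
  have hlip' : ∀ t t', ‖t‖ ≤ η → ‖t'‖ ≤ η → p (Φ t - Φ t' - (L t - L t')) ≤ (2 * A)⁻¹ * ‖t - t'‖ := by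
    intro t t' ht ht'
    rw [← hLsub]
    exact hlip t t' ht ht'
  have hΦ0 : Φ 0 = 0 := by
    simp only [hΦ, Pi.zero_apply, zero_smul]
    exact N.chart_prod_zero _
  have hL0 : L 0 = 0 := by simp [hLdef]
  set T : (Fin (Module.finrank ℝ S) → ℝ) → (Fin (Module.finrank ℝ S) → ℝ) :=
    fun t => σ (x - (Φ t - L t)) with hT
  have hLT : ∀ t, L (T t) = x - (Φ t - L t) := fun t =>
    hσ _ (S.sub_mem hxS (S.sub_mem (hΦS t) (hLS t)))
  have hhalf : A * (2 * A)⁻¹ = 1 / 2 := by field_simp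
  have hmaps : Set.MapsTo T (Metric.closedBall 0 η) (Metric.closedBall 0 η) := by
    intro t ht
    rw [mem_closedBall_zero_iff] at ht ⊢
    have h1 : ‖T t‖ ≤ A * p (L (T t)) := hind (T t)
    rw [hLT] at h1
    have h2 := h.sub_le hxS (S.sub_mem (hΦS t) (hLS t))
    have h3 := hlip' t 0 ht (by simpa using hη0.le)
    rw [hΦ0, hL0, sub_zero, sub_zero, sub_zero] at h3
    have h4 : (2 * A)⁻¹ * ‖t‖ ≤ (2 * A)⁻¹ * η := mul_le_mul_of_nonneg_left ht (by positivity)
    have h5 : p (x - (Φ t - L t)) ≤ (2 * A)⁻¹ * η + (2 * A)⁻¹ * η := by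
      rw [div_eq_inv_mul] at hx
      linarith
    calc ‖T t‖ ≤ A * ((2 * A)⁻¹ * η + (2 * A)⁻¹ * η) := h1.trans (mul_le_mul_of_nonneg_left h5 hA0.le)
      _ = η := by field_simp; ring
  have hcontr : ∀ t t', ‖t‖ ≤ η → ‖t'‖ ≤ η → ‖T t - T t'‖ ≤ 1 / 2 * ‖t - t'‖ := by
    intro t t' ht ht'
    have h1 : ‖T t - T t'‖ ≤ A * p (L (T t - T t')) := hind (T t - T t')
    have e1 : L (T t - T t') = -(Φ t - Φ t' - (L t - L t')) := by
      rw [hLsub, hLT, hLT]; abel
    rw [e1, h.neg (S.sub_mem (S.sub_mem (hΦS t) (hΦS t')) (S.sub_mem (hLS t) (hLS t')))] at h1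
    calc ‖T t - T t'‖ ≤ A * ((2 * A)⁻¹ * ‖t - t'‖) :=
          h1.trans (mul_le_mul_of_nonneg_left (hlip' t t' ht ht') hA0.le)
      _ = 1 / 2 * ‖t - t'‖ := by rw [← mul_assoc, hhalf]
  have hcw : ContractingWith (1 / 2) (hmaps.restrict T _ _) := by
    refine ⟨by norm_num, LipschitzWith.of_dist_le_mul fun a b => ?_⟩
    have := hcontr a.1 b.1 (mem_closedBall_zero_iff.mp a.2) (mem_closedBall_zero_iff.mp b.2)
    rw [Subtype.dist_eq, Subtype.dist_eq, dist_eq_norm, dist_eq_norm]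
    simpa using this
  obtain ⟨t, ht, hfix, -⟩ := ContractingWith.exists_fixedPoint' Metric.isClosed_closedBall.isComplete hmaps hcw
    (x := 0) (Metric.mem_closedBall_self hη0.le) (edist_ne_top _ _)
  refine ⟨t, mem_closedBall_zero_iff.mp ht, ?_⟩
  have h1 := hLT t
  rw [show T t = t from hfix] at h1
  change Φ t = x
  have : x - Φ t = 0 := by
    have h2 : x - Φ t = x - (Φ t - L t) - L t := by abel
    rw [h2, ← h1, sub_self]
  exact (sub_eq_zero.mp this).symm

end NL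

end Crest.Agent.R182
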