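import Crest.Agent.R182.BoxAlg

/-! Row 182, task `R182/BoxGreedy`: greedy choice of a conjugated letter. -/

set_option autoImplicit false

namespace Crest.Agent.R182

open scoped BigOperators

open Polynomial MeasureTheory in
/-- the coefficients of a polynomial are controlled by its values on a set of measure `≥ δ` -/
theorem greedy_coeff (m : ℕ) : ∀ δ : ℝ, 0 < δ → ∃ C : ℝ, 1 ≤ C ∧ ∀ (P : ℝ[X]) (A : Set ℝ) (B : ℝ),
    P.natDegree ≤ m → A ⊆ Set.Icc (-1) 1 → ENNReal.ofReal δ ≤ volume A →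
    (∀ t ∈ A, |P.eval t| ≤ B) → ∀ k, |P.coeff k| ≤ C * B := by
  have ne : ∀ {δ : ℝ} {A : Set ℝ}, 0 < δ → ENNReal.ofReal δ ≤ volume A → A.Nonempty :=
    fun hδ h => nonempty_of_measure_ne_zero ((ENNReal.ofReal_pos.2 hδ).trans_le h).ne'
  induction m with
  | zero =>
    refine fun δ hδ => ⟨1, le_rfl, fun P A B hP _ hA hB k => ?_⟩
    obtain ⟨t, ht⟩ := ne hδ hA
    have := hB t ht
    rw [eq_C_of_natDegree_le_zero hP, eval_C] at this
    rw [eq_C_of_natDegree_le_zero hP, coeff_C, one_mul]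
    split_ifs
    · exact this
    · rw [abs_zero]; exact (abs_nonneg _).trans this
  | succ m ih =>
    intro δ hδ
    obtain ⟨C', hC', H⟩ := ih (δ / 2) (by positivity)
    have hC0 : 0 ≤ C' * (8 / δ) := by positivity
    refine ⟨1 + 2 * (C' * (8 / δ)), by linarith, fun P A B hP hA1 hA hB k => ?_⟩
    obtain ⟨t₀, ht₀⟩ := ne hδ hA
    have h0 := hB t₀ ht₀
    have hB0 : 0 ≤ B := (abs_nonneg _).trans h0
    set Q := P /ₘ (X - C t₀) with hQ
    have e : P = C (P.eval t₀) + (X - C t₀) * Q := by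
      rw [← modByMonic_X_sub_C_eq_C_eval, hQ, modByMonic_add_div]
    have hq := H Q (A \ Set.Ioo (t₀ - δ / 4) (t₀ + δ / 4)) (8 / δ * B)
      (by rw [hQ, natDegree_divByMonic _ (monic_X_sub_C _), natDegree_X_sub_C]; omega)
      (Set.sdiff_subset.trans hA1) (by
        refine le_trans ?_ le_measure_sdiff
        rw [Real.volume_Ioo, show t₀ + δ / 4 - (t₀ - δ / 4) = δ / 2 by ring]
        refine le_trans ?_ (tsub_le_tsub_right hA _)
        rw [← ENNReal.ofReal_sub _ (by positivity), show δ - δ / 2 = δ / 2 by ring])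
      fun t ht => by
        have h1 := hB t ht.1
        have h2 : δ / 4 ≤ |t - t₀| := by
          have := ht.2
          rw [Set.mem_Ioo, not_and_or, not_lt, not_lt] at this
          exact le_abs.2 (this.symm.imp (fun h => by linarith) fun h => by linarith)
        have h3 : (t - t₀) * Q.eval t = P.eval t - P.eval t₀ := by
          conv_rhs => rw [e]
          simp
        have h4 : |t - t₀| * |Q.eval t| ≤ 2 * B := by
          rw [← abs_mul, h3]
          exact (abs_sub _ _).trans (by linarith)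
        have h5 := mul_le_mul_of_nonneg_right h2 (abs_nonneg (Q.eval t))
        rw [div_mul_eq_mul_div, le_div_iff₀ hδ]
        linarith
    have h6 : |t₀| ≤ 1 := abs_le.2 (hA1 ht₀)
    have h7 : ∀ k, |t₀ * Q.coeff k| ≤ C' * (8 / δ * B) := fun k => by
      rw [abs_mul]
      exact (mul_le_of_le_one_left (abs_nonneg _) h6).trans (hq k)
    have h8 : 0 ≤ C' * (8 / δ * B) := by positivity
    rw [e, coeff_add, sub_mul, coeff_sub, coeff_C_mul, ← add_sub_assoc]
    refine (abs_sub _ _).trans ?_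
    have := h7 k
    cases k with
    | zero => rw [coeff_C_zero, coeff_X_mul_zero, add_zero]; linarith
    | succ k => rw [coeff_C_succ, coeff_X_mul, zero_add]; linarith [hq k]

open Polynomial MeasureTheory in
theorem greedy_poly (m : ℕ) {δ : ℝ} (hδ : 0 < δ) : ∃ c : ℝ, 0 < c ∧ c ≤ 1 ∧
    ∀ (a : ℕ → ℝ) (A : Set ℝ), 1 ≤ m → A ⊆ Set.Icc (-1) 1 → ENNReal.ofReal δ ≤ volume A →
      ∃ t ∈ A, c * |a 1| ≤ |∑ i ∈ Finset.range (m + 1), a i * t ^ i| := by
  obtain ⟨C, hC, H⟩ := greedy_coeff m δ hδ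
  refine ⟨(2 * C)⁻¹, by positivity, inv_le_one_of_one_le₀ (by linarith), fun a A hm hA1 hA => ?_⟩
  by_contra h
  push Not at h
  obtain ⟨t, ht⟩ := nonempty_of_measure_ne_zero ((ENNReal.ofReal_pos.2 hδ).trans_le hA).ne'
  have h1 := H (∑ i ∈ Finset.range (m + 1), monomial i (a i)) A _
    (natDegree_sum_le_of_forall_le _ _ fun i hi =>
      (natDegree_monomial_le _).trans (Nat.lt_succ_iff.1 (Finset.mem_range.1 hi))) hA1 hA
    (fun t ht => by simpa only [eval_finsetSum, eval_monomial] using (h t ht).le) 1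
  have h2 := (abs_nonneg _).trans_lt (h t ht)
  have h3 : 0 < |a 1| := (mul_pos_iff_of_pos_left (by positivity)).1 h2
  simp only [finsetSum_coeff, coeff_monomial, Finset.sum_ite_eq', Finset.mem_range] at h1
  rw [if_pos (by omega), show C * ((2 * C)⁻¹ * |a 1|) = |a 1| / 2 by field_simp] at h1
  linarith

namespace NL

variable {E : Type} [NormedAddCommGroup E] [NormedSpace ℝ E] [FiniteDimensional ℝ E] (N : NL E)

variable {ι : Type} [Fintype ι] (X : ι → E)

omit [FiniteDimensional ℝ E] [Fintype ι] in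
theorem greedy_aux {δ c : ℝ} (hc : 0 < c)
    (H : ∀ (a : ℕ → ℝ) (A : Set ℝ), A ⊆ Set.Icc (-1) 1 →
      ENNReal.ofReal δ ≤ MeasureTheory.volume A →
      ∃ t ∈ A, c * |a 1| ≤ |∑ i ∈ Finset.range (N.m + 1), a i * t ^ i|) (h : ι → ℝ) (w : List ι) :
    ∀ (i : ι) (ξ : E →ₗ[ℝ] ℝ) (T : List (ι × ℝ) → ι → Set ℝ),
      (∀ l i, ENNReal.ofReal δ ≤ MeasureTheory.volume (T l i ∩ Set.Icc (-1) 1)) →
      ∃ (l : List (ι × ℝ)) (j : ι), l.length = w.length ∧
        (∀ (b : ℕ) (hb : b < l.length), (l[b]).2 ∈ T (l.take b) (l[b]).1 ∩ Set.Icc (-1) 1) ∧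
        c ^ w.length * |ξ (Real.exp (sz h (i :: w)) • N.mon X (i :: w))| ≤
          |ξ (N.Ad (N.prod (l.map fun q => (q.2 * Real.exp (h q.1)) • X q.1))
            (Real.exp (h j) • X j))| := by
  induction w with
  | nil => exact fun i ξ T _ => ⟨[], i, rfl, by simp, by simp [prod, sz, mon]⟩
  | cons i' w ih =>
    intro i ξ T hT
    set z := Real.exp (sz h (i' :: w)) • N.mon X (i' :: w) with hz
    obtain ⟨t, ht, h1⟩ := H (fun k => ξ (((k.factorial : ℝ)⁻¹) •
      (N.br (Real.exp (h i) • X i) ^ k) z)) _ Set.inter_subset_right (hT [] i)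
    obtain ⟨l, j, h2, h3, h4⟩ := ih i' (ξ ∘ₗ N.Ad ((t * Real.exp (h i)) • X i))
      (fun l => T ((i, t) :: l)) fun l => hT _
    refine ⟨(i, t) :: l, j, by simp [h2], fun b hb => ?_, ?_⟩
    · cases b with
      | zero => exact ht
      | succ b => exact h3 b (by simpa using hb)
    · have e1 : ξ (N.Ad ((t * Real.exp (h i)) • X i) z) = ∑ k ∈ Finset.range (N.m + 1),
          ξ (((k.factorial : ℝ)⁻¹) • (N.br (Real.exp (h i) • X i) ^ k) z) * t ^ k := by
        rw [N.Ad_apply, map_sum]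
        refine Finset.sum_congr rfl fun k _ => ?_
        rw [mul_smul, map_smul N.br t, smul_pow, LinearMap.smul_apply, smul_comm, map_smul,
          smul_eq_mul, mul_comm]
      have e2 : Real.exp (sz h (i :: i' :: w)) • N.mon X (i :: i' :: w) =
          (((Nat.factorial 1 : ℕ) : ℝ)⁻¹) • (N.br (Real.exp (h i) • X i) ^ 1) z := by
        simp [hz, mon, sz, Real.exp_add, smul_smul, mul_comm]
      rw [← e1] at h1
      rw [List.map_cons, prod, List.foldr_cons, N.Ad_mul, e2, List.length_cons, pow_succ, mul_assoc]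
      exact (mul_le_mul_of_nonneg_left h1 (by positivity)).trans h4

/-- **Greedy choice of a direction.**  Let `ξ` be a functional with `|ξ| ≤ p` on `S = idl X univ`,
`p = bI h`, and `ξ x₀ ≥ p x₀ / 2` for some `x₀ ≠ 0`.  Then some monomial `l = i₁ ⋯ i_r j` (`r < N.m`)
has `|ξ (exp (sz h l) • mon l)| ≥ 2^(N.m) / 2` (`le_bI`).  The function
`t ↦ ξ (Ad (prod (t_b e^{h i_b} X i_b)) (e^{h j} X j))` is a polynomial of bounded degree with bounded
coefficients whose coefficient of `t₁ ⋯ t_r` is this number.  Let `T b` be given sets of allowed values,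
where `T b` may depend on `t₁, …, t_{b-1}` and has measure `≥ δ` in `[-1, 1]`.  A real polynomial of
degree `≤ m` with a coefficient `≥ c` is `≥ c'` somewhere on every set of measure `≥ δ` in `[-1,1]`
(choose `m + 1` points of the set at mutual distance `≥ δ / (2 m + 2)`, Lagrange interpolation).  Choose
`t₁` such that the coefficient of `t₂ ⋯ t_r` (a polynomial in `t₁`) is large, then `t₂`, and so on. -/
theorem greedy (δ : ℝ) (hδ : 0 < δ) : ∃ c : ℝ, 0 < c ∧ ∀ (h : ι → ℝ) (ξ : E →ₗ[ℝ] ℝ),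
    (∀ x ∈ N.idl X Set.univ, |ξ x| ≤ N.bI X Set.univ h x) →
    (∃ x ∈ N.idl X Set.univ, x ≠ 0 ∧ N.bI X Set.univ h x ≤ 2 * ξ x) →
    ∀ T : List (ι × ℝ) → ι → Set ℝ,
      (∀ l i, ENNReal.ofReal δ ≤ MeasureTheory.volume (T l i ∩ Set.Icc (-1) 1)) →
      ∃ (l : List (ι × ℝ)) (j : ι), l.length ≤ N.m ∧
        (∀ (b : ℕ) (hb : b < l.length), (l[b]).2 ∈ T (l.take b) (l[b]).1 ∩ Set.Icc (-1) 1) ∧
        c ≤ |ξ (N.Ad (N.prod (l.map fun q => (q.2 * Real.exp (h q.1)) • X q.1))
          (Real.exp (h j) • X j))| := by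
  obtain ⟨c, hc, hc1, H⟩ := greedy_poly N.m hδ
  refine ⟨c ^ N.m * (1 / 4), by positivity, fun h ξ _ ⟨x, hx, hx0, hx1⟩ T hT => ?_⟩
  obtain ⟨w, ⟨i, hi, -⟩, hw, h1⟩ : ∃ w : List ι, (∃ j ∈ w, j ∈ Set.univ) ∧ w.length ≤ N.m ∧
      1 / 4 * Real.exp (-sz h w) < |ξ (N.mon X w)| := by
    by_contra hne
    push Not at hne
    have h1 := (N.le_bI X ⊤ (fun y : ℝ => |y|) (fun y _ z _ => abs_add_le y z)
      (fun c y _ => abs_mul c y) ξ h (by norm_num) (fun l hl hl' => ⟨trivial, hne l hl hl'⟩) hx).2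
    have h2 : N.bI X Set.univ h x ≠ 0 := fun e => hx0 ((N.isLN_bI X Set.univ h).eq_zero x hx e)
    have h3 := (N.bI_nonneg X Set.univ h x).lt_of_ne' h2
    have h4 := le_mul_of_one_le_left (abs_nonneg (ξ x)) (one_le_pow₀ (one_le_two (α := ℝ)) (n := N.m))
    have h5 := le_abs_self (ξ x)
    linarith
  obtain ⟨i, w, rfl⟩ := List.exists_cons_of_ne_nil (List.ne_nil_of_mem hi)
  rw [List.length_cons] at hw
  obtain ⟨l, j, h2, h3, h4⟩ := N.greedy_aux X hc (fun a A => H a A (by omega)) h w i ξ T hT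
  refine ⟨l, j, by omega, h3, le_trans ?_ h4⟩
  refine mul_le_mul (pow_le_pow_of_le_one hc.le hc1 (by omega)) ?_ (by norm_num) (by positivity)
  rw [map_smul, smul_eq_mul, abs_mul, abs_of_pos (Real.exp_pos _)]
  rw [Real.exp_neg, ← div_eq_mul_inv, div_lt_iff₀ (Real.exp_pos _)] at h1
  linarith

end NL

end Crest.Agent.R182
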