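import Crest.Agent.R182.LN

/-! Row 182, task `R182/BoxIndep`: quantitatively independent families. -/

set_option autoImplicit false

namespace Crest.Agent.R182

open scoped BigOperators

namespace NL

variable {E : Type} [NormedAddCommGroup E] [NormedSpace ℝ E] [FiniteDimensional ℝ E] (N : NL E)

/-- a normalised functional vanishing on a subspace not containing `S` -/
theorem indep_functional {S : Submodule ℝ E} {p : E → ℝ} (h : IsLN N S p) {W : Submodule ℝ E}
    (hW : ¬ S ≤ W) : ∃ ξ : E →ₗ[ℝ] ℝ, (∀ x ∈ W, ξ x = 0) ∧ (∀ x ∈ S, |ξ x| ≤ p x) ∧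
      ∃ x ∈ S, x ≠ 0 ∧ p x ≤ 2 * ξ x := by
  obtain ⟨x₀, hx₀, hx₀W⟩ := SetLike.not_le_iff_exists.1 hW
  obtain ⟨η, hη, hηW⟩ := Submodule.exists_dual_map_eq_bot_of_notMem hx₀W inferInstance
  have hη0 : ∀ x ∈ W, η x = 0 := fun x hx => by
    have : η x ∈ W.map η := Submodule.mem_map_of_mem hx
    rwa [hηW, Submodule.mem_bot] at this
  obtain ⟨C, hC, hCp⟩ := h.exists_norm_le
  set T : Set ℝ := {r | ∃ x ∈ S, p x ≤ 1 ∧ r = η x} with hT
  have hbdd : BddAbove T := by
    refine ⟨‖LinearMap.toContinuousLinearMap η‖ * C, ?_⟩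
    rintro r ⟨x, hx, hp, rfl⟩
    have h1 := (LinearMap.toContinuousLinearMap η).le_opNorm x
    have h2 : ‖x‖ ≤ C := (hCp x hx).1.trans (by nlinarith)
    calc η x ≤ ‖LinearMap.toContinuousLinearMap η x‖ := le_abs_self _
      _ ≤ _ := h1.trans (mul_le_mul_of_nonneg_left h2 (norm_nonneg _))
  have hne : T.Nonempty := ⟨η 0, 0, S.zero_mem, by rw [h.zero]; exact zero_le_one, rfl⟩
  have hle : ∀ x ∈ S, η x ≤ sSup T * p x := by
    intro x hx
    by_cases h0 : x = 0
    · simp [h0, h.zero]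
    have hp : 0 < p x := lt_of_le_of_ne (h.nonneg hx) fun e => h0 (h.eq_zero x hx e.symm)
    have h1 : η ((p x)⁻¹ • x) ≤ sSup T := le_csSup hbdd ⟨_, S.smul_mem _ hx, by
      rw [h.smul _ x hx, abs_of_pos (inv_pos.2 hp), inv_mul_cancel₀ hp.ne'], rfl⟩
    rw [map_smul, smul_eq_mul, inv_mul_le_iff₀ hp] at h1
    linarith
  have habs : ∀ x ∈ S, |η x| ≤ sSup T * p x := by
    intro x hx
    have h1 := hle (-x) (S.neg_mem hx)
    rw [map_neg, h.neg hx] at h1
    exact abs_le.2 ⟨by linarith, hle x hx⟩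
  have hM : 0 < sSup T := by
    have h1 := (abs_pos.2 hη).trans_le (habs x₀ hx₀)
    by_contra hn
    exact absurd h1 (not_lt.2 (mul_nonpos_of_nonpos_of_nonneg (not_lt.1 hn) (h.nonneg hx₀)))
  obtain ⟨r, ⟨x, hx, hp, rfl⟩, hr⟩ := exists_lt_of_lt_csSup hne (half_lt_self hM)
  refine ⟨(sSup T)⁻¹ • η, fun y hy => by simp [hη0 y hy], fun y hy => ?_, x, hx, ?_, ?_⟩
  · rw [LinearMap.smul_apply, smul_eq_mul, abs_mul, abs_of_pos (inv_pos.2 hM), inv_mul_le_iff₀ hM]
    exact habs y hy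
  · rintro rfl
    rw [map_zero] at hr
    linarith
  · rw [LinearMap.smul_apply, smul_eq_mul]
    have : 1 / 2 ≤ (sSup T)⁻¹ * η x := by
      rw [le_inv_mul_iff₀ hM]
      linarith
    linarith

theorem indep_aux (A c : ℝ) (hA : 1 ≤ A) (hc : 0 < c) {S : Submodule ℝ E} {p : E → ℝ}
    (h : IsLN N S p) {α : Type} {R : List α → Prop} {Y : α → E} (h0 : R [])
    (hstep : ∀ l, R l → ∀ ξ : E →ₗ[ℝ] ℝ, (∀ x ∈ S, |ξ x| ≤ p x) → (∃ x ∈ S, x ≠ 0 ∧ p x ≤ 2 * ξ x) →
      ∃ a, R (l ++ [a]) ∧ Y a ∈ S ∧ p (Y a) ≤ A ∧ c ≤ |ξ (Y a)|) (k : ℕ)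
    (hk : k ≤ Module.finrank ℝ S) :
    ∃ u : Fin k → α, R (List.ofFn u) ∧ (∀ a, Y (u a) ∈ S ∧ p (Y (u a)) ≤ A) ∧
      ∀ t : Fin k → ℝ, ‖t‖ ≤ A * (1 + A / c) ^ k * p (∑ a, t a • Y (u a)) := by
  induction k with
  | zero =>
    refine ⟨Fin.elim0, by simpa using h0, fun a => a.elim0, fun t => ?_⟩
    simp [h.zero, Subsingleton.elim t 0]
  | succ k ih =>
    obtain ⟨u, hR, hu, ht⟩ := ih (by omega)
    have hW : ¬ S ≤ Submodule.span ℝ (Set.range fun a => Y (u a)) := by
      intro hle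
      have h1 := Submodule.finrank_mono hle
      have h2 := finrank_range_le_card (R := ℝ) fun a => Y (u a)
      rw [Fintype.card_fin] at h2
      unfold Set.finrank at h2
      omega
    obtain ⟨ξ, hξW, hξ, hx⟩ := N.indep_functional h hW
    obtain ⟨a, hRa, haS, haA, hac⟩ := hstep _ hR ξ hξ hx
    refine ⟨Fin.snoc (α := fun _ => α) u a, ?_, fun i => ?_, fun t => ?_⟩
    · rw [List.ofFn_succ_last]
      simpa using hRa
    · refine Fin.lastCases ?_ (fun j => ?_) i
      · simpa using ⟨haS, haA⟩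
      · simpa using hu j
    · rw [Fin.sum_univ_castSucc]
      simp only [Fin.snoc_castSucc, Fin.snoc_last]
      set v' : E := ∑ i : Fin k, t i.castSucc • Y (u i) with hv'
      set s : ℝ := t (Fin.last k) with hs
      have hv'S : v' ∈ S := S.sum_mem fun i _ => S.smul_mem _ (hu i).1
      have hsS : s • Y a ∈ S := S.smul_mem _ haS
      have hvS : v' + s • Y a ∈ S := S.add_mem hv'S hsS
      set P : ℝ := p (v' + s • Y a) with hP
      have hP0 : 0 ≤ P := h.nonneg hvS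
      have hξv' : ξ v' = 0 := hξW _ (Submodule.sum_mem _ fun i _ =>
        Submodule.smul_mem _ _ (Submodule.subset_span ⟨i, rfl⟩))
      have h1 : |s| ≤ P / c := by
        have := hξ _ hvS
        rw [map_add, hξv', zero_add, map_smul, smul_eq_mul, abs_mul] at this
        rw [le_div_iff₀ hc]
        exact (mul_le_mul_of_nonneg_left hac (abs_nonneg _)).trans this
      have h2 : p v' ≤ (1 + A / c) * P := by
        have h3 := h.sub_le hvS hsS
        rw [add_sub_cancel_right, h.smul _ _ haS] at h3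
        have h4 : |s| * p (Y a) ≤ P / c * A :=
          mul_le_mul h1 haA (h.nonneg haS) (div_nonneg hP0 hc.le)
        calc p v' ≤ P + P / c * A := by linarith
          _ = (1 + A / c) * P := by ring
      have hB : 1 ≤ 1 + A / c := le_add_of_nonneg_right (div_nonneg (by linarith) hc.le)
      have hBk : 1 ≤ A * (1 + A / c) ^ k := one_le_mul_of_one_le_of_one_le hA (one_le_pow₀ hB)
      have hfin : A * (1 + A / c) ^ (k + 1) * P = A * (1 + A / c) ^ k * ((1 + A / c) * P) := by ring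
      have hBP : 0 ≤ (1 + A / c) * P := mul_nonneg (by linarith) hP0
      rw [hfin, pi_norm_le_iff_of_nonneg (mul_nonneg (by linarith) hBP)]
      intro i
      refine Fin.lastCases ?_ (fun j => ?_) i
      · have h5 : P / c ≤ (1 + A / c) * P := by
          have : P / c ≤ A / c * P := by
            rw [div_mul_eq_mul_div]
            exact div_le_div_of_nonneg_right (by nlinarith) hc.le
          nlinarith
        calc ‖t (Fin.last k)‖ ≤ (1 + A / c) * P := h1.trans h5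
          _ ≤ _ := le_mul_of_one_le_left hBP hBk
      · calc ‖t j.castSucc‖ ≤ ‖fun i : Fin k => t i.castSucc‖ :=
              norm_le_pi_norm (fun i : Fin k => t i.castSucc) j
          _ ≤ A * (1 + A / c) ^ k * p v' := ht _
          _ ≤ _ := mul_le_mul_of_nonneg_left h2 (by linarith)

/-- **Independent directions from a greedy procedure.**  Abstract linear algebra: if for every
functional as in `greedy` (and every list of previously chosen vectors) one can choose `Y` with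
`p Y ≤ A`, `c ≤ |ξ Y|`, one gets a quantitatively independent family: at step `a` take `ξ` vanishing on
the previous vectors with `|ξ| ≤ p` and norm `≥ 1/2` (Hahn–Banach, or an Auerbach basis
`IsLN.exists_auerbach`). -/
theorem indep (A c : ℝ) (hA : 1 ≤ A) (hc : 0 < c) : ∃ A' : ℝ, A ≤ A' ∧ ∀ S p, IsLN N S p →
    ∀ (α : Type) (R : List α → Prop) (Y : α → E), R [] →
      (∀ l, R l → ∀ ξ : E →ₗ[ℝ] ℝ, (∀ x ∈ S, |ξ x| ≤ p x) → (∃ x ∈ S, x ≠ 0 ∧ p x ≤ 2 * ξ x) →
        ∃ a, R (l ++ [a]) ∧ Y a ∈ S ∧ p (Y a) ≤ A ∧ c ≤ |ξ (Y a)|) →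
      ∃ u : Fin (Module.finrank ℝ S) → α, R (List.ofFn u) ∧ (∀ a, Y (u a) ∈ S ∧ p (Y (u a)) ≤ A) ∧
        ∀ t : Fin (Module.finrank ℝ S) → ℝ, ‖t‖ ≤ A' * p (∑ a, t a • Y (u a)) := by
  have hB : 1 ≤ 1 + A / c := le_add_of_nonneg_right (div_nonneg (by linarith) hc.le)
  refine ⟨A * (1 + A / c) ^ Module.finrank ℝ E,
    le_mul_of_one_le_right (by linarith) (one_le_pow₀ hB), fun S p h α R Y h0 hstep => ?_⟩
  obtain ⟨u, hR, hu, ht⟩ := N.indep_aux A c hA hc h h0 hstep _ le_rfl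
  refine ⟨u, hR, hu, fun t => (ht t).trans ?_⟩
  refine mul_le_mul_of_nonneg_right (mul_le_mul_of_nonneg_left
    (pow_le_pow_right₀ hB (Submodule.finrank_le S)) (by linarith)) ?_
  exact h.nonneg (S.sum_mem fun i _ => S.smul_mem _ (hu i).1)

end NL

end Crest.Agent.R182
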