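import Crest.Agent.R182.BoxChart
import Crest.Agent.R182.BoxGreedy
import Crest.Agent.R182.BoxIndep

/-! Row 182, task `R182/BoxFac`: ball–box factorisation. -/

set_option autoImplicit false

namespace Crest.Agent.R182

open scoped BigOperators

namespace NL

variable {E : Type} [NormedAddCommGroup E] [NormedSpace ℝ E] [FiniteDimensional ℝ E] (N : NL E)

variable {ι : Type} [Fintype ι] (X : ι → E)

/-- `x` is a product of at most `n` admissible letters -/
def FacN (h : ι → ℝ) (n : ℕ) (x : E) : Prop :=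
  ∃ l : List (ι × ℝ), l.length ≤ n ∧ (∀ q ∈ l, |q.2| ≤ Real.exp (h q.1)) ∧
    N.prod (l.map fun q => q.2 • X q.1) = x

omit [FiniteDimensional ℝ E] [Fintype ι] in
theorem facN_zero (h : ι → ℝ) (n : ℕ) : N.FacN X h n 0 :=
  ⟨[], by simp, by simp, by simp⟩

omit [FiniteDimensional ℝ E] [Fintype ι] in
theorem facN_mono {h : ι → ℝ} {n n' : ℕ} (hn : n ≤ n') {x : E} (hx : N.FacN X h n x) :
    N.FacN X h n' x := by
  obtain ⟨l, h1, h2, h3⟩ := hx
  exact ⟨l, h1.trans hn, h2, h3⟩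

omit [FiniteDimensional ℝ E] [Fintype ι] in
theorem facN_mul {h : ι → ℝ} {n n' : ℕ} {x y : E} (hx : N.FacN X h n x) (hy : N.FacN X h n' y) :
    N.FacN X h (n + n') (N.mul x y) := by
  obtain ⟨l, h1, h2, h3⟩ := hx
  obtain ⟨l', h1', h2', h3'⟩ := hy
  refine ⟨l ++ l', by rw [List.length_append]; omega, ?_, ?_⟩
  · intro q hq
    rcases List.mem_append.1 hq with hq | hq
    exacts [h2 q hq, h2' q hq]
  · rw [List.map_append, N.prod_append, h3, h3']

omit [FiniteDimensional ℝ E] [Fintype ι] in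
theorem facN_letter {h : ι → ℝ} (j : ι) {t : ℝ} (ht : |t| ≤ Real.exp (h j)) :
    N.FacN X h 1 (t • X j) :=
  ⟨[(j, t)], by simp, by simpa using ht, by simp⟩

omit [FiniteDimensional ℝ E] [Fintype ι] in
theorem facN_neg {h : ι → ℝ} {n : ℕ} {x : E} (hx : N.FacN X h n x) : N.FacN X h n (-x) := by
  obtain ⟨l, h1, h2, rfl⟩ := hx
  refine N.facN_mono X h1 ?_
  clear h1
  induction l with
  | nil => simpa using N.facN_zero X h 0
  | cons q l ih =>
    rw [List.map_cons, N.prod_cons, N.neg_mul_rev, List.length_cons]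
    refine N.facN_mul X (ih fun q' hq' => h2 q' (List.mem_cons_of_mem _ hq')) ?_
    rw [← neg_smul]
    exact N.facN_letter X _ (by rw [abs_neg]; exact h2 q List.mem_cons_self)

omit [FiniteDimensional ℝ E] [Fintype ι] in
theorem facN_prod {h : ι → ℝ} {n : ℕ} (l : List E) (hl : ∀ x ∈ l, N.FacN X h n x) :
    N.FacN X h (l.length * n) (N.prod l) := by
  induction l with
  | nil => simpa using N.facN_zero X h 0
  | cons x l ih =>
    rw [N.prod_cons, List.length_cons, add_mul, one_mul, add_comm]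
    exact N.facN_mul X (hl x List.mem_cons_self)
      (ih fun y hy => hl y (List.mem_cons_of_mem _ hy))

omit [FiniteDimensional ℝ E] [Fintype ι] in
theorem facN_nsmul {h : ι → ℝ} {n : ℕ} {x : E} (hx : N.FacN X h n x) (K : ℕ) :
    N.FacN X h (K * n) ((K : ℝ) • x) := by
  induction K with
  | zero => simpa using N.facN_zero X h 0
  | succ K ih =>
    have := N.facN_mul X ih hx
    rw [← one_smul ℝ x, smul_smul, mul_one, N.smul_mul_smul] at this
    rw [add_mul, one_mul]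
    simpa using this

/-- the conjugated letters -/
noncomputable def facY (h : ι → ℝ) (a : List (ι × ℝ) × ι) : E :=
  N.Ad (N.prod (a.1.map fun q => (q.2 * Real.exp (h q.1)) • X q.1)) (Real.exp (h a.2) • X a.2)

omit [FiniteDimensional ℝ E] [Fintype ι] in
theorem facN_facY (h : ι → ℝ) (a : List (ι × ℝ) × ι) (h1 : a.1.length ≤ N.m)
    (h2 : ∀ q ∈ a.1, |q.2| ≤ 1) {t : ℝ} (ht : |t| ≤ 1) :
    N.FacN X h (N.m + 1 + N.m) (t • N.facY X h a) := by
  have hg : N.FacN X h N.m (N.prod (a.1.map fun q => (q.2 * Real.exp (h q.1)) • X q.1)) := by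
    refine ⟨a.1.map fun q => (q.1, q.2 * Real.exp (h q.1)), by simpa using h1, ?_, ?_⟩
    · intro q hq
      obtain ⟨q', hq', rfl⟩ := List.mem_map.1 hq
      simp only [abs_mul, abs_of_pos (Real.exp_pos _)]
      exact mul_le_of_le_one_left (Real.exp_pos _).le (h2 q' hq')
    · rw [List.map_map]; rfl
  rw [facY, ← map_smul, ← N.mul_mul_neg, smul_smul]
  refine N.facN_mul X (N.facN_mul X hg (N.facN_letter X _ ?_)) (N.facN_neg X hg)
  rw [abs_mul, abs_of_pos (Real.exp_pos _)]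
  exact mul_le_of_le_one_left (Real.exp_pos _).le ht

omit [FiniteDimensional ℝ E] [Fintype ι] in
theorem fac_letter_le (h : ι → ℝ) (j : ι) {t : ℝ} (ht : |t| ≤ 1) :
    (t * Real.exp (h j)) • X j ∈ N.idl X Set.univ ∧
      N.bI X Set.univ h ((t * Real.exp (h j)) • X j) ≤ 2 ^ N.m := by
  have hm := N.letter_mem X (P := Set.univ) (Set.mem_univ j)
  refine ⟨Submodule.smul_mem _ _ hm, ?_⟩
  rw [N.bI_smul X _ _ _ hm, abs_mul, abs_of_pos (Real.exp_pos _)]
  have h1 := N.bI_letter X h (P := Set.univ) (Set.mem_univ j)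
  have h0 := N.bI_nonneg X Set.univ h (X j)
  calc |t| * Real.exp (h j) * N.bI X Set.univ h (X j)
      ≤ 1 * Real.exp (h j) * (2 ^ N.m * Real.exp (-h j)) := by gcongr
    _ = 2 ^ N.m * (Real.exp (h j) * Real.exp (-h j)) := by ring
    _ = 2 ^ N.m := by rw [← Real.exp_add]; simp

theorem facY_le : ∃ A : ℝ, 1 ≤ A ∧ ∀ (h : ι → ℝ) (a : List (ι × ℝ) × ι), a.1.length ≤ N.m →
    (∀ q ∈ a.1, |q.2| ≤ 1) →
      N.facY X h a ∈ N.idl X Set.univ ∧ N.bI X Set.univ h (N.facY X h a) ≤ A := by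
  obtain ⟨C, e, hC, hp⟩ := N.ln_prod_bdd N.m
  set G : ℝ := C * (1 + 2 ^ N.m) ^ e * 2 ^ N.m with hG
  have hG0 : 0 ≤ G := by positivity
  refine ⟨(1 + G) ^ N.m * 2 ^ N.m,
    one_le_mul_of_one_le_of_one_le (one_le_pow₀ (by linarith)) (one_le_pow₀ (by norm_num)),
    fun h a h1 h2 => ?_⟩
  have hLN := N.isLN_bI X Set.univ h
  set g := N.prod (a.1.map fun q => (q.2 * Real.exp (h q.1)) • X q.1) with hg
  have hl : ∀ x ∈ a.1.map fun q => (q.2 * Real.exp (h q.1)) • X q.1,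
      x ∈ N.idl X Set.univ ∧ N.bI X Set.univ h x ≤ 2 ^ N.m := by
    intro x hx
    obtain ⟨q, hq, rfl⟩ := List.mem_map.1 hx
    exact N.fac_letter_le X h q.1 (h2 q hq)
  have hgS : g ∈ N.idl X Set.univ := hLN.prod_mem fun x hx => (hl x hx).1
  have hgG : N.bI X Set.univ h g ≤ G :=
    hp _ _ hLN _ (by simpa using h1) _ (by positivity) hl
  have hy := N.fac_letter_le X h a.2 (t := 1) (by simp)
  rw [one_mul] at hy
  refine ⟨hLN.Ad_mem hgS hy.1, ?_⟩
  have := N.ln_Ad (N.idl X Set.univ) (N.bI X Set.univ h) hLN.add_le hLN.smul g hG0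
    (fun y hy => ⟨hLN.br_mem _ hgS _ hy, (hLN.br_le _ hgS _ hy).trans
      (mul_le_mul_of_nonneg_right hgG (hLN.nonneg hy))⟩) hy.1
  refine this.trans ?_
  exact mul_le_mul_of_nonneg_left hy.2 (by positivity)

/-- **Ball–box factorisation.**  `greedy` (with `T = univ`), `indep`, `chart`: small elements are
products of `D` factors `t • Ad g (e^{h j} X j) = g • (t e^{h j} X j) • (-g)`, each a product of
`≤ 2 m + 1` letters (`mul_mul_neg`, `neg_mul_rev`); and `x = (x / K)^K` (`smul_mul_smul`). -/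
theorem factor : ∃ n₀ : ℕ, ∀ (h : ι → ℝ), ∀ x ∈ N.idl X Set.univ, N.bI X Set.univ h x ≤ 1 →
    ∃ l : List (ι × ℝ), l.length ≤ n₀ ∧ (∀ q ∈ l, |q.2| ≤ Real.exp (h q.1)) ∧
      N.prod (l.map fun q => q.2 • X q.1) = x := by
  obtain ⟨c, hc, hgr⟩ := N.greedy X 1 one_pos
  obtain ⟨A, hA, hY⟩ := N.facY_le X
  obtain ⟨A', hA', hind⟩ := N.indep A c hA hc
  obtain ⟨η, hη, hη1, hch⟩ := N.chart A' (hA.trans hA')
  have hA'0 : 0 < A' := by linarith
  obtain ⟨K, hK⟩ := exists_nat_gt (2 * A' / η)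
  have hK0 : (0 : ℝ) < K := lt_trans (by positivity) hK
  refine ⟨K * (Module.finrank ℝ (N.idl X Set.univ) * (N.m + 1 + N.m)), fun h x hx hx1 => ?_⟩
  have hLN := N.isLN_bI X Set.univ h
  obtain ⟨u, hu, huY, hut⟩ := hind _ _ hLN (List (ι × ℝ) × ι)
    (fun l => ∀ a ∈ l, a.1.length ≤ N.m ∧ ∀ q ∈ a.1, |q.2| ≤ 1) (N.facY X h) (by simp) (by
      intro l hl ξ h1 h2
      obtain ⟨l', j, hl1, hl2, hl3⟩ := hgr h ξ h1 h2 (fun _ _ => Set.univ) (by
        intro _ _
        rw [Set.univ_inter, Real.volume_Icc]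
        exact ENNReal.ofReal_le_ofReal (by norm_num))
      have hl4 : ∀ q ∈ l', |q.2| ≤ 1 := by
        intro q hq
        obtain ⟨b, hb, rfl⟩ := List.getElem_of_mem hq
        exact abs_le.2 (hl2 b hb).2
      refine ⟨(l', j), ?_, (hY h (l', j) hl1 hl4).1, (hY h (l', j) hl1 hl4).2, hl3⟩
      intro a ha
      rcases List.mem_append.1 ha with ha | ha
      · exact hl a ha
      · rw [List.mem_singleton.1 ha]; exact ⟨hl1, hl4⟩)
  obtain ⟨-, hsurj⟩ := hch _ _ hLN (fun a => N.facY X h (u a))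
    (fun a => ⟨(huY a).1, (huY a).2.trans hA'⟩) hut
  obtain ⟨t, ht, htx⟩ := hsurj ((K : ℝ)⁻¹ • x) (Submodule.smul_mem _ _ hx) (by
    rw [hLN.smul _ _ hx, abs_of_pos (inv_pos.2 hK0)]
    calc (K : ℝ)⁻¹ * N.bI X Set.univ h x ≤ (K : ℝ)⁻¹ * 1 := by gcongr
      _ ≤ η / (2 * A') := by
        rw [mul_one, inv_eq_one_div, div_le_div_iff₀ hK0 (by positivity)]
        rw [div_lt_iff₀ hη] at hK
        linarith)
  have h1 : N.FacN X h (Module.finrank ℝ (N.idl X Set.univ) * (N.m + 1 + N.m))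
      ((K : ℝ)⁻¹ • x) := by
    rw [← htx]
    have := N.facN_prod X (h := h) (n := N.m + 1 + N.m)
      (List.ofFn fun a => t a • N.facY X h (u a)) (by
        intro y hy
        obtain ⟨a, rfl⟩ := List.mem_ofFn.1 hy
        have hua := hu (u a) (List.mem_ofFn.2 ⟨a, rfl⟩)
        refine N.facN_facY X h _ hua.1 hua.2 ?_
        exact ((norm_le_pi_norm t a).trans ht).trans hη1)
    rwa [List.length_ofFn] at this
  have h2 := N.facN_nsmul X h1 K
  rw [smul_smul, mul_inv_cancel₀ hK0.ne', one_smul] at h2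
  exact h2

end NL

end Crest.Agent.R182
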