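import Crest.Agent.R182.HM
import Crest.Agent.R182.ModelAPI

/-! Row 182, task `R182/LNM`: volumes of Lie-norm balls, invariance, domination, coverings. -/

set_option autoImplicit false

namespace Crest.Agent.R182

open MeasureTheory
open scoped BigOperators Pointwise

variable {E : Type} [NormedAddCommGroup E] [NormedSpace ℝ E] [FiniteDimensional ℝ E]
  [MeasurableSpace E] [BorelSpace E]

theorem lnm_meas (S : Submodule ℝ E) : MeasurableSet (S : Set E) :=
  S.closed_of_finiteDimensional.measurableSet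

theorem lnm_emb (S : Submodule ℝ E) : MeasurableEmbedding (Subtype.val : S → E) :=
  MeasurableEmbedding.subtype_coe (lnm_meas S)

/-- `Subtype.val` is a measurable embedding, so this holds for every set -/
theorem hm_apply (S : Submodule ℝ E) (A : Set E) :
    hm S A = (Measure.addHaar : Measure S) (Subtype.val ⁻¹' A) := by
  exact (lnm_emb S).map_apply _ _

theorem hm_ae_mem (S : Submodule ℝ E) : ∀ᵐ x ∂hm S, x ∈ S := by
  rw [ae_iff, hm_apply]
  have : (Subtype.val ⁻¹' {a : E | ¬a ∈ S} : Set S) = ∅ := by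
    ext x
    simp
  rw [this, measure_empty]

instance (S : Submodule ℝ E) : IsFiniteMeasureOnCompacts (hm S) := by
  refine ⟨fun K hK => ?_⟩
  rw [hm_apply]
  exact (S.closed_of_finiteDimensional.isClosedEmbedding_subtypeVal.isCompact_preimage
    hK).measure_lt_top

instance (S : Submodule ℝ E) : SFinite (hm S) := by
  unfold hm
  infer_instance

theorem lnm_map_eq (S : Submodule ℝ E) (T : E → E) (hT : Continuous T)
    (hTS : ∀ x ∈ S, T x ∈ S)
    (h : (Measure.addHaar : Measure S).map (fun x : S => (⟨T x, hTS x x.2⟩ : S)) =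
      Measure.addHaar) : (hm S).map T = hm S := by
  have hT' : Measurable fun x : S => (⟨T x, hTS x x.2⟩ : S) :=
    ((hT.comp continuous_subtype_val).subtype_mk _).measurable
  unfold hm
  rw [Measure.map_map hT.measurable (lnm_emb S).measurable]
  conv_rhs => rw [← h]
  rw [Measure.map_map (lnm_emb S).measurable hT']
  rfl

theorem lnm_unitri (N : NL E) (S : Submodule ℝ E) (T : E → E) (hT : Continuous T)
    (hTS : ∀ x ∈ S, T x ∈ S)
    (h : ∀ i x z, z ∈ N.lcs i → T (x + z) - T x - z ∈ N.lcs (i + 1)) :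
    (hm S).map T = hm S := by
  refine lnm_map_eq S T hT hTS ?_
  refine (unitri_preserving (Measure.addHaar : Measure S) _
    ((hT.comp continuous_subtype_val).subtype_mk _) (fun i => (N.lcs i).comap S.subtype) N.m
    ?_ ?_ (fun i => Submodule.comap_mono (N.lcs_succ_le i)) ?_).map_eq
  · exact Submodule.comap_top _
  · rw [N.lcs_eq_bot, Submodule.comap_bot, Submodule.ker_subtype]
  · intro i x z hz
    exact h i x z hz

theorem lnm_image (μ : Measure E) (T T' : E → E) (hT : Continuous T) (hT' : Continuous T')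
    (h1 : ∀ x, T (T' x) = x) (h2 : ∀ x, T' (T x) = x) (h : μ.map T' = μ) (A : Set E) :
    μ (T '' A) = μ A := by
  let e : E ≃ₜ E := ⟨⟨T', T, h1, h2⟩, hT', hT⟩
  have e1 : T '' A = e ⁻¹' A := by
    ext z
    constructor
    · rintro ⟨w, hw, rfl⟩
      change T' (T w) ∈ A
      rwa [h2]
    · intro hz
      exact ⟨T' z, hz, h1 z⟩
  rw [e1, ← e.measurableEmbedding.map_apply]
  exact congrArg (fun m : Measure E => m A) h

theorem hm_map_add (S : Submodule ℝ E) {y : E} (hy : y ∈ S) :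
    (hm S).map (fun x => x + y) = hm S := by
  refine lnm_map_eq S _ (continuous_id.add continuous_const) (fun x hx => S.add_mem hx hy) ?_
  exact map_add_right_eq_self (Measure.addHaar : Measure S) (⟨y, hy⟩ : S)

/-- a linear map which is diagonal in a basis of `S` -/
theorem hm_image_diag (S : Submodule ℝ E) {r : ℕ} (b : Fin r → E) (hb : LinearIndependent ℝ b)
    (hS : Submodule.span ℝ (Set.range b) = S) (T : E →ₗ[ℝ] E) (c : Fin r → ℝ) (hc : ∀ a, 0 < c a)
    (hT : ∀ a, T (b a) = c a • b a) {A : Set E} (hA : A ⊆ S) :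
    hm S (T '' A) = ENNReal.ofReal (∏ a, c a) * hm S A := by
  subst hS
  set S := Submodule.span ℝ (Set.range b) with hS
  have hTS : ∀ x ∈ S, T x ∈ S := by
    intro x hx
    have : S ≤ S.comap T := by
      refine Submodule.span_le.2 ?_
      rintro _ ⟨a, rfl⟩
      change T (b a) ∈ S
      rw [hT]
      exact S.smul_mem _ (Submodule.subset_span ⟨a, rfl⟩)
    exact this hx
  have hdet : LinearMap.det (T.restrict hTS) = ∏ a, c a := by
    rw [← LinearMap.det_toMatrix (Module.Basis.span hb), ← Matrix.det_diagonal]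
    congr 1
    ext i j
    have e : T.restrict hTS (Module.Basis.span hb j) = c j • Module.Basis.span hb j := by
      apply Subtype.ext
      change T (Module.Basis.span hb j : E) = c j • (Module.Basis.span hb j : E)
      rw [Module.Basis.span_apply, hT]
    rw [LinearMap.toMatrix_apply, e, map_smul, Module.Basis.repr_self, Finsupp.smul_apply,
      Finsupp.single_apply, Matrix.diagonal_apply]
    by_cases hij : i = j
    · subst hij
      simp
    · simp [hij, Ne.symm hij]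
  have e1 : (Subtype.val ⁻¹' (T '' A) : Set S) = T.restrict hTS '' (Subtype.val ⁻¹' A) := by
    ext z
    constructor
    · rintro ⟨w, hw, hz⟩
      exact ⟨⟨w, hA hw⟩, hw, Subtype.ext hz⟩
    · rintro ⟨w, hw, rfl⟩
      exact ⟨w, hw, rfl⟩
  rw [hm_apply, hm_apply, e1, Measure.addHaar_image_linearMap, hdet,
    abs_of_pos (Finset.prod_pos fun a _ => hc a)]

/-- `unitri_preserving` on `S` with the flag `S ⊓ lcs i` -/
theorem hm_map_mul (N : NL E) (S : Submodule ℝ E) (hS : ∀ x ∈ S, ∀ y ∈ S, N.br x y ∈ S)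
    {x y : E} (hx : x ∈ S) (hy : y ∈ S) :
    (hm S).map (fun z => N.mul (N.mul x z) y) = hm S := by
  refine lnm_unitri N S _ (N.api_cont_mul (N.api_cont_mul continuous_const continuous_id')
    continuous_const) (fun z hz => N.mul_mem hS (N.mul_mem hS hx hz) hy) ?_
  intro i w z hz
  have h1 := (N.mul_add_sub_mem_lcs w x hz).2
  have h2 : N.mul x (w + z) - N.mul x w ∈ N.lcs i := by
    have := Submodule.add_mem _ (N.lcs_succ_le i h1) hz
    simpa using this
  have h3 := N.mul_sub_mul_mem_lcs (y := y) (y' := y) h2 (by simp)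
  have := Submodule.add_mem _ h3 h1
  convert this using 1
  abel

theorem hm_map_Ad (N : NL E) (S : Submodule ℝ E) {x : E} (hx : ∀ y ∈ S, N.br x y ∈ S) :
    (hm S).map (N.Ad x) = hm S := by
  refine lnm_unitri N S _ (N.Ad x).continuous_of_finiteDimensional
    (fun z hz => N.Ad_mem hx hz) ?_
  intro i w z hz
  have := N.Ad_sub_mem_lcs x hz
  rw [map_add, add_sub_cancel_left]
  exact this

/-- images of arbitrary subsets (the maps are homeomorphisms of `E`) -/
theorem hm_image_mul (N : NL E) (S : Submodule ℝ E) (hS : ∀ x ∈ S, ∀ y ∈ S, N.br x y ∈ S)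
    {x y : E} (hx : x ∈ S) (hy : y ∈ S) (A : Set E) :
    hm S ((fun z => N.mul (N.mul x z) y) '' A) = hm S A := by
  refine lnm_image (hm S) _ (fun z => N.mul (N.mul (-x) z) (-y))
    (N.api_cont_mul (N.api_cont_mul continuous_const continuous_id') continuous_const)
    (N.api_cont_mul (N.api_cont_mul continuous_const continuous_id') continuous_const) ?_ ?_
    (hm_map_mul N S hS (S.neg_mem hx) (S.neg_mem hy)) A
  · intro z
    rw [N.mul_assoc', N.mul_assoc', N.neg_mul', N.mul_zero', ← N.mul_assoc', N.mul_neg',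
      N.zero_mul']
  · intro z
    rw [N.mul_assoc', N.mul_assoc', N.mul_neg', N.mul_zero', ← N.mul_assoc', N.neg_mul',
      N.zero_mul']

theorem hm_image_Ad (N : NL E) (S : Submodule ℝ E) {x : E} (hx : ∀ y ∈ S, N.br x y ∈ S)
    (A : Set E) : hm S (N.Ad x '' A) = hm S A := by
  refine lnm_image (hm S) _ (N.Ad (-x)) (N.Ad x).continuous_of_finiteDimensional
    (N.Ad (-x)).continuous_of_finiteDimensional ?_ ?_ (hm_map_Ad N S fun y hy => ?_) A
  · intro z
    rw [← N.Ad_mul, N.mul_neg', N.Ad_zero]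
  · intro z
    rw [← N.Ad_mul, N.neg_mul', N.Ad_zero]
  · rw [map_neg, LinearMap.neg_apply]
    exact S.neg_mem (hx y hy)

namespace IsLN

variable {N : NL E} {S : Submodule ℝ E} {p p' : E → ℝ}

theorem isCompact_bl (h : IsLN N S p) (r : ℝ) : IsCompact (bl S p r) := by
  obtain ⟨C, hC, hn⟩ := h.exists_norm_le
  have := FiniteDimensional.proper_real E
  refine Metric.isCompact_of_isClosed_isBounded ?_ ?_
  · exact h.continuousOn.preimage_isClosed_of_isClosed S.closed_of_finiteDimensional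
      (isClosed_Iic (a := r))
  · refine (Metric.isBounded_closedBall (x := (0 : E)) (r := C * r)).subset ?_
    intro x hx
    rw [mem_closedBall_zero_iff]
    exact (hn x hx.1).1.trans (mul_le_mul_of_nonneg_left hx.2 hC.le)

theorem lnm_mble (h : IsLN N S p) (r : ℝ) : MeasurableSet (bl S p r) :=
  (h.isCompact_bl r).isClosed.measurableSet

theorem lnm_ne_top (h : IsLN N S p) (r : ℝ) : hm S (bl S p r) ≠ ⊤ :=
  (h.isCompact_bl r).measure_lt_top.ne

theorem lnm_one (h : IsLN N S p) : hm S (bl S p 1) = ENNReal.ofReal (vol S p) :=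
  (ENNReal.ofReal_toReal (h.lnm_ne_top 1)).symm

theorem vol_pos (h : IsLN N S p) : 0 < vol S p := by
  obtain ⟨C, hC, hn⟩ := h.exists_norm_le
  refine ENNReal.toReal_pos (ne_of_gt ?_) (h.lnm_ne_top 1)
  rw [hm_apply]
  refine (Metric.measure_ball_pos (Measure.addHaar : Measure S) 0 (inv_pos.2 hC)).trans_le
    (measure_mono fun x hx => ⟨x.2, ?_⟩)
  rw [mem_ball_zero_iff] at hx
  refine (hn x x.2).2.trans ?_
  have : ‖(x : E)‖ ≤ C⁻¹ := hx.le
  calc C * ‖(x : E)‖ ≤ C * C⁻¹ := mul_le_mul_of_nonneg_left this hC.le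
    _ = 1 := mul_inv_cancel₀ hC.ne'

theorem hm_bl (h : IsLN N S p) {r : ℝ} (hr : 0 < r) :
    hm S (bl S p r) = ENNReal.ofReal (r ^ Module.finrank ℝ S * vol S p) := by
  have e : (Subtype.val ⁻¹' bl S p r : Set S) = r • (Subtype.val ⁻¹' bl S p 1 : Set S) := by
    ext x
    rw [Set.mem_smul_set_iff_inv_smul_mem₀ hr.ne']
    change (x : E) ∈ S ∧ p x ≤ r ↔ (r⁻¹ • (x : E)) ∈ S ∧ p (r⁻¹ • (x : E)) ≤ 1
    rw [h.smul _ _ x.2, abs_of_pos (inv_pos.2 hr), inv_mul_le_iff₀ hr, mul_one]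
    exact and_congr_left' (iff_of_true x.2 (S.smul_mem _ x.2))
  rw [hm_apply, e, Measure.addHaar_smul_of_nonneg _ hr.le, ← hm_apply, h.lnm_one,
    ENNReal.ofReal_mul (pow_nonneg hr.le _)]

omit [FiniteDimensional ℝ E] [MeasurableSpace E] [BorelSpace E] in
theorem lnm_bl_div {c : ℝ} (hc : 0 < c) : bl S (fun x => p x / c) 1 = bl S p c := by
  ext x
  change x ∈ S ∧ p x / c ≤ 1 ↔ x ∈ S ∧ p x ≤ c
  rw [div_le_one hc]

theorem vol_div (h : IsLN N S p) {c : ℝ} (hc : 0 < c) :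
    vol S (fun x => p x / c) = c ^ Module.finrank ℝ S * vol S p := by
  unfold vol
  rw [lnm_bl_div hc, measureReal_def, h.hm_bl hc,
    ENNReal.toReal_ofReal (mul_nonneg (pow_nonneg hc.le _) h.vol_pos.le)]
  rfl

theorem vol_le (h : IsLN N S p) (h' : IsLN N S p') {A : ℝ} (hA : 0 < A)
    (hle : ∀ x ∈ S, p x ≤ A * p' x) : vol S p' ≤ A ^ Module.finrank ℝ S * vol S p := by
  have hsub : bl S p' 1 ⊆ bl S p A := fun x hx =>
    ⟨hx.1, (hle x hx.1).trans (by simpa using mul_le_mul_of_nonneg_left hx.2 hA.le)⟩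
  have := measure_mono (μ := hm S) hsub
  rw [h'.lnm_one, h.hm_bl hA] at this
  exact (ENNReal.ofReal_le_ofReal_iff (mul_nonneg (pow_nonneg hA.le _) h.vol_pos.le)).1 this

theorem isProb (h : IsLN N S p) : IsProbabilityMeasure (unif S p) := by
  refine ProbabilityTheory.cond_isProbabilityMeasure_of_finite ?_ (h.lnm_ne_top 1)
  rw [h.lnm_one]
  exact (ENNReal.ofReal_pos.2 h.vol_pos).ne'

theorem isProb2 (h : IsLN N S p) : IsProbabilityMeasure (unif2 N S p) := by
  have := h.isProb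
  exact Measure.isProbabilityMeasure_map N.continuous_mul.measurable.aemeasurable

theorem unif_ae (h : IsLN N S p) : ∀ᵐ x ∂unif S p, x ∈ S ∧ p x ≤ 1 := by
  exact ProbabilityTheory.ae_cond_mem (h.lnm_mble 1)

theorem lnm_unif_apply (h : IsLN N S p) (A : Set E) :
    unif S p A = (ENNReal.ofReal (vol S p))⁻¹ * hm S (bl S p 1 ∩ A) := by
  unfold unif
  rw [ProbabilityTheory.cond_apply (h.lnm_mble 1), h.lnm_one]

theorem lnm_unif_real (h : IsLN N S p) (A : Set E) :
    (unif S p).real A = (hm S).real (bl S p 1 ∩ A) / vol S p := by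
  rw [measureReal_def, h.lnm_unif_apply, ENNReal.toReal_mul, ENNReal.toReal_inv,
    ENNReal.toReal_ofReal h.vol_pos.le, measureReal_def, div_eq_inv_mul]

theorem unif_real_le (h : IsLN N S p) (A : Set E) :
    ENNReal.ofReal ((unif S p).real A * vol S p) ≤ hm S (A ∩ bl S p 1) := by
  rw [h.lnm_unif_real, div_mul_cancel₀ _ h.vol_pos.ne', Set.inter_comm]
  exact ENNReal.ofReal_toReal_le

theorem lnm_mT (N : NL E) (x y : E) : Measurable fun z => N.mul (N.mul x z) y :=
  (N.api_cont_mul (N.api_cont_mul continuous_const continuous_id') continuous_const).measurable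

theorem lnm_dom (h : IsLN N S p) {x y : E} (hx : x ∈ S) (hy : y ∈ S) {B B' : Set E}
    (hB' : MeasurableSet B') (hxy : ∀ z ∈ B, N.mul (N.mul x z) y ∈ B') {A : Set E}
    (hA : MeasurableSet A) :
    hm S (B ∩ (fun z => N.mul (N.mul x z) y) ⁻¹' A) ≤ hm S (B' ∩ A) := by
  conv_rhs => rw [← hm_map_mul N S h.br_mem hx hy]
  rw [Measure.map_apply (lnm_mT N x y) (hB'.inter hA)]
  exact measure_mono fun z hz => ⟨hxy z hz.1, hz.2⟩

theorem lnm_near (h : IsLN N S p) {x y : E} (hx : x ∈ S) (hy : y ∈ S) {s : ℝ} (hs : 0 ≤ s)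
    (hxy : ∀ z ∈ bl S p 1, N.mul (N.mul x z) y ∈ bl S p (1 + s)) :
    Near (unif S p) ((unif S p).map fun z => N.mul (N.mul x z) y)
      ((1 + s) ^ Module.finrank ℝ S - 1) := by
  have := h.isProb
  have : IsProbabilityMeasure ((unif S p).map fun z => N.mul (N.mul x z) y) :=
    Measure.isProbabilityMeasure_map (lnm_mT N x y).aemeasurable
  refine Near.symm fun A hA => ?_
  have hv := h.vol_pos
  have hs1 : 0 < 1 + s := by linarith
  have hsub : bl S p 1 ⊆ bl S p (1 + s) := fun z hz => ⟨hz.1, hz.2.trans (by linarith)⟩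
  have hfin : ∀ r (B : Set E), hm S (bl S p r ∩ B) ≠ ⊤ := fun r B =>
    ne_top_of_le_ne_top (h.lnm_ne_top r) (measure_mono Set.inter_subset_left)
  have h1 : (hm S).real (bl S p 1 ∩ (fun z => N.mul (N.mul x z) y) ⁻¹' A) ≤
      (hm S).real (bl S p (1 + s) ∩ A) :=
    ENNReal.toReal_mono (hfin _ _) (h.lnm_dom hx hy (h.lnm_mble _) hxy hA)
  have h2 : (hm S).real (bl S p (1 + s) ∩ A) ≤
      (hm S).real (bl S p 1 ∩ A) + (hm S).real (bl S p (1 + s) \ bl S p 1) := by
    refine le_trans (measureReal_mono ?_ ?_) (measureReal_union_le _ _)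
    · intro z hz
      by_cases hz1 : z ∈ bl S p 1
      · exact Or.inl ⟨hz1, hz.2⟩
      · exact Or.inr ⟨hz.1, hz1⟩
    · exact ((measure_union_le _ _).trans_lt
        (ENNReal.add_lt_top.2 ⟨(hfin _ _).lt_top, (hfin _ _).lt_top⟩)).ne
  have h3 : (hm S).real (bl S p (1 + s) \ bl S p 1) =
      (1 + s) ^ Module.finrank ℝ S * vol S p - vol S p := by
    rw [measureReal_sdiff hsub (h.lnm_mble 1) (h.lnm_ne_top _), measureReal_def, h.hm_bl hs1,
      ENNReal.toReal_ofReal (mul_nonneg (pow_nonneg hs1.le _) hv.le)]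
    rfl
  rw [map_measureReal_apply (lnm_mT N x y) hA, h.lnm_unif_real, h.lnm_unif_real, div_le_iff₀ hv,
    add_mul, div_mul_cancel₀ _ hv.ne']
  linarith

/-- domination -/
theorem map_unif_le (h : IsLN N S p) (h' : IsLN N S p') {x y : E} (hx : x ∈ S) (hy : y ∈ S)
    (hxy : ∀ z ∈ bl S p 1, N.mul (N.mul x z) y ∈ bl S p' 1) :
    (unif S p).map (fun z => N.mul (N.mul x z) y) ≤
      ENNReal.ofReal (vol S p' / vol S p) • unif S p' := by
  refine Measure.le_iff.2 fun A hA => ?_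
  rw [Measure.map_apply (lnm_mT N x y) hA, Measure.smul_apply, h.lnm_unif_apply,
    h'.lnm_unif_apply, smul_eq_mul, ← mul_assoc, ENNReal.ofReal_div_of_pos h.vol_pos,
    div_eq_mul_inv, mul_comm (ENNReal.ofReal (vol S p')), mul_assoc (ENNReal.ofReal (vol S p))⁻¹,
    ENNReal.mul_inv_cancel (ENNReal.ofReal_pos.2 h'.vol_pos).ne' ENNReal.ofReal_ne_top, mul_one]
  exact mul_le_mul_right (h.lnm_dom hx hy (h'.lnm_mble 1) hxy hA) _

end IsLN

namespace NL

variable (N : NL E)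

omit [FiniteDimensional ℝ E] [MeasurableSpace E] [BorelSpace E] in
theorem lnm_mul : ∃ K : ℝ, 0 ≤ K ∧ ∀ S p, IsLN N S p → ∀ x ∈ S, ∀ y ∈ S, p x ≤ 1 → p y ≤ 1 →
    p (N.mul x y) ≤ p x + p y + K * (p x * p y) := by
  obtain ⟨C, e, hC, h0⟩ := N.ln_mul_sub
  refine ⟨C * 3 ^ e, by positivity, fun S p h x hx y hy hx1 hy1 => ?_⟩
  have hx0 := h.nonneg hx
  have hy0 := h.nonneg hy
  have hm := h.mul_mem hx hy
  have h1 := h0 S p h x hx y hy
  have h2 := h.add_le _ (S.sub_mem (S.sub_mem hm hx) hy) _ (S.add_mem hx hy)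
  have h3 := h.add_le _ hx _ hy
  have e1 : N.mul x y - x - y + (x + y) = N.mul x y := by abel
  rw [e1] at h2
  have h4 : C * (1 + p x + p y) ^ e * (p x * p y) ≤ C * 3 ^ e * (p x * p y) := by
    gcongr
    linarith
  linarith

theorem lnm_pow {C t : ℝ} (hC : 0 ≤ C) (ht : 0 ≤ t) (ht1 : t ≤ 1) (D : ℕ) :
    (1 + C * t) ^ D ≤ 1 + ((1 + C) ^ D - 1) * t := by
  induction D with
  | zero => simp
  | succ D ih =>
    have h1 : 1 ≤ (1 + C) ^ D := one_le_pow₀ (by linarith)
    have h2 : 0 ≤ 1 + C * t := by positivity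
    have h3 : 0 ≤ C * ((1 + C) ^ D - 1) * (t * (1 - t)) :=
      mul_nonneg (mul_nonneg hC (by linarith)) (mul_nonneg ht (by linarith))
    calc (1 + C * t) ^ (D + 1) = (1 + C * t) ^ D * (1 + C * t) := pow_succ _ _
      _ ≤ (1 + ((1 + C) ^ D - 1) * t) * (1 + C * t) := mul_le_mul_of_nonneg_right ih h2
      _ ≤ 1 + ((1 + C) ^ (D + 1) - 1) * t := by rw [pow_succ]; nlinarith

/-- near invariance: `B • y ⊆ (1 + C p y) B` and `((1 + C t)^D - 1) ≤ C' t` -/
theorem unif_near : ∃ C : ℝ, 0 < C ∧ ∀ S p, IsLN N S p → ∀ y ∈ S, p y ≤ 1 →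
    Near (unif S p) ((unif S p).map fun z => N.mul z y) (C * p y) ∧
      Near (unif S p) ((unif S p).map fun z => N.mul y z) (C * p y) := by
  obtain ⟨K, hK, hmul⟩ := N.lnm_mul
  have hK0 : 0 < 1 + K := by linarith
  refine ⟨(1 + (1 + K)) ^ Module.finrank ℝ E, by positivity, fun S p h y hy hy1 => ?_⟩
  have hy0 := h.nonneg hy
  have hs : 0 ≤ (1 + K) * p y := mul_nonneg hK0.le hy0
  have hle : (1 + (1 + K) * p y) ^ Module.finrank ℝ S - 1 ≤
      (1 + (1 + K)) ^ Module.finrank ℝ E * p y := by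
    have h1 := lnm_pow hK0.le hy0 hy1 (Module.finrank ℝ E)
    have h2 : (1 + (1 + K) * p y) ^ Module.finrank ℝ S ≤
        (1 + (1 + K) * p y) ^ Module.finrank ℝ E :=
      pow_le_pow_right₀ (by linarith) S.finrank_le
    nlinarith
  constructor
  · have := h.lnm_near S.zero_mem hy hs fun z hz => by
      rw [N.zero_mul']
      refine ⟨h.mul_mem hz.1 hy, (hmul S p h z hz.1 y hy hz.2 hy1).trans ?_⟩
      have hz2 : p z ≤ 1 := hz.2
      have : p z * p y ≤ 1 * p y := mul_le_mul_of_nonneg_right hz2 hy0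
      nlinarith
    simp only [N.zero_mul'] at this
    exact this.mono hle
  · have := h.lnm_near hy S.zero_mem hs fun z hz => by
      rw [N.mul_zero']
      refine ⟨h.mul_mem hy hz.1, (hmul S p h y hy z hz.1 hy1 hz.2).trans ?_⟩
      have hz2 : p z ≤ 1 := hz.2
      have : p y * p z ≤ p y * 1 := mul_le_mul_of_nonneg_left hz2 hy0
      nlinarith
    simp only [N.mul_zero'] at this
    exact this.mono hle

theorem unif2_ae : ∃ C : ℝ, 1 ≤ C ∧ ∀ S p, IsLN N S p →
    ∀ᵐ x ∂unif2 N S p, x ∈ S ∧ p x ≤ C := by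
  obtain ⟨K, hK, hmul⟩ := N.lnm_mul
  refine ⟨2 + K, by linarith, fun S p h => ?_⟩
  have := h.isProb
  refine (ae_map_iff N.continuous_mul.measurable.aemeasurable (h.lnm_mble (2 + K))).2 ?_
  filter_upwards [(measurePreserving_fst (μ := unif S p)
      (ν := unif S p)).quasiMeasurePreserving.ae h.unif_ae,
    (measurePreserving_snd (μ := unif S p) (ν := unif S p)).quasiMeasurePreserving.ae h.unif_ae]
    with q h1 h2
  refine ⟨h.mul_mem h1.1 h2.1, (hmul S p h _ h1.1 _ h2.1 h1.2 h2.2).trans ?_⟩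
  have : p q.1 * p q.2 ≤ 1 := mul_le_one₀ h1.2 (h.nonneg h2.1) h2.2
  nlinarith [h1.2, h2.2]

/-- `unif2` has density `z ↦ hm (B ∩ z • B⁻¹) / vol²`, which is `≥ c' / vol` on a small ball
(`B⁻¹ = -B = B`; for `p z ≤ c₀` and `p x ≤ c₀`, `p ((-x) • z) ≤ 1`). -/
theorem unif_le_unif2 : ∃ c₀ C : ℝ, 0 < c₀ ∧ c₀ ≤ 1 ∧ 0 < C ∧ ∀ S p, IsLN N S p →
    unif S (fun x => p x / c₀) ≤ ENNReal.ofReal C • unif2 N S p := by
  obtain ⟨K, hK, hmul⟩ := N.lnm_mul
  obtain ⟨c, hc⟩ : ∃ c : ℝ, c = (2 + K)⁻¹ := ⟨_, rfl⟩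
  have hc0 : 0 < c := by rw [hc]; positivity
  have hcK : (2 + K) * c = 1 := by rw [hc]; exact mul_inv_cancel₀ (by positivity)
  have hc1 : c ≤ 1 := by nlinarith
  refine ⟨c, (c ^ Module.finrank ℝ E)⁻¹ * (c ^ Module.finrank ℝ E)⁻¹, hc0, hc1, by positivity,
    fun S p h => ?_⟩
  have := h.isProb
  have hv := h.vol_pos
  refine Measure.le_iff.2 fun A hA => ?_
  have hpre : MeasurableSet ((fun q : E × E => N.mul q.1 q.2) ⁻¹' A) :=
    N.continuous_mul.measurable hA
  obtain ⟨k, hk⟩ : ∃ k, k = ENNReal.ofReal (c ^ Module.finrank ℝ S) := ⟨_, rfl⟩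
  obtain ⟨v, hv'⟩ : ∃ v, v = ENNReal.ofReal (vol S p) := ⟨_, rfl⟩
  have hk0 : k ≠ 0 := hk ▸ (ENNReal.ofReal_pos.2 (pow_pos hc0 _)).ne'
  have hkt : k ≠ ⊤ := hk ▸ ENNReal.ofReal_ne_top
  have hv0 : v ≠ 0 := hv' ▸ (ENNReal.ofReal_pos.2 hv).ne'
  have hvt : v ≠ ⊤ := hv' ▸ ENNReal.ofReal_ne_top
  have hB : unif S p (bl S p c) = k := by
    have : bl S p 1 ∩ bl S p c = bl S p c :=
      Set.inter_eq_right.2 fun z hz => ⟨hz.1, hz.2.trans hc1⟩
    rw [h.lnm_unif_apply, this, h.hm_bl hc0, ENNReal.ofReal_mul (pow_nonneg hc0.le _), ← hk,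
      ← hv', mul_comm k, ← mul_assoc, ENNReal.inv_mul_cancel hv0 hvt, one_mul]
  have h2 : v⁻¹ * hm S (bl S p c ∩ A) * k ≤ unif2 N S p A := by
    unfold unif2
    rw [Measure.map_apply N.continuous_mul.measurable hA, Measure.prod_apply hpre, ← hB,
      ← lintegral_indicator_const (h.lnm_mble c)]
    refine lintegral_mono fun x => ?_
    by_cases hx : x ∈ bl S p c
    · rw [Set.indicator_of_mem hx]
      dsimp only
      rw [h.lnm_unif_apply, ← hv']
      refine mul_le_mul_right ?_ _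
      conv_lhs => rw [← hm_map_mul N S h.br_mem hx.1 S.zero_mem]
      rw [Measure.map_apply (IsLN.lnm_mT N x 0) ((h.lnm_mble c).inter hA)]
      refine measure_mono fun z hz => ?_
      have hz1 : N.mul x z ∈ bl S p c := by simpa using hz.1
      have hz2 : N.mul x z ∈ A := by simpa using hz.2
      have e : z = N.mul (-x) (N.mul x z) := by
        rw [← N.mul_assoc', N.neg_mul', N.zero_mul']
      have hnx : p (-x) ≤ c := (h.neg hx.1).trans_le hx.2
      refine ⟨?_, hz2⟩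
      rw [e]
      refine ⟨h.mul_mem (S.neg_mem hx.1) hz1.1, (hmul S p h _ (S.neg_mem hx.1) _ hz1.1
        (hnx.trans hc1) (hz1.2.trans hc1)).trans ?_⟩
      have h3 : p (N.mul x z) ≤ c := hz1.2
      have h4 : p (-x) * p (N.mul x z) ≤ 1 * c :=
        mul_le_mul (hnx.trans hc1) h3 (h.nonneg hz1.1) zero_le_one
      nlinarith
    · rw [Set.indicator_of_notMem hx]
      exact zero_le
  have h3 : k⁻¹ ≤ ENNReal.ofReal ((c ^ Module.finrank ℝ E)⁻¹) := by
    rw [hk, ← ENNReal.ofReal_inv_of_pos (pow_pos hc0 _)]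
    exact ENNReal.ofReal_le_ofReal
      (inv_anti₀ (pow_pos hc0 _) (pow_le_pow_of_le_one hc0.le hc1 S.finrank_le))
  rw [(h.div hc0 hc1).lnm_unif_apply, h.vol_div hc0, IsLN.lnm_bl_div hc0,
    ENNReal.ofReal_mul (pow_nonneg hc0.le _), ← hk, ← hv', Measure.smul_apply, smul_eq_mul,
    ENNReal.ofReal_mul (by positivity), ENNReal.mul_inv (Or.inl hk0) (Or.inl hkt)]
  calc k⁻¹ * v⁻¹ * hm S (bl S p c ∩ A) = k⁻¹ * v⁻¹ * hm S (bl S p c ∩ A) * (k⁻¹ * k) := by
        rw [ENNReal.inv_mul_cancel hk0 hkt, mul_one]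
    _ = k⁻¹ * k⁻¹ * (v⁻¹ * hm S (bl S p c ∩ A) * k) := by ring
    _ ≤ _ := mul_le_mul' (mul_le_mul' h3 h3) h2

/-- maximal packing -/
theorem exists_cover : ∃ C : ℝ, 1 ≤ C ∧ ∀ S p, IsLN N S p → ∀ (Y Y' : Set E) (V : ℝ), 0 ≤ V →
    Y ⊆ S → (∀ y ∈ Y, ∀ z ∈ bl S p 1, N.mul y z ∈ Y') → hm S Y' ≤ ENNReal.ofReal V →
      ∃ Z : Finset E, (Z : Set E) ⊆ Y ∧ (Z.card : ℝ) ≤ V / vol S p ∧
        ∀ y ∈ Y, ∃ z ∈ Z, p (N.mul (-z) y) ≤ C := by
  classical
  obtain ⟨K, hK, hmul⟩ := N.lnm_mul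
  refine ⟨2 + K, by linarith, fun S p h Y Y' V hV hY hYY' hvol => ?_⟩
  have hv := h.vol_pos
  let tr : E → Set E := fun y => (fun z => N.mul (N.mul y z) 0) '' bl S p 1
  have htr : ∀ y, MeasurableSet (tr y) := fun y =>
    ((h.isCompact_bl 1).image (N.api_cont_mul (N.api_cont_mul continuous_const continuous_id')
      continuous_const)).isClosed.measurableSet
  let Good : Finset E → Prop := fun Z => (Z : Set E) ⊆ Y ∧ (Z : Set E).PairwiseDisjoint tr
  have hcard : ∀ Z, Good Z → (Z.card : ℝ) ≤ V / vol S p := by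
    intro Z hZ
    have h1 : hm S (⋃ y ∈ Z, tr y) = ∑ y ∈ Z, hm S (tr y) :=
      measure_biUnion_finset hZ.2 fun y _ => htr y
    have h2 : ∑ y ∈ Z, hm S (tr y) = Z.card • ENNReal.ofReal (vol S p) := by
      rw [← Finset.sum_const]
      refine Finset.sum_congr rfl fun y hy => ?_
      rw [← h.lnm_one]
      exact hm_image_mul N S h.br_mem (hY (hZ.1 hy)) S.zero_mem _
    have h3 : hm S (⋃ y ∈ Z, tr y) ≤ ENNReal.ofReal V := by
      refine le_trans (measure_mono ?_) hvol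
      refine Set.iUnion₂_subset fun y hy => ?_
      rintro _ ⟨z, hz, rfl⟩
      dsimp only
      rw [N.mul_zero']
      exact hYY' y (hZ.1 hy) z hz
    rw [h1, h2, ← ENNReal.ofReal_nsmul, ENNReal.ofReal_le_ofReal_iff hV, nsmul_eq_mul] at h3
    rwa [le_div_iff₀ hv]
  have hbdd : BddAbove {n : ℕ | ∃ Z, Good Z ∧ Z.card = n} := by
    refine ⟨⌈V / vol S p⌉₊, ?_⟩
    rintro _ ⟨Z, hZ, rfl⟩
    exact_mod_cast (hcard Z hZ).trans (Nat.le_ceil _)
  have hne : {n : ℕ | ∃ Z, Good Z ∧ Z.card = n}.Nonempty :=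
    ⟨0, ∅, ⟨by simp, by simp⟩, rfl⟩
  obtain ⟨Z, hZ, hZc⟩ := Nat.sSup_mem hne hbdd
  refine ⟨Z, hZ.1, hcard Z hZ, fun y hy => ?_⟩
  have h0 : (0 : E) ∈ bl S p 1 := ⟨S.zero_mem, by rw [h.zero]; exact zero_le_one⟩
  have hex : ∃ z ∈ Z, ¬Disjoint (tr y) (tr z) := by
    by_contra hcon
    push Not at hcon
    have hyZ : y ∉ Z := fun hyZ => by
      have := hcon y hyZ
      rw [disjoint_self] at this
      have h1 : N.mul (N.mul y 0) 0 ∈ tr y := ⟨0, h0, rfl⟩
      rw [this] at h1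
      exact h1
    have hG : Good (insert y Z) := by
      refine ⟨?_, ?_⟩
      · rw [Finset.coe_insert]
        exact Set.insert_subset hy hZ.1
      · rw [Finset.coe_insert]
        exact hZ.2.insert fun z hz _ => hcon z hz
    have := le_csSup hbdd ⟨_, hG, rfl⟩
    rw [Finset.card_insert_of_notMem hyZ, ← hZc] at this
    omega
  obtain ⟨z, hz, hd⟩ := hex
  obtain ⟨_, ⟨w, hw, rfl⟩, w', hw', e⟩ := Set.not_disjoint_iff.1 hd
  refine ⟨z, hz, ?_⟩
  simp only [N.mul_zero'] at e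
  have e1 : N.mul (-z) y = N.mul w' (-w) := by
    have e2 : y = N.mul (N.mul z w') (-w) := by
      rw [e, N.mul_assoc', N.mul_neg', N.mul_zero']
    rw [e2, ← N.mul_assoc', ← N.mul_assoc', N.neg_mul', N.zero_mul']
  have hnw : p (-w) ≤ 1 := (h.neg hw.1).trans_le hw.2
  rw [e1]
  refine (hmul S p h _ hw'.1 _ (S.neg_mem hw.1) hw'.2 hnw).trans ?_
  have h3 : p w' ≤ 1 := hw'.2
  have h4 : p w' * p (-w) ≤ 1 := mul_le_one₀ h3 (h.nonneg (S.neg_mem hw.1)) hnw
  nlinarith

end NL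

end Crest.Agent.R182
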