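import Crest.Agent.R182.BoxAlg
import Crest.Agent.R182.LNM

/-! Row 182, auxiliary lemmas for `R182/BoxVol`: monomial bases as finite sets of lists. -/

set_option autoImplicit false
set_option linter.unusedSectionVars false

namespace Crest.Agent.R182

open scoped BigOperators
open MeasureTheory

theorem bv_unif {β : Type} {s : Set β} (hs : s.Finite) (p : β → ℝ → Prop)
    (mono : ∀ b C C', C ≤ C' → p b C → p b C') (h : ∀ b ∈ s, ∃ C, p b C) :
    ∃ C, 1 ≤ C ∧ ∀ b ∈ s, p b C := by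
  choose! f hf using h
  obtain ⟨M, hM⟩ := (hs.image f).bddAbove
  exact ⟨max 1 M, le_max_left _ _, fun b hb =>
    mono b _ _ ((hM ⟨b, hb, rfl⟩).trans (le_max_right _ _)) (hf b hb)⟩

namespace NL

section Alg

variable {E : Type} [AddCommGroup E] [Module ℝ E] [FiniteDimensional ℝ E] (N : NL E) {ι : Type}
  [Fintype ι] [DecidableEq ι] (X : ι → E)

/-- finite sets of lists giving monomial bases -/
def FB (P : Set ι) (B : Finset (List ι)) : Prop :=
  (∀ l ∈ B, ∃ j ∈ l, j ∈ P) ∧ LinearIndepOn ℝ (N.mon X) (B : Set (List ι)) ∧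
    Submodule.span ℝ (N.mon X '' B) = N.idl X P

theorem bv_range (B : Finset (List ι)) :
    Set.range (fun a : Fin B.card => (B.equivFin.symm a).1) = (B : Set (List ι)) := by
  ext l
  constructor
  · rintro ⟨a, rfl⟩; exact (B.equivFin.symm a).2
  · intro hl; exact ⟨B.equivFin ⟨l, hl⟩, by simp⟩

theorem bv_inj (B : Finset (List ι)) :
    Function.Injective (fun a : Fin B.card => (B.equivFin.symm a).1) :=
  Subtype.val_injective.comp B.equivFin.symm.injective

theorem bv_sum {M : Type} [AddCommMonoid M] (B : Finset (List ι)) (f : List ι → M) :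
    ∑ a : Fin B.card, f (B.equivFin.symm a).1 = ∑ l ∈ B, f l := by
  rw [Equiv.sum_comp B.equivFin.symm (fun b : B => f b.1), Finset.sum_coe_sort]

theorem bv_prod {M : Type} [CommMonoid M] (B : Finset (List ι)) (f : List ι → M) :
    ∏ a : Fin B.card, f (B.equivFin.symm a).1 = ∏ l ∈ B, f l := by
  rw [Equiv.prod_comp B.equivFin.symm (fun b : B => f b.1), Finset.prod_coe_sort]

theorem mem_Bs_iff {P : Set ι} {n : ι → ℕ} :
    n ∈ N.Bs X P ↔ ∃ B, N.FB X P B ∧ ∀ j, n j = ∑ l ∈ B, l.count j := by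
  constructor
  · rintro ⟨r, ls, h1, h2, h3, h4⟩
    have hinj : Function.Injective ls := Function.Injective.of_comp (f := N.mon X) h2.injective
    have hc : ((Finset.univ.image ls : Finset (List ι)) : Set (List ι)) = Set.range ls := by simp
    refine ⟨Finset.univ.image ls, ⟨?_, ?_, ?_⟩, fun j => ?_⟩
    · intro l hl
      obtain ⟨a, -, rfl⟩ := Finset.mem_image.1 hl
      exact h1 a
    · rw [hc, linearIndepOn_range_iff hinj]; exact h2
    · rw [hc, ← Set.range_comp]; exact h3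
    · rw [h4, Finset.sum_image fun a _ b _ h => hinj h]
  · rintro ⟨B, ⟨h1, h2, h3⟩, h4⟩
    refine ⟨B.card, fun a => (B.equivFin.symm a).1, fun a => h1 _ (B.equivFin.symm a).2, ?_, ?_,
      fun j => ?_⟩
    · rw [← bv_range B, linearIndepOn_range_iff (bv_inj B)] at h2; exact h2
    · rw [← h3, ← bv_range B, ← Set.range_comp]; rfl
    · rw [h4, bv_sum B (fun l => l.count j)]

variable {N X}

theorem bv_len {B : Set (List ι)} (h : LinearIndepOn ℝ (N.mon X) B) {l : List ι} (hl : l ∈ B) :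
    l.length ≤ N.m := by
  by_contra hlt
  exact h.ne_zero hl (N.mon_eq_zero X (not_le.1 hlt))

theorem bv_card {B : Finset (List ι)} (h : LinearIndepOn ℝ (N.mon X) (B : Set (List ι))) :
    B.card ≤ Module.finrank ℝ E := by
  have := LinearIndependent.fintype_card_le_finrank h
  simpa using this

variable (N X) in
theorem bv_finite :
    {B : Finset (List ι) | LinearIndepOn ℝ (N.mon X) (B : Set (List ι))}.Finite := by
  have h1 : {l : List ι | l.length ≤ N.m}.Finite := List.finite_length_le ι N.m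
  refine (h1.toFinset.powerset.finite_toSet).subset fun B hB => ?_
  simp only [Finset.coe_powerset, Set.mem_preimage, Set.mem_powerset_iff, Set.Finite.coe_toFinset]
  exact fun l hl => bv_len hB hl

theorem bv_extend {Q : Set ι} {B : Finset (List ι)} (h1 : ∀ l ∈ B, ∃ j ∈ l, j ∈ Q)
    (h2 : LinearIndepOn ℝ (N.mon X) (B : Set (List ι))) : ∃ B', B ⊆ B' ∧ N.FB X Q B' := by
  obtain ⟨b, hb1, hb2, hb3, hb4⟩ :=
    exists_linearIndepOn_extension (t := {l | ∃ j ∈ l, j ∈ Q}) h2 (fun l hl => h1 l hl)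
  have hf : b.Finite := (List.finite_length_le ι N.m).subset fun l hl => bv_len hb4 hl
  refine ⟨hf.toFinset, fun l hl => hf.mem_toFinset.2 (hb2 hl),
    fun l hl => hb1 (hf.mem_toFinset.1 hl), by simpa using hb4, ?_⟩
  rw [hf.coe_toFinset]
  apply le_antisymm
  · refine Submodule.span_le.2 ?_
    rintro _ ⟨l, hl, rfl⟩
    exact N.mon_mem X (hb1 hl)
  · refine Submodule.span_le.2 ?_
    rintro _ ⟨l, hl, rfl⟩
    exact hb3 ⟨l, hl, rfl⟩

theorem bv_sum_sz (B : Finset (List ι)) (h : ι → ℝ) :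
    ∑ j, ((∑ l ∈ B, l.count j : ℕ) : ℝ) * h j = ∑ l ∈ B, sz h l := by
  simp only [sz_eq_sum, Nat.cast_sum, Finset.sum_mul]
  rw [Finset.sum_comm]

theorem bv_sz_le {h : ι → ℝ} {c : ℝ} {l : List ι} (hl : ∀ j ∈ l, h j ≤ c) :
    sz h l ≤ l.length * c := by
  unfold sz
  have := List.sum_le_card_nsmul (l.map h) c (by
    intro x hx
    obtain ⟨j, hj, rfl⟩ := List.mem_map.1 hx
    exact hl j hj)
  simpa using this

theorem bv_sz_nonneg {h : ι → ℝ} (h0 : ∀ j, 0 ≤ h j) (l : List ι) : 0 ≤ sz h l := by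
  unfold sz
  refine List.sum_nonneg ?_
  intro x hx
  obtain ⟨j, -, rfl⟩ := List.mem_map.1 hx
  exact h0 j

theorem bv_exchange {P : Set ι} {B : Finset (List ι)} (hB : N.FB X P B) {b l : List ι} (hb : b ∈ B)
    (hl : ∃ j ∈ l, j ∈ P) (hn : N.mon X l ∉ Submodule.span ℝ (N.mon X '' (B.erase b))) :
    N.FB X P (insert l (B.erase b)) := by
  refine ⟨?_, ?_, ?_⟩
  · intro l' hl'
    rcases Finset.mem_insert.1 hl' with rfl | h
    · exact hl
    · exact hB.1 _ (Finset.mem_of_mem_erase h)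
  · rw [Finset.coe_insert]
    exact (hB.2.1.mono (Finset.coe_subset.2 (Finset.erase_subset b B))).insert hn
  · apply le_antisymm
    · refine Submodule.span_le.2 ?_
      rintro _ ⟨l', hl', rfl⟩
      rcases Finset.mem_insert.1 hl' with rfl | h
      · exact N.mon_mem X hl
      · exact N.mon_mem X (hB.1 _ (Finset.mem_of_mem_erase h))
    · have e : N.mon X '' (B : Set (List ι)) = insert (N.mon X b) (N.mon X '' (B.erase b)) := by
        conv_lhs => rw [← Finset.insert_erase hb]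
        rw [Finset.coe_insert, Set.image_insert_eq]
      have h1 : N.mon X l ∈ Submodule.span ℝ (insert (N.mon X b) (N.mon X '' (B.erase b))) := by
        rw [← e, hB.2.2]; exact N.mon_mem X hl
      have h2 := mem_span_insert_exchange h1 hn
      rw [← hB.2.2, e, Finset.coe_insert, Set.image_insert_eq]
      refine Submodule.span_le.2 (Set.insert_subset h2 ?_)
      exact (Set.subset_insert _ _).trans Submodule.subset_span

/-- dual coordinates -/
def Crd (N : NL E) (X : ι → E) (B : Finset (List ι)) (γ : List ι → E →ₗ[ℝ] ℝ) : Prop :=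
  ∀ b ∈ B, ∀ b' ∈ B, γ b (N.mon X b') = if b = b' then 1 else 0

theorem bv_exists_crd {B : Finset (List ι)} (h : LinearIndepOn ℝ (N.mon X) (B : Set (List ι))) :
    ∃ γ, Crd N X B γ := by
  have h' : LinearIndependent ℝ (fun b : B => N.mon X b.1) := h
  obtain ⟨g, hg⟩ := LinearMap.exists_leftInverse_of_injective
    (Fintype.linearCombination ℝ (fun b : B => N.mon X b.1))
    (LinearMap.ker_eq_bot.2 (linearIndependent_iff_injective_fintypeLinearCombination.1 h'))
  refine ⟨fun b => if hb : b ∈ B then (LinearMap.proj (⟨b, hb⟩ : B)).comp g else 0,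
    fun b hb b' hb' => ?_⟩
  have := LinearMap.congr_fun hg (Pi.single (⟨b', hb'⟩ : B) 1)
  simp only [LinearMap.comp_apply, Fintype.linearCombination_apply_single, one_smul,
    LinearMap.id_apply] at this
  simp only [dif_pos hb, LinearMap.comp_apply, LinearMap.proj_apply, this, Pi.single_apply,
    Subtype.mk.injEq]

/-- diagonal scaling -/
noncomputable def dg (N : NL E) (X : ι → E) (B : Finset (List ι)) (γ : List ι → E →ₗ[ℝ] ℝ)
    (c : List ι → ℝ) : E →ₗ[ℝ] E := ∑ b ∈ B, (c b • γ b).smulRight (N.mon X b)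

theorem dg_apply (B : Finset (List ι)) (γ : List ι → E →ₗ[ℝ] ℝ) (c : List ι → ℝ) (x : E) :
    dg N X B γ c x = ∑ b ∈ B, (c b * γ b x) • N.mon X b := by
  simp [dg, LinearMap.sum_apply]

theorem dg_mem (B : Finset (List ι)) (γ : List ι → E →ₗ[ℝ] ℝ) (c : List ι → ℝ) (x : E) :
    dg N X B γ c x ∈ Submodule.span ℝ (N.mon X '' B) := by
  rw [dg_apply]
  exact Submodule.sum_mem _ fun b hb =>
    Submodule.smul_mem _ _ (Submodule.subset_span ⟨b, hb, rfl⟩)

theorem Crd.sum {B : Finset (List ι)} {γ : List ι → E →ₗ[ℝ] ℝ} (h : Crd N X B γ)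
    (t : List ι → ℝ) {b : List ι} (hb : b ∈ B) : γ b (∑ b' ∈ B, t b' • N.mon X b') = t b := by
  rw [map_sum, Finset.sum_eq_single b]
  · rw [map_smul, h b hb b hb, if_pos rfl]; simp
  · intro b' hb' hne
    rw [map_smul, h b hb b' hb', if_neg (Ne.symm hne)]; simp
  · intro h'; exact absurd hb h'

theorem Crd.dg_mon {B : Finset (List ι)} {γ : List ι → E →ₗ[ℝ] ℝ} (h : Crd N X B γ)
    (c : List ι → ℝ) {b : List ι} (hb : b ∈ B) :
    dg N X B γ c (N.mon X b) = c b • N.mon X b := by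
  rw [dg_apply, Finset.sum_eq_single b]
  · rw [h b hb b hb, if_pos rfl, mul_one]
  · intro b' hb' hne
    rw [h b' hb' b hb, if_neg hne]; simp
  · intro h'; exact absurd hb h'

theorem Crd.repr {B : Finset (List ι)} {γ : List ι → E →ₗ[ℝ] ℝ} (h : Crd N X B γ) {x : E}
    (hx : x ∈ Submodule.span ℝ (N.mon X '' B)) : ∑ b ∈ B, γ b x • N.mon X b = x := by
  have : dg N X B γ (fun _ => 1) x = LinearMap.id (R := ℝ) x := by
    refine LinearMap.eqOn_span ?_ hx
    rintro _ ⟨b, hb, rfl⟩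
    rw [h.dg_mon _ hb]; simp
  rw [dg_apply] at this
  simpa using this

theorem Crd.notMem {B : Finset (List ι)} {γ : List ι → E →ₗ[ℝ] ℝ} (h : Crd N X B γ) {b : List ι}
    (hb : b ∈ B) {x : E} (hx : γ b x ≠ 0) : x ∉ Submodule.span ℝ (N.mon X '' (B.erase b)) := by
  intro hm
  apply hx
  have : γ b x = (0 : E →ₗ[ℝ] ℝ) x := by
    refine LinearMap.eqOn_span ?_ hm
    rintro _ ⟨b', hb', rfl⟩
    have hb'' := Finset.mem_erase.1 (Finset.mem_coe.1 hb')
    rw [h b hb b' hb''.2, if_neg (Ne.symm hb''.1)]; rfl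
  simpa using this

theorem bv_letter_mem (ξ : ι → E →ₗ[ℝ] ℝ) (hξX : ∀ i j, ξ i (X j) = if i = j then 1 else 0)
    (hξ : ∀ i (l : List ι), 2 ≤ l.length → ξ i (N.mon X l) = 0) (i : ι) {l : List ι}
    (hl : l ≠ [i]) : ξ i (N.mon X l) = 0 := by
  match l, hl with
  | [], _ => simp [mon]
  | [j], hl =>
    have : i ≠ j := fun h => hl (by rw [h])
    simp [mon, hξX, this]
  | a :: b :: l, _ => exact hξ i _ (by simp)

theorem bv_single_mem (ξ : ι → E →ₗ[ℝ] ℝ) (hξX : ∀ i j, ξ i (X j) = if i = j then 1 else 0)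
    (hξ : ∀ i (l : List ι), 2 ≤ l.length → ξ i (N.mon X l) = 0) {B : Finset (List ι)}
    (hB : N.FB X Set.univ B) (i : ι) : [i] ∈ B := by
  by_contra hn
  have h1 : X i ∈ Submodule.span ℝ (N.mon X '' B) := by
    rw [hB.2.2]; exact N.letter_mem X (Set.mem_univ i)
  have : ξ i (X i) = (0 : E →ₗ[ℝ] ℝ) (X i) := by
    refine LinearMap.eqOn_span ?_ h1
    rintro _ ⟨b, hb, rfl⟩
    exact bv_letter_mem ξ hξX hξ i (fun h => hn (h ▸ hb))
  simp [hξX] at this

end Alg

section Vol

variable {E : Type} [NormedAddCommGroup E] [NormedSpace ℝ E] [FiniteDimensional ℝ E]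
  [MeasurableSpace E] [BorelSpace E] {N : NL E} {ι : Type} [Fintype ι] [DecidableEq ι] {X : ι → E}

/-- parallelepipeds -/
def cube (N : NL E) (X : ι → E) (B : Finset (List ι)) (γ : List ι → E →ₗ[ℝ] ℝ)
    (c : List ι → ℝ) : Set E :=
  {x | x ∈ Submodule.span ℝ (N.mon X '' B) ∧ ∀ b ∈ B, |γ b x| ≤ c b}

theorem Crd.hm_cube {B : Finset (List ι)} {γ : List ι → E →ₗ[ℝ] ℝ} (h : Crd N X B γ)
    (hB : LinearIndepOn ℝ (N.mon X) (B : Set (List ι))) (c : List ι → ℝ) (hc : ∀ b, 0 < c b) :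
    hm (Submodule.span ℝ (N.mon X '' B)) (cube N X B γ c) = ENNReal.ofReal (∏ b ∈ B, c b) *
      hm (Submodule.span ℝ (N.mon X '' B)) (cube N X B γ fun _ => 1) := by
  have e : cube N X B γ c = dg N X B γ c '' cube N X B γ fun _ => 1 := by
    ext x
    constructor
    · rintro ⟨hx, hx'⟩
      refine ⟨dg N X B γ (fun b => (c b)⁻¹) x, ⟨dg_mem _ _ _ _, fun b hb => ?_⟩, ?_⟩
      · rw [dg_apply, h.sum _ hb, abs_mul, abs_of_pos (inv_pos.2 (hc b)),
          inv_mul_le_iff₀ (hc b), mul_one]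
        exact hx' b hb
      · rw [dg_apply]
        conv_rhs => rw [← h.repr hx]
        refine Finset.sum_congr rfl fun b hb => ?_
        rw [dg_apply, h.sum _ hb, mul_inv_cancel_left₀ (hc b).ne']
    · rintro ⟨y, ⟨-, hy'⟩, rfl⟩
      refine ⟨dg_mem _ _ _ _, fun b hb => ?_⟩
      rw [dg_apply, h.sum _ hb, abs_mul, abs_of_pos (hc b)]
      exact mul_le_of_le_one_right (hc b).le (hy' b hb)
  rw [e, ← bv_prod B c]
  refine hm_image_diag _ (fun a : Fin B.card => N.mon X (B.equivFin.symm a).1) ?_ ?_ _ _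
    (fun a => hc _) (fun a => h.dg_mon c (B.equivFin.symm a).2) (fun x hx => hx.1)
  · rw [← bv_range B, linearIndepOn_range_iff (bv_inj B)] at hB; exact hB
  · conv_rhs => rw [← bv_range B, ← Set.range_comp]
    rfl

theorem Crd.hm_cube_lt_top {B : Finset (List ι)} {γ : List ι → E →ₗ[ℝ] ℝ} (h : Crd N X B γ) :
    hm (Submodule.span ℝ (N.mon X '' B)) (cube N X B γ fun _ => 1) < ⊤ := by
  have hc : IsCompact ((fun t : B → ℝ => ∑ b : B, t b • N.mon X b.1) ''
      Set.pi Set.univ fun _ => Set.Icc (-1 : ℝ) 1) :=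
    (isCompact_univ_pi fun _ => isCompact_Icc).image (by fun_prop)
  refine lt_of_le_of_lt (measure_mono ?_) hc.measure_lt_top
  rintro x ⟨hx, hx'⟩
  refine ⟨fun b => γ b.1 x, fun b _ => abs_le.1 (hx' b.1 b.2), ?_⟩
  simp only
  rw [Finset.sum_coe_sort B (fun b => γ b x • N.mon X b), h.repr hx]

theorem hm_cube_pos (B : Finset (List ι)) (γ : List ι → E →ₗ[ℝ] ℝ) :
    0 < hm (Submodule.span ℝ (N.mon X '' B)) (cube N X B γ fun _ => 1) := by
  rw [hm_apply]
  have ho : IsOpen (⋂ b ∈ B, {x : Submodule.span ℝ (N.mon X '' B) | |γ b x.1| < 1}) := by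
    refine isOpen_biInter_finset fun b _ => isOpen_lt ?_ continuous_const
    exact ((γ b).continuous_of_finiteDimensional.comp continuous_subtype_val).abs
  refine lt_of_lt_of_le (ho.measure_pos _ ⟨0, by simp⟩) (measure_mono ?_)
  intro x hx
  simp only [Set.mem_iInter, Set.mem_ofPred_eq] at hx
  exact ⟨x.2, fun b hb => (hx b hb).le⟩

end Vol

end NL

end Crest.Agent.R182
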