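import Crest.Agent.R182.BoxAlg
import Crest.Agent.R182.LNM
import Crest.Agent.R182.BoxVolAux

/-! Row 182, task `R182/BoxVol`: volumes of boxes.
There are finitely many monomial bases (lists of length `≤ N.m`, `r = finrank`).  Take one, `β`,
maximising `∑ sz h (ls a)`.  If a monomial `mon l` has a non-zero coefficient at `a`, exchanging gives
another monomial basis, so `sz h l ≤ sz h (ls a)`; hence the scaled monomials have bounded coordinates
in the scaled basis (constant = max over the finitely many coefficients), and the unit ball of `bI` is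
squeezed between two multiples of the scaled parallelepiped (`hm_image_diag`). -/

set_option autoImplicit false
set_option linter.unusedSectionVars false

namespace Crest.Agent.R182

open scoped BigOperators
open MeasureTheory

namespace NL

section Alg

variable {E : Type} [AddCommGroup E] [Module ℝ E] [FiniteDimensional ℝ E] (N : NL E) {ι : Type}
  [Fintype ι] [DecidableEq ι] (X : ι → E)

theorem Bs_finite (P : Set ι) : (N.Bs X P).Finite := by
  refine ((bv_finite N X).image (fun B => fun j => ∑ l ∈ B, l.count j)).subset fun n hn => ?_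
  obtain ⟨B, hB, h⟩ := (N.mem_Bs_iff X).1 hn
  exact ⟨B, hB.2.1, (funext h).symm⟩

theorem Bs_nonempty (P : Set ι) : (N.Bs X P).Nonempty := by
  obtain ⟨B, -, hB⟩ := bv_extend (N := N) (X := X) (Q := P) (B := ∅) (by simp) (by simp)
  exact ⟨_, (N.mem_Bs_iff X).2 ⟨B, hB, fun _ => rfl⟩⟩

theorem le_lvol {P : Set ι} (h : ι → ℝ) {n : ι → ℕ} (hn : n ∈ N.Bs X P) :
    ∑ j, (n j : ℝ) * h j ≤ N.lvol X P h := by
  exact le_csSup ((N.Bs_finite X P).image _).bddAbove ⟨n, hn, rfl⟩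

theorem exists_lvol (P : Set ι) (h : ι → ℝ) :
    ∃ n ∈ N.Bs X P, N.lvol X P h = ∑ j, (n j : ℝ) * h j := by
  obtain ⟨n, hn, e⟩ := ((N.Bs_nonempty X P).image
    (fun n : ι → ℕ => ∑ j, (n j : ℝ) * h j)).csSup_mem ((N.Bs_finite X P).image _)
  exact ⟨n, hn, e.symm⟩

theorem bv_le_lvol {P : Set ι} (h : ι → ℝ) {B : Finset (List ι)} (hB : N.FB X P B) :
    ∑ l ∈ B, sz h l ≤ N.lvol X P h := by
  rw [← bv_sum_sz]
  exact N.le_lvol X h ((N.mem_Bs_iff X).2 ⟨B, hB, fun _ => rfl⟩)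

theorem bv_exists_opt (P : Set ι) (h : ι → ℝ) :
    ∃ B, N.FB X P B ∧ N.lvol X P h = ∑ l ∈ B, sz h l := by
  obtain ⟨n, hn, e⟩ := N.exists_lvol X P h
  obtain ⟨B, hB, h'⟩ := (N.mem_Bs_iff X).1 hn
  refine ⟨B, hB, ?_⟩
  rw [e, ← bv_sum_sz]
  simp only [h']

theorem bv_sum_len {B : Finset (List ι)} (hB : LinearIndepOn ℝ (N.mon X) (B : Set (List ι)))
    {c : ℝ} (hc : 0 ≤ c) :
    ∑ l ∈ B, (l.length : ℝ) * c ≤ (1 + Module.finrank ℝ E * N.m) * c := by
  rw [← Finset.sum_mul]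
  refine mul_le_mul_of_nonneg_right ?_ hc
  have h1 : ∑ l ∈ B, (l.length : ℝ) ≤ B.card • (N.m : ℝ) :=
    Finset.sum_le_card_nsmul _ _ _ fun l hl => by exact_mod_cast bv_len hB hl
  have h2 : (B.card : ℝ) ≤ Module.finrank ℝ E := by exact_mod_cast bv_card hB
  rw [nsmul_eq_mul] at h1
  have h3 := mul_le_mul_of_nonneg_right h2 (Nat.cast_nonneg (α := ℝ) N.m)
  linarith

theorem bv_opt_sz {P : Set ι} {h : ι → ℝ} {B : Finset (List ι)} (hB : N.FB X P B)
    (ho : N.lvol X P h = ∑ l ∈ B, sz h l) {γ : List ι → E →ₗ[ℝ] ℝ} (hγ : Crd N X B γ)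
    {b l : List ι} (hb : b ∈ B) (hl : ∃ j ∈ l, j ∈ P) (hne : γ b (N.mon X l) ≠ 0) :
    sz h l ≤ sz h b := by
  have hn := hγ.notMem hb hne
  have h1 := N.bv_le_lvol X h (bv_exchange hB hb hl hn)
  have h2 : l ∉ B.erase b := fun hm => hn (Submodule.subset_span ⟨l, hm, rfl⟩)
  rw [Finset.sum_insert h2, ho, ← Finset.add_sum_erase B _ hb] at h1
  linarith

theorem lvol_lip : ∃ C : ℝ, 1 ≤ C ∧ ∀ (P : Set ι) (h h' : ι → ℝ) (c : ℝ), 0 ≤ c →
    (∀ j, h j ≤ h' j + c) → N.lvol X P h ≤ N.lvol X P h' + C * c := by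
  refine ⟨1 + Module.finrank ℝ E * N.m, le_add_of_nonneg_right (by positivity),
    fun P h h' c hc hh => ?_⟩
  obtain ⟨B, hB, e⟩ := N.bv_exists_opt X P h
  have h1 := N.bv_le_lvol X h' hB
  have h2 := N.bv_sum_len X hB.2.1 hc
  have h3 : ∑ l ∈ B, sz h l ≤ ∑ l ∈ B, (sz h' l + l.length * c) := by
    refine Finset.sum_le_sum fun l _ => ?_
    rw [← sz_const, ← sz_add]
    exact sz_mono hh l
  rw [Finset.sum_add_distrib] at h3
  linarith

theorem bv_extend_univ {P : Set ι} {B : Finset (List ι)} (hB : N.FB X P B) :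
    ∃ B', B ⊆ B' ∧ N.FB X Set.univ B' ∧ ∀ l ∈ B' \ B, ∀ j ∈ l, j ∉ P := by
  obtain ⟨B', h1, h2⟩ := bv_extend (Q := Set.univ) (B := B)
    (fun l hl => by obtain ⟨j, hj, -⟩ := hB.1 l hl; exact ⟨j, hj, trivial⟩) hB.2.1
  refine ⟨B', h1, h2, fun l hl j hj hP => ?_⟩
  obtain ⟨hl1, hl2⟩ := Finset.mem_sdiff.1 hl
  refine h2.2.1.notMem_span (Finset.mem_coe.2 hl1) ?_
  have h3 : N.mon X l ∈ Submodule.span ℝ (N.mon X '' B) := by
    rw [hB.2.2]; exact N.mon_mem X ⟨j, hj, hP⟩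
  refine Submodule.span_mono (Set.image_mono ?_) h3
  exact fun b hb => ⟨h1 hb, fun h => hl2 (h ▸ hb)⟩

theorem bv_extend_aux {P : Set ι} {n : ι → ℕ} (hn : n ∈ N.Bs X P) :
    ∃ B B' : Finset (List ι), N.FB X P B ∧ N.FB X Set.univ B' ∧
      (n + fun j => ∑ l ∈ B' \ B, l.count j) ∈ N.Bs X Set.univ ∧
      ∀ j ∈ P, ∑ l ∈ B' \ B, l.count j = 0 := by
  obtain ⟨B, hB, h⟩ := (N.mem_Bs_iff X).1 hn
  obtain ⟨B', h1, h2, h3⟩ := N.bv_extend_univ X hB
  refine ⟨B, B', hB, h2, (N.mem_Bs_iff X).2 ⟨B', h2, fun j => ?_⟩, fun j hj => ?_⟩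
  · simp only [Pi.add_apply, h]
    rw [add_comm, Finset.sum_sdiff h1]
  · exact Finset.sum_eq_zero fun l hl => List.count_eq_zero.2 fun hm => h3 l hl j hm hj

/-- extend a monomial basis of the ideal to one of the whole algebra -/
theorem Bs_extend {P : Set ι} {n : ι → ℕ} (hn : n ∈ N.Bs X P) :
    ∃ n' : ι → ℕ, n + n' ∈ N.Bs X Set.univ ∧ ∀ j ∈ P, n' j = 0 := by
  obtain ⟨B, B', -, -, h3, h4⟩ := N.bv_extend_aux X hn
  exact ⟨_, h3, h4⟩

theorem lvol_le_univ (P : Set ι) {h : ι → ℝ} (h0 : ∀ j, 0 ≤ h j) :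
    N.lvol X P h ≤ N.lvol X Set.univ h := by
  obtain ⟨B, hB, e⟩ := N.bv_exists_opt X P h
  obtain ⟨B', h1, h2, -⟩ := N.bv_extend_univ X hB
  rw [e]
  exact (Finset.sum_le_sum_of_subset_of_nonneg h1 fun l _ _ => bv_sz_nonneg h0 l).trans
    (N.bv_le_lvol X h h2)

/-- the `P`-monomials of an optimal basis extend to a basis of the ideal -/
theorem lvol_univ_le : ∃ C : ℝ, 1 ≤ C ∧ ∀ (P : Set ι) (h : ι → ℝ) (η : ℝ), 0 ≤ η →
    (∀ j, 0 ≤ h j) → (∀ j, j ∉ P → h j ≤ η) → N.lvol X Set.univ h ≤ N.lvol X P h + C * η := by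
  classical
  refine ⟨1 + Module.finrank ℝ E * N.m, le_add_of_nonneg_right (by positivity),
    fun P h η hη h0 hP => ?_⟩
  obtain ⟨B, hB, e⟩ := N.bv_exists_opt X Set.univ h
  obtain ⟨B', h1, h2⟩ := bv_extend (N := N) (X := X) (Q := P)
    (B := B.filter fun l => ∃ j ∈ l, j ∈ P) (fun l hl => (Finset.mem_filter.1 hl).2)
    (hB.2.1.mono (Finset.coe_subset.2 (Finset.filter_subset _ _)))
  have h3 := (Finset.sum_le_sum_of_subset_of_nonneg h1 fun l _ _ => bv_sz_nonneg h0 l).trans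
    (N.bv_le_lvol X h h2)
  have h4 : ∑ l ∈ B.filter (fun l => ¬ ∃ j ∈ l, j ∈ P), sz h l ≤
      ∑ l ∈ B.filter (fun l => ¬ ∃ j ∈ l, j ∈ P), (l.length : ℝ) * η :=
    Finset.sum_le_sum fun l hl => bv_sz_le fun j hj =>
      hP j fun hjP => (Finset.mem_filter.1 hl).2 ⟨j, hj, hjP⟩
  have h5 := N.bv_sum_len X (B := B.filter (fun l => ¬ ∃ j ∈ l, j ∈ P))
    (hB.2.1.mono (Finset.coe_subset.2 (Finset.filter_subset _ _))) hη
  rw [e, ← Finset.sum_filter_add_sum_filter_not B (fun l => ∃ j ∈ l, j ∈ P)]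
  linarith

/-- minimal letters occur in every basis -/
theorem one_le_of_Bs (ξ : ι → E →ₗ[ℝ] ℝ) (hξX : ∀ i j, ξ i (X j) = if i = j then 1 else 0)
    (hξ : ∀ i (l : List ι), 2 ≤ l.length → ξ i (N.mon X l) = 0) {n : ι → ℕ}
    (hn : n ∈ N.Bs X Set.univ) (j : ι) : 1 ≤ n j := by
  obtain ⟨B, hB, h⟩ := (N.mem_Bs_iff X).1 hn
  rw [h]
  refine le_trans ?_ (Finset.single_le_sum (f := fun l : List ι => l.count j)
    (fun _ _ => Nat.zero_le _) (bv_single_mem ξ hξX hξ hB j))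
  simp

theorem Bs_extend' (ξ : ι → E →ₗ[ℝ] ℝ) (hξX : ∀ i j, ξ i (X j) = if i = j then 1 else 0)
    (hξ : ∀ i (l : List ι), 2 ≤ l.length → ξ i (N.mon X l) = 0) {P : Set ι} {n : ι → ℕ}
    (hn : n ∈ N.Bs X P) :
    ∃ n' : ι → ℕ, n + n' ∈ N.Bs X Set.univ ∧ (∀ j ∈ P, n' j = 0) ∧ ∀ j, j ∉ P → 1 ≤ n' j := by
  obtain ⟨B, B', h1, h2, h3, h4⟩ := N.bv_extend_aux X hn
  refine ⟨_, h3, h4, fun j hj => ?_⟩
  have hm : [j] ∈ B' \ B := by
    refine Finset.mem_sdiff.2 ⟨bv_single_mem ξ hξX hξ h2 j, fun hm => ?_⟩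
    obtain ⟨i, hi, hiP⟩ := h1.1 _ hm
    rw [List.mem_singleton.1 hi] at hiP
    exact hj hiP
  refine le_trans ?_ (Finset.single_le_sum (f := fun l : List ι => l.count j)
    (fun _ _ => Nat.zero_le _) hm)
  simp

theorem bv_coord {B : Finset (List ι)} {γ : List ι → E →ₗ[ℝ] ℝ} (hγ : Crd N X B γ) :
    ∃ A : ℝ, 1 ≤ A ∧ ∀ (P : Set ι) (h : ι → ℝ), N.FB X P B → N.lvol X P h = ∑ l ∈ B, sz h l →
      ∀ x ∈ N.idl X P, ∀ b ∈ B, |γ b x| ≤ A * Real.exp (sz h b) * N.bI X P h x := by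
  obtain ⟨A, hA, hA'⟩ := bv_unif (B.finite_toSet.prod (List.finite_length_le ι N.m))
    (fun q C => |γ q.1 (N.mon X q.2)| ≤ C) (fun _ _ _ h h' => h'.trans h)
    (fun q _ => ⟨_, le_rfl⟩)
  refine ⟨A, hA, fun P h hP ho x hx b hb => ?_⟩
  have hA0 : 0 < A := by linarith
  have := (N.le_bI X (⊤ : Submodule ℝ ℝ) (fun t => |t|) (fun y _ z _ => abs_add_le y z)
    (fun c y _ => by simp [abs_mul]) (γ b) h (A := A * Real.exp (sz h b)) (by positivity)
    (fun l hl hlen => ⟨trivial, ?_⟩) hx).2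
  · refine le_trans ?_ this
    exact le_mul_of_one_le_left (abs_nonneg _) (one_le_pow₀ (by norm_num))
  · by_cases h0 : γ b (N.mon X l) = 0
    · simp only [h0, abs_zero]; positivity
    · have h1 := N.bv_opt_sz X hP ho hγ hb hl h0
      refine (hA' (b, l) ⟨hb, hlen⟩).trans ?_
      rw [mul_assoc, ← Real.exp_add]
      exact le_mul_of_one_le_right hA0.le (Real.one_le_exp (by linarith))

end Alg

variable {E : Type} [NormedAddCommGroup E] [NormedSpace ℝ E] [FiniteDimensional ℝ E]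
  [MeasurableSpace E] [BorelSpace E] (N : NL E) {ι : Type} [Fintype ι] [DecidableEq ι] (X : ι → E)

theorem vol_bI : ∃ C : ℝ, 1 ≤ C ∧ ∀ (P : Set ι) (h : ι → ℝ),
    Real.exp (N.lvol X P h) ≤ C * vol (N.idl X P) (N.bI X P h) ∧
      vol (N.idl X P) (N.bI X P h) ≤ C * Real.exp (N.lvol X P h) := by
  have key : ∀ B ∈ {B : Finset (List ι) | LinearIndepOn ℝ (N.mon X) (B : Set (List ι))},
      ∃ C : ℝ, ∀ (P : Set ι) (h : ι → ℝ), N.FB X P B → N.lvol X P h = ∑ l ∈ B, sz h l →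
        Real.exp (N.lvol X P h) ≤ C * vol (N.idl X P) (N.bI X P h) ∧
          vol (N.idl X P) (N.bI X P h) ≤ C * Real.exp (N.lvol X P h) := by
    intro B hB
    obtain ⟨γ, hγ⟩ := bv_exists_crd hB
    obtain ⟨A, hA, hA'⟩ := N.bv_coord X hγ
    set v : ℝ := (hm (Submodule.span ℝ (N.mon X '' B)) (cube N X B γ fun _ => 1)).toReal with hv
    have hfin := hγ.hm_cube_lt_top
    have hv0 : 0 < v := ENNReal.toReal_pos (hm_cube_pos B γ).ne' hfin.ne
    have hreal : ∀ c : List ι → ℝ, (∀ b, 0 < c b) →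
        hm (Submodule.span ℝ (N.mon X '' B)) (cube N X B γ c) =
          ENNReal.ofReal ((∏ b ∈ B, c b) * v) := by
      intro c hc
      rw [hγ.hm_cube hB c hc, ENNReal.ofReal_mul (Finset.prod_nonneg fun b _ => (hc b).le), hv,
        ENNReal.ofReal_toReal hfin.ne]
    set δ : ℝ := ((B.card + 1) * 2 ^ N.m)⁻¹ with hδ
    have hδ0 : 0 < δ := by positivity
    refine ⟨max (δ ^ B.card * v)⁻¹ (A ^ B.card * v), fun P h hP ho => ?_⟩
    have hA0 : 0 < A := by linarith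
    have hup : hm (N.idl X P) (bl (N.idl X P) (N.bI X P h) 1) ≤
        ENNReal.ofReal (A ^ B.card * v * Real.exp (N.lvol X P h)) := by
      have : bl (N.idl X P) (N.bI X P h) 1 ⊆ cube N X B γ fun b => A * Real.exp (sz h b) := by
        rintro x ⟨hx, hx1⟩
        refine ⟨by rw [hP.2.2]; exact hx, fun b hb => (hA' P h hP ho x hx b hb).trans ?_⟩
        exact mul_le_of_le_one_right (by positivity) hx1
      refine (measure_mono this).trans (le_of_eq ?_)
      rw [← hP.2.2, hreal _ (fun b => by positivity), Finset.prod_mul_distrib, Finset.prod_const,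
        ← Real.exp_sum, ← ho]
      congr 1; ring
    have hlo : ENNReal.ofReal (δ ^ B.card * v * Real.exp (N.lvol X P h)) ≤
        hm (N.idl X P) (bl (N.idl X P) (N.bI X P h) 1) := by
      have : (cube N X B γ fun b => δ * Real.exp (sz h b)) ⊆ bl (N.idl X P) (N.bI X P h) 1 := by
        rintro x ⟨hx, hx1⟩
        refine ⟨by rw [← hP.2.2]; exact hx, ?_⟩
        have hL := N.isLN_bI X P h
        rw [← hγ.repr hx]
        refine (hL.sum_le B fun b hb =>
          Submodule.smul_mem _ _ (N.mon_mem X (hP.1 b hb))).trans ?_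
        have h1 : ∀ b ∈ B, N.bI X P h (γ b x • N.mon X b) ≤ δ * 2 ^ N.m := by
          intro b hb
          rw [hL.smul _ _ (N.mon_mem X (hP.1 b hb))]
          calc _ ≤ (δ * Real.exp (sz h b)) * (2 ^ N.m * Real.exp (-sz h b)) :=
                mul_le_mul (hx1 b hb) (N.bI_mon X h (hP.1 b hb)) (N.bI_nonneg X P h _)
                  (by positivity)
            _ = δ * 2 ^ N.m * (Real.exp (sz h b) * Real.exp (-sz h b)) := by ring
            _ = _ := by rw [← Real.exp_add]; simp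
        refine (Finset.sum_le_card_nsmul _ _ _ h1).trans ?_
        rw [nsmul_eq_mul, hδ]
        have : (B.card : ℝ) * ((((B.card : ℝ) + 1) * 2 ^ N.m)⁻¹ * 2 ^ N.m)
            = B.card / (B.card + 1) := by field_simp
        rw [this, div_le_one (by positivity)]
        linarith
      refine le_trans (le_of_eq ?_) (measure_mono this)
      rw [← hP.2.2, hreal _ (fun b => by positivity), Finset.prod_mul_distrib, Finset.prod_const,
        ← Real.exp_sum, ← ho]
      congr 1; ring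
    have hne : hm (N.idl X P) (bl (N.idl X P) (N.bI X P h) 1) ≠ ⊤ :=
      ne_top_of_le_ne_top ENNReal.ofReal_ne_top hup
    have h1 : δ ^ B.card * v * Real.exp (N.lvol X P h) ≤ vol (N.idl X P) (N.bI X P h) :=
      (ENNReal.ofReal_le_iff_le_toReal hne).1 hlo
    have h2 : vol (N.idl X P) (N.bI X P h) ≤ A ^ B.card * v * Real.exp (N.lvol X P h) :=
      ENNReal.toReal_le_of_le_ofReal (by positivity) hup
    have h0 : 0 ≤ vol (N.idl X P) (N.bI X P h) := ENNReal.toReal_nonneg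
    constructor
    · refine le_trans ?_ (mul_le_mul_of_nonneg_right (le_max_left _ _) h0)
      rw [le_inv_mul_iff₀ (by positivity)]
      exact h1
    · exact h2.trans (mul_le_mul_of_nonneg_right (le_max_right _ _) (Real.exp_pos _).le)
  obtain ⟨C, hC, hC'⟩ := bv_unif (bv_finite N X) _ (fun B C C' hCC' H P h hP ho =>
    ⟨(H P h hP ho).1.trans (mul_le_mul_of_nonneg_right hCC' ENNReal.toReal_nonneg),
      (H P h hP ho).2.trans (mul_le_mul_of_nonneg_right hCC' (Real.exp_pos _).le)⟩) key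
  refine ⟨C, hC, fun P h => ?_⟩
  obtain ⟨B, hB, ho⟩ := N.bv_exists_opt X P h
  exact hC' B hB.2.1 P h hB ho

/-- `X i` belongs to the optimal basis and `ξ i` is the corresponding coordinate -/
theorem hm_slab (ξ : ι → E →ₗ[ℝ] ℝ) (hξX : ∀ i j, ξ i (X j) = if i = j then 1 else 0)
    (hξ : ∀ i (l : List ι), 2 ≤ l.length → ξ i (N.mon X l) = 0) :
    ∃ C : ℝ, 1 ≤ C ∧ ∀ (h : ι → ℝ) (i : ι) (κ : ℝ),
      hm (N.idl X Set.univ) {x | x ∈ N.idl X Set.univ ∧ N.bI X Set.univ h x ≤ 1 ∧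
        |ξ i x| ≤ Real.exp (h i - κ)} ≤
          ENNReal.ofReal (C * Real.exp (N.lvol X Set.univ h - κ)) := by
  have key : ∀ B ∈ {B : Finset (List ι) | LinearIndepOn ℝ (N.mon X) (B : Set (List ι))},
      ∃ C : ℝ, ∀ (h : ι → ℝ) (i : ι) (κ : ℝ), N.FB X Set.univ B →
        N.lvol X Set.univ h = ∑ l ∈ B, sz h l →
        hm (N.idl X Set.univ) {x | x ∈ N.idl X Set.univ ∧ N.bI X Set.univ h x ≤ 1 ∧
          |ξ i x| ≤ Real.exp (h i - κ)} ≤
            ENNReal.ofReal (C * Real.exp (N.lvol X Set.univ h - κ)) := by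
    intro B hB
    obtain ⟨γ, hγ⟩ := bv_exists_crd hB
    obtain ⟨A, hA, hA'⟩ := N.bv_coord X hγ
    set v : ℝ := (hm (Submodule.span ℝ (N.mon X '' B)) (cube N X B γ fun _ => 1)).toReal with hv
    have hfin := hγ.hm_cube_lt_top
    refine ⟨A ^ B.card * v, fun h i κ hP ho => ?_⟩
    have hA0 : 0 < A := by linarith
    have hi := bv_single_mem ξ hξX hξ hP i
    have hc : ∀ b : List ι,
        0 < A * Real.exp (sz h b) * (if b = [i] then Real.exp (-κ) else 1) := by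
      intro b; split_ifs <;> positivity
    have : {x | x ∈ N.idl X Set.univ ∧ N.bI X Set.univ h x ≤ 1 ∧ |ξ i x| ≤ Real.exp (h i - κ)} ⊆
        cube N X B γ fun b => A * Real.exp (sz h b) * (if b = [i] then Real.exp (-κ) else 1) := by
      rintro x ⟨hx, hx1, hx2⟩
      have hx' : x ∈ Submodule.span ℝ (N.mon X '' B) := by rw [hP.2.2]; exact hx
      refine ⟨hx', fun b hb => ?_⟩
      by_cases hbi : b = [i]
      · subst hbi
        have e : ξ i x = γ [i] x := by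
          conv_lhs => rw [← hγ.repr hx']
          rw [map_sum, Finset.sum_eq_single [i]]
          · simp [mon, hξX]
          · intro b _ hne
            rw [map_smul, bv_letter_mem ξ hξX hξ i hne]; simp
          · intro h'; exact absurd hi h'
        simp only [if_true]
        rw [← e]
        refine hx2.trans ?_
        have e2 : sz h [i] = h i := by simp [sz]
        rw [e2, mul_assoc, ← Real.exp_add, ← sub_eq_add_neg]
        exact le_mul_of_one_le_left (Real.exp_pos _).le hA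
      · simp only [if_neg hbi, mul_one]
        exact (hA' _ h hP ho x hx b hb).trans (mul_le_of_le_one_right (by positivity) hx1)
    refine (measure_mono this).trans (le_of_eq ?_)
    rw [← hP.2.2, hγ.hm_cube hB _ hc, ← ENNReal.ofReal_toReal hfin.ne, ← hv,
      ← ENNReal.ofReal_mul (Finset.prod_nonneg fun b _ => (hc b).le),
      Finset.prod_mul_distrib, Finset.prod_mul_distrib, Finset.prod_const, ← Real.exp_sum, ← ho,
      Finset.prod_ite_eq', if_pos hi, sub_eq_add_neg, Real.exp_add]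
    congr 1; ring
  obtain ⟨C, hC, hC'⟩ := bv_unif (bv_finite N X) _ (fun B C C' hCC' H h i κ hP ho =>
    (H h i κ hP ho).trans (ENNReal.ofReal_le_ofReal
      (mul_le_mul_of_nonneg_right hCC' (Real.exp_pos _).le))) key
  refine ⟨C, hC, fun h i κ => ?_⟩
  obtain ⟨B, hB, ho⟩ := N.bv_exists_opt X Set.univ h
  exact hC' B hB.2.1 h i κ hB ho

theorem hm_image_idl (T : E →ₗ[ℝ] E) (hT : ∀ x y, T (N.br x y) = N.br (T x) (T y)) (c : ι → ℝ)
    (hc : ∀ j, T (X j) = Real.exp (c j) • X j) {P : Set ι} {n : ι → ℕ} (hn : n ∈ N.Bs X P)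
    {A : Set E} (hA : A ⊆ N.idl X P) :
    hm (N.idl X P) (T '' A) =
      ENNReal.ofReal (Real.exp (∑ j, (n j : ℝ) * c j)) * hm (N.idl X P) A := by
  obtain ⟨r, ls, -, h2, h3, h4⟩ := hn
  rw [hm_image_diag (N.idl X P) (fun a => N.mon X (ls a)) h2 h3 T
    (fun a => Real.exp (sz c (ls a))) (fun a => Real.exp_pos _)
    (fun a => N.map_mon X T hT c hc (ls a)) hA, ← Real.exp_sum]
  congr 3
  simp only [h4, sz_eq_sum, Nat.cast_sum, Finset.sum_mul]
  rw [Finset.sum_comm]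

end NL

end Crest.Agent.R182
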