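import Crest.Agent.R182.GeoAd

/-! Row 182, task `R182/GeoPC`: path confinement. -/

set_option autoImplicit false

namespace Crest.Agent.R182

open scoped BigOperators
open MeasureTheory

namespace Frame

variable (F : Frame)

/-- finite union of continuous images of closed subsets of `Q^i` -/
theorem isCompact_PC (h : F.J → ℝ) (n : ℝ) : IsCompact (F.PC h n) := by
  have hfin : {i : ℕ | (i : ℝ) ≤ n}.Finite :=
    (Set.finite_Iic ⌊n⌋₊).subset fun i hi => Nat.le_floor hi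
  have hc : ∀ (i : ℕ) (l : List (Fin i)), Continuous fun f : Fin i → F.G => (l.map f).prod :=
    fun i l => continuous_list_prod l fun a _ => continuous_apply a
  have e : F.PC h n = ⋃ i ∈ {i : ℕ | (i : ℝ) ≤ n}, (fun f : Fin i → F.G =>
      ((List.finRange i).map f).prod) '' ((Set.univ.pi fun _ => F.M.Q) ∩
        ⋂ (b : ℕ) (j : F.J), {f | F.μ j (F.M.ht (((List.finRange i).take b).map f).prod) ≤ h j}) := by
    ext g
    simp only [Set.mem_iUnion, Set.mem_image, Set.mem_inter_iff, Set.mem_iInter, Set.mem_pi,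
      Set.mem_univ, true_imp_iff, Set.mem_ofPred_eq, exists_prop]
    constructor
    · rintro ⟨l, h1, h2, h3, h4⟩
      have e1 : (List.finRange l.length).map l.get = l := List.map_get_finRange l
      refine ⟨l.length, h1, l.get, ⟨fun a => h2 _ (List.get_mem l a), fun b j => ?_⟩, ?_⟩
      · rw [List.map_take, e1]
        exact h4 b j
      · rw [e1, h3]
    · rintro ⟨i, h1, f, ⟨h2, h4⟩, h3⟩
      refine ⟨(List.finRange i).map f, by simpa using h1, fun s hs => ?_, h3, fun b j => ?_⟩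
      · obtain ⟨a, -, rfl⟩ := List.mem_map.1 hs
        exact h2 a
      · rw [← List.map_take]
        exact h4 b j
  rw [e]
  refine hfin.isCompact_biUnion fun i _ => IsCompact.image ?_ (hc i _)
  refine (isCompact_univ_pi fun _ => F.M.isCompact_Q).inter_right ?_
  refine isClosed_iInter fun b => isClosed_iInter fun j => isClosed_le ?_ continuous_const
  exact (F.μ j).continuous_of_finiteDimensional.comp (F.M.continuous_ht.comp (hc i _))

theorem measurableSet_PC (h : F.J → ℝ) (n : ℝ) : MeasurableSet (F.PC h n) :=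
  (F.isCompact_PC h n).isClosed.measurableSet

theorem PC_mono {h h' : F.J → ℝ} {n n' : ℝ} (hh : ∀ j, h j ≤ h' j) (hn : n ≤ n') :
    F.PC h n ⊆ F.PC h' n' := by
  rintro g ⟨l, h1, h2, h3, h4⟩
  exact ⟨l, h1.trans hn, h2, h3, fun b j => (h4 b j).trans (hh j)⟩

theorem PC_nonneg {h : F.J → ℝ} {n : ℝ} {g : F.G} (hg : g ∈ F.PC h n) (j : F.J) : 0 ≤ h j := by
  obtain ⟨l, -, -, -, h4⟩ := hg
  simpa using h4 0 j

theorem PC_ht {h : F.J → ℝ} {n : ℝ} {g : F.G} (hg : g ∈ F.PC h n) (j : F.J) :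
    F.μ j (F.M.ht g) ≤ h j := by
  obtain ⟨l, -, -, h3, h4⟩ := hg
  simpa [h3] using h4 l.length j

theorem PC_len {h : F.J → ℝ} {n : ℝ} {g : F.G} (hg : g ∈ F.PC h n) : F.M.len g ≤ n := by
  obtain ⟨l, h1, h2, h3, -⟩ := hg
  exact h3 ▸ (F.M.api_len_le l h2).trans h1

theorem one_mem_PC {h : F.J → ℝ} (h0 : ∀ j, 0 ≤ h j) {n : ℝ} (hn : 0 ≤ n) : 1 ∈ F.PC h n := by
  exact ⟨[], by simpa using hn, by simp, rfl, fun b j => by simpa using h0 j⟩

theorem PC_mul {h h' : F.J → ℝ} {n n' : ℝ} {g g' : F.G} (hg : g ∈ F.PC h n) (hg' : g' ∈ F.PC h' n')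
    (hh : ∀ j, F.μ j (F.M.ht g) + h' j ≤ h j) : g * g' ∈ F.PC h (n + n') := by
  obtain ⟨l, h1, h2, h3, h4⟩ := hg
  obtain ⟨l', h1', h2', h3', h4'⟩ := hg'
  refine ⟨l ++ l', by rw [List.length_append]; push_cast; linarith, fun s hs => ?_,
    by rw [List.prod_append, h3, h3'], fun b j => ?_⟩
  · rcases List.mem_append.1 hs with hs | hs
    · exact h2 s hs
    · exact h2' s hs
  · rcases le_total b l.length with hb | hb
    · rw [List.take_append_of_le_length hb]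
      exact h4 b j
    · rw [List.take_append, List.take_of_length_le hb, List.prod_append, h3, F.M.ht_mul, map_add]
      linarith [h4' (b - l.length) j, hh j]

theorem PC_inv {h : F.J → ℝ} {n : ℝ} {g : F.G} (hg : g ∈ F.PC h n) :
    g⁻¹ ∈ F.PC (h - F.mu (F.M.ht g)) n := by
  obtain ⟨l, h1, h2, h3, h4⟩ := hg
  refine ⟨(l.map fun x => x⁻¹).reverse, by simpa using h1, fun s hs => ?_,
    by rw [← List.prod_inv_reverse, h3], fun b j => ?_⟩
  · obtain ⟨x, hx, rfl⟩ := List.mem_map.1 (List.mem_reverse.1 hs)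
    exact F.M.inv_mem_Q.2 (h2 x hx)
  · rw [List.take_reverse, ← List.map_drop, ← List.prod_inv_reverse, List.length_map]
    have e : g = (l.take (l.length - b)).prod * (l.drop (l.length - b)).prod := by
      rw [← List.prod_append, List.take_append_drop, h3]
    have e2 := congrArg (fun x => F.μ j (F.M.ht x)) e
    simp only [F.M.ht_mul, map_add] at e2
    have := h4 (l.length - b) j
    simp only [F.M.ht_inv, map_neg, Pi.sub_apply, mu]
    linarith

theorem PC_of_len : ∃ C : ℝ, 1 ≤ C ∧ ∀ (g : F.G) (a : ℝ), F.M.len g ≤ a →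
    g ∈ F.PC (fun _ => C * a) a := by
  obtain ⟨C1, hC1, h1⟩ := F.M.api_ht
  obtain ⟨C2, hC2, h2⟩ := F.norm_mu_le
  refine ⟨max 1 (C2 * C1), le_max_left _ _, fun g a hg => ?_⟩
  obtain ⟨l, e1, e2, e3⟩ := F.M.exists_list g
  refine ⟨l, e1.le.trans hg, e2, e3, fun b j => ?_⟩
  have a0 : 0 ≤ a := (F.M.len_nonneg g).trans hg
  have a1 := h1 (l.take b) fun x hx => e2 x (List.mem_of_mem_take hx)
  have a2 : ((l.take b).length : ℝ) ≤ a := by
    refine le_trans ?_ (e1.le.trans hg)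
    exact_mod_cast List.length_take_le' b l
  calc F.μ j (F.M.ht (l.take b).prod) ≤ C2 * ‖F.M.ht (l.take b).prod‖ :=
        (le_abs_self _).trans (h2 j _)
    _ ≤ C2 * (C1 * a) :=
        mul_le_mul_of_nonneg_left (a1.trans (mul_le_mul_of_nonneg_left a2 hC1.le)) hC2.le
    _ = C2 * C1 * a := by ring
    _ ≤ _ := mul_le_mul_of_nonneg_right (le_max_right _ _) a0

/-- coarse paths -/
theorem PC_chain : ∃ C : ℝ, 1 ≤ C ∧ ∀ (y : ℕ → F.G) (n : ℕ) (a : ℝ) (h : F.J → ℝ), 0 ≤ a →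
    (∀ i < n, F.M.dd (y i) (y (i + 1)) ≤ a) →
    (∀ i ≤ n, ∀ j, F.μ j (F.M.ht (y i) - F.M.ht (y 0)) ≤ h j) →
      (y 0)⁻¹ * y n ∈ F.PC (fun j => h j + C * a) (n * a) := by
  obtain ⟨C, hC, h1⟩ := F.PC_of_len
  refine ⟨C, hC, fun y n a h ha => ?_⟩
  induction n with
  | zero =>
    intro _ h3
    rw [inv_mul_cancel]
    refine F.one_mem_PC (fun j => ?_) (by simp)
    have := h3 0 le_rfl j
    rw [sub_self, map_zero] at this
    have : 0 ≤ C * a := mul_nonneg (by linarith) ha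
    linarith
  | succ n ih =>
    intro h2 h3
    have a1 := ih (fun i hi => h2 i (by omega)) fun i hi => h3 i (by omega)
    have a2 := h1 _ a (h2 n (by omega))
    have a3 := F.PC_mul a1 a2 fun j => by
      have := h3 n (by omega) j
      rw [F.M.ht_mul, F.M.ht_inv, neg_add_eq_sub]
      linarith
    rw [mul_assoc, mul_inv_cancel_left] at a3
    push_cast
    rw [add_mul, one_mul]
    exact a3

/-- base-point form of `PC_mul`: concatenation of confined paths `x → y → z` -/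
theorem PC_trans {h h' : F.J → ℝ} {n n' : ℝ} {x y z : F.G} (h1 : x⁻¹ * y ∈ F.PC h n)
    (h2 : y⁻¹ * z ∈ F.PC h' n') (hh : ∀ j, F.μ j (F.M.ht y - F.M.ht x) + h' j ≤ h j) :
    x⁻¹ * z ∈ F.PC h (n + n') := by
  have := F.PC_mul h1 h2 fun j => by
    rw [F.M.ht_mul, F.M.ht_inv, neg_add_eq_sub]
    exact hh j
  rwa [mul_assoc, mul_inv_cancel_left] at this

theorem pc_poly (K : ℝ) (e : ℕ) : ∃ C : ℝ, 1 ≤ C ∧ ∀ n : ℝ, 2 ≤ n →
    K * n ^ e ≤ Real.exp (C * Real.log n) := by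
  obtain ⟨N, hN⟩ := pow_unbounded_of_one_lt K (one_lt_two (α := ℝ))
  refine ⟨((N + e + 1 : ℕ) : ℝ), by exact_mod_cast Nat.le_add_left 1 _, fun n hn => ?_⟩
  have h0 : 0 < n := by linarith
  rw [Real.exp_nat_mul, Real.exp_log h0, pow_succ, pow_add]
  have h1 : K ≤ n ^ N := hN.le.trans (pow_le_pow_left₀ (by norm_num) hn N)
  have h2 : K * n ^ e ≤ n ^ N * n ^ e := mul_le_mul_of_nonneg_right h1 (by positivity)
  exact h2.trans (le_mul_of_one_le_right (by positivity) (by linarith))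

theorem pc_sum_le {α : Type} (p : α → ℝ) (l : List α) {B n : ℝ} (hB : 0 ≤ B)
    (hn : (l.length : ℝ) ≤ n) (h : ∀ x ∈ l, p x ≤ B) : (l.map p).sum ≤ n * B := by
  have := List.sum_le_card_nsmul (l.map p) B fun y hy => by
    obtain ⟨x, hx, rfl⟩ := List.mem_map.1 hy
    exact h x hx
  rw [List.length_map, nsmul_eq_mul] at this
  exact this.trans (mul_le_mul_of_nonneg_right hn hB)

theorem pc_dn_mono {r r' : ℝ} (hr : 0 < r) (h : r ≤ r') {d : F.E} (hd : d ∈ F.D) :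
    F.dn r' d ≤ F.dn r d :=
  (F.dn_scale hr h hd).trans (mul_le_of_le_one_left ((F.isLN_dn r).nonneg hd)
    (div_le_one_of_le₀ h (hr.le.trans h)))

theorem pc_dn (A : ℝ) (hA : 0 ≤ A) : ∃ C : ℝ, 1 ≤ C ∧ ∀ n : ℝ, 1 ≤ n → ∀ κ : List F.E,
    (κ.length : ℝ) ≤ n → (∀ d ∈ κ, d ∈ F.D ∧ ‖d‖ ≤ A) → F.dn (C * n) (F.N.prod κ) ≤ 1 := by
  obtain ⟨c, hc0, hc1, hc⟩ := F.N.ln_prod_small
  obtain ⟨C2, hC2, h2⟩ := F.norm_le_dn
  refine ⟨1 + 2 * C2 * A / c, le_add_of_nonneg_right (by positivity), fun n hn κ h1 h3 => ?_⟩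
  set C := 1 + 2 * C2 * A / c with hC
  have hC1 : 1 ≤ C := le_add_of_nonneg_right (by positivity)
  have hr : 1 ≤ C * n := one_le_mul_of_one_le_of_one_le hC1 hn
  have a1 : (κ.map (F.dn (C * n))).sum ≤ n * (C2 * A / (C * n)) :=
    pc_sum_le _ κ (by positivity) h1 fun d hd => ((h2 _ hr d (h3 d hd).1).2).trans
      (div_le_div_of_nonneg_right (mul_le_mul_of_nonneg_left (h3 d hd).2 (by linarith))
        (by linarith))
  have a2 : n * (C2 * A / (C * n)) ≤ c / 2 := by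
    have : n * (C2 * A / (C * n)) = C2 * A / C := by field_simp
    rw [this, div_le_iff₀ (by linarith), hC]
    have : c / 2 * (1 + 2 * C2 * A / c) = c / 2 + C2 * A := by field_simp
    linarith
  have a3 := hc _ _ (F.isLN_dn (C * n)) κ (fun d hd => (h3 d hd).1) (by linarith)
  linarith

theorem pc_step : ∃ (A K : ℝ) (e : ℕ), 0 ≤ A ∧ 0 ≤ K ∧ ∀ (h : F.J → ℝ) (n : ℝ), F.Adm h → 1 ≤ n →
    ∀ l : List F.G, (l.length : ℝ) ≤ n → (∀ s ∈ l, s ∈ F.M.Q) →
      (∀ b ≤ l.length, ∀ j, F.μ j (F.M.ht (l.take b).prod) ≤ h j) →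
      ∃ ρ κ : List F.E, ρ.length = l.length ∧ κ.length = l.length ∧
        (∀ y ∈ ρ, y ∈ F.R ∧ F.bx h y ≤ K * n ^ e) ∧ (∀ d ∈ κ, d ∈ F.D ∧ ‖d‖ ≤ A) ∧
        l.prod = F.M.ofE (F.N.prod ρ) * F.M.ofE (F.N.prod κ) := by
  obtain ⟨C1, e1, hC1, h1⟩ := F.exists_decomp_norm
  obtain ⟨C0, hC0, h0⟩ := F.pc_dn C1 (by linarith)
  obtain ⟨C2, hC2, h2⟩ := F.norm_le_dn
  obtain ⟨C3, e3, hC3, h3⟩ := F.conj_box
  obtain ⟨C4, hC4, h4⟩ := F.norm_le_bi
  refine ⟨C1, C3 * (1 + C2 * C0 ^ F.N.m) ^ e3 * (C4 * (C1 * 2 ^ e1)), F.N.m * e3, by linarith,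
    by positivity, fun h n hh hn l => ?_⟩
  induction l using List.reverseRecOn with
  | nil => exact fun _ _ _ => ⟨[], [], rfl, rfl, by simp, by simp, by simp⟩
  | append_singleton l s ih =>
    intro a1 a2 a3
    rw [List.length_append, List.length_singleton] at a1 a3
    have a1' : (l.length : ℝ) ≤ n := le_trans (by exact_mod_cast Nat.le_succ _) a1
    obtain ⟨ρ, κ, b1, b2, b3, b4, b5⟩ := ih a1' (fun x hx => a2 x (List.mem_append_left _ hx))
      fun b hb j => by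
        have := a3 b (by omega) j
        rwa [List.take_append_of_le_length hb] at this
    have hs : ‖F.M.toE s‖ ≤ 1 := (a2 s (by simp)).1
    obtain ⟨r, hr, d, hd, c1, c2, c3⟩ := h1 s
    have hρ : F.N.prod ρ ∈ F.R := (F.isLN_bx h).prod_mem fun y hy => (b3 y hy).1
    have hκ : F.N.prod κ ∈ F.D := (F.isLN_dn 1).prod_mem fun y hy => (b4 y hy).1
    set k := F.N.prod κ with hk
    have c4 : F.M.φ k = F.M.ht l.prod := by
      rw [b5, F.M.ht_mul, F.M.ht_ofE, F.M.ht_ofE, F.φ_R hρ, zero_add]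
    have c5 : ∀ j, (0 : ℝ) ≤ (h - F.mu (F.M.φ k)) j := fun j => by
      have := a3 l.length (by omega) j
      rw [List.take_append_of_le_length le_rfl, List.take_length, ← c4] at this
      simpa [mu] using this
    obtain ⟨y, hy, c6, c7⟩ := h3 _ (hh.sub_mu (F.M.φ k)) k hκ r hr
    rw [sub_add_cancel] at c7
    have c8 : F.bx (h - F.mu (F.M.φ k)) r ≤ C4 * (C1 * 2 ^ e1) := by
      have := (h4 Set.univ _ 0 le_rfl r hr).2 c5
      rw [neg_zero, Real.exp_zero, mul_one] at this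
      refine this.trans (mul_le_mul_of_nonneg_left (c2.trans ?_) (by linarith))
      exact mul_le_mul_of_nonneg_left (pow_le_pow_left₀ (by positivity) (by linarith) _)
        (by linarith)
    have c9 : 1 + ‖k‖ ≤ (1 + C2 * C0 ^ F.N.m) * n ^ F.N.m := by
      have d1 := h0 n hn κ (b2 ▸ a1') b4
      have d2 := (h2 _ (one_le_mul_of_one_le_of_one_le hC0 hn) k hκ).1
      have d3 : C2 * (C0 * n) ^ F.N.m * F.dn (C0 * n) k ≤ C2 * (C0 * n) ^ F.N.m :=
        mul_le_of_le_one_right (by positivity) d1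
      have d4 : 1 ≤ n ^ F.N.m := one_le_pow₀ hn
      rw [mul_pow] at d2 d3
      linarith
    refine ⟨ρ ++ [y], κ ++ [d], by simp [b1], by simp [b2], fun z hz => ?_, fun z hz => ?_, ?_⟩
    · rcases List.mem_append.1 hz with hz | hz
      · exact b3 z hz
      · rw [List.mem_singleton.1 hz]
        refine ⟨hy, c7.trans ?_⟩
        have d5 : (1 + ‖k‖) ^ e3 ≤ (1 + C2 * C0 ^ F.N.m) ^ e3 * n ^ (F.N.m * e3) := by
          rw [pow_mul, ← mul_pow]
          exact pow_le_pow_left₀ (by positivity) c9 _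
        calc C3 * (1 + ‖k‖) ^ e3 * F.bx (h - F.mu (F.M.φ k)) r
            ≤ C3 * ((1 + C2 * C0 ^ F.N.m) ^ e3 * n ^ (F.N.m * e3)) * (C4 * (C1 * 2 ^ e1)) :=
              mul_le_mul (mul_le_mul_of_nonneg_left d5 (by linarith)) c8
                ((F.isLN_bx _).nonneg hr) (by positivity)
          _ = _ := by ring
    · rcases List.mem_append.1 hz with hz | hz
      · exact b4 z hz
      · rw [List.mem_singleton.1 hz]
        exact ⟨hd, c3.trans (mul_le_of_le_one_right (by linarith) hs)⟩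
    · rw [List.prod_append, List.prod_singleton, b5, c1, F.N.prod_append, F.N.prod_append]
      simp only [NL.prod_cons, NL.prod_nil, NL.mul_zero']
      rw [← F.ofE_mul_R hρ, ← F.ofE_mul_D _ hd, ← c6, ← hk]
      group

/-- **Confinement.**  Write each step as `s_i = r_i d_i` with bounded `r_i, d_i`
(`exists_decomp_norm`), so `g = ∏ (k_i r_i k_i⁻¹) · k_n` with `k_i = d_1 ⋯ d_{i-1} ∈ D`,
`dn (C n) k_i ≤ 1` (`ln_prod_small`), `φ k_i` = height of the `i`-th prefix.  Let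
`h₀ j = max_i μ j (φ k_i) ≤ h j`, admissible (`adm_sup'`); apply `conj_box` with `h₀ - mu (φ k_i) ≥ 0`:
`bx h₀ (k_i r_i k_i⁻¹) ≤ poly n`; then `ln_prod_small` for `bx (h₀ + C log n)`. -/
theorem PC_conf : ∃ C : ℝ, 1 ≤ C ∧ ∀ (h : F.J → ℝ) (n : ℝ), 2 ≤ n → ∀ g ∈ F.PC h n,
    ∃ r ∈ F.R, ∃ d ∈ F.D, F.bx (fun j => h j + C * Real.log n) r ≤ 1 ∧ F.dn (C * n) d ≤ 1 ∧
      g = F.M.ofE r * F.M.ofE d := by
  obtain ⟨A, K, e, hA, hK, h1⟩ := F.pc_step
  obtain ⟨C0, hC0, h0⟩ := F.pc_dn A hA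
  obtain ⟨c, hc0, hc1, hc⟩ := F.N.ln_prod_small
  obtain ⟨C1, hC1, h2⟩ := pc_poly (2 * K / c) (e + 1)
  refine ⟨max C0 C1, le_max_of_le_left hC0, ?_⟩
  rintro h n hn g ⟨l, a1, a2, rfl, a4⟩
  have hn1 : 1 ≤ n := by linarith
  have hlog : 0 ≤ Real.log n := Real.log_nonneg hn1
  have hne : (Finset.range (l.length + 1)).Nonempty := ⟨0, by simp⟩
  set h₀ : F.J → ℝ := fun j => (Finset.range (l.length + 1)).sup' hne
    fun b => F.μ j (F.M.ht (l.take b).prod) with hh₀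
  have b0 : F.Adm h₀ := F.adm_sup' _ hne _
  obtain ⟨ρ, κ, b1, b2, b3, b4, b5⟩ := h1 h₀ n b0 hn1 l a1 a2 fun b hb j =>
    Finset.le_sup' (fun b => F.μ j (F.M.ht (l.take b).prod))
      (Finset.mem_range.2 (Nat.lt_succ_of_le hb))
  have hκ : F.N.prod κ ∈ F.D := (F.isLN_dn 1).prod_mem fun y hy => (b4 y hy).1
  refine ⟨_, (F.isLN_bx h).prod_mem fun y hy => (b3 y hy).1, _, hκ, ?_, ?_, b5⟩
  · have d1 : (ρ.map (F.bx fun j => h j + max C0 C1 * Real.log n)).sum ≤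
        n * (Real.exp (-(C1 * Real.log n)) * (K * n ^ e)) := by
      refine pc_sum_le _ ρ (by positivity) (b1 ▸ a1) fun y hy => ?_
      refine le_trans (F.N.bI_shift F.X Set.univ (h := h₀) (c := C1 * Real.log n)
        (by positivity) (fun j => ?_) (b3 y hy).1)
        (mul_le_mul_of_nonneg_left (b3 y hy).2 (Real.exp_pos _).le)
      have d2 : h₀ j ≤ h j := Finset.sup'_le _ _ fun b _ => a4 b j
      have d3 := mul_le_mul_of_nonneg_right (le_max_right C0 C1) hlog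
      linarith
    have d2 : n * (Real.exp (-(C1 * Real.log n)) * (K * n ^ e)) ≤ c / 2 := by
      have d3 := h2 n hn
      have d4 := Real.exp_pos (C1 * Real.log n)
      rw [Real.exp_neg, show n * ((Real.exp (C1 * Real.log n))⁻¹ * (K * n ^ e)) =
        c / 2 * (2 * K / c * n ^ (e + 1)) / Real.exp (C1 * Real.log n) by
          field_simp; ring,
        div_le_iff₀ d4]
      exact mul_le_mul_of_nonneg_left d3 (by positivity)
    have d3 := hc _ _ (F.isLN_bx fun j => h j + max C0 C1 * Real.log n) ρ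
      (fun y hy => (b3 y hy).1) (by linarith)
    linarith
  · exact (F.pc_dn_mono (by positivity) (mul_le_mul_of_nonneg_right (le_max_left _ _)
      (by linarith)) hκ).trans (h0 n hn1 κ (b2 ▸ a1) b4)

theorem decomp_len : ∃ C : ℝ, 1 ≤ C ∧ ∀ (g : F.G) (a : ℝ), 1 ≤ a → F.M.len g ≤ a →
    ∃ r ∈ F.R, ∃ d ∈ F.D, F.bx (fun _ => C * a) r ≤ 1 ∧ F.dn (C * a) d ≤ 1 ∧
      g = F.M.ofE r * F.M.ofE d := by
  obtain ⟨C1, hC1, h1⟩ := F.PC_of_len
  obtain ⟨C2, hC2, h2⟩ := F.PC_conf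
  refine ⟨C1 + 2 * C2, by linarith, fun g a ha hg => ?_⟩
  obtain ⟨r, hr, d, hd, b1, b2, b3⟩ := h2 (fun _ => C1 * a) (2 * a) (by linarith) g
    (F.PC_mono (fun _ => le_rfl) (by linarith) (h1 g a hg))
  refine ⟨r, hr, d, hd, le_trans (F.N.bI_mono F.X Set.univ (fun j => ?_) hr) b1,
    le_trans (F.pc_dn_mono (by positivity) ?_ hd) b2, b3⟩
  · have := Real.log_le_sub_one_of_pos (x := 2 * a) (by linarith)
    nlinarith
  · nlinarith

/-- products of at most `n` lines and bounded pieces -/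
def pcFac {ι : Type} (b : ι → F.L) (T C : ℝ) (n : ℕ) (g : F.G) : Prop :=
  ∃ l : List F.G, l.length ≤ n ∧ l.prod = g ∧
    ∀ s ∈ l, (∃ (i : ι) (t : ℤ), |(t : ℝ)| ≤ T ∧ s = F.lin (b i) t) ∨ F.M.len s ≤ C

theorem pcFac_mul {ι : Type} {b : ι → F.L} {T C : ℝ} {n n' : ℕ} {g g' : F.G}
    (h : F.pcFac b T C n g) (h' : F.pcFac b T C n' g') : F.pcFac b T C (n + n') (g * g') := by
  obtain ⟨l, h1, h2, h3⟩ := h
  obtain ⟨l', h1', h2', h3'⟩ := h'
  refine ⟨l ++ l', by rw [List.length_append]; omega, by rw [List.prod_append, h2, h2'],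
    fun s hs => ?_⟩
  rcases List.mem_append.1 hs with hs | hs
  · exact h3 s hs
  · exact h3' s hs

theorem pcFac_list {ι α : Type} {b : ι → F.L} {T C : ℝ} {k n : ℕ} (f : α → F.G) (l : List α)
    (hn : l.length ≤ n) (h : ∀ q ∈ l, F.pcFac b T C k (f q)) :
    F.pcFac b T C (n * k) (l.map f).prod := by
  have : F.pcFac b T C (l.length * k) (l.map f).prod := by
    clear hn
    induction l with
    | nil => exact ⟨[], by simp, by simp, by simp⟩
    | cons q l ih =>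
      have := F.pcFac_mul (h q (by simp)) (ih fun x hx => h x (by simp [hx]))
      rw [List.map_cons, List.prod_cons, List.length_cons, Nat.succ_mul, Nat.add_comm]
      exact this
  obtain ⟨l', h1, h2⟩ := this
  exact ⟨l', h1.trans (Nat.mul_le_mul_right k hn), h2⟩

theorem pc_exists_dir {ι : Type} (b : ι → F.L) (hb : Submodule.span ℝ (Set.range b) = ⊤)
    (j : F.J) : ∃ i, F.μ j (F.φL (b i)) ≠ 0 := by
  by_contra hne
  push Not at hne
  have h1 : F.μ j ∘ₗ F.φL = 0 := LinearMap.ext_on_range hb fun i => hne i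
  refine F.μ_ne j (LinearMap.ext fun u => ?_)
  obtain ⟨v, rfl⟩ := F.φL_surj u
  exact LinearMap.congr_fun h1 v

theorem pc_int (T c : ℝ) (hT : 0 < T) (hc : c ≠ 0) :
    ∃ t : ℤ, T ≤ |(t : ℝ)| ∧ |(t : ℝ)| ≤ T + 1 ∧ 0 < t * c := by
  have h1 := Int.le_ceil T
  have h2 := Int.ceil_lt_add_one T
  have h3 : (0 : ℝ) < ⌈T⌉ := by linarith
  rcases lt_or_gt_of_ne hc with h | h
  · refine ⟨-⌈T⌉, ?_, ?_, ?_⟩ <;> push_cast
    · rwa [abs_neg, abs_of_pos h3]
    · rw [abs_neg, abs_of_pos h3]; exact h2.le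
    · nlinarith
  · exact ⟨⌈T⌉, by rwa [abs_of_pos h3], by rw [abs_of_pos h3]; exact h2.le, mul_pos h3 h⟩

/-- Factorisation into lines and bounded pieces: `decomp_len`, `fac_R`, `wt_eq_conj` (for each `j`
some `b i` has `μ j (φL (b i)) ≠ 0`), `fac_D`, and `lin v t = lin v ⌊t⌋ * lin v (fract t)`. -/
theorem fac_G {ι : Type} [Fintype ι] (b : ι → F.L) (hb : Submodule.span ℝ (Set.range b) = ⊤) :
    ∃ (n₀ : ℕ) (C : ℝ), 1 ≤ C ∧ ∀ (g : F.G) (a : ℝ), 1 ≤ a → F.M.len g ≤ a →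
      ∃ l : List F.G, l.length ≤ n₀ ∧ l.prod = g ∧
        ∀ s ∈ l, (∃ (i : ι) (t : ℤ), |(t : ℝ)| ≤ C * a ∧ s = F.lin (b i) t) ∨ F.M.len s ≤ C := by
  obtain ⟨C1, hC1, h1⟩ := F.decomp_len
  obtain ⟨n1, h2⟩ := F.fac_R
  obtain ⟨n2, C3, hC3, h3⟩ := F.fac_D b hb
  choose dir hdir using F.pc_exists_dir b hb
  choose C4 hC4 h4 using fun j => F.wt_eq_conj (b (dir j)) j (hdir j)
  obtain ⟨C5, hC5⟩ := Finite.exists_le C4
  obtain ⟨B, hB⟩ := Finite.exists_le fun j => ‖F.X j‖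
  obtain ⟨B', hB'⟩ := Finite.exists_le fun i => ‖b i‖
  obtain ⟨C6, h6⟩ := F.M.len_le_of_norm 1
  obtain ⟨C7, hC7, h7⟩ := F.len_lin
  set C : ℝ := |C5| * (C1 + |B| + 1) + 1 + C3 * C1 + |C6| + C7 * (1 + |B'|) with hC
  have p1 : 0 ≤ |C5| * (C1 + |B| + 1) := by positivity
  have p2 : 0 ≤ C3 * C1 := by positivity
  have p3 : 0 ≤ C7 * (1 + |B'|) := by positivity
  have p4 := abs_nonneg C6
  refine ⟨n1 * 3 + n2 * 2, C, by linarith, fun g a ha hg => ?_⟩
  obtain ⟨r, hr, d, hd, b1, b2, rfl⟩ := h1 g a ha hg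
  obtain ⟨l1, c1, c2, c3⟩ := h2 _ r hr b1
  obtain ⟨l2, d1, d2, d3, -⟩ := h3 _ (by positivity) d hd b2
  rw [← c3, ← d3]
  refine F.pcFac_mul (F.pcFac_list _ l1 c1 ?_) (F.pcFac_list _ l2 d1 ?_)
  · rintro ⟨j, σ⟩ hq
    have e1 : |σ| ≤ Real.exp (C1 * a) := c2 _ hq
    have e2 : ‖σ • F.X j‖ ≤ Real.exp (C1 * a + |B|) := by
      rw [norm_smul, Real.exp_add, Real.norm_eq_abs]
      refine mul_le_mul e1 ?_ (norm_nonneg _) (Real.exp_pos _).le
      linarith [hB j, le_abs_self B, Real.add_one_le_exp |B|]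
    have e0 : 0 ≤ C1 * a + |B| := by positivity
    obtain ⟨t, t1, t2, t3⟩ := pc_int (C4 j * (C1 * a + |B| + 1)) _
      (mul_pos (by linarith [hC4 j]) (by linarith)) (hdir j)
    obtain ⟨b', -, e3, e4⟩ := h4 j _ e0 _ (F.wt_X j σ) e2 t t1 t3
    have t4 : |(t : ℝ)| ≤ C * a := by
      have f1 : C4 j * (C1 * a + |B| + 1) ≤ |C5| * ((C1 + |B| + 1) * a) :=
        mul_le_mul ((hC5 j).trans (le_abs_self _)) (by nlinarith [abs_nonneg B]) (by linarith)
          (abs_nonneg _)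
      have f2 : (|C5| * (C1 + |B| + 1) + 1) * a ≤ C * a :=
        mul_le_mul_of_nonneg_right (by linarith) (by linarith)
      linarith
    refine ⟨[F.lin (b (dir j)) t, F.M.ofE b', F.lin (b (dir j)) ((-t : ℤ) : ℝ)], le_rfl, ?_, ?_⟩
    · simp only [List.prod_cons, List.prod_nil, Int.cast_neg, F.lin_neg, ← e4, root]
      group
    · intro s hs
      simp only [List.mem_cons, List.not_mem_nil, or_false] at hs
      rcases hs with rfl | rfl | rfl
      · exact Or.inl ⟨_, t, t4, rfl⟩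
      · exact Or.inr ((h6 _ e3).trans (by linarith [le_abs_self C6]))
      · exact Or.inl ⟨_, -t, by rwa [Int.cast_neg, abs_neg], rfl⟩
  · rintro ⟨i, q⟩ hq
    have e1 : |q| ≤ C3 * (C1 * a) := d2 _ hq
    refine ⟨[F.lin (b i) ⌊q⌋, F.lin (b i) (Int.fract q)], le_rfl, ?_, ?_⟩
    · simp only [List.prod_cons, List.prod_nil, mul_one, ← F.lin_add, Int.floor_add_fract]
    · intro s hs
      simp only [List.mem_cons, List.not_mem_nil, or_false] at hs
      rcases hs with rfl | rfl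
      · refine Or.inl ⟨i, ⌊q⌋, ?_, rfl⟩
        have f1 : |(⌊q⌋ : ℝ)| ≤ |q| + 1 := by
          have := Int.floor_le q
          have := Int.lt_floor_add_one q
          rw [abs_le]
          constructor <;> linarith [le_abs_self q, neg_abs_le q]
        have f2 : (C3 * C1 + 1) * a ≤ C * a :=
          mul_le_mul_of_nonneg_right (by linarith) (by linarith)
        linarith
      · refine Or.inr ((h7 _ _).trans ?_)
        have f1 : |Int.fract q| * ‖b i‖ ≤ 1 * |B'| :=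
          mul_le_mul (by rw [abs_of_nonneg (Int.fract_nonneg q)]; exact (Int.fract_lt_one q).le)
            ((hB' i).trans (le_abs_self _)) (norm_nonneg _) zero_le_one
        have f2 : C7 * (1 + |Int.fract q| * ‖b i‖) ≤ C7 * (1 + |B'|) :=
          mul_le_mul_of_nonneg_left (by linarith) hC7.le
        linarith

/-- slab paths: `g = r d`, `d = d' • (hat v)` with `φL v = φ d`, `‖v‖ ≤ C E` (`exists_section`) -/
theorem PC_slab : ∃ C : ℝ, 1 ≤ C ∧ ∀ (E n : ℝ), 2 ≤ n → ∀ g ∈ F.PC (fun _ => E) n,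
    ‖F.M.ht g‖ ≤ E → ∃ g₁ g₂ : F.G, ∃ d ∈ F.D, F.M.φ d = 0 ∧ F.dn (C * n) d ≤ 1 ∧
      F.M.len g₁ ≤ C * (E + Real.log n) ∧ F.M.len g₂ ≤ C * (E + Real.log n) ∧
      g = g₁ * F.M.ofE d * g₂ := by
  obtain ⟨C1, hC1, h1⟩ := F.PC_conf
  obtain ⟨C2, hC2, h2⟩ := F.len_R
  obtain ⟨σ, hσ⟩ := F.exists_section
  obtain ⟨C3, hC3, h3⟩ := F.len_lin
  obtain ⟨C4, hC4, h4⟩ := F.dn_hat
  obtain ⟨C5, hC5, h5⟩ := F.norm_π_le_dn
  obtain ⟨c, hc0, hc1, hc⟩ := F.N.ln_prod_small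
  obtain ⟨C6, hC6, h6⟩ : ∃ C : ℝ, 0 ≤ C ∧ ∀ u, ‖σ u‖ ≤ C * ‖u‖ :=
    ⟨_, norm_nonneg _, (LinearMap.toContinuousLinearMap σ).le_opNorm⟩
  set K : ℝ := 2 * (1 + C4 * C6 * C5) / c with hK
  have p0 : 0 ≤ C4 * C6 * C5 := by positivity
  have hK1 : 1 ≤ K := by
    rw [hK, le_div_iff₀ hc0]
    linarith
  set C : ℝ := K * C1 + C2 * (C1 + 3) + C3 * (C6 + 2) with hC
  have p1 : 1 ≤ K * C1 := one_le_mul_of_one_le_of_one_le hK1 hC1
  have p2 : 0 ≤ C2 * (C1 + 3) := by positivity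
  have p3 : 0 ≤ C3 * (C6 + 2) := by positivity
  refine ⟨C, by linarith, fun E n hn g hg hE => ?_⟩
  have hE0 : 0 ≤ E := (norm_nonneg _).trans hE
  have hlog : 1 / 2 ≤ Real.log n := by
    have := Real.one_sub_inv_le_log_of_pos (x := 2) two_pos
    have := Real.log_le_log two_pos hn
    linarith
  obtain ⟨r, hr, d, hd, b1, b2, b3⟩ := h1 _ n hn g hg
  have e1 : F.M.φ d = F.M.ht g := by
    rw [b3, F.M.ht_mul, F.M.ht_ofE, F.M.ht_ofE, F.φ_R hr, zero_add]
  set v := σ (F.M.φ d) with hv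
  have hw : (-1 : ℝ) • F.hat v ∈ F.D := F.D.smul_mem _ (F.hat_mem v)
  have hr0 : 0 < C1 * n := by positivity
  have hd' : F.N.mul d ((-1 : ℝ) • F.hat v) ∈ F.D := (F.isLN_dn 1).mul_mem hd hw
  refine ⟨F.M.ofE r, F.lin v 1, _, hd', ?_, ?_, ?_, ?_, ?_⟩
  · rw [F.M.φ_mul, map_smul, F.φ_hat, hv, hσ]
    simp
  · refine (F.pc_dn_mono (r := K * (C1 * n)) (by positivity) ?_ hd').trans ?_
    · rw [← mul_assoc]
      exact mul_le_mul_of_nonneg_right (by linarith) (by linarith)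
    have hle : C1 * n ≤ K * (C1 * n) := le_mul_of_one_le_left hr0.le hK1
    have q0 : C1 * n / (K * (C1 * n)) = K⁻¹ := by field_simp
    have f1 : F.dn (K * (C1 * n)) d ≤ K⁻¹ * 1 := by
      refine (F.dn_scale hr0 hle hd).trans ?_
      rw [q0]
      exact mul_le_mul_of_nonneg_left b2 (by positivity)
    have f2 : ‖v‖ ≤ C6 * (C5 * (C1 * n)) := by
      refine (h6 _).trans (mul_le_mul_of_nonneg_left ((h5 _ hr0 d hd).2.trans ?_) hC6)
      exact mul_le_of_le_one_right (by positivity) b2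
    have f3 : F.dn (K * (C1 * n)) ((-1 : ℝ) • F.hat v) ≤ K⁻¹ * (C4 * C6 * C5) := by
      refine (F.dn_scale hr0 hle hw).trans ?_
      rw [q0]
      refine mul_le_mul_of_nonneg_left ((h4 _ hr0 v (-1)).trans ?_) (by positivity)
      rw [div_le_iff₀ hr0, abs_neg, abs_one, mul_one]
      calc C4 * ‖v‖ ≤ C4 * (C6 * (C5 * (C1 * n))) := mul_le_mul_of_nonneg_left f2 hC4.le
        _ = _ := by ring
    have f4 : K⁻¹ * 1 + K⁻¹ * (C4 * C6 * C5) = c / 2 := by
      rw [hK]; field_simp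
    have f5 := hc _ _ (F.isLN_dn (K * (C1 * n))) [d, (-1 : ℝ) • F.hat v] (by
      intro x hx
      simp only [List.mem_cons, List.not_mem_nil, or_false] at hx
      rcases hx with rfl | rfl
      exacts [hd, hw]) (by
      simp only [List.map_cons, List.map_nil, List.sum_cons, List.sum_nil]
      linarith)
    simp only [List.map_cons, List.map_nil, List.sum_cons, List.sum_nil, NL.prod_cons,
      NL.prod_nil, NL.mul_zero'] at f5
    linarith
  · refine (h2 _ (by positivity) r hr b1).trans ?_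
    have f1 : E + C1 * Real.log n + 1 ≤ (C1 + 3) * (E + Real.log n) := by nlinarith
    have f2 := mul_le_mul_of_nonneg_left f1 (by linarith : 0 ≤ C2)
    have f3 : C2 * (C1 + 3) * (E + Real.log n) ≤ C * (E + Real.log n) :=
      mul_le_mul_of_nonneg_right (by linarith) (by linarith)
    linarith
  · refine (h3 v 1).trans ?_
    have f0 : ‖v‖ ≤ C6 * E := (h6 _).trans (mul_le_mul_of_nonneg_left (e1 ▸ hE) hC6)
    have f1 : 1 + |(1 : ℝ)| * ‖v‖ ≤ (C6 + 2) * (E + Real.log n) := by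
      rw [abs_one]
      nlinarith
    have f2 := mul_le_mul_of_nonneg_left f1 hC3.le
    have f3 : C3 * (C6 + 2) * (E + Real.log n) ≤ C * (E + Real.log n) :=
      mul_le_mul_of_nonneg_right (by linarith) (by linarith)
    linarith
  · rw [← F.ofE_mul_D _ hw, b3]
    have : F.M.ofE ((-1 : ℝ) • F.hat v) = (F.lin v 1)⁻¹ := F.lin_neg v 1
    rw [this]
    group

end Frame

end Crest.Agent.R182
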