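import Crest.Agent.R182.Defs2
import Crest.Agent.R182.GeoPC

/-! Row 182, task `R182/CD2`: the Hopf argument. -/

set_option autoImplicit false

namespace Crest.Agent.R182

open scoped BigOperators
open MeasureTheory

namespace Frame

variable (F : Frame)

/-- factorisation of a short element into steps which stay short after conjugation by
`lin v R` or by `lin v (-R)` -/
theorem cd2_fac (v : F.L) (hv : ∀ j, F.μ j (F.φL v) ≠ 0) : ∃ n₀ : ℕ, ∀ η : ℝ, 0 < η → η ≤ 1 →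
    ∃ δ R₀ : ℝ, 0 < δ ∧ ∀ R : ℝ, R₀ ≤ R → ∀ g : F.G, F.M.len g ≤ δ * R →
      ∃ l : List F.G, l.length ≤ n₀ ∧ l.prod = g ∧ ∀ s ∈ l, F.M.len s ≤ η * R ∧
        (F.M.len ((F.lin v R)⁻¹ * s * F.lin v R) ≤ η * R ∨
          F.M.len ((F.lin v (-R))⁻¹ * s * F.lin v (-R)) ≤ η * R) := by
  obtain ⟨n₀, hfac⟩ := F.fac_R
  obtain ⟨C₁, hC₁, hdec⟩ := F.decomp_len
  obtain ⟨C₂, hC₂, hlen⟩ := F.len_R_norm
  choose C₃ hC₃ hconj using fun j => F.wt_eq_conj v j (hv j)
  obtain ⟨C₃', hC₃'⟩ := Finite.exists_le C₃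
  obtain ⟨C₄, hC₄, hD⟩ := F.len_D
  obtain ⟨C₅, hC₅, hhat⟩ := F.dn_hat
  obtain ⟨cX, hcX⟩ := Finite.exists_le fun j => ‖F.X j‖
  refine ⟨n₀ + 1, fun η hη hη1 => ?_⟩
  obtain ⟨κ, C₆, hκ, hκ1, hC₆, hcD⟩ := F.len_conj_D (C₅ * ‖v‖) (η / 2) (by positivity)
  set Cm := C₂ + |C₃'| + C₄ with hCm
  have hCm2 : C₂ ≤ Cm := by have := abs_nonneg C₃'; linarith
  have hCm3 : ∀ j, C₃ j ≤ Cm := fun j => by
    have := le_abs_self C₃'; have := hC₃' j; linarith
  have hCm4 : C₄ ≤ Cm := by have := abs_nonneg C₃'; linarith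
  have hCm0 : 0 < Cm := by linarith
  have hC₁0 : 0 < C₁ := by linarith
  set δ := min (κ / C₁) (η / (2 * Cm * C₁)) with hδ
  have hδ0 : 0 < δ := lt_min (by positivity) (by positivity)
  have hδ1 : C₁ * δ ≤ κ := by
    have : δ ≤ κ / C₁ := min_le_left _ _
    rwa [le_div_iff₀ hC₁0, mul_comm] at this
  have hδ2 : Cm * (C₁ * δ) ≤ η / 2 := by
    have : δ ≤ η / (2 * Cm * C₁) := min_le_right _ _
    rw [le_div_iff₀ (by positivity)] at this
    linarith
  refine ⟨δ, 1 / δ + 2 * Cm * (|cX| + 1) / η + 2 * C₆ / η, hδ0, fun R hR g hg => ?_⟩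
  have e1 : 0 < 1 / δ := by positivity
  have e2 : 0 ≤ 2 * Cm * (|cX| + 1) / η := by positivity
  have e3 : 0 ≤ 2 * C₆ / η := by positivity
  have hR0 : 0 < R := by linarith
  have hR1 : 1 ≤ δ * R := by
    have : 1 / δ ≤ R := by linarith
    rwa [div_le_iff₀ hδ0, mul_comm] at this
  have hR2 : Cm * (|cX| + 1) ≤ η / 2 * R := by
    have : 2 * Cm * (|cX| + 1) / η ≤ R := by linarith
    rw [div_le_iff₀ hη] at this
    linarith
  have hR3 : C₆ ≤ η / 2 * R := by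
    have : 2 * C₆ / η ≤ R := by linarith
    rw [div_le_iff₀ hη] at this
    linarith
  set S := C₁ * (δ * R) + |cX| with hS
  have hS0 : 0 ≤ S := by positivity
  have hT : Cm * (S + 1) ≤ η * R := by
    have : Cm * (C₁ * δ) * R ≤ η / 2 * R := mul_le_mul_of_nonneg_right hδ2 hR0.le
    rw [hS]
    nlinarith
  obtain ⟨r, hr, d, hd, hbx, hdn, rfl⟩ := hdec g (δ * R) hR1 hg
  obtain ⟨l, hl, hlσ, hlp⟩ := hfac _ r hr hbx
  refine ⟨(l.map fun q => F.root q.1 q.2) ++ [F.M.ofE d], by simpa using hl, by simp [hlp], ?_⟩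
  intro s hs
  rcases List.mem_append.1 hs with hs | hs
  · obtain ⟨q, hq, rfl⟩ := List.mem_map.1 hs
    have hw := F.wt_X q.1 q.2
    have hn : ‖q.2 • F.X q.1‖ ≤ Real.exp S := by
      rw [norm_smul, hS, Real.exp_add, Real.norm_eq_abs]
      refine mul_le_mul (hlσ q hq) ?_ (norm_nonneg _) (Real.exp_pos _).le
      have h1 := hcX q.1
      have h2 := le_abs_self cX
      have h3 := Real.add_one_le_exp |cX|
      linarith
    have hl1 : ∀ b ∈ F.R, ‖b‖ ≤ Real.exp S → F.M.len (F.M.ofE b) ≤ η * R := fun b hb hb' =>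
      (hlen S hS0 b hb hb').trans
        ((mul_le_mul_of_nonneg_right hCm2 (by linarith)).trans hT)
    have hS1 : (1 : ℝ) ≤ Real.exp S := Real.one_le_exp hS0
    have ht : C₃ q.1 * (S + 1) ≤ R :=
      ((mul_le_mul_of_nonneg_right (hCm3 _) (by linarith)).trans hT).trans (by nlinarith)
    refine ⟨hl1 _ hw.1 hn, ?_⟩
    rcases lt_or_gt_of_ne (hv q.1) with hneg | hpos
    · right
      obtain ⟨b', hb', hb1, he⟩ := hconj q.1 S hS0 _ hw hn (-R) (by rwa [abs_neg, abs_of_pos hR0])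
        (by nlinarith)
      rw [root, he]
      exact hl1 _ hb'.1 (hb1.trans hS1)
    · left
      obtain ⟨b', hb', hb1, he⟩ := hconj q.1 S hS0 _ hw hn R (by rwa [abs_of_pos hR0])
        (by positivity)
      rw [root, he]
      exact hl1 _ hb'.1 (hb1.trans hS1)
  · rw [List.mem_singleton.1 hs]
    have hr0 : 0 < C₁ * (δ * R) := by positivity
    constructor
    · refine (hD _ hr0 d hd hdn).trans (le_trans ?_ hT)
      refine mul_le_mul hCm4 ?_ (by positivity) hCm0.le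
      have := abs_nonneg cX
      rw [hS]; linarith
    · left
      have h1 : F.dn R (R • F.hat v) ≤ C₅ * ‖v‖ := by
        refine (hhat R hR0 v R).trans (le_of_eq ?_)
        rw [abs_of_pos hR0]; field_simp
      have h2 : F.dn R d ≤ κ := by
        have h3 : C₁ * (δ * R) ≤ R := by nlinarith
        refine (F.dn_scale hr0 h3 hd).trans ?_
        have h4 : C₁ * (δ * R) / R = C₁ * δ := by field_simp
        rw [h4]
        have h5 : 0 ≤ C₁ * δ := by positivity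
        nlinarith
      have := hcD R hR0 _ (F.D.smul_mem R (F.hat_mem v)) d hd h1 h2
      rw [lin]
      linarith

variable {F} in
theorem cd2_K {K : ℝ} {u : F.G → F.L} (hu : F.Lip K u) : 0 ≤ K := by
  have h := hu.2 1 1
  have h0 := norm_nonneg (u (1 * 1) - u 1)
  have h1 : F.M.len 1 = 0 := by simp
  rw [h1] at h
  linarith

variable {F} in
theorem cd2_diff {K : ℝ} {u : F.G → F.L} (hu : F.Lip K u) (k s z : F.G) {a : ℝ}
    (h1 : F.M.len s ≤ a) (h2 : F.M.len (k⁻¹ * s * k) ≤ a) :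
    ‖(u (z * s * k) - u (z * s)) - (u (z * k) - u z)‖ ≤ 2 * K * (a + 1) := by
  have hK := cd2_K hu
  have e : z * s * k = z * k * (k⁻¹ * s * k) := by group
  have h3 := hu.2 (z * k) (k⁻¹ * s * k)
  have h4 := hu.2 z s
  rw [← e] at h3
  have e2 : (u (z * s * k) - u (z * s)) - (u (z * k) - u z) =
      (u (z * s * k) - u (z * k)) - (u (z * s) - u z) := by abel
  rw [e2]
  refine (norm_sub_le _ _).trans ?_
  have h5 : K * (F.M.len s + 1) ≤ K * (a + 1) := by gcongr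
  have h6 : K * (F.M.len (k⁻¹ * s * k) + 1) ≤ K * (a + 1) := by gcongr
  linarith

variable {F} in
theorem cd2_meas {K : ℝ} {u : F.G → F.L} (hu : F.Lip K u) (v : F.L) (n : ℕ) :
    Measurable (F.gq u v n) := by
  unfold gq
  exact ((hu.1.comp (measurable_mul_const _)).sub hu.1).const_smul ((n : ℝ)⁻¹)

theorem cd2_bound (v : F.L) : ∃ H : ℝ, 0 ≤ H ∧ ∀ K u, F.Lip K u → ∀ n : ℕ, 1 ≤ n → ∀ z,
    ‖F.gq u v n z‖ ≤ K * H := by
  obtain ⟨C, hC, h⟩ := F.len_lin
  refine ⟨C * (1 + ‖v‖) + 1, by positivity, fun K u hu n hn z => ?_⟩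
  have hK := cd2_K hu
  have hn1 : (1 : ℝ) ≤ n := by exact_mod_cast hn
  have hn0 : (0 : ℝ) < n := by linarith
  rw [gq, norm_smul, norm_inv, Real.norm_eq_abs, abs_of_pos hn0, inv_mul_le_iff₀ hn0]
  refine (hu.2 z _).trans ?_
  have h1 := h v n
  rw [abs_of_pos hn0] at h1
  have h2 : F.M.len (F.lin v n) + 1 ≤ n * (C * (1 + ‖v‖) + 1) := by
    have := norm_nonneg v
    nlinarith
  calc K * (F.M.len (F.lin v n) + 1) ≤ K * (n * (C * (1 + ‖v‖) + 1)) := by gcongr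
    _ = _ := by ring

variable {F} in
theorem cd2_shift {ν : Measure F.G} [IsProbabilityMeasure ν] {p : F.G} {τ : ℝ}
    (hp : F.RInv ν p τ) {φ : F.G → ℝ} (hφ : Measurable φ) {B : ℝ} (h0 : ∀ z, 0 ≤ φ z)
    (hB : ∀ z, φ z ≤ B) : ∫ z, φ (z * p) ∂ν ≤ ∫ z, φ z ∂ν + B * τ := by
  have : IsProbabilityMeasure (F.rt ν p) :=
    Measure.isProbabilityMeasure_map (measurable_mul_const p).aemeasurable
  have h := (Near.symm hp).integral_le hφ h0 hB
  rwa [rt, integral_map (measurable_mul_const p).aemeasurable hφ.aestronglyMeasurable] at h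

theorem cd2_int {ν : Measure F.G} [IsProbabilityMeasure ν] {f g : F.G → F.L} (hf : Measurable f)
    (hg : Measurable g) {B B' : ℝ} (hB : ∀ z, ‖f z‖ ≤ B) (hB' : ∀ z, ‖g z‖ ≤ B') (p q : F.G) :
    Integrable (fun z => ‖f (z * p) - g (z * q)‖) ν := by
  refine Integrable.of_bound ((hf.comp (measurable_mul_const p)).sub
    (hg.comp (measurable_mul_const q))).norm.aestronglyMeasurable (B + B') (ae_of_all _ fun z => ?_)
  rw [norm_norm]
  exact (norm_sub_le _ _).trans (add_le_add (hB _) (hB' _))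

variable {F} in
theorem cd2_step {ν : Measure F.G} [IsProbabilityMeasure ν] {g₀ h : F.G → F.L} (hg : Measurable g₀)
    (hh : Measurable h) {B H τ η : ℝ} (hB : ∀ z, ‖g₀ z‖ ≤ B) (hH : ∀ z, ‖h z‖ ≤ H)
    (hc : ∫ z, ‖g₀ z - h z‖ ∂ν ≤ τ) {p s : F.G} (hs : ∀ z, ‖h (z * s) - h z‖ ≤ η)
    (h1 : F.RInv ν p τ) (h2 : F.RInv ν (p * s) τ) :
    ∫ z, ‖g₀ (z * (p * s)) - g₀ (z * p)‖ ∂ν ≤ 2 * (1 + B + H) * τ + η := by
  have hm : Measurable fun z => ‖g₀ z - h z‖ := (hg.sub hh).norm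
  have hb : ∀ z, ‖g₀ z - h z‖ ≤ B + H := fun z => (norm_sub_le _ _).trans (add_le_add (hB z) (hH z))
  have e1 := cd2_shift h1 hm (fun z => norm_nonneg _) hb
  have e2 := cd2_shift h2 hm (fun z => norm_nonneg _) hb
  have i1 := F.cd2_int (ν := ν) hg hh hB hH p p
  have i2 := F.cd2_int (ν := ν) hg hh hB hH (p * s) (p * s)
  have i3 := F.cd2_int (ν := ν) hg hg hB hB (p * s) p
  have key : ∫ z, ‖g₀ (z * (p * s)) - g₀ (z * p)‖ ∂ν ≤
      ∫ z, (‖g₀ (z * (p * s)) - h (z * (p * s))‖ + ‖g₀ (z * p) - h (z * p)‖ + η) ∂ν := by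
    refine integral_mono i3 ((i2.add i1).add (integrable_const η)) fun z => ?_
    have e : g₀ (z * (p * s)) - g₀ (z * p) = (g₀ (z * (p * s)) - h (z * (p * s))) -
        (g₀ (z * p) - h (z * p)) + (h (z * p * s) - h (z * p)) := by
      rw [mul_assoc]; abel
    simp only
    rw [e]
    refine (norm_add_le _ _).trans (add_le_add (norm_sub_le _ _) (hs _))
  have i4 : Integrable (fun z => ‖g₀ (z * (p * s)) - h (z * (p * s))‖ +
      ‖g₀ (z * p) - h (z * p)‖) ν := i2.add i1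
  rw [integral_add i4 (integrable_const η), integral_add i2 i1, integral_const] at key
  simp only [probReal_univ, smul_eq_mul, one_mul] at key
  linarith

variable {F} in
theorem cd2_chain {ν : Measure F.G} [IsProbabilityMeasure ν] {g₀ : F.G → F.L} (hg : Measurable g₀)
    {B R a θ : ℝ} (hB : ∀ z, ‖g₀ z‖ ≤ B) (ha : 0 ≤ a) (l : List F.G)
    (hl : ∀ s ∈ l, F.M.len s ≤ a ∧ ∀ p, F.M.len p ≤ R → F.M.len (p * s) ≤ R →
      ∫ z, ‖g₀ (z * (p * s)) - g₀ (z * p)‖ ∂ν ≤ θ) (p : F.G)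
    (hp : F.M.len p + l.length * a ≤ R) :
    ∫ z, ‖g₀ (z * (p * l.prod)) - g₀ (z * p)‖ ∂ν ≤ l.length * θ := by
  induction l generalizing p with
  | nil => simp
  | cons s l ih =>
    obtain ⟨hs1, hs2⟩ := hl s List.mem_cons_self
    rw [List.length_cons, Nat.cast_succ] at hp ⊢
    have h0 : 0 ≤ (l.length : ℝ) * a := by positivity
    have h1 := F.M.len_mul_le p s
    have h2 := ih (fun s' hs' => hl s' (List.mem_cons_of_mem _ hs')) (p * s) (by linarith)
    have h3 := hs2 p (by linarith) (by linarith)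
    have i1 := F.cd2_int (ν := ν) hg hg hB hB (p * s * l.prod) (p * s)
    have i2 := F.cd2_int (ν := ν) hg hg hB hB (p * s) p
    have i3 := F.cd2_int (ν := ν) hg hg hB hB (p * s * l.prod) p
    rw [List.prod_cons, ← mul_assoc p]
    have key : ∫ z, ‖g₀ (z * (p * s * l.prod)) - g₀ (z * p)‖ ∂ν ≤
        ∫ z, (‖g₀ (z * (p * s * l.prod)) - g₀ (z * (p * s))‖ +
          ‖g₀ (z * (p * s)) - g₀ (z * p)‖) ∂ν :=
      integral_mono i3 (i1.add i2) fun z => norm_sub_le_norm_sub_add_norm_sub _ _ _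
    rw [integral_add i1 i2] at key
    linarith

/-- `decomp_len`, `fac_R'`: `g = s₁ ⋯ s_p d` with `p ≤ n₀` root moves of size `≤ exp (C δ R)` and
`dn (C δ R) d ≤ 1`; all partial products have length `≤ R`.  For a step `s`: if `len s ≤ ε'' R` and
`len (lin (-R) s lin R) ≤ ε'' R` then `‖gq R (z s) - gq R z‖ ≤ C ε''` for all `z`; this applies to `s = d`
(`len_conj_D`, `dn_hat`, `dn_scale`, `len_D`) and to `root j σ` with `μ j (φL v) > 0` (`wt_eq_conj`).
If `μ j (φL v) < 0` the function `z ↦ gq R (z lin (-R)) = R⁻¹ (u z - u (z lin (-R)))` has the same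
property.  Both functions are `L¹(ν)`-close to `g₀`, and `ν` is nearly invariant
(`Near.integral_le`). -/
theorem cd_inv (v : F.L) (hv : ∀ j, F.μ j (F.φL v) ≠ 0) (K B ε : ℝ) (hε : 0 < ε) :
    ∃ (δ ε' : ℝ) (R₀ : ℕ), 0 < δ ∧ 0 < ε' ∧ ∀ R : ℕ, R₀ ≤ R → ∀ u, F.Lip K u →
      ∀ ν : Measure F.G, IsProbabilityMeasure ν → F.GInv ν R ε' → ∀ g₀ : F.G → F.L,
        Measurable g₀ → (∀ z, ‖g₀ z‖ ≤ B) → ∫ z, ‖g₀ z - F.gq u v R z‖ ∂ν ≤ ε' →
        ∫ z, ‖g₀ z - F.gq u v R (z * F.lin v (-(R : ℝ)))‖ ∂ν ≤ ε' →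
        ∀ g, F.M.len g ≤ δ * R → ∫ z, ‖g₀ (z * g) - g₀ z‖ ∂ν ≤ ε := by
  obtain ⟨n₀, hfac⟩ := F.cd2_fac v hv
  obtain ⟨H, hH0, hH⟩ := F.cd2_bound v
  set n : ℝ := (n₀ : ℝ) + 1 with hn
  have hn0 : 0 < n := by positivity
  set η := min (1 / n) (ε / (8 * n * (|K| + 1))) with hη
  have hη0 : 0 < η := lt_min (by positivity) (by positivity)
  have hη1 : n * η ≤ 1 := by
    have : η ≤ 1 / n := min_le_left _ _
    rwa [le_div_iff₀ hn0, mul_comm] at this
  have hη2 : η * (8 * n * (|K| + 1)) ≤ ε := by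
    have : η ≤ ε / (8 * n * (|K| + 1)) := min_le_right _ _
    rwa [le_div_iff₀ (by positivity)] at this
  have hn1 : (n₀ : ℝ) * η + η ≤ 1 := by rw [hn] at hη1; linarith
  have hn2 : 0 ≤ (n₀ : ℝ) * η := by positivity
  obtain ⟨δ, R₀, hδ, hfac⟩ := hfac η hη0 (by linarith)
  set τ := ε / (4 * n * (1 + |B| + |K| * H)) with hτ
  have hτ0 : 0 < τ := by positivity
  have hτ1 : τ * (4 * n * (1 + |B| + |K| * H)) = ε := by rw [hτ]; field_simp
  refine ⟨δ, τ, ⌈|R₀| + 1 / η⌉₊, hδ, hτ0, fun R hR u hu ν hν hinv g₀ hg hB h1 h2 g hlen => ?_⟩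
  have hK := cd2_K hu
  have hB0 : 0 ≤ B := (norm_nonneg _).trans (hB 1)
  rw [abs_of_nonneg hK] at hη2 hτ1
  rw [abs_of_nonneg hB0] at hτ1
  have hR1 : |R₀| + 1 / η ≤ R := Nat.ceil_le.1 hR
  have e1 : 0 < 1 / η := by positivity
  have hR2 : 1 ≤ η * R := by
    have : 1 / η ≤ R := by have := abs_nonneg R₀; linarith
    rwa [div_le_iff₀ hη0, mul_comm] at this
  have hR0 : (0 : ℝ) < R := by have := abs_nonneg R₀; linarith
  have hR3 : 1 ≤ R := by exact_mod_cast hR0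
  obtain ⟨l, hl, rfl, hs⟩ := hfac R (by have := le_abs_self R₀; linarith) g hlen
  have hl' : (l.length : ℝ) ≤ n₀ := by exact_mod_cast hl
  have hest : ∀ x : F.L, ‖x‖ ≤ 2 * K * (η * R + 1) → ‖(R : ℝ)⁻¹ • x‖ ≤ 4 * K * η := fun x hx => by
    rw [norm_smul, norm_inv, Real.norm_eq_abs, abs_of_pos hR0, inv_mul_le_iff₀ hR0]
    nlinarith
  have key := cd2_chain (ν := ν) hg (R := R) (a := η * R)
    (θ := 2 * (1 + B + K * H) * τ + 4 * K * η) hB (by positivity) l (fun s hs' => ?_) 1 ?_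
  · simp only [one_mul, mul_one] at key
    refine key.trans ?_
    have h3 : 0 ≤ 2 * (1 + B + K * H) * τ + 4 * K * η := by positivity
    have h4 : (l.length : ℝ) ≤ n := by rw [hn]; linarith
    refine (mul_le_mul_of_nonneg_right h4 h3).trans ?_
    have h5 : 0 ≤ η * n := by positivity
    nlinarith
  · obtain ⟨hs1, hs2⟩ := hs s hs'
    refine ⟨hs1, fun p hp hps => ?_⟩
    rcases hs2 with hs2 | hs2
    · refine cd2_step hg (cd2_meas hu v R) hB (hH K u hu R hR3) h1 (fun z => ?_) (hinv p hp)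
        (hinv _ hps)
      rw [gq, gq, ← smul_sub]
      exact hest _ (cd2_diff hu _ s z hs1 hs2)
    · refine cd2_step (h := fun z => F.gq u v R (z * F.lin v (-(R : ℝ)))) hg
        ((cd2_meas hu v R).comp (measurable_mul_const _)) hB (fun z => hH K u hu R hR3 _) h2
        (fun z => ?_) (hinv p hp) (hinv _ hps)
      have e : ∀ y : F.G, y * F.lin v (-(R : ℝ)) * F.lin v R = y := fun y => by
        rw [F.lin_neg, inv_mul_cancel_right]
      simp only [gq]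
      rw [← smul_sub, e, e]
      refine hest _ ?_
      have := cd2_diff hu _ s z hs1 hs2
      rw [← norm_neg]
      refine le_of_eq_of_le (congrArg norm ?_) this
      abel
  · have h3 : F.M.len 1 = 0 := by simp
    rw [h3, zero_add]
    have h4 : (l.length : ℝ) * (η * R) ≤ n₀ * (η * R) := by gcongr
    nlinarith

end Frame

end Crest.Agent.R182
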