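import Crest.Agent.R182.LNM

/-! Row 182, task `R182/LN2`: second-order invariance of `unif2`. -/

set_option autoImplicit false

namespace Crest.Agent.R182

open MeasureTheory

variable {E : Type} [NormedAddCommGroup E] [NormedSpace ℝ E] [FiniteDimensional ℝ E]
  [MeasurableSpace E] [BorelSpace E]

theorem ln2_measurable_mul (N : NL E) {X : Type} [MeasurableSpace X] {f g : X → E}
    (hf : Measurable f) (hg : Measurable g) : Measurable fun x => N.mul (f x) (g x) := by
  have h1 : Measurable fun q : E × E => N.mul q.1 q.2 := N.continuous_mul.measurable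
  have h2 : Measurable fun x => (f x, g x) := hf.prodMk hg
  exact Measurable.comp (g := fun q : E × E => N.mul q.1 q.2) (f := fun x => (f x, g x)) h1 h2

omit [NormedSpace ℝ E] [FiniteDimensional ℝ E] [BorelSpace E] [NormedAddCommGroup E] in
theorem ln2_integrable {μ : Measure E} [IsFiniteMeasure μ] {F : E → ℝ} (hF : Measurable F) {B : ℝ}
    (hB : ∀ x, |F x| ≤ B) : Integrable F μ :=
  Integrable.of_bound hF.aestronglyMeasurable B (Filter.Eventually.of_forall hB)

omit [NormedSpace ℝ E] [FiniteDimensional ℝ E] [BorelSpace E] [NormedAddCommGroup E] in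
theorem ln2_abs_integral_le {μ : Measure E} [IsProbabilityMeasure μ] {F : E → ℝ} {B : ℝ}
    (hB : ∀ x, |F x| ≤ B) : |∫ x, F x ∂μ| ≤ B := by
  have := norm_integral_le_of_norm_le_const (μ := μ) (f := F) (C := B) (Filter.Eventually.of_forall hB)
  simpa using this

omit [NormedAddCommGroup E] [NormedSpace ℝ E] [FiniteDimensional ℝ E] [BorelSpace E] in
/-- a nearly invariant probability measure: shifting a function which is bounded where it matters -/
theorem ln2_shift {μ : Measure E} [IsProbabilityMeasure μ] {T : E → E} (hT : Measurable T) {τ : ℝ}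
    (h : Near μ (μ.map T) τ) {K : E → ℝ} (hK : Measurable K) {M : ℝ} (hM : 0 ≤ M)
    (hb : ∀ᵐ b ∂μ, |K b| ≤ M ∧ |K (T b)| ≤ M) :
    |∫ b, K (T b) ∂μ - ∫ b, K b ∂μ| ≤ 2 * M * τ := by
  have : IsProbabilityMeasure (μ.map T) := Measure.isProbabilityMeasure_map hT.aemeasurable
  let K' : E → ℝ := fun b => max (-M) (min M (K b))
  have hK' : Measurable K' := measurable_const.max (measurable_const.min hK)
  have hK'b : ∀ b, |K' b| ≤ M := fun b =>
    abs_le.2 ⟨le_max_left _ _, max_le (by linarith) (min_le_left _ _)⟩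
  have he : ∀ b, |K b| ≤ M → K b = K' b := fun b hb => by
    simp only [K']
    rw [min_eq_right (abs_le.1 hb).2, max_eq_right (abs_le.1 hb).1]
  have h1 : ∫ b, K b ∂μ = ∫ b, K' b ∂μ :=
    integral_congr_ae (by filter_upwards [hb] with b hb using he b hb.1)
  have h2 : ∫ b, K (T b) ∂μ = ∫ b, K' b ∂μ.map T := by
    rw [integral_map hT.aemeasurable hK'.aestronglyMeasurable]
    exact integral_congr_ae (by filter_upwards [hb] with b hb using he _ hb.2)
  rw [h1, h2, abs_sub_comm]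
  exact h.integral_sub hK' hK'b

/-- the first convolution -/
noncomputable def ln2G (N : NL E) (S : Submodule ℝ E) (p : E → ℝ) (F : E → ℝ) (g : E) : ℝ :=
  ∫ a, F (N.mul a g) ∂unif S p

theorem ln2G_measurable {N : NL E} {S : Submodule ℝ E} {p : E → ℝ} (h : IsLN N S p) {F : E → ℝ}
    (hF : Measurable F) : Measurable (ln2G N S p F) := by
  have := h.isProb
  have h1 : StronglyMeasurable fun q : E × E => F (N.mul q.1 q.2) :=
    (hF.comp N.continuous_mul.measurable).stronglyMeasurable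
  exact h1.integral_prod_left'.measurable

theorem ln2G_abs_le {N : NL E} {S : Submodule ℝ E} {p : E → ℝ} (h : IsLN N S p) {F : E → ℝ}
    (hB : ∀ x, |F x| ≤ 1) (g : E) : |ln2G N S p F g| ≤ 1 := by
  have := h.isProb
  exact ln2_abs_integral_le fun _ => hB _

theorem ln2_integral_unif2 {N : NL E} {S : Submodule ℝ E} {p : E → ℝ} (h : IsLN N S p) {F : E → ℝ}
    (hF : Measurable F) (hB : ∀ x, |F x| ≤ 1) (z : E) :
    ∫ x, F (N.mul x z) ∂unif2 N S p = ∫ b, ln2G N S p F (N.mul b z) ∂unif S p := by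
  have := h.isProb
  have h1 : Measurable fun x => F (N.mul x z) :=
    hF.comp (ln2_measurable_mul N measurable_id measurable_const)
  have h2 : Measurable fun q : E × E => N.mul q.1 q.2 := N.continuous_mul.measurable
  unfold unif2
  rw [integral_map h2.aemeasurable h1.aestronglyMeasurable, integral_prod_symm]
  · simp only [ln2G, N.mul_assoc']
  · exact Integrable.of_bound (h1.comp h2).aestronglyMeasurable 1
      (Filter.Eventually.of_forall fun _ => hB _)

/-- the first convolution is Lipschitz for left translations -/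
theorem ln2G_lip (N : NL E) : ∃ C : ℝ, 0 < C ∧ ∀ S p, IsLN N S p → ∀ F : E → ℝ,
    Measurable F → (∀ x, |F x| ≤ 1) → ∀ u ∈ S, ∀ g,
      |ln2G N S p F (N.mul u g) - ln2G N S p F g| ≤ C * p u := by
  obtain ⟨C, hC, hn⟩ := N.unif_near
  refine ⟨2 * (C + 1), by positivity, fun S p h F hF hB u hu g => ?_⟩
  have := h.isProb
  have hp := h.nonneg hu
  by_cases hu1 : p u ≤ 1
  · have h1 := ln2_shift (ln2_measurable_mul N measurable_id measurable_const) (hn S p h u hu hu1).1
      (K := fun a => F (N.mul a g)) (hF.comp (ln2_measurable_mul N measurable_id measurable_const))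
      zero_le_one (Filter.Eventually.of_forall fun _ => ⟨hB _, hB _⟩)
    simp only [N.mul_assoc'] at h1
    refine le_trans h1 ?_
    nlinarith
  · have h1 := abs_le.1 (ln2G_abs_le h hB (N.mul u g))
    have h2 := abs_le.1 (ln2G_abs_le h hB g)
    push Not at hu1
    rw [abs_le]
    constructor <;> nlinarith

omit [FiniteDimensional ℝ E] [MeasurableSpace E] [BorelSpace E] in
theorem ln2_mul_bdd (N : NL E) : ∃ A : ℝ, 2 ≤ A ∧ ∀ S p, IsLN N S p → ∀ x ∈ S, ∀ y ∈ S, p x ≤ 1 → p y ≤ 1 →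
    p (N.mul x y) ≤ A ∧ p (N.mul x y - x - y) ≤ A * (p x * p y) := by
  obtain ⟨C, e, hC, h⟩ := N.ln_mul_sub
  have h3 : (0 : ℝ) < C * 3 ^ e := by positivity
  refine ⟨2 + C * 3 ^ e, by linarith, fun S p hp x hx y hy hx1 hy1 => ?_⟩
  have h1 := h S p hp x hx y hy
  have hx0 := hp.nonneg hx
  have hy0 := hp.nonneg hy
  have hxy : 0 ≤ p x * p y := mul_nonneg hx0 hy0
  have hxy1 : p x * p y ≤ 1 := mul_le_one₀ hx1 hy0 hy1
  have h2 : C * (1 + p x + p y) ^ e * (p x * p y) ≤ C * 3 ^ e * (p x * p y) := by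
    gcongr
    linarith
  have hm := hp.mul_mem hx hy
  have h4 : p (N.mul x y) ≤ p (N.mul x y - x - y) + p y + p x := by
    have e1 : N.mul x y = N.mul x y - x - y + y + x := by abel
    have m1 : N.mul x y - x - y ∈ S := S.sub_mem (S.sub_mem hm hx) hy
    calc p (N.mul x y) = p (N.mul x y - x - y + y + x) := by rw [← e1]
      _ ≤ p (N.mul x y - x - y + y) + p x := hp.add_le _ (S.add_mem m1 hy) _ hx
      _ ≤ _ := by linarith [hp.add_le _ m1 _ hy]
  constructor <;> nlinarith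

omit [MeasurableSpace E] [BorelSpace E] in
/-- Hyers-type lemma: almost additive functions on a ball are almost linear -/
theorem ln2_hyers {N : NL E} {S : Submodule ℝ E} {p : E → ℝ} (h : IsLN N S p) {δ : E → ℝ} {C : ℝ}
    (h1 : ∀ y ∈ S, ∀ y' ∈ S, p y ≤ 1 → p y' ≤ 1 → |δ (y + y') - δ y - δ y'| ≤ C * (p y * p y'))
    (h2 : ∀ y ∈ S, p y ≤ 1 → |δ y| ≤ C * p y) :
    ∃ n : E →ₗ[ℝ] ℝ, ∀ y ∈ S, p y ≤ 1 → |δ y - n y| ≤ C * p y ^ 2 := by
  let a : E → ℕ → ℝ := fun y i => 2 ^ i * δ (((2 : ℝ) ^ i)⁻¹ • y)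
  have hps : ∀ y ∈ S, ∀ i : ℕ, p (((2 : ℝ) ^ i)⁻¹ • y) = p y / 2 ^ i := by
    intro y hy i
    rw [h.smul _ _ hy, abs_of_pos (by positivity), inv_mul_eq_div]
  have hev : ∀ y ∈ S, ∀ᶠ i : ℕ in Filter.atTop, p (((2 : ℝ) ^ i)⁻¹ • y) ≤ 1 := by
    intro y hy
    filter_upwards [(tendsto_pow_atTop_atTop_of_one_lt (one_lt_two (α := ℝ))).eventually_ge_atTop (p y)]
      with i hi
    rw [hps y hy, div_le_one (by positivity)]
    exact hi
  have hstep : ∀ y ∈ S, p y ≤ 1 → ∀ i : ℕ, dist (a y i) (a y (i + 1)) ≤ C * p y ^ 2 / 2 / 2 / 2 ^ i := by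
    intro y hy hy1 i
    have hm : ((2 : ℝ) ^ (i + 1))⁻¹ • y ∈ S := S.smul_mem _ hy
    have hle : p (((2 : ℝ) ^ (i + 1))⁻¹ • y) ≤ 1 := by
      rw [hps y hy, div_le_one (by positivity)]
      exact hy1.trans (one_le_pow₀ one_le_two)
    have h3 := h1 _ hm _ hm hle hle
    have e : ((2 : ℝ) ^ (i + 1))⁻¹ • y + ((2 : ℝ) ^ (i + 1))⁻¹ • y = ((2 : ℝ) ^ i)⁻¹ • y := by
      rw [← add_smul]
      congr 1
      field_simp
      ring
    rw [e, hps y hy] at h3
    have e2 : a y i - a y (i + 1) = 2 ^ i * (δ (((2 : ℝ) ^ i)⁻¹ • y) - δ (((2 : ℝ) ^ (i + 1))⁻¹ • y) -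
        δ (((2 : ℝ) ^ (i + 1))⁻¹ • y)) := by
      simp only [a]
      ring
    rw [Real.dist_eq, e2, abs_mul, abs_of_pos (by positivity : (0 : ℝ) < 2 ^ i)]
    refine (mul_le_mul_of_nonneg_left h3 (by positivity)).trans (le_of_eq ?_)
    field_simp
    ring
  have hlim : ∀ y : S, ∃ L, Filter.Tendsto (a y) Filter.atTop (nhds L) := by
    rintro ⟨y, hy⟩
    obtain ⟨k, hk⟩ := (hev y hy).exists
    obtain ⟨L, hL⟩ := cauchySeq_tendsto_of_complete
      (cauchySeq_of_le_geometric_two (hstep _ (S.smul_mem _ hy) hk))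
    refine ⟨2 ^ k * L, (Filter.tendsto_add_atTop_iff_nat k).1 ((hL.const_mul (2 ^ k)).congr fun i => ?_)⟩
    simp only [a]
    rw [smul_smul, ← mul_inv, ← pow_add, pow_add]
    ring
  choose L hL using hlim
  have hadd : ∀ y y' : S, L (y + y') = L y + L y' := by
    intro y y'
    have h3 := ((hL (y + y')).sub (hL y)).sub (hL y')
    have h4 : Filter.Tendsto (fun i : ℕ => C * (p y * p y') * ((2 : ℝ)⁻¹) ^ i) Filter.atTop (nhds 0) := by
      have := (tendsto_pow_atTop_nhds_zero_of_lt_one (r := (2 : ℝ)⁻¹) (by norm_num) (by norm_num)).const_mul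
        (C * (p y * p y'))
      rwa [mul_zero] at this
    have h5 : Filter.Tendsto (fun i => a (y + y' : S) i - a y i - a y' i) Filter.atTop (nhds 0) := by
      refine squeeze_zero_norm' ?_ h4
      filter_upwards [hev y y.2, hev y' y'.2] with i hi hi'
      have h6 := h1 _ (S.smul_mem _ y.2) _ (S.smul_mem _ y'.2) hi hi'
      rw [hps y y.2, hps y' y'.2, ← smul_add] at h6
      have e2 : a (y + y' : S) i - a y i - a y' i = 2 ^ i * (δ (((2 : ℝ) ^ i)⁻¹ • ((y : E) + y')) -
          δ (((2 : ℝ) ^ i)⁻¹ • (y : E)) - δ (((2 : ℝ) ^ i)⁻¹ • (y' : E))) := by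
        simp only [a, Submodule.coe_add]
        ring
      rw [Real.norm_eq_abs, e2, abs_mul, abs_of_pos (by positivity : (0 : ℝ) < 2 ^ i)]
      refine (mul_le_mul_of_nonneg_left h6 (by positivity)).trans (le_of_eq ?_)
      rw [inv_pow]
      field_simp
    have := tendsto_nhds_unique h3 h5
    linarith
  have hbd : ∀ y : S, |L y| ≤ C * p y := by
    intro y
    refine le_of_tendsto (hL y).abs ?_
    filter_upwards [hev y y.2] with i hi
    have h6 := h2 _ (S.smul_mem _ y.2) hi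
    rw [hps y y.2] at h6
    simp only [a]
    rw [abs_mul, abs_of_pos (by positivity : (0 : ℝ) < 2 ^ i)]
    refine (mul_le_mul_of_nonneg_left h6 (by positivity)).trans (le_of_eq ?_)
    field_simp
  obtain ⟨C', -, hC'⟩ := h.exists_norm_le
  let L' : S →+ ℝ := AddMonoidHom.mk' L hadd
  have hcont : Continuous L' := by
    refine AddMonoidHomClass.continuous_of_bound L' (|C| * C') fun y => (hbd y).trans ?_
    rw [mul_assoc]
    exact (mul_le_mul_of_nonneg_right (le_abs_self C) (h.nonneg y.2)).trans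
      (mul_le_mul_of_nonneg_left (hC' y y.2).2 (abs_nonneg C))
  obtain ⟨n, hn⟩ := LinearMap.exists_extend (L'.toRealLinearMap hcont : S →ₗ[ℝ] ℝ)
  refine ⟨n, fun y hy hy1 => ?_⟩
  have e : n y = L ⟨y, hy⟩ := congrArg (fun f : S →ₗ[ℝ] ℝ => f ⟨y, hy⟩) hn
  have h3 := dist_le_of_le_geometric_two_of_tendsto₀ (hstep y hy hy1) (hL ⟨y, hy⟩)
  have h4 := (dist_nonneg).trans h3
  rw [Real.dist_eq] at h3
  simp only [a, pow_zero, inv_one, one_smul, one_mul] at h3
  rw [e]
  linarith

/-- Write `x = a • b` with `a, b` independent uniform, products are BCH products, `g⁻¹ = -g`.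
Put `H (b, u) = ∫ (F (a u b) - F (a b)) da`, so `|H (b, u)| ≤ C p u` and
`|H (b, u) - H (b, u')| ≤ C p (u⁻¹ u')` (`unif_near`, `Near.integral_sub`, the ball is bounded).
`∫ F (x y) - F x = ∫ H (b, b y b⁻¹) db` and, substituting `b' = b y'`,
`∫ F (x y y') - F (x y') = ∫ H (b y', b y b⁻¹) db = ∫ H (b', b' (y'⁻¹ y y') b'⁻¹) d(unif y')(b')`.
Now compare: changing the measure `unif y'` to `unif` costs `C p y' · sup |H| ≤ C p y p y'`, and
`p (y⁻¹ y'⁻¹ y y') ≤ C p y p y'` (`ln_neg_mul`, `ln_Ad`-type bound `p (Ad g y - y) ≤ C p g p y`). -/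
theorem NL.unif2_second (N : NL E) : ∃ C : ℝ, 0 < C ∧ ∀ S p, IsLN N S p → ∀ F : E → ℝ,
    Measurable F → (∀ x, |F x| ≤ 1) → ∀ y ∈ S, ∀ y' ∈ S, p y ≤ 1 → p y' ≤ 1 →
      |∫ x, F (N.mul (N.mul x y) y') ∂unif2 N S p - ∫ x, F (N.mul x y) ∂unif2 N S p -
        ∫ x, F (N.mul x y') ∂unif2 N S p + ∫ x, F x ∂unif2 N S p| ≤ C * (p y * p y') := by
  obtain ⟨C₁, hC₁, hn⟩ := N.unif_near
  obtain ⟨C₂, hC₂, hG⟩ := ln2G_lip N
  obtain ⟨A, hA, hm⟩ := ln2_mul_bdd N
  refine ⟨2 * (C₂ * (1 + A) ^ N.m) * C₁, by positivity, fun S p h F hF hB y hy y' hy' hy1 hy1' => ?_⟩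
  have := h.isProb
  set G := ln2G N S p F with hGdef
  have hGm : Measurable G := ln2G_measurable h hF
  have hGb : ∀ g, |G g| ≤ 1 := ln2G_abs_le h hB
  have hmz : ∀ z, Measurable fun b => G (N.mul b z) := fun z =>
    hGm.comp (ln2_measurable_mul N measurable_id measurable_const)
  have hint : ∀ z, Integrable (fun b => G (N.mul b z)) (unif S p) := fun z =>
    ln2_integrable (hmz z) fun _ => hGb _
  let K : E → ℝ := fun b => G (N.mul b y') - G b
  have hKb : ∀ b ∈ S, p b ≤ A → |K b| ≤ C₂ * (1 + A) ^ N.m * p y' := by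
    intro b hb hbA
    have e : N.mul b y' = N.mul (N.Ad b y') b := by
      rw [← N.mul_mul_neg, N.mul_assoc', N.neg_mul', N.mul_zero']
    have h1 := hG S p h F hF hB _ (h.Ad_mem hb hy') b
    have h2 := N.ln_Ad S p h.add_le h.smul b (A := A) (by linarith) (fun z hz => ⟨h.br_mem b hb z hz,
      (h.br_le b hb z hz).trans (mul_le_mul_of_nonneg_right hbA (h.nonneg hz))⟩) hy'
    rw [← e] at h1
    rw [mul_assoc]
    exact h1.trans (mul_le_mul_of_nonneg_left h2 hC₂.le)
  have h1 := ln2_shift (ln2_measurable_mul N measurable_id measurable_const) (hn S p h y hy hy1).1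
    (K := K) ((hmz y').sub hGm) (M := C₂ * (1 + A) ^ N.m * p y')
    (mul_nonneg (by positivity) (h.nonneg hy')) (by
      filter_upwards [h.unif_ae] with b hb
      exact ⟨hKb b hb.1 (by linarith [hb.2]),
        hKb _ (h.mul_mem hb.1 hy) (hm S p h b hb.1 y hy hb.2 hy1).1⟩)
  have e0 : ∫ x, F x ∂unif2 N S p = ∫ b, G b ∂unif S p := by
    simpa using ln2_integral_unif2 h hF hB 0
  have e1 : ∫ b, K (N.mul b y) ∂unif S p =
      ∫ b, G (N.mul b (N.mul y y')) ∂unif S p - ∫ b, G (N.mul b y) ∂unif S p := by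
    rw [← integral_sub (hint _) (hint _)]
    simp only [K, N.mul_assoc']
  have e2 : ∫ b, K b ∂unif S p = ∫ b, G (N.mul b y') ∂unif S p - ∫ b, G b ∂unif S p :=
    integral_sub (hint _) (ln2_integrable hGm hGb)
  simp only [id] at h1
  rw [e1, e2] at h1
  simp only [N.mul_assoc']
  rw [ln2_integral_unif2 h hF hB, ln2_integral_unif2 h hF hB, ln2_integral_unif2 h hF hB, e0]
  refine le_trans (le_of_eq ?_) (h1.trans (le_of_eq ?_))
  · congr 1
    ring
  · ring

theorem NL.unif2_near (N : NL E) : ∃ C : ℝ, 0 < C ∧ ∀ S p, IsLN N S p → ∀ y ∈ S, p y ≤ 1 →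
    Near (unif2 N S p) ((unif2 N S p).map fun z => N.mul z y) (C * p y) := by
  obtain ⟨C, hC, hn⟩ := N.unif_near
  refine ⟨C, hC, fun S p h y hy hy1 => ?_⟩
  have := h.isProb
  have h1 : Measurable fun q : E × E => N.mul q.1 q.2 := N.continuous_mul.measurable
  have h2 : Measurable fun z => N.mul z y := ln2_measurable_mul N measurable_id measurable_const
  unfold unif2
  rw [Measure.map_map h2 h1]
  refine Near.of_prod_left _ _ h1 (h2.comp h1) (Filter.Eventually.of_forall fun a => ?_)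
  have h3 : Measurable fun z => N.mul a z := ln2_measurable_mul N measurable_const measurable_id
  have h4 := (hn S p h y hy hy1).1.map h3
  rw [Measure.map_map h3 h2] at h4
  convert h4 using 2
  funext b
  exact N.mul_assoc' _ _ _

/-- `δ y = ∫ F (x y) - F x` satisfies `|δ (y + y') - δ y - δ y'| ≤ C p y p y'` and `|δ y - δ y'| ≤
C p (y - y')` on a small ball, so `n y = lim 2^i δ (y / 2^i)` is additive and continuous on `S`, hence
linear (extend to `E`), and `|δ y - n y| ≤ C (p y)²` (for `p y ≥ c` trivial after enlarging `C`). -/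
theorem NL.unif2_linear (N : NL E) : ∃ C : ℝ, 0 < C ∧ ∀ S p, IsLN N S p → ∀ F : E → ℝ,
    Measurable F → (∀ x, |F x| ≤ 1) → ∃ n : E →ₗ[ℝ] ℝ, ∀ y ∈ S, p y ≤ 1 →
      |∫ x, F (N.mul x y) ∂unif2 N S p - ∫ x, F x ∂unif2 N S p - n y| ≤ C * p y ^ 2 := by
  obtain ⟨C₁, hC₁, h2nd⟩ := N.unif2_second
  obtain ⟨C₂, hC₂, hn⟩ := N.unif2_near
  obtain ⟨A, hA, hm⟩ := ln2_mul_bdd N
  obtain ⟨C₃, e, hC₃, hneg⟩ := N.ln_neg_mul
  have hpos : 0 < 2 * (C₂ + 1) * (C₃ * (1 + A) ^ e * A) := by positivity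
  refine ⟨C₁ + 2 * (C₂ + 1) * (C₃ * (1 + A) ^ e * A) + 2 * (C₂ + 1), by positivity,
    fun S p h F hF hB => ?_⟩
  have := h.isProb2
  have hlip : ∀ u ∈ S, ∀ z, |∫ x, F (N.mul x (N.mul u z)) ∂unif2 N S p - ∫ x, F (N.mul x z) ∂unif2 N S p| ≤
      2 * (C₂ + 1) * p u := by
    intro u hu z
    have hp := h.nonneg hu
    by_cases hu1 : p u ≤ 1
    · have h1 := ln2_shift (ln2_measurable_mul N measurable_id measurable_const) (hn S p h u hu hu1)
        (K := fun a => F (N.mul a z)) (hF.comp (ln2_measurable_mul N measurable_id measurable_const))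
        zero_le_one (Filter.Eventually.of_forall fun _ => ⟨hB _, hB _⟩)
      simp only [N.mul_assoc'] at h1
      refine le_trans h1 ?_
      nlinarith
    · have h1 := abs_le.1 (ln2_abs_integral_le (μ := unif2 N S p)
        (F := fun x => F (N.mul x (N.mul u z))) fun _ => hB _)
      have h2 := abs_le.1 (ln2_abs_integral_le (μ := unif2 N S p)
        (F := fun x => F (N.mul x z)) fun _ => hB _)
      push Not at hu1
      rw [abs_le]
      constructor <;> nlinarith
  refine ln2_hyers h (δ := fun y => ∫ x, F (N.mul x y) ∂unif2 N S p - ∫ x, F x ∂unif2 N S p) ?_ ?_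
  · intro y hy y' hy' hy1 hy1'
    have h1 := h2nd S p h F hF hB y hy y' hy' hy1 hy1'
    simp only [N.mul_assoc'] at h1
    obtain ⟨h2, h3⟩ := hm S p h y hy y' hy' hy1 hy1'
    have hs : y + y' ∈ S := S.add_mem hy hy'
    have hmm : N.mul y y' ∈ S := h.mul_mem hy hy'
    have h4 := (hneg S p h _ hs _ hmm A (by linarith [h.add_le y hy y' hy']) h2).2
    have h5 := hlip _ (h.mul_mem hmm (S.neg_mem hs)) (y + y')
    rw [N.mul_assoc', N.neg_mul', N.mul_zero'] at h5
    rw [← sub_sub] at h4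
    have hyy : 0 ≤ p y * p y' := mul_nonneg (h.nonneg hy) (h.nonneg hy')
    have h6 : p (N.mul (N.mul y y') (-(y + y'))) ≤ C₃ * (1 + A) ^ e * A * (p y * p y') := by
      rw [mul_assoc (C₃ * (1 + A) ^ e)]
      exact h4.trans (mul_le_mul_of_nonneg_left h3 (by positivity))
    have h7 := h5.trans (mul_le_mul_of_nonneg_left h6 (by positivity))
    have h8 : 0 ≤ 2 * (C₂ + 1) * (p y * p y') := by positivity
    rw [abs_le] at h1 h7 ⊢
    constructor <;> linarith [h1.1, h1.2, h7.1, h7.2]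
  · intro y hy _
    have h1 := hlip y hy 0
    simp only [N.mul_zero'] at h1
    refine h1.trans (mul_le_mul_of_nonneg_right (by linarith) (h.nonneg hy))

end Crest.Agent.R182
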