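import Crest.Agent.R182.GeoPC
import Crest.Agent.R182.LN2

/-! Row 182, task `R182/GeoFol`: Følner measures. -/

set_option autoImplicit false

namespace Crest.Agent.R182

open scoped BigOperators
open MeasureTheory

/-- a mixture of dominated measures is dominated -/
theorem fol_mix_le {Ω Ω' Ω'' : Type} [MeasurableSpace Ω] [MeasurableSpace Ω'] [MeasurableSpace Ω'']
    (ν : Measure Ω) (la : Measure Ω') [IsProbabilityMeasure ν] [SFinite la] {T : Ω × Ω' → Ω''}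
    (hT : Measurable T) {κ : Measure Ω''} (h : ∀ᵐ x ∂ν, la.map (fun z => T (x, z)) ≤ κ) :
    (ν.prod la).map T ≤ κ := by
  refine Measure.le_iff.2 fun s hs => ?_
  rw [Measure.map_apply hT hs, Measure.prod_apply (hT hs)]
  calc ∫⁻ x, la (Prod.mk x ⁻¹' (T ⁻¹' s)) ∂ν ≤ ∫⁻ _, κ s ∂ν := by
        refine lintegral_mono_ae ?_
        filter_upwards [h] with x hx
        have h1 := Measure.le_iff.1 hx s hs
        have h2 : Measurable fun z => T (x, z) := hT.comp measurable_prodMk_left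
        rwa [Measure.map_apply h2 hs] at h1
    _ = κ s := by simp

theorem fol_smul_le {Ω : Type} [MeasurableSpace Ω] (μ : Measure Ω) {c c' : ENNReal} (h : c ≤ c') :
    c • μ ≤ c' • μ := by
  refine Measure.le_iff'.2 fun s => ?_
  simp only [Measure.smul_apply, smul_eq_mul]
  gcongr

theorem fol_smul_mono {Ω : Type} [MeasurableSpace Ω] {μ μ' : Measure Ω} (c : ENNReal) (h : μ ≤ μ') :
    c • μ ≤ c • μ' := by
  refine Measure.le_iff'.2 fun s => ?_
  simp only [Measure.smul_apply, smul_eq_mul]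
  gcongr

theorem fol_dom {E : Type} [NormedAddCommGroup E] [NormedSpace ℝ E] [FiniteDimensional ℝ E]
    [MeasurableSpace E] [BorelSpace E] {N : NL E} {S : Submodule ℝ E} {p p' : E → ℝ}
    (h : IsLN N S p) (h' : IsLN N S p') {x y : E} (hx : x ∈ S) (hy : y ∈ S)
    (hxy : ∀ z ∈ S, p z ≤ 1 → p' (N.mul (N.mul x z) y) ≤ 1) {K : ℝ} (hK : 0 < K)
    (hle : ∀ z ∈ S, p z ≤ K * p' z) :
    (unif S p).map (fun z => N.mul (N.mul x z) y) ≤
      ENNReal.ofReal (K ^ Module.finrank ℝ S) • unif S p' := by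
  refine (h.map_unif_le h' hx hy fun z hz =>
    ⟨h.mul_mem (h.mul_mem hx hz.1) hy, hxy z hz.1 hz.2⟩).trans (fol_smul_le _ ?_)
  exact ENNReal.ofReal_le_ofReal ((div_le_iff₀ h.vol_pos).2 (h.vol_le h' hK hle))

namespace Frame

variable (F : Frame)

theorem fol_map_le {μ μ' : Measure F.E} {c : ENNReal} (h : μ ≤ c • μ') :
    μ.map F.M.ofE ≤ c • μ'.map F.M.ofE := by
  rw [← Measure.map_smul]
  exact Measure.map_mono h F.M.measurable_ofE

theorem fol_rt_map (μ : Measure F.E) {d : F.E} (hd : d ∈ F.D) :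
    F.rt (μ.map F.M.ofE) (F.M.ofE d) = (μ.map fun z => F.N.mul z d).map F.M.ofE := by
  have h1 : Measurable fun z => F.N.mul z d := ln2_measurable_mul F.N measurable_id measurable_const
  unfold rt
  rw [Measure.map_map (measurable_mul_const _) F.M.measurable_ofE, Measure.map_map F.M.measurable_ofE h1]
  congr 1
  funext z
  exact F.ofE_mul_D z hd

theorem fol_rt_lt_map {μ : Measure F.E} (hμ : ∀ᵐ z ∂μ, z ∈ F.D) (x : F.E) {y : F.E} (hy : y ∈ F.D) :
    F.rt (F.lt (F.M.ofE x) (μ.map F.M.ofE)) (F.M.ofE y) =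
      (μ.map fun z => F.N.mul (F.N.mul x z) y).map F.M.ofE := by
  have h1 : Measurable fun z => F.N.mul (F.N.mul x z) y := ln2_measurable_mul F.N
    (ln2_measurable_mul F.N measurable_const measurable_id) measurable_const
  unfold rt lt
  rw [Measure.map_map (measurable_const_mul _) F.M.measurable_ofE,
    Measure.map_map (measurable_mul_const _) ((measurable_const_mul _).comp F.M.measurable_ofE),
    Measure.map_map F.M.measurable_ofE h1]
  refine Measure.map_congr ?_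
  filter_upwards [hμ] with z hz
  change F.M.ofE x * F.M.ofE z * F.M.ofE y = F.M.ofE (F.N.mul (F.N.mul x z) y)
  rw [F.ofE_mul_D x hz, F.ofE_mul_D _ hy]

theorem fol_lt_one (ν : Measure F.G) : F.lt 1 ν = ν := by
  simp [lt]

theorem fol_rt_conv (ν la : Measure F.G) (g : F.G) :
    F.rt (F.conv ν la) g = (ν.prod la).map fun q => q.1 * q.2 * g :=
  Measure.map_map (measurable_mul_const g) measurable_mul

theorem fol_prod3 (x z y : F.E) : F.N.prod [x, z, y] = F.N.mul (F.N.mul x z) y := by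
  simp [F.N.mul_assoc']

theorem fol_small (c₁ : ℝ) (h0 : 0 < c₁) (h1 : c₁ ≤ 1) : ∃ c₂ : ℝ, 0 < c₂ ∧ c₂ ≤ c₁ ∧
    ∀ c : ℝ, 0 < c → c ≤ c₂ → ∃ C : ℝ, 0 < C ∧ ∀ r : ℝ, ∀ x ∈ F.D, ∀ y ∈ F.D, F.dn r x ≤ c₂ →
      F.dn r y ≤ c₂ →
      F.rt (F.lt (F.M.ofE x) (F.uD r c)) (F.M.ofE y) ≤ ENNReal.ofReal C • F.uD r c₁ := by
  obtain ⟨cs, hcs, -, hs⟩ := F.N.ln_prod_small
  have hm : 0 < min cs c₁ := lt_min hcs h0
  have hm1 := min_le_left cs c₁
  have hm2 := min_le_right cs c₁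
  refine ⟨min cs c₁ / 6, by positivity, by linarith, fun c hc hc' =>
    ⟨(c₁ / c) ^ Module.finrank ℝ F.D, by positivity, fun r x hx y hy hx' hy' => ?_⟩⟩
  have hp := F.isLN_dn r
  have hpc := hp.div hc (by linarith)
  unfold uD
  rw [F.fol_rt_lt_map (hpc.unif_ae.mono fun z hz => hz.1) x hy]
  refine F.fol_map_le (fol_dom hpc (hp.div h0 h1) hx hy (fun z hz hz' => ?_) (by positivity)
    fun z _ => le_of_eq (by field_simp))
  rw [div_le_one hc] at hz'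
  have h2 := hs F.D _ hp [x, z, y] (by simp [hx, hy, hz]) (by simp; linarith)
  rw [F.fol_prod3] at h2
  simp only [List.map_cons, List.map_nil, List.sum_cons, List.sum_nil] at h2
  rw [div_le_one h0]
  linarith

theorem fol_bdd (A : ℝ) : ∃ B : ℝ, 1 ≤ B ∧ ∀ c : ℝ, 0 < c → c ≤ 1 → ∃ C : ℝ, 0 < C ∧
    ∀ r : ℝ, 0 < r → ∀ x ∈ F.D, ∀ y ∈ F.D, F.dn r x ≤ A → F.dn r y ≤ A →
      (unif F.D fun z => F.dn r z / c).map (fun z => F.N.mul (F.N.mul x z) y) ≤
        ENNReal.ofReal C • unif F.D fun z => F.dn (B * r) z / 1 := by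
  obtain ⟨C₁, e, hC₁, hb⟩ := F.N.ln_prod_bdd 3
  have hA1 : 1 ≤ max A 1 := le_max_right _ _
  have hA2 : A ≤ max A 1 := le_max_left _ _
  have hB : 1 ≤ C₁ * (1 + max A 1) ^ e * max A 1 :=
    one_le_mul_of_one_le_of_one_le (one_le_mul_of_one_le_of_one_le hC₁ (one_le_pow₀ (by linarith))) hA1
  generalize hBe : C₁ * (1 + max A 1) ^ e * max A 1 = B at hB
  refine ⟨B, hB, fun c hc hc1 => ⟨(B ^ F.N.m / c) ^ Module.finrank ℝ F.D, by positivity,
    fun r hr x hx y hy hx' hy' => ?_⟩⟩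
  have hp := F.isLN_dn r
  have hrB : r ≤ B * r := le_mul_of_one_le_left hr.le hB
  refine fol_dom (hp.div hc hc1) ((F.isLN_dn (B * r)).div one_pos le_rfl) hx hy (fun z hz hz' => ?_)
    (by positivity) fun z hz => ?_
  · rw [div_le_one hc] at hz'
    have h2 := hb F.D _ hp [x, z, y] (by simp) (max A 1) (by linarith) (by
      simp only [List.mem_cons, List.not_mem_nil, or_false, forall_eq_or_imp, forall_eq]
      exact ⟨⟨hx, by linarith⟩, ⟨hz, by linarith⟩, hy, by linarith⟩)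
    rw [F.fol_prod3, hBe] at h2
    rw [div_one]
    refine (F.dn_scale hr hrB (hp.mul_mem (hp.mul_mem hx hz) hy)).trans ?_
    calc r / (B * r) * F.dn r (F.N.mul (F.N.mul x z) y) ≤ r / (B * r) * B := by gcongr
      _ = 1 := by field_simp
  · have h2 := F.dn_scale' hr hrB hz
    rw [mul_div_cancel_right₀ _ hr.ne'] at h2
    rw [div_one, div_mul_eq_mul_div]
    gcongr

/-- convolution with a measure supported on `D`: `x d y = x (d y d⁻¹) d` (`Near.of_prod_right`,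
`conj_box` with `adm_const`, `norm_le_dn`, `norm_π_le_dn`) -/
theorem binv_conv (A : ℝ) : ∃ C : ℝ, 1 ≤ C ∧ ∀ (ν la : Measure F.G) [IsProbabilityMeasure ν]
    [IsProbabilityMeasure la] (S S' r τ : ℝ), 1 ≤ r → 0 ≤ S' → S' + C * r ≤ S →
    (∀ᵐ g ∂la, F.M.toE g ∈ F.D ∧ F.dn r (F.M.toE g) ≤ A) → F.BInv ν (fun _ => S) τ →
      F.BInv (F.conv ν la) (fun _ => S') τ := by
  obtain ⟨C₀, hC₀, hD⟩ := F.binv_D
  obtain ⟨C₁, hC₁, hn⟩ := F.norm_le_dn
  obtain ⟨C₂, hC₂, hπ⟩ := F.norm_π_le_dn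
  obtain ⟨C₃, hC₃, hμ⟩ := F.norm_mu_le
  have hA0 : 0 ≤ max A 0 := le_max_right _ _
  have hA1 : A ≤ max A 0 := le_max_left _ _
  generalize max A 0 = A' at hA0 hA1
  have hC : 0 ≤ C₀ * (2 + C₁ * A' + F.N.m) + C₃ * (C₂ * A') := by positivity
  refine ⟨C₀ * (2 + C₁ * A' + F.N.m) + C₃ * (C₂ * A') + 1, by linarith,
    fun ν la _ _ S S' r τ hr hS' hS hla hν y hy hy1 => ?_⟩
  have hS0 : 0 ≤ S := le_trans (by positivity) hS
  unfold RInv
  rw [F.fol_rt_conv]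
  refine Near.of_prod_right ν la measurable_mul (measurable_mul.mul_const _) ?_
  filter_upwards [hla] with g hg
  have hd := hg.2.trans hA1
  have h1 : ‖F.M.toE g‖ ≤ C₁ * A' * r ^ F.N.m := by
    refine (hn r hr _ hg.1).1.trans ?_
    calc C₁ * r ^ F.N.m * F.dn r (F.M.toE g) ≤ C₁ * r ^ F.N.m * A' := by gcongr
      _ = _ := by ring
  have h2 : Real.log (2 + ‖F.M.toE g‖) ≤ (2 + C₁ * A' + F.N.m) * r := by
    have h3 : 1 ≤ r ^ F.N.m := one_le_pow₀ hr
    have h4 : 0 < 2 + C₁ * A' := by positivity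
    calc Real.log (2 + ‖F.M.toE g‖) ≤ Real.log ((2 + C₁ * A') * r ^ F.N.m) :=
          Real.log_le_log (by positivity) (by nlinarith)
      _ = Real.log (2 + C₁ * A') + F.N.m * Real.log r := by
          rw [Real.log_mul h4.ne' (by positivity), Real.log_pow]
      _ ≤ (2 + C₁ * A') * r + F.N.m * r := by
          gcongr
          · exact (Real.log_le_self h4.le).trans (le_mul_of_one_le_right h4.le hr)
          · exact Real.log_le_self (by linarith)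
      _ = _ := by ring
  have h3 : ∀ j, F.μ j (F.M.φ (F.M.toE g)) ≤ C₃ * (C₂ * A') * r := fun j => by
    refine (le_abs_self _).trans ((hμ j _).trans ?_)
    calc C₃ * ‖F.M.φ (F.M.toE g)‖ ≤ C₃ * (C₂ * r * F.dn r (F.M.toE g)) := by
          gcongr
          exact (hπ r (by linarith) _ hg.1).2
      _ ≤ C₃ * (C₂ * r * A') := by gcongr
      _ = _ := by ring
  have h4 := hD ν _ τ (F.adm_const hS0) hν _ hg.1 (fun _ => S') (fun j => by
    have h5 := mul_le_mul_of_nonneg_left h2 (by linarith : 0 ≤ C₀)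
    have h6 := h3 j
    nlinarith) y hy hy1
  unfold RInv rt at h4
  rwa [Measure.map_map (measurable_mul_const _) (measurable_mul_const _)] at h4

theorem rinv_conv (ν la : Measure F.G) [IsProbabilityMeasure ν] [IsProbabilityMeasure la]
    {g : F.G} {τ : ℝ} (h : F.RInv la g τ) : F.RInv (F.conv ν la) g τ := by
  unfold RInv
  rw [F.fol_rt_conv]
  refine Near.of_prod_left ν la measurable_mul (measurable_mul.mul_const _)
    (Filter.Eventually.of_forall fun x => ?_)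
  have h1 := Near.map h (measurable_const_mul x)
  unfold rt at h1
  rw [Measure.map_map (measurable_const_mul x) (measurable_mul_const g)] at h1
  simpa only [Function.comp_def, mul_assoc] using h1

theorem rinv_uD : ∃ C : ℝ, 1 ≤ C ∧ ∀ r c : ℝ, 0 < c → c ≤ 1 → ∀ d ∈ F.D, F.dn r d ≤ c →
    F.RInv (F.uD r c) (F.M.ofE d) (C * F.dn r d / c) := by
  obtain ⟨C, hC, hn⟩ := F.N.unif_near
  refine ⟨C + 1, by linarith, fun r c hc hc1 d hd hdc => ?_⟩
  have h1 := (hn F.D _ ((F.isLN_dn r).div hc hc1) d hd ((div_le_one hc).2 hdc)).1.map F.M.measurable_ofE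
  unfold RInv uD
  rw [F.fol_rt_map _ hd]
  refine h1.mono ?_
  have := (F.isLN_dn r).nonneg hd
  rw [mul_div_assoc]
  gcongr
  linarith

theorem rinv_uD2 : ∃ C : ℝ, 1 ≤ C ∧ ∀ r : ℝ, ∀ d ∈ F.D, F.dn r d ≤ 1 →
    F.RInv (F.uD2 r) (F.M.ofE d) (C * F.dn r d) := by
  obtain ⟨C, hC, hn⟩ := F.N.unif2_near
  refine ⟨C + 1, by linarith, fun r d hd hd1 => ?_⟩
  have h1 := (hn F.D _ (F.isLN_dn r) d hd hd1).map F.M.measurable_ofE
  unfold RInv uD2
  rw [F.fol_rt_map _ hd]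
  refine h1.mono ?_
  have := (F.isLN_dn r).nonneg hd
  gcongr
  linarith

/-- `decomp_len`, `binv_conv`, `rinv_conv`, `rinv_uD`, `dn_scale`, `RInv.mul` -/
theorem ginv_conv : ∃ C : ℝ, 1 ≤ C ∧ ∀ (ν : Measure F.G) [IsProbabilityMeasure ν]
    (S r ρ τ : ℝ), 1 ≤ ρ → C * ρ ≤ r → C * r ≤ S → F.BInv ν (fun _ => S) τ →
      F.GInv (F.conv ν (F.uD r 1)) ρ (τ + C * ρ / r) := by
  obtain ⟨C₁, hC₁, hdec⟩ := F.decomp_len
  obtain ⟨C₂, hC₂, hb⟩ := F.binv_conv 1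
  obtain ⟨C₃, hC₃, hu⟩ := F.rinv_uD
  have h31 : 0 ≤ C₃ * C₁ := by positivity
  refine ⟨C₁ + 1 + C₂ + C₃ * C₁, by linarith, fun ν _ S r ρ τ hρ hr hS hν g hg => ?_⟩
  have := F.isProb_uD r one_pos
  obtain ⟨y, hy, d, hd, hy1, hd1, rfl⟩ := hdec g ρ hρ hg
  have h1 : C₁ * ρ ≤ r := by nlinarith
  have h2 : 1 ≤ C₁ * ρ := one_le_mul_of_one_le_of_one_le hC₁ hρ
  have h3 := hb ν (F.uD r 1) S (C₁ * ρ) r τ (by linarith) (by linarith) (by nlinarith)
    (F.uD_ae r one_pos) hν y hy hy1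
  have hr0 : 0 < r := by linarith
  have h4 : F.dn r d ≤ C₁ * ρ / r :=
    (F.dn_scale (by linarith) h1 hd).trans (mul_le_of_le_one_right (by positivity) hd1)
  have h5 := F.rinv_conv ν _ (hu r 1 one_pos le_rfl d hd (h4.trans ((div_le_one hr0).2 h1)))
  refine Near.mono (h3.mul h5) ?_
  rw [div_one]
  calc τ + C₃ * F.dn r d ≤ τ + C₃ * (C₁ * ρ / r) := by gcongr
    _ = τ + C₃ * C₁ * ρ / r := by ring
    _ ≤ _ := by gcongr; linarith

/-- `β = uR (C' r) * uD (C r) 1` (`binv_uR` with `x = 1`, `len_R`, `len_D`) -/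
theorem exists_folner (ε : ℝ) (hε : 0 < ε) : ∃ C : ℝ, 1 ≤ C ∧ ∀ r : ℝ, 1 ≤ r →
    ∃ β : Measure F.G, IsProbabilityMeasure β ∧ (∀ᵐ y ∂β, F.M.len y ≤ C * r) ∧ F.GInv β r ε := by
  obtain ⟨C₀, hC₀, hg⟩ := F.ginv_conv
  obtain ⟨C₁, hC₁, hb⟩ := F.binv_uR
  obtain ⟨C₂, hC₂, hR⟩ := F.len_R
  obtain ⟨C₃, hC₃, hD⟩ := F.len_D
  obtain ⟨K, hK⟩ : ∃ K, K = C₀ * (1 + 2 / ε) := ⟨_, rfl⟩
  obtain ⟨c, hc⟩ : ∃ c, c = 2 * C₁ / ε := ⟨_, rfl⟩
  have hK1 : C₀ ≤ K := by
    rw [hK]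
    exact le_mul_of_one_le_right (by linarith) (le_add_of_nonneg_right (by positivity))
  have hK0 : 0 < K := by linarith
  have hc0 : 0 < c := by rw [hc]; positivity
  have hC : 0 ≤ C₂ * (C₀ * K + c + 1) := by positivity
  refine ⟨C₂ * (C₀ * K + c + 1) + C₃ * (K + 1), by nlinarith, fun r hr => ?_⟩
  have := F.isProb_uD (K * r) one_pos
  refine ⟨F.conv (F.uR fun _ => C₀ * (K * r) + c) (F.uD (K * r) 1), inferInstance, ?_, ?_⟩
  · unfold conv
    rw [ae_map_iff measurable_mul.aemeasurable (measurableSet_le F.M.measurable_len measurable_const)]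
    filter_upwards [Measure.quasiMeasurePreserving_fst.ae (F.uR_ae fun _ => C₀ * (K * r) + c),
      Measure.quasiMeasurePreserving_snd.ae (F.uD_ae (K * r) one_pos)] with q h1 h2
    have h3 := hR _ (by positivity) _ h1.1 h1.2
    have h4 := hD _ (by positivity) _ h2.1 h2.2
    rw [F.M.ofE_toE] at h3 h4
    refine (F.M.len_mul_le _ _).trans ((add_le_add h3 h4).trans ?_)
    rw [add_mul, mul_assoc C₂, mul_assoc C₃]
    gcongr <;> nlinarith
  · have h1 := hb 1 (fun _ => C₀ * (K * r) + c) (fun _ => C₀ * (K * r)) c hc0.le fun _ => le_rfl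
    rw [F.fol_lt_one] at h1
    refine (hg _ _ (K * r) r _ hr (by gcongr) le_rfl h1).mono le_rfl ?_
    have h2 : C₁ * Real.exp (-c) ≤ ε / 2 := by
      have h3 : c ≤ Real.exp c := by linarith [Real.add_one_le_exp c]
      rw [Real.exp_neg, ← div_eq_mul_inv, div_le_iff₀ (Real.exp_pos c)]
      calc C₁ = ε / 2 * c := by rw [hc]; field_simp
        _ ≤ _ := by gcongr
    have h3 : C₀ * r / (K * r) ≤ ε / 2 := by
      rw [div_le_iff₀ (by positivity), hK]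
      have : ε / 2 * (C₀ * (1 + 2 / ε) * r) = C₀ * r + ε / 2 * (C₀ * r) := by field_simp; ring
      rw [this]
      exact le_add_of_nonneg_right (by positivity)
    linarith

/-- the image under inversion -/
theorem exists_folner_left (ε : ℝ) (hε : 0 < ε) : ∃ C : ℝ, 1 ≤ C ∧ ∀ r : ℝ, 1 ≤ r →
    ∃ β : Measure F.G, IsProbabilityMeasure β ∧ (∀ᵐ y ∂β, F.M.len y ≤ C * r) ∧
      ∀ g, F.M.len g ≤ r → Near β (F.lt g β) ε := by
  obtain ⟨C, hC, h⟩ := F.exists_folner ε hε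
  refine ⟨C, hC, fun r hr => ?_⟩
  obtain ⟨β, _, h1, h2⟩ := h r hr
  refine ⟨β.map fun y => y⁻¹, Measure.isProbabilityMeasure_map measurable_inv.aemeasurable, ?_,
    fun g hg => ?_⟩
  · rw [ae_map_iff measurable_inv.aemeasurable (measurableSet_le F.M.measurable_len measurable_const)]
    simpa only [F.M.len_inv] using h1
  · have h3 := Near.map (h2 g⁻¹ (by rwa [F.M.len_inv])) measurable_inv
    unfold rt at h3
    unfold lt
    rw [Measure.map_map measurable_inv (measurable_mul_const _)] at h3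
    rw [Measure.map_map (measurable_const_mul _) measurable_inv]
    simpa only [Function.comp_def, mul_inv_rev, inv_inv] using h3

/-- domination of translates (`IsLN.map_unif_le`, `ln_prod_bdd`, `dn_scale`, `IsLN.vol_le`,
`IsLN.vol_div`) -/
theorem uD_translate_le (A : ℝ) : ∃ B : ℝ, 1 ≤ B ∧ ∀ c : ℝ, 0 < c → c ≤ 1 → ∃ C : ℝ, 0 < C ∧
    ∀ r : ℝ, 0 < r → ∀ x ∈ F.D, ∀ y ∈ F.D, F.dn r x ≤ A → F.dn r y ≤ A →
      F.rt (F.lt (F.M.ofE x) (F.uD r c)) (F.M.ofE y) ≤ ENNReal.ofReal C • F.uD (B * r) 1 := by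
  obtain ⟨B, hB, h⟩ := F.fol_bdd A
  refine ⟨B, hB, fun c hc hc1 => ?_⟩
  obtain ⟨C, hC, h⟩ := h c hc hc1
  refine ⟨C, hC, fun r hr x hx y hy hx' hy' => ?_⟩
  unfold uD
  rw [F.fol_rt_lt_map (((F.isLN_dn r).div hc hc1).unif_ae.mono fun z hz => hz.1) x hy]
  exact F.fol_map_le (h r hr x hx y hy hx' hy')

theorem uD2_translate_le (A : ℝ) : ∃ B C : ℝ, 1 ≤ B ∧ 0 < C ∧ ∀ r : ℝ, 0 < r → ∀ y ∈ F.D,
    F.dn r y ≤ A → F.rt (F.uD2 r) (F.M.ofE y) ≤ ENNReal.ofReal C • F.uD (B * r) 1 := by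
  obtain ⟨B, hB, h⟩ := F.fol_bdd (max A 1)
  obtain ⟨C, hC, h⟩ := h 1 one_pos le_rfl
  refine ⟨B, C, hB, hC, fun r hr y hy hy' => ?_⟩
  have hp := F.isLN_dn r
  have := hp.isProb
  have hm : Measurable fun q : F.E × F.E => F.N.mul q.1 q.2 := F.N.continuous_mul.measurable
  have hm' : Measurable fun z => F.N.mul z y := ln2_measurable_mul F.N measurable_id measurable_const
  unfold uD2 uD
  rw [F.fol_rt_map _ hy]
  refine F.fol_map_le ?_
  unfold unif2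
  rw [Measure.map_map hm' hm]
  refine fol_mix_le _ _ (hm'.comp hm) ?_
  filter_upwards [hp.unif_ae] with x hx
  have h1 := h r hr x hx.1 y hy (hx.2.trans (le_max_right _ _)) (hy'.trans (le_max_left _ _))
  simp only [div_one] at h1 ⊢
  exact h1

/-- translates of a small ball are dominated by `uD2` (`unif_le_unif2`, `IsLN.map_unif_le`,
`ln_prod_small`) -/
theorem uD_translate_le_uD2 : ∃ c₁ : ℝ, 0 < c₁ ∧ c₁ ≤ 1 ∧ ∀ c : ℝ, 0 < c → c ≤ c₁ → ∃ C : ℝ, 0 < C ∧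
    ∀ r : ℝ, ∀ x ∈ F.D, ∀ y ∈ F.D, F.dn r x ≤ c₁ → F.dn r y ≤ c₁ →
      F.rt (F.lt (F.M.ofE x) (F.uD r c)) (F.M.ofE y) ≤ ENNReal.ofReal C • F.uD2 r := by
  obtain ⟨c₀, C₀, h0, h1, hC₀, hu⟩ := F.N.unif_le_unif2
  obtain ⟨c₁, h2, h3, h⟩ := F.fol_small c₀ h0 h1
  refine ⟨c₁, h2, h3.trans h1, fun c hc hc' => ?_⟩
  obtain ⟨C, hC, h⟩ := h c hc hc'
  refine ⟨C * C₀, by positivity, fun r x hx y hy hx' hy' => (h r x hx y hy hx' hy').trans ?_⟩
  rw [ENNReal.ofReal_mul hC.le, mul_smul]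
  exact fol_smul_mono _ (F.fol_map_le (hu F.D _ (F.isLN_dn r)))

theorem uD_translate_le_uD (c₁ : ℝ) (h0 : 0 < c₁) (h1 : c₁ ≤ 1) : ∃ c₂ : ℝ, 0 < c₂ ∧ c₂ ≤ c₁ ∧
    ∀ c : ℝ, 0 < c → c ≤ c₂ → ∃ C : ℝ, 0 < C ∧ ∀ r : ℝ, ∀ y ∈ F.D, F.dn r y ≤ c₂ →
      F.rt (F.uD r c) (F.M.ofE y) ≤ ENNReal.ofReal C • F.uD r c₁ := by
  obtain ⟨c₂, h2, h3, h⟩ := F.fol_small c₁ h0 h1
  refine ⟨c₂, h2, h3, fun c hc hc' => ?_⟩
  obtain ⟨C, hC, h⟩ := h c hc hc'
  refine ⟨C, hC, fun r y hy hy' => ?_⟩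
  have := h r 0 F.D.zero_mem y hy (by rw [(F.isLN_dn r).zero]; exact h2.le) hy'
  rwa [F.M.ofE_zero, F.fol_lt_one] at this

theorem conv_le {ν la la' : Measure F.G} [IsProbabilityMeasure ν] [IsProbabilityMeasure la]
    [IsProbabilityMeasure la'] {C : ℝ} (h : la ≤ ENNReal.ofReal C • la') :
    F.conv ν la ≤ ENNReal.ofReal C • F.conv ν la' := by
  refine Measure.le_iff.2 fun s hs => ?_
  unfold conv
  rw [Measure.smul_apply, Measure.map_apply measurable_mul hs, Measure.map_apply measurable_mul hs,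
    Measure.prod_apply (measurable_mul hs), Measure.prod_apply (measurable_mul hs), smul_eq_mul,
    ← lintegral_const_mul' _ _ ENNReal.ofReal_ne_top]
  exact lintegral_mono fun x => Measure.le_iff'.1 h _

end Frame

end Crest.Agent.R182
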