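import Crest.Agent.R182.Defs2
import Crest.Agent.R182.GeoFol

/-! Row 182, task `R182/CD3`: from invariant difference quotients to a coarse derivative. -/

set_option autoImplicit false

namespace Crest.Agent.R182

open scoped BigOperators
open MeasureTheory

namespace Frame

variable (F : Frame)

theorem cd3_int_rt {ν : Measure F.G} [IsProbabilityMeasure ν] {g : F.G} {τ : ℝ}
    (h : F.RInv ν g τ) {φ : F.G → ℝ} (hφ : Measurable φ) {B : ℝ} (h0 : ∀ x, 0 ≤ φ x)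
    (hB : ∀ x, φ x ≤ B) : ∫ z, φ (z * g) ∂ν ≤ ∫ z, φ z ∂ν + B * τ := by
  have hm : Measurable fun x : F.G => x * g := measurable_mul_const g
  have h1 := (Near.symm h).integral_le hφ h0 hB
  have e : ∫ z, φ z ∂(F.rt ν g) = ∫ z, φ (z * g) ∂ν :=
    integral_map hm.aemeasurable hφ.aestronglyMeasurable
  rwa [e] at h1

theorem cd3_meas_gq {u : F.G → F.L} (hu : Measurable u) (v : F.L) (n : ℕ) :
    Measurable (F.gq u v n) :=
  ((hu.comp (measurable_mul_const _)).sub hu).const_smul ((n : ℝ)⁻¹)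

theorem cd3_nsmul_gq (u : F.G → F.L) (v : F.L) {n : ℕ} (hn : 1 ≤ n) (z : F.G) :
    (n : ℝ) • F.gq u v n z = u (z * F.lin v n) - u z := by
  have : (n : ℝ) ≠ 0 := by positivity
  rw [gq, smul_smul, mul_inv_cancel₀ this, one_smul]

theorem cd3_K_nonneg {K : ℝ} {u : F.G → F.L} (hu : F.Lip K u) : 0 ≤ K := by
  have := hu.2 1 1
  simpa using this

/-- linear extension of uniformly bounded values -/
theorem cd3_coord (b : Module.Basis (Fin F.m) ℝ F.L) : ∃ C : ℝ, 0 ≤ C ∧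
    ∀ (f : Fin F.m → F.L) (c : ℝ), 0 ≤ c → (∀ i, ‖f i‖ ≤ c) → ∀ v,
      ‖b.constr ℝ f v‖ ≤ C * c * ‖v‖ := by
  let T : F.L →L[ℝ] (Fin F.m → ℝ) := LinearMap.toContinuousLinearMap b.equivFun.toLinearMap
  refine ⟨F.m * ‖T‖, by positivity, fun f c hc hf v => ?_⟩
  rw [Module.Basis.constr_apply_fintype]
  have hv : ∀ i, |b.equivFun v i| ≤ ‖T‖ * ‖v‖ := fun i =>
    ((norm_le_pi_norm (T v) i).trans (T.le_opNorm v) : ‖T v i‖ ≤ _)
  calc ‖∑ i, b.equivFun v i • f i‖ ≤ ∑ i, ‖b.equivFun v i • f i‖ := norm_sum_le _ _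
    _ ≤ ∑ _i : Fin F.m, ‖T‖ * ‖v‖ * c := by
        refine Finset.sum_le_sum fun i _ => ?_
        rw [norm_smul, Real.norm_eq_abs]
        exact mul_le_mul (hv i) (hf i) (norm_nonneg _) (by positivity)
    _ = F.m * ‖T‖ * c * ‖v‖ := by
        rw [Finset.sum_const, Finset.card_univ, Fintype.card_fin, nsmul_eq_mul]; ring

/-- averaged function -/
noncomputable def cd3av (φ : F.G → F.L) (β : Measure F.G) (z : F.G) : F.L := ∫ y, φ (z * y) ∂β

theorem cd3av_meas {φ : F.G → F.L} (hφ : Measurable φ) (β : Measure F.G) [IsProbabilityMeasure β] :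
    Measurable (F.cd3av φ β) := by
  have h : StronglyMeasurable fun p : F.G × F.G => φ (p.1 * p.2) :=
    (hφ.comp measurable_mul).stronglyMeasurable
  exact (h.integral_prod_right' (ν := β)).measurable

theorem cd3av_le {φ : F.G → F.L} {c : ℝ} (hc : ∀ z, ‖φ z‖ ≤ c) (β : Measure F.G)
    [IsProbabilityMeasure β] (z : F.G) : ‖F.cd3av φ β z‖ ≤ c := by
  have := norm_integral_le_of_norm_le_const (μ := β) (f := fun y => φ (z * y)) (C := c)
    (ae_of_all _ fun y => hc _)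
  simpa [cd3av] using this

theorem cd3av_slow {φ : F.G → F.L} (hφ : Measurable φ) {c : ℝ} (hc : ∀ z, ‖φ z‖ ≤ c)
    {β : Measure F.G} [IsProbabilityMeasure β] {g : F.G} {δ : ℝ} (h : Near β (F.lt g β) δ)
    (z : F.G) : ‖F.cd3av φ β (z * g) - F.cd3av φ β z‖ ≤ 2 * c * δ := by
  have hz : Measurable fun y => φ (z * y) := hφ.comp (measurable_const_mul z)
  have h1 := h.norm_integral_sub hz ((norm_nonneg _).trans (hc 1)) fun y => hc _
  have e : ∫ y, φ (z * y) ∂(F.lt g β) = ∫ y, φ (z * (g * y)) ∂β :=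
    integral_map (measurable_const_mul g).aemeasurable hz.aestronglyMeasurable
  rw [e, norm_sub_rev] at h1
  simpa only [cd3av, mul_assoc] using h1

theorem cd3av_close {φ : F.G → F.L} (hφ : Measurable φ) {c : ℝ} (hc : ∀ z, ‖φ z‖ ≤ c)
    {β ν : Measure F.G} [IsProbabilityMeasure β] [IsProbabilityMeasure ν] {δ : ℝ}
    (h : ∀ᵐ y ∂β, ∫ z, ‖φ (z * y) - φ z‖ ∂ν ≤ δ) : ∫ z, ‖φ z - F.cd3av φ β z‖ ∂ν ≤ δ := by
  have hm : Measurable fun p : F.G × F.G => ‖φ (p.1 * p.2) - φ p.1‖ :=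
    ((hφ.comp measurable_mul).sub (hφ.comp measurable_fst)).norm
  have hb : ∀ x y, ‖φ x - φ y‖ ≤ 2 * c := fun x y =>
    (norm_sub_le _ _).trans (by linarith [hc x, hc y])
  have hI : Integrable (Function.uncurry fun z y : F.G => ‖φ (z * y) - φ z‖) (ν.prod β) :=
    Integrable.of_bound hm.aestronglyMeasurable (2 * c)
      (ae_of_all _ fun p => by
        rw [Function.uncurry, norm_norm]; exact hb _ _)
  have h1 : ∀ z, ‖φ z - F.cd3av φ β z‖ ≤ ∫ y, ‖φ (z * y) - φ z‖ ∂β := fun z => by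
    have hz : Integrable (fun y => φ (z * y)) β :=
      Integrable.of_bound (hφ.comp (measurable_const_mul z)).aestronglyMeasurable c
        (ae_of_all _ fun y => hc _)
    have e : F.cd3av φ β z - φ z = ∫ y, (φ (z * y) - φ z) ∂β := by
      rw [integral_sub hz (integrable_const _)]; simp [cd3av]
    rw [norm_sub_rev, e]
    exact norm_integral_le_integral_norm _
  calc ∫ z, ‖φ z - F.cd3av φ β z‖ ∂ν ≤ ∫ z, ∫ y, ‖φ (z * y) - φ z‖ ∂β ∂ν :=
        integral_mono_of_nonneg (ae_of_all _ fun z => norm_nonneg _) hI.integral_prod_left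
          (ae_of_all _ h1)
    _ = ∫ y, ∫ z, ‖φ (z * y) - φ z‖ ∂ν ∂β := integral_integral_swap hI
    _ ≤ ∫ _y, δ ∂β :=
        integral_mono_of_nonneg (ae_of_all _ fun y => integral_nonneg fun z => norm_nonneg _)
          (integrable_const δ) h
    _ = δ := by simp

/-- pointwise error -/
noncomputable def cd3pe (u : F.G → F.L) (B : F.G → F.L →ₗ[ℝ] F.L) (g z : F.G) : ℝ :=
  ‖u (z * g) - u z - B z (F.pr g)‖

theorem cd3pe_meas {u : F.G → F.L} (hu : Measurable u) {B : F.G → F.L →ₗ[ℝ] F.L}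
    (hB : ∀ v, Measurable fun z => B z v) (g : F.G) : Measurable (F.cd3pe u B g) :=
  (((hu.comp (measurable_mul_const g)).sub hu).sub (hB _)).norm

theorem cd3pe_le {K A Cp : ℝ} {u : F.G → F.L} (hu : F.Lip K u) {B : F.G → F.L →ₗ[ℝ] F.L}
    (hA : 0 ≤ A) (hB : ∀ z v, ‖B z v‖ ≤ A * ‖v‖) (hp : ∀ g, ‖F.pr g‖ ≤ Cp * F.M.len g)
    (hCp : 0 ≤ Cp) {g : F.G} {a : ℝ} (hg : F.M.len g ≤ a) (z : F.G) :
    F.cd3pe u B g z ≤ K * (a + 1) + A * (Cp * a) := by
  have hK := F.cd3_K_nonneg hu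
  refine (norm_sub_le _ _).trans (add_le_add ((hu.2 z g).trans (by gcongr)) ?_)
  refine (hB _ _).trans ?_
  gcongr
  exact (hp g).trans (by gcongr)

theorem cd3pe_int {K A Cp : ℝ} {u : F.G → F.L} (hu : F.Lip K u) {B : F.G → F.L →ₗ[ℝ] F.L}
    (hm : ∀ v, Measurable fun z => B z v) (hA : 0 ≤ A) (hB : ∀ z v, ‖B z v‖ ≤ A * ‖v‖)
    (hp : ∀ g, ‖F.pr g‖ ≤ Cp * F.M.len g) (hCp : 0 ≤ Cp) (ν : Measure F.G)
    [IsProbabilityMeasure ν] (g s : F.G) : Integrable (fun z => F.cd3pe u B g (z * s)) ν :=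
  Integrable.of_bound
    ((F.cd3pe_meas hu.1 hm g).comp (measurable_mul_const s)).aestronglyMeasurable _
    (ae_of_all _ fun z => by
      rw [Real.norm_eq_abs, abs_of_nonneg (show 0 ≤ F.cd3pe u B g (z * s) from norm_nonneg _)]
      exact F.cd3pe_le hu hA hB hp hCp le_rfl _)

/-- subadditivity of the mean error -/
theorem cd3_err_mul {K A Cp ρ η τ : ℝ} {u : F.G → F.L} (hu : F.Lip K u)
    {B : F.G → F.L →ₗ[ℝ] F.L} (hB : F.Field B A ρ η) (hA : 0 ≤ A) (hη : 0 ≤ η)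
    (hp : ∀ g, ‖F.pr g‖ ≤ Cp * F.M.len g) (hCp : 0 ≤ Cp) {ν : Measure F.G}
    [IsProbabilityMeasure ν] {s h : F.G} (hs : F.M.len s ≤ ρ) (hν : F.RInv ν s τ) {a : ℝ}
    (hh : F.M.len h ≤ a) :
    ∫ z, F.cd3pe u B (s * h) z ∂ν ≤ ∫ z, F.cd3pe u B s z ∂ν + ∫ z, F.cd3pe u B h z ∂ν +
      ((K * (a + 1) + A * (Cp * a)) * τ + η * (Cp * a)) := by
  have hi : ∀ g s, Integrable (fun z => F.cd3pe u B g (z * s)) ν :=
    F.cd3pe_int hu hB.meas hA hB.bound hp hCp ν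
  have hi1 : ∀ g, Integrable (fun z => F.cd3pe u B g z) ν := fun g => by simpa using hi g 1
  have h1 : ∀ z, F.cd3pe u B (s * h) z ≤
      F.cd3pe u B s z + F.cd3pe u B h (z * s) + η * (Cp * a) := fun z => by
    have e : u (z * (s * h)) - u z - B z (F.pr (s * h)) =
        (u (z * s) - u z - B z (F.pr s)) + (u (z * s * h) - u (z * s) - B (z * s) (F.pr h)) +
          (B (z * s) (F.pr h) - B z (F.pr h)) := by
      rw [F.pr_mul, map_add, mul_assoc]; abel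
    have h2 : ‖B (z * s) (F.pr h) - B z (F.pr h)‖ ≤ η * (Cp * a) := by
      refine (hB.slow z s _ hs).trans ?_
      gcongr
      exact (hp h).trans (by gcongr)
    simp only [cd3pe]
    rw [e]
    exact norm_add₃_le.trans (by gcongr)
  have h2 := F.cd3_int_rt hν (F.cd3pe_meas hu.1 hB.meas h) (fun x => norm_nonneg _)
    (F.cd3pe_le hu hA hB.bound hp hCp hh)
  have h3 : ∫ z, F.cd3pe u B (s * h) z ∂ν ≤
      ∫ z, (F.cd3pe u B s z + F.cd3pe u B h (z * s) + η * (Cp * a)) ∂ν :=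
    integral_mono (hi1 _) (((hi1 s).add (hi h s)).add (integrable_const _)) h1
  have h4 : Integrable (fun z => F.cd3pe u B s z + F.cd3pe u B h (z * s)) ν :=
    (hi1 s).add (hi h s)
  rw [integral_add h4 (integrable_const _), integral_add (hi1 s) (hi h s)] at h3
  simp only [integral_const, probReal_univ, one_smul] at h3
  linarith

theorem cd3_err_list {K A Cp ρ η τ e : ℝ} {u : F.G → F.L} (hu : F.Lip K u)
    {B : F.G → F.L →ₗ[ℝ] F.L} (hB : F.Field B A ρ η) (hA : 0 ≤ A) (hη : 0 ≤ η)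
    (hp : ∀ g, ‖F.pr g‖ ≤ Cp * F.M.len g) (hCp : 0 ≤ Cp) {ν : Measure F.G}
    [IsProbabilityMeasure ν] (hν : F.GInv ν ρ τ) (hρ : 0 ≤ ρ) (N : ℕ) (l : List F.G)
    (hl : l.length ≤ N) (hs : ∀ s ∈ l, F.M.len s ≤ ρ ∧ ∫ z, F.cd3pe u B s z ∂ν ≤ e) :
    ∫ z, F.cd3pe u B l.prod z ∂ν ≤
      l.length * (e + ((K * (N * ρ + 1) + A * (Cp * (N * ρ))) * τ + η * (Cp * (N * ρ)))) := by
  induction l with
  | nil => simp [cd3pe]
  | cons s l ih =>
    have hl' : l.length ≤ N := (Nat.le_succ _).trans hl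
    have h1 := ih hl' fun x hx => hs x (List.mem_cons_of_mem _ hx)
    have hs0 := hs s List.mem_cons_self
    have hlen : F.M.len l.prod ≤ N * ρ := by
      refine (F.M.len_list_prod_le l).trans ?_
      have := List.sum_le_card_nsmul (l.map F.M.len) ρ (by
        intro x hx
        obtain ⟨y, hy, rfl⟩ := List.mem_map.1 hx
        exact (hs y (List.mem_cons_of_mem _ hy)).1)
      rw [List.length_map, nsmul_eq_mul] at this
      refine this.trans ?_
      gcongr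
    have h2 := F.cd3_err_mul hu hB hA hη hp hCp hs0.1 (hν s hs0.1) hlen
    rw [List.prod_cons, List.length_cons]
    push_cast
    linarith [hs0.2]

/-- multiples of the block length -/
theorem cd3_blocks {K c δ T : ℝ} {u : F.G → F.L} (hu : F.Lip K u) (v : F.L) {n : ℕ} (hn : 1 ≤ n)
    {w : F.G → F.L} (hw : Measurable w) (hc : ∀ z, ‖w z‖ ≤ c) {ν : Measure F.G}
    [IsProbabilityMeasure ν]
    (h : ∀ t : ℝ, |t| ≤ T → ∫ z, ‖F.gq u v n (z * F.lin v t) - w z‖ ∂ν ≤ δ) (q : ℤ)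
    (hq : |(q : ℝ) * n| ≤ T) :
    ∫ z, ‖u (z * F.lin v (q * n)) - u z - ((q : ℝ) * n) • w z‖ ∂ν ≤ |(q : ℝ) * n| * δ := by
  have hK := F.cd3_K_nonneg hu
  have hn0 : (0 : ℝ) < n := by positivity
  have hi : ∀ t : ℝ, Integrable (fun z => ‖u (z * F.lin v t) - u z - t • w z‖) ν := fun t =>
    Integrable.of_bound
      (((hu.1.comp (measurable_mul_const _)).sub hu.1).sub (hw.const_smul t)).norm.aestronglyMeasurable
      (K * (F.M.len (F.lin v t) + 1) + |t| * c) (ae_of_all _ fun z => by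
        rw [norm_norm]
        refine (norm_sub_le _ _).trans (add_le_add (hu.2 _ _) ?_)
        rw [norm_smul, Real.norm_eq_abs]
        exact mul_le_mul_of_nonneg_left (hc z) (abs_nonneg t))
  have hj : ∀ t : ℝ, Integrable (fun z => (n : ℝ) * ‖F.gq u v n (z * F.lin v t) - w z‖) ν :=
    fun t => (Integrable.of_bound
      (((F.cd3_meas_gq hu.1 v n).comp (measurable_mul_const _)).sub hw).norm.aestronglyMeasurable
      ((n : ℝ)⁻¹ * (K * (F.M.len (F.lin v n) + 1)) + c) (ae_of_all _ fun z => by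
        rw [norm_norm]
        refine (norm_sub_le _ _).trans (add_le_add ?_ (hc z))
        show ‖F.gq u v n (z * F.lin v t)‖ ≤ _
        rw [gq, norm_smul, Real.norm_eq_abs, abs_of_nonneg (by positivity)]
        exact mul_le_mul_of_nonneg_left (hu.2 _ _) (by positivity))).const_mul _
  have key : ∀ (t : ℝ) (z : F.G), u (z * F.lin v (t + n)) - u z - (t + n) • w z =
      (u (z * F.lin v t) - u z - t • w z) + (n : ℝ) • (F.gq u v n (z * F.lin v t) - w z) := by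
    intro t z
    rw [smul_sub, F.cd3_nsmul_gq u v hn, F.lin_add, ← mul_assoc, add_smul]; abel
  have hns : ∀ x : F.L, ‖(n : ℝ) • x‖ = n * ‖x‖ := fun x => by
    rw [norm_smul, Real.norm_eq_abs, abs_of_pos hn0]
  have up : ∀ t : ℝ, |t| ≤ T → ∫ z, ‖u (z * F.lin v (t + n)) - u z - (t + n) • w z‖ ∂ν ≤
      ∫ z, ‖u (z * F.lin v t) - u z - t • w z‖ ∂ν + n * δ := fun t ht => by
    have h1 : ∫ z, ‖u (z * F.lin v (t + n)) - u z - (t + n) • w z‖ ∂ν ≤
        ∫ z, (‖u (z * F.lin v t) - u z - t • w z‖ +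
          (n : ℝ) * ‖F.gq u v n (z * F.lin v t) - w z‖) ∂ν :=
      integral_mono (hi (t + n)) ((hi t).add (hj t)) fun z => by
        show ‖u (z * F.lin v (t + n)) - u z - (t + n) • w z‖ ≤ _
        rw [key, ← hns]
        exact norm_add_le _ _
    rw [integral_add (hi t) (hj t), integral_const_mul] at h1
    have := mul_le_mul_of_nonneg_left (h t ht) hn0.le
    linarith
  have down : ∀ t : ℝ, |t| ≤ T → ∫ z, ‖u (z * F.lin v t) - u z - t • w z‖ ∂ν ≤
      ∫ z, ‖u (z * F.lin v (t + n)) - u z - (t + n) • w z‖ ∂ν + n * δ := fun t ht => by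
    have h1 : ∫ z, ‖u (z * F.lin v t) - u z - t • w z‖ ∂ν ≤
        ∫ z, (‖u (z * F.lin v (t + n)) - u z - (t + n) • w z‖ +
          (n : ℝ) * ‖F.gq u v n (z * F.lin v t) - w z‖) ∂ν :=
      integral_mono (hi t) ((hi (t + n)).add (hj t)) fun z => by
        show _ ≤ ‖u (z * F.lin v (t + n)) - u z - (t + n) • w z‖ +
          (n : ℝ) * ‖F.gq u v n (z * F.lin v t) - w z‖
        rw [key, ← hns]
        exact norm_le_add_norm_add _ _
    rw [integral_add (hi (t + n)) (hj t), integral_const_mul] at h1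
    have := mul_le_mul_of_nonneg_left (h t ht) hn0.le
    linarith
  induction q using Int.induction_on with
  | zero => simp
  | succ i ih =>
    push_cast at ih hq ⊢
    have hi0 : (0 : ℝ) ≤ i * n := by positivity
    rw [abs_of_nonneg (by positivity)] at hq ⊢
    rw [abs_of_nonneg hi0] at ih
    have hT : (i : ℝ) * n ≤ T := by nlinarith
    have h1 := up (i * n) (by rwa [abs_of_nonneg hi0])
    rw [show ((i : ℝ) + 1) * n = i * n + n by ring]
    have := ih hT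
    linarith
  | pred i ih =>
    push_cast at ih hq ⊢
    have hi0 : (0 : ℝ) ≤ i * n := by positivity
    have h1 := down ((-(i : ℝ) - 1) * n) hq
    rw [show (-(i : ℝ) - 1) * n + n = -i * n by ring] at h1
    rw [abs_of_nonpos (by nlinarith)] at hq ⊢
    rw [abs_of_nonpos (by nlinarith)] at ih
    have := ih (by nlinarith)
    linarith

/-- integer times -/
theorem cd3_lin {K c δ T : ℝ} {u : F.G → F.L} (hu : F.Lip K u) (v : F.L) {n : ℕ} (hn : 1 ≤ n)
    {w : F.G → F.L} (hw : Measurable w) (hc : ∀ z, ‖w z‖ ≤ c) {ν : Measure F.G}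
    [IsProbabilityMeasure ν] (hδ : 0 ≤ δ)
    (hlip : ∀ ρ : ℝ, |ρ| ≤ n → K * (F.M.len (F.lin v ρ) + 1) ≤ c * n)
    (h : ∀ t : ℝ, |t| ≤ T → ∫ z, ‖F.gq u v n (z * F.lin v t) - w z‖ ∂ν ≤ δ) (t : ℤ)
    (ht : |(t : ℝ)| + n ≤ T) :
    ∫ z, ‖u (z * F.lin v t) - u z - (t : ℝ) • w z‖ ∂ν ≤ 2 * c * n + T * δ := by
  have hn0 : (0 : ℤ) < n := by positivity
  obtain ⟨q, ρ, hρ, ht'⟩ : ∃ (q : ℤ) (ρ : ℝ), |ρ| ≤ n ∧ (t : ℝ) = q * n + ρ := by
    refine ⟨t / n, ((t % n : ℤ) : ℝ), ?_, ?_⟩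
    · have h1 : (0 : ℝ) ≤ ((t % n : ℤ) : ℝ) := by exact_mod_cast Int.emod_nonneg t hn0.ne'
      have h2 : ((t % n : ℤ) : ℝ) ≤ ((n : ℤ) : ℝ) := by
        exact_mod_cast (Int.emod_lt_of_pos t hn0).le
      rw [abs_of_nonneg h1]; simpa using h2
    · have := Int.ediv_mul_add_emod t n
      exact_mod_cast this.symm
  have hq : |(q : ℝ) * n| ≤ T := by
    have : (q : ℝ) * n = t - ρ := by rw [ht']; ring
    rw [this]
    exact (abs_sub _ _).trans (by linarith)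
  have h1 := F.cd3_blocks hu v hn hw hc h q hq
  have hc0 : 0 ≤ c := (norm_nonneg _).trans (hc 1)
  have hi : Integrable (fun z => ‖u (z * F.lin v (q * n)) - u z - ((q : ℝ) * n) • w z‖) ν :=
    Integrable.of_bound
      (((hu.1.comp (measurable_mul_const _)).sub hu.1).sub
        (hw.const_smul ((q : ℝ) * n))).norm.aestronglyMeasurable
      (K * (F.M.len (F.lin v (q * n)) + 1) + |(q : ℝ) * n| * c) (ae_of_all _ fun z => by
        rw [norm_norm]
        refine (norm_sub_le _ _).trans (add_le_add (hu.2 _ _) ?_)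
        rw [norm_smul, Real.norm_eq_abs]
        exact mul_le_mul_of_nonneg_left (hc z) (abs_nonneg _))
  have h2 : ∫ z, ‖u (z * F.lin v t) - u z - (t : ℝ) • w z‖ ∂ν ≤
      ∫ z, (‖u (z * F.lin v (q * n)) - u z - ((q : ℝ) * n) • w z‖ + 2 * c * n) ∂ν := by
    refine integral_mono_of_nonneg (ae_of_all _ fun z => norm_nonneg _)
      (hi.add (integrable_const _)) (ae_of_all _ fun z => ?_)
    have e : u (z * F.lin v t) - u z - (t : ℝ) • w z =
        (u (z * F.lin v (q * n)) - u z - ((q : ℝ) * n) • w z) +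
          (u (z * F.lin v (q * n) * F.lin v ρ) - u (z * F.lin v (q * n))) + -(ρ • w z) := by
      rw [ht', F.lin_add, ← mul_assoc, add_smul]; abel
    have h3 := (hu.2 (z * F.lin v (q * n)) (F.lin v ρ)).trans (hlip ρ hρ)
    have h4 : ‖-(ρ • w z)‖ ≤ n * c := by
      rw [norm_neg, norm_smul, Real.norm_eq_abs]
      exact mul_le_mul hρ (hc z) (norm_nonneg _) (by positivity)
    show ‖u (z * F.lin v t) - u z - (t : ℝ) • w z‖ ≤
      ‖u (z * F.lin v (q * n)) - u z - ((q : ℝ) * n) • w z‖ + 2 * c * n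
    rw [e]
    exact norm_add₃_le.trans (by linarith)
  rw [integral_add hi (integrable_const _)] at h2
  simp only [integral_const, probReal_univ, one_smul] at h2
  have := mul_le_mul_of_nonneg_right hq hδ
  linarith

theorem cd3_delta {ε x y : ℝ} (hε : 0 < ε) (hx : 0 ≤ x) (hy : 0 ≤ y) :
    ∃ δ : ℝ, 0 < δ ∧ x * δ ≤ ε ∧ y * δ ≤ ε / 2 := by
  refine ⟨ε / (2 * (1 + x + y)), by positivity, ?_, ?_⟩
  · rw [← mul_div_assoc, div_le_iff₀ (by positivity)]; nlinarith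
  · rw [← mul_div_assoc, div_le_iff₀ (by positivity)]; nlinarith

/-- Put `B z (b i) = ∫ gq u (b i) n (z y) dβ(y)` with `β` from `exists_folner_left` (tolerance `ε₁`,
scale `C r / ε`; support in `len ≤ Λ n`), extended linearly (`Basis.constr`).  `Field`: bound from
`Lip` and `len_lin`, slow variation from `Near.norm_integral_sub`.  `∫ ‖gq n z - B z (b i)‖ dν ≤ ε₁` by
Fubini.  For an integer `t`, `|t| ≤ C r / ε`, cut `[0, t]` into blocks of length `n`:
`∫ ‖u (z lin t) - u z - t B z (b i)‖ ≤ |t| · C ε₁ + C n`.  Then `fac_G` and `pr` is a homomorphism.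
Here `r = k₁ n` with `k₁` large, `ε₁ ≪ ε²`. -/
theorem cd_assemble (b : Module.Basis (Fin F.m) ℝ F.L) (K : ℝ) : ∃ A : ℝ, 1 ≤ A ∧ ∀ ε : ℝ, 0 < ε →
    ∃ (k₁ : ℕ) (Λ ε₁ : ℝ), 1 ≤ k₁ ∧ 1 ≤ Λ ∧ 0 < ε₁ ∧ ∀ n : ℕ, 1 ≤ n → ∀ u, F.Lip K u →
      ∀ ν : Measure F.G, IsProbabilityMeasure ν → F.GInv ν (Λ * n) ε₁ →
        (∀ i g, F.M.len g ≤ Λ * n → ∫ z, ‖F.gq u (b i) n (z * g) - F.gq u (b i) n z‖ ∂ν ≤ ε₁) →
        ∃ B, F.CD u ν ((k₁ * n : ℕ) : ℝ) ε A B := by
  rcases lt_or_ge K 0 with hK | hK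
  · exact ⟨1, le_rfl, fun ε _ => ⟨1, 1, 1, le_rfl, le_rfl, one_pos, fun n _ u hu =>
      absurd (F.cd3_K_nonneg hu) (not_le.2 hK)⟩⟩
  obtain ⟨Cl, hCl, hlin⟩ := F.len_lin
  obtain ⟨Cp, hCp, hp⟩ := F.norm_pr_le
  obtain ⟨Cb, hCb, hcoord⟩ := F.cd3_coord b
  obtain ⟨n₀, Cf, hCf, hfac⟩ := F.fac_G b b.span_eq
  obtain ⟨Mb, hMb0, hMb⟩ : ∃ Mb : ℝ, 0 ≤ Mb ∧ ∀ i, ‖b i‖ ≤ Mb :=
    ⟨∑ i, ‖b i‖, Finset.sum_nonneg fun _ _ => norm_nonneg _, fun i =>
      Finset.single_le_sum (f := fun i => ‖b i‖) (fun _ _ => norm_nonneg _) (Finset.mem_univ i)⟩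
  obtain ⟨G, hG⟩ : ∃ G : ℝ, G = K * (Cl * (1 + Mb) + 1) := ⟨_, rfl⟩
  have hG0 : 0 ≤ G := by rw [hG]; positivity
  obtain ⟨A, hA⟩ : ∃ A : ℝ, A = 1 + Cb * G := ⟨_, rfl⟩
  have hA1 : 1 ≤ A := by rw [hA]; linarith [mul_nonneg hCb hG0]
  have hA0 : 0 ≤ A := by linarith
  refine ⟨A, hA1, fun ε hε => ?_⟩
  obtain ⟨D, hD⟩ : ∃ D : ℝ, D = Cl * (1 + (Cf + 1) * Mb) + Cf := ⟨_, rfl⟩
  have hDf : Cf ≤ D := by
    have : 0 ≤ Cl * (1 + (Cf + 1) * Mb) := by positivity
    rw [hD]; linarith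
  have hD1 : 1 ≤ D := hCf.trans hDf
  obtain ⟨θ, hθ⟩ : ∃ θ : ℝ, θ = ε⁻¹ + 1 := ⟨_, rfl⟩
  have hθ1 : 1 ≤ θ := by
    have : 0 < ε⁻¹ := by positivity
    rw [hθ]; linarith
  obtain ⟨E, hE⟩ : ∃ E : ℝ, E = 2 * G + (K * (Cf + 1) + A * (Cp * Cf)) := ⟨_, rfl⟩
  have hE0 : 0 ≤ E := by rw [hE]; positivity
  obtain ⟨W, hW⟩ : ∃ W : ℝ, W = 2 * (Cf + 1) + K * (n₀ * D + 1) + A * (Cp * (n₀ * D)) +
    Cb * (2 * G) * (Cp * (n₀ * D)) := ⟨_, rfl⟩
  have hW0 : 0 ≤ W := by rw [hW]; positivity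
  obtain ⟨δ, hδ, hδ1, hδ2⟩ : ∃ δ : ℝ, 0 < δ ∧ Cb * (2 * G * δ) ≤ ε ∧ n₀ * W * θ * δ ≤ ε / 2 := by
    obtain ⟨δ, h0, h1, h2⟩ := cd3_delta (x := Cb * (2 * G)) (y := n₀ * W * θ) hε (by positivity)
      (by positivity)
    exact ⟨δ, h0, by rwa [← mul_assoc], h2⟩
  obtain ⟨k₁, hk₁, hk₂⟩ : ∃ k₁ : ℕ, 1 ≤ k₁ ∧ n₀ * E ≤ ε / 2 * k₁ := by
    obtain ⟨k, hk⟩ := exists_nat_ge (n₀ * E / (ε / 2))
    refine ⟨k + 1, by omega, ?_⟩
    rw [div_le_iff₀ (by positivity)] at hk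
    push_cast; linarith
  obtain ⟨Cβ, hCβ, hβ⟩ := F.exists_folner_left δ hδ
  have hk₁' : (1 : ℝ) ≤ k₁ := by exact_mod_cast hk₁
  refine ⟨k₁, Cβ * (D * (θ * k₁)), δ, hk₁, ?_, hδ, fun n hn u hu ν hν hinv hgq => ?_⟩
  · exact one_le_mul_of_one_le_of_one_le hCβ (one_le_mul_of_one_le_of_one_le hD1
      (one_le_mul_of_one_le_of_one_le hθ1 hk₁'))
  have hn' : (1 : ℝ) ≤ n := by exact_mod_cast hn
  obtain ⟨r, hr⟩ : ∃ r : ℝ, r = k₁ * n := ⟨_, rfl⟩
  have hnr : (n : ℝ) ≤ r := by rw [hr]; exact le_mul_of_one_le_left (by positivity) hk₁'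
  obtain ⟨a, ha⟩ : ∃ a : ℝ, a = θ * r := ⟨_, rfl⟩
  have hra : r ≤ a := by rw [ha]; exact le_mul_of_one_le_left (by linarith) hθ1
  have ha1 : 1 ≤ a := by linarith
  have hεa : r / ε ≤ a := by
    rw [ha, hθ, div_eq_inv_mul, add_mul]; linarith
  have haD : a ≤ D * a := le_mul_of_one_le_left (by linarith) hD1
  have hΛ : Cβ * (D * (θ * k₁)) * n = Cβ * (D * a) := by rw [ha, hr]; ring
  rw [hΛ] at hinv hgq
  have hDΛ : D * a ≤ Cβ * (D * a) := le_mul_of_one_le_left (by linarith) hCβ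
  obtain ⟨β, hβp, hβs, hβi⟩ := hβ (D * a) (by linarith)
  have hlip : ∀ i (ρ : ℝ), |ρ| ≤ n → K * (F.M.len (F.lin (b i) ρ) + 1) ≤ G * n := by
    intro i ρ hρ
    have h1 : |ρ| * ‖b i‖ ≤ n * Mb := mul_le_mul hρ (hMb i) (norm_nonneg _) (by positivity)
    have h2 : F.M.len (F.lin (b i) ρ) ≤ Cl * (n + n * Mb) :=
      (hlin _ _).trans (by gcongr)
    rw [hG, mul_assoc]
    gcongr
    linarith
  have hlen : ∀ i (t : ℝ), |t| ≤ (Cf + 1) * a → F.M.len (F.lin (b i) t) ≤ D * a := by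
    intro i t ht
    have h1 : |t| * ‖b i‖ ≤ (Cf + 1) * a * Mb :=
      mul_le_mul ht (hMb i) (norm_nonneg _) (by positivity)
    have h2 : F.M.len (F.lin (b i) t) ≤ Cl * (a + (Cf + 1) * a * Mb) :=
      (hlin _ _).trans (by gcongr)
    have : 0 ≤ Cf * a := by positivity
    rw [hD]; linarith
  have hgb : ∀ i z, ‖F.gq u (b i) n z‖ ≤ G := by
    intro i z
    have h1 := (hu.2 z (F.lin (b i) n)).trans (hlip i n (by rw [abs_of_nonneg (by positivity)]))
    rw [← F.cd3_nsmul_gq u (b i) hn, norm_smul, Real.norm_eq_abs, abs_of_nonneg (by positivity),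
      mul_comm] at h1
    exact le_of_mul_le_mul_right h1 (by positivity)
  have hgm : ∀ i, Measurable (F.gq u (b i) n) := fun i => F.cd3_meas_gq hu.1 _ _
  obtain ⟨B, hB⟩ : ∃ B : F.G → F.L →ₗ[ℝ] F.L,
      ∀ z, B z = b.constr ℝ fun i => F.cd3av (F.gq u (b i) n) β z := ⟨_, fun _ => rfl⟩
  have hBb : ∀ z i, B z (b i) = F.cd3av (F.gq u (b i) n) β z := fun z i => by
    rw [hB, Module.Basis.constr_basis]
  have hfield : F.Field B A (D * a) (Cb * (2 * G * δ)) := by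
    refine ⟨fun v => ?_, fun z v => ?_, fun z g v hg => ?_⟩
    · simp only [hB, Module.Basis.constr_apply_fintype]
      exact Finset.measurable_sum _ fun i _ =>
        (F.cd3av_meas (hgm i) β).const_smul (b.equivFun v i)
    · rw [hB]
      refine (hcoord _ G hG0 (fun i => F.cd3av_le (hgb i) β z) v).trans ?_
      gcongr; rw [hA]; linarith
    · have e : B (z * g) v - B z v = b.constr ℝ (fun i => F.cd3av (F.gq u (b i) n) β (z * g) -
          F.cd3av (F.gq u (b i) n) β z) v := by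
        simp only [hB, Module.Basis.constr_apply_fintype, smul_sub, Finset.sum_sub_distrib]
      rw [e]
      exact hcoord _ _ (by positivity) (fun i => F.cd3av_slow (hgm i) (hgb i) (hβi g hg) z) v
  have hclose : ∀ i (t : ℝ), |t| ≤ (Cf + 1) * a →
      ∫ z, ‖F.gq u (b i) n (z * F.lin (b i) t) - F.cd3av (F.gq u (b i) n) β z‖ ∂ν ≤ 2 * δ := by
    intro i t ht
    have h1 := hgq i _ ((hlen i t ht).trans hDΛ)
    have h2 : ∫ z, ‖F.gq u (b i) n z - F.cd3av (F.gq u (b i) n) β z‖ ∂ν ≤ δ :=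
      F.cd3av_close (hgm i) (hgb i) (hβs.mono fun y hy => hgq i y hy)
    have i1 : Integrable (fun z => ‖F.gq u (b i) n (z * F.lin (b i) t) - F.gq u (b i) n z‖) ν :=
      Integrable.of_bound
        (((hgm i).comp (measurable_mul_const _)).sub (hgm i)).norm.aestronglyMeasurable (G + G)
        (ae_of_all _ fun z => by
          rw [norm_norm]; exact (norm_sub_le _ _).trans (add_le_add (hgb i _) (hgb i _)))
    have i2 : Integrable (fun z => ‖F.gq u (b i) n z - F.cd3av (F.gq u (b i) n) β z‖) ν :=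
      Integrable.of_bound
        ((hgm i).sub (F.cd3av_meas (hgm i) β)).norm.aestronglyMeasurable (G + G)
        (ae_of_all _ fun z => by
          rw [norm_norm]
          exact (norm_sub_le _ _).trans (add_le_add (hgb i _) (F.cd3av_le (hgb i) β z)))
    have h3 : ∫ z, ‖F.gq u (b i) n (z * F.lin (b i) t) - F.cd3av (F.gq u (b i) n) β z‖ ∂ν ≤
        ∫ z, (‖F.gq u (b i) n (z * F.lin (b i) t) - F.gq u (b i) n z‖ +
          ‖F.gq u (b i) n z - F.cd3av (F.gq u (b i) n) β z‖) ∂ν :=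
      integral_mono_of_nonneg (ae_of_all _ fun z => norm_nonneg _) (i1.add i2)
        (ae_of_all _ fun z => norm_sub_le_norm_sub_add_norm_sub _ _ _)
    rw [integral_add i1 i2] at h3
    linarith
  have hcast : ((k₁ * n : ℕ) : ℝ) = r := by rw [hr]; push_cast; ring
  rw [hcast]
  refine ⟨B, ⟨hfield.meas, hfield.bound, fun z g v hg => ?_⟩, fun g hg => ?_⟩
  · exact (hfield.slow z g v (hg.trans (hεa.trans haD))).trans (by gcongr)
  obtain ⟨l, hl, rfl, hs⟩ := hfac g a ha1 (hg.trans hεa)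
  have hT : 0 ≤ (Cf + 1) * a * (2 * δ) := by positivity
  have hs' : ∀ s ∈ l, F.M.len s ≤ D * a ∧
      ∫ z, F.cd3pe u B s z ∂ν ≤ E * n + (Cf + 1) * a * (2 * δ) := by
    intro s hs0
    rcases hs s hs0 with ⟨i, t, ht, rfl⟩ | h
    · refine ⟨hlen i t (by linarith), ?_⟩
      have h1 := F.cd3_lin hu (b i) hn (F.cd3av_meas (hgm i) β) (F.cd3av_le (hgb i) β)
        (by positivity) (hlip i) (hclose i) t (by linarith)
      simp only [cd3pe, F.pr_lin, map_smul, hBb]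
      have : 0 ≤ (K * (Cf + 1) + A * (Cp * Cf)) * n := by positivity
      rw [hE]; linarith
    · refine ⟨h.trans (hDf.trans (le_mul_of_one_le_right (by linarith) ha1)), ?_⟩
      have h1 : ∫ z, F.cd3pe u B s z ∂ν ≤ ∫ _z, (K * (Cf + 1) + A * (Cp * Cf)) ∂ν :=
        integral_mono_of_nonneg (ae_of_all _ fun z => norm_nonneg _) (integrable_const _)
          (ae_of_all _ fun z => F.cd3pe_le hu hA0 hfield.bound hp hCp.le h z)
      simp only [integral_const, probReal_univ, one_smul] at h1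
      have h2 : 0 ≤ K * (Cf + 1) + A * (Cp * Cf) := by positivity
      have h3 : 0 ≤ 2 * G * n := by positivity
      have h4 := le_mul_of_one_le_right h2 hn'
      rw [hE]; linarith
  have h1 := F.cd3_err_list hu hfield hA0 (by positivity) hp hCp.le (hinv.mono hDΛ le_rfl)
    (by positivity) n₀ l hl hs'
  have h2 : E * n + (Cf + 1) * a * (2 * δ) + ((K * (n₀ * (D * a) + 1) +
      A * (Cp * (n₀ * (D * a)))) * δ + Cb * (2 * G * δ) * (Cp * (n₀ * (D * a)))) ≤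
      E * n + W * a * δ := by
    have : K * δ ≤ K * δ * a := le_mul_of_one_le_right (by positivity) ha1
    rw [hW]; linarith
  have hl' : (l.length : ℝ) ≤ n₀ := by exact_mod_cast hl
  have h3 : (n₀ : ℝ) * (E * n + W * a * δ) ≤ ε * r := by
    have h4 := mul_le_mul_of_nonneg_right hk₂ (by positivity : (0 : ℝ) ≤ n)
    have h5 := mul_le_mul_of_nonneg_right hδ2 (by linarith : 0 ≤ r)
    calc (n₀ : ℝ) * (E * n + W * a * δ) = n₀ * E * n + n₀ * W * θ * δ * r := by rw [ha]; ring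
      _ ≤ ε / 2 * k₁ * n + ε / 2 * r := add_le_add h4 h5
      _ = ε * r := by rw [hr]; ring
  exact h1.trans ((mul_le_mul hl' h2 (by positivity) (by positivity)).trans h3)

end Frame

end Crest.Agent.R182
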