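import Crest.Agent.R182.CD1
import Crest.Agent.R182.CD2
import Crest.Agent.R182.CD3
import Crest.Agent.R182.LinNrm

/-! Row 182, task `R182/CD`: coarse differentiation. -/

set_option autoImplicit false

namespace Crest.Agent.R182

open scoped BigOperators
open MeasureTheory

namespace Frame

variable (F : Frame)

theorem cdm_exists_min {ι : Type} [Finite ι] (f : ι → ℝ) (h : ∀ i, 0 < f i) :
    ∃ c : ℝ, 0 < c ∧ ∀ i, c ≤ f i := by
  rcases isEmpty_or_nonempty ι with hι | hι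
  · exact ⟨1, one_pos, fun i => isEmptyElim i⟩
  · obtain ⟨i, hi⟩ := Finite.exists_min f
    exact ⟨f i, h i, hi⟩

theorem cdm_meas_gq {u : F.G → F.L} (hu : Measurable u) (v : F.L) (n : ℕ) :
    Measurable (F.gq u v n) :=
  Measurable.const_smul (g := fun z => u (z * F.lin v n) - u z)
    ((hu.comp (measurable_mul_const (F.lin v n))).sub hu) (n : ℝ)⁻¹

theorem cdm_gq_bound {ι : Type} [Fintype ι] (b : ι → F.L) (K : ℝ) : ∃ B : ℝ, 0 < B ∧
    ∀ u, F.Lip K u → ∀ i n z, ‖F.gq u (b i) n z‖ ≤ B := by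
  obtain ⟨C, hC, h⟩ := F.len_lin
  have hs : 0 ≤ ∑ i, ‖b i‖ := Finset.sum_nonneg fun _ _ => norm_nonneg _
  refine ⟨|K| * (C * (1 + ∑ i, ‖b i‖) + 1) + 1, by positivity, fun u hu i n z => ?_⟩
  rcases Nat.eq_zero_or_pos n with rfl | hn
  · simp only [gq, Nat.cast_zero, inv_zero, zero_smul, norm_zero]
    positivity
  have hn1 : (1 : ℝ) ≤ n := by exact_mod_cast hn
  have h1 := hu.2 z (F.lin (b i) n)
  have h2 := h (b i) n
  have h3 : ‖b i‖ ≤ ∑ i, ‖b i‖ :=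
    Finset.single_le_sum (f := fun i => ‖b i‖) (fun _ _ => norm_nonneg _) (Finset.mem_univ i)
  have h4 := F.M.len_nonneg (F.lin (b i) n)
  rw [Nat.abs_cast] at h2
  have h5 : F.M.len (F.lin (b i) n) + 1 ≤ n * (C * (1 + ∑ i, ‖b i‖) + 1) := by
    have h6 : C * (1 + n * ‖b i‖) ≤ C * (n + n * ∑ i, ‖b i‖) := by gcongr
    nlinarith
  rw [gq, norm_smul, norm_inv, Real.norm_natCast, inv_mul_le_iff₀ (by linarith)]
  calc ‖u (z * F.lin (b i) n) - u z‖ ≤ |K| * (F.M.len (F.lin (b i) n) + 1) :=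
        h1.trans (mul_le_mul_of_nonneg_right (le_abs_self K) (by linarith))
    _ ≤ |K| * (n * (C * (1 + ∑ i, ‖b i‖) + 1)) := by gcongr
    _ ≤ _ := by nlinarith

theorem cdm_int {ν : Measure F.G} [IsProbabilityMeasure ν] {f g : F.G → F.L} (hf : Measurable f)
    (hg : Measurable g) {B : ℝ} (hfB : ∀ z, ‖f z‖ ≤ B) (hgB : ∀ z, ‖g z‖ ≤ B) :
    Integrable (fun z => ‖f z - g z‖) ν :=
  Integrable.of_bound (hf.sub hg).norm.aestronglyMeasurable (2 * B) (ae_of_all _ fun z => by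
    rw [norm_norm]
    linarith [norm_sub_le (f z) (g z), hfB z, hgB z])

theorem cdm_tri {ν : Measure F.G} [IsProbabilityMeasure ν] {f g h : F.G → F.L} (hf : Measurable f)
    (hg : Measurable g) (hh : Measurable h) {B : ℝ} (hfB : ∀ z, ‖f z‖ ≤ B) (hgB : ∀ z, ‖g z‖ ≤ B)
    (hhB : ∀ z, ‖h z‖ ≤ B) :
    ∫ z, ‖f z - h z‖ ∂ν ≤ ∫ z, ‖f z - g z‖ ∂ν + ∫ z, ‖g z - h z‖ ∂ν := by
  rw [← integral_add (F.cdm_int hf hg hfB hgB) (F.cdm_int hg hh hgB hhB)]
  exact integral_mono (F.cdm_int hf hh hfB hhB)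
    ((F.cdm_int hf hg hfB hgB).add (F.cdm_int hg hh hgB hhB))
    fun z => norm_sub_le_norm_sub_add_norm_sub _ _ _

theorem cdm_shift {ν : Measure F.G} [IsProbabilityMeasure ν] {f g : F.G → F.L} (hf : Measurable f)
    (hg : Measurable g) {B : ℝ} (hfB : ∀ z, ‖f z‖ ≤ B) (hgB : ∀ z, ‖g z‖ ≤ B) {x : F.G} {τ : ℝ}
    (h : F.RInv ν x τ) :
    ∫ z, ‖f (z * x) - g (z * x)‖ ∂ν ≤ ∫ z, ‖f z - g z‖ ∂ν + 2 * B * τ := by
  have hm : Measurable fun z => ‖f z - g z‖ := (hf.sub hg).norm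
  have h1 := (Near.symm h).integral_le hm (fun z => norm_nonneg _) (B := 2 * B)
    fun z => by linarith [norm_sub_le (f z) (g z), hfB z, hgB z]
  rwa [rt, integral_map (measurable_mul_const x).aemeasurable hm.aestronglyMeasurable] at h1

/-- the two approximations needed by `cd_inv` -/
theorem cdm_good {ν : Measure F.G} [IsProbabilityMeasure ν] {u : F.G → F.L} (hu : Measurable u)
    (v : F.L) {B ε τ : ℝ} (hB : ∀ n z, ‖F.gq u v n z‖ ≤ B) {n k : ℕ} (hk : 2 ≤ k)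
    (h : ∀ l < k, ∫ z, ‖F.gq u v n (z * F.lin v ((l * n : ℕ) : ℝ)) - F.gq u v (n * k) z‖ ∂ν ≤ ε)
    (h1 : F.RInv ν (F.lin v (-(n : ℝ))) τ) (h2 : F.RInv ν (F.lin v (-((n * k : ℕ) : ℝ))) τ) :
    ∫ z, ‖F.gq u v n z - F.gq u v (n * k) z‖ ∂ν ≤ ε ∧
      ∫ z, ‖F.gq u v n z - F.gq u v (n * k) (z * F.lin v (-((n * k : ℕ) : ℝ)))‖ ∂ν ≤
        3 * ε + 4 * B * τ := by
  have m0 := F.cdm_meas_gq hu v
  have m1 : ∀ n x, Measurable fun z => F.gq u v n (z * x) := fun n x =>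
    (m0 n).comp (measurable_mul_const x)
  have e0 : ∫ z, ‖F.gq u v n z - F.gq u v (n * k) z‖ ∂ν ≤ ε := by
    simpa using h 0 (by omega)
  refine ⟨e0, ?_⟩
  have e1 : ∫ z, ‖F.gq u v (n * k) z - F.gq u v n (z * F.lin v n)‖ ∂ν ≤ ε := by
    have := h 1 (by omega)
    rw [one_mul] at this
    simpa only [norm_sub_rev (F.gq u v (n * k) _)] using this
  have e2 : ∫ z, ‖F.gq u v n (z * F.lin v n) - F.gq u v n z‖ ∂ν ≤ 2 * ε := by
    have := F.cdm_tri (ν := ν) (m0 n) (m0 (n * k)) (m1 n (F.lin v n)) (hB n) (hB _) fun z => hB n _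
    simp only [norm_sub_rev (F.gq u v n (_ * F.lin v n))]
    linarith
  have e3 := F.cdm_shift (ν := ν) (m1 n (F.lin v n)) (m0 n) (fun z => hB n _) (hB n) h1
  have a3 : ∀ z : F.G, z * F.lin v (-(n : ℝ)) * F.lin v n = z := fun z => by
    rw [mul_assoc, ← F.lin_add, neg_add_cancel, F.lin_zero, mul_one]
  simp only [a3] at e3
  have e4 := F.cdm_shift (ν := ν) (m1 n (F.lin v (((k - 1) * n : ℕ) : ℝ))) (m0 (n * k))
    (fun z => hB n _) (hB _) h2
  have a4 : ∀ z : F.G, z * F.lin v (-((n * k : ℕ) : ℝ)) * F.lin v (((k - 1) * n : ℕ) : ℝ) =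
      z * F.lin v (-(n : ℝ)) := fun z => by
    rw [mul_assoc, ← F.lin_add]
    congr 2
    obtain ⟨j, rfl⟩ : ∃ j, k = j + 1 := ⟨k - 1, by omega⟩
    rw [Nat.add_sub_cancel]
    push_cast
    ring
  simp only [a4] at e4
  have e5 := h (k - 1) (by omega)
  have e6 := F.cdm_tri (ν := ν) (m0 n) (m1 n (F.lin v (-(n : ℝ))))
    (m1 (n * k) (F.lin v (-((n * k : ℕ) : ℝ)))) (hB n) (fun z => hB n _) fun z => hB _ _
  linarith

theorem cdm_meas_B {B : F.G → F.L →ₗ[ℝ] F.L} (hB : ∀ v, Measurable fun z => B z v) :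
    Measurable fun p : F.G × F.G => B p.1 (F.pr p.2) := by
  have e : (fun p : F.G × F.G => B p.1 (F.pr p.2)) =
      fun p => ∑ i, F.pr p.2 i • B p.1 fun j => if i = j then 1 else 0 :=
    funext fun p => LinearMap.pi_apply_eq_sum_univ _ _
  rw [e]
  refine Finset.measurable_sum _ fun i _ => ?_
  have h1 : Measurable fun p : F.G × F.G => F.pr p.2 i :=
    (measurable_pi_apply i).comp (F.continuous_pr.measurable.comp measurable_snd)
  have h2 : Measurable fun p : F.G × F.G => B p.1 fun j => if i = j then 1 else 0 :=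
    (hB _).comp measurable_fst
  exact h1.smul h2

/-- Take a generic basis (`exists_gen_basis`, `w = 1`), `cd_assemble`, then `cd_inv` (for each `b i`,
with tolerance `ε₁`), `k ≥ 2` with `δ k ≥ Λ`, then `cd_energy` with small tolerance `ε₂` and `n₀` large.
For a good index `a`, `n = n₀ k^a`, `R = n k`: `l = 0` gives `gq n ≈ gq R`; `l = 0, 1` give
`gq n z ≈ gq n (z lin n)`, hence (shift) `gq n (z lin (-n)) ≈ gq n z`; `l = k - 1` shifted by
`lin (-R)` gives `gq n (z lin (-n)) ≈ gq R (z lin (-R))`.  `rs a = k₁ n₀ k^a`. -/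
theorem cd (K : ℝ) : ∃ A : ℝ, 1 ≤ A ∧ ∀ ε r₀ : ℝ, 0 < ε → ∃ (N : ℕ) (rs : ℕ → ℕ) (ρ τ : ℝ),
    0 < N ∧ 0 < τ ∧ (∀ a, r₀ ≤ rs a) ∧ ∀ u, F.Lip K u → ∀ ν : Measure F.G,
      IsProbabilityMeasure ν → F.GInv ν ρ τ →
        3 * {a | a < N ∧ ¬∃ B, F.CD u ν (rs a) ε A B}.ncard < N := by
  obtain ⟨b, hb⟩ := F.exists_gen_basis
  have hv : ∀ i j, F.μ j (F.φL (b i)) ≠ 0 := fun i j => hb i 1 j
  obtain ⟨A, hA, hass⟩ := F.cd_assemble b K
  refine ⟨A, hA, fun ε r₀ hε => ?_⟩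
  obtain ⟨k₁, Λ, ε₁, hk₁, hΛ, hε₁, hass⟩ := hass ε hε
  obtain ⟨B, hB0, hB⟩ := F.cdm_gq_bound b K
  choose δi εi Ri hδi hεi hinv using fun i => F.cd_inv (b i) (hv i) K B ε₁ hε₁
  obtain ⟨δ, hδ, hδle⟩ := cdm_exists_min δi hδi
  obtain ⟨ε', hε', hεle⟩ := cdm_exists_min εi hεi
  obtain ⟨k, hk2, hkΛ⟩ : ∃ k : ℕ, 2 ≤ k ∧ Λ ≤ δ * k := by
    refine ⟨⌈Λ / δ⌉₊ + 2, by omega, ?_⟩
    have := Nat.le_ceil (Λ / δ)
    rw [div_le_iff₀ hδ] at this
    push_cast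
    nlinarith
  set n₀ : ℕ := 1 + ∑ i, Ri i + ⌈r₀⌉₊ with hn₀
  have hn1 : 1 ≤ n₀ := by omega
  have hnR : ∀ i, Ri i ≤ n₀ := fun i => by
    have := Finset.single_le_sum (f := Ri) (fun _ _ => Nat.zero_le _) (Finset.mem_univ i)
    omega
  have hnr : r₀ ≤ n₀ := (Nat.le_ceil r₀).trans (by exact_mod_cast (by omega : ⌈r₀⌉₊ ≤ n₀))
  have hpow : ∀ a, n₀ ≤ n₀ * k ^ a := fun a => Nat.le_mul_of_pos_right _ (by positivity)
  obtain ⟨N, ρ₀, τ₀, hN, hτ₀, hen⟩ := F.cd_energy b K (ε' / 6) (by positivity) k n₀ (by omega) hn1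
  set T : ℕ → ℝ := fun a => ((n₀ * k ^ a * k : ℕ) : ℝ) + Λ * ((n₀ * k ^ a : ℕ) : ℝ) +
    ∑ i, (F.M.len (F.lin (b i) (-((n₀ * k ^ a : ℕ) : ℝ))) +
      F.M.len (F.lin (b i) (-((n₀ * k ^ a * k : ℕ) : ℝ)))) with hT
  have hΛn : ∀ a, 0 ≤ Λ * ((n₀ * k ^ a : ℕ) : ℝ) := fun a => by positivity
  have hS : ∀ a, 0 ≤ ∑ i, (F.M.len (F.lin (b i) (-((n₀ * k ^ a : ℕ) : ℝ))) +
      F.M.len (F.lin (b i) (-((n₀ * k ^ a * k : ℕ) : ℝ)))) := fun a =>
    Finset.sum_nonneg fun i _ => add_nonneg (F.M.len_nonneg _) (F.M.len_nonneg _)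
  have hT0 : ∀ a, 0 ≤ T a := fun a => add_nonneg (add_nonneg (Nat.cast_nonneg _) (hΛn a)) (hS a)
  have hsum : 0 ≤ ∑ a ∈ Finset.range N, T a := Finset.sum_nonneg fun a _ => hT0 a
  set τ : ℝ := min (min τ₀ ε₁) (min ε' (ε' / (8 * B))) with hτ
  have hτ1 : τ ≤ τ₀ := (min_le_left _ _).trans (min_le_left _ _)
  have hτ2 : τ ≤ ε₁ := (min_le_left _ _).trans (min_le_right _ _)
  have hτ3 : τ ≤ ε' := (min_le_right _ _).trans (min_le_left _ _)
  have hτ4 : 4 * B * τ ≤ ε' / 2 := by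
    have : τ ≤ ε' / (8 * B) := (min_le_right _ _).trans (min_le_right _ _)
    rw [le_div_iff₀ (by positivity)] at this
    linarith
  refine ⟨N, fun a => k₁ * (n₀ * k ^ a), |ρ₀| + ∑ a ∈ Finset.range N, T a, τ, hN, by positivity,
    fun a => hnr.trans ?_, fun u hu ν hν hG => ?_⟩
  · exact_mod_cast (hpow a).trans (Nat.le_mul_of_pos_left _ hk₁)
  refine lt_of_le_of_lt (Nat.mul_le_mul_left 3 (Set.ncard_le_ncard ?_ ?_))
    (hen u hu ν hν (hG.mono (by linarith [le_abs_self ρ₀]) hτ1))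
  swap
  · exact (Set.finite_Iio N).subset fun a ha => ha.1
  rintro a ⟨ha, hbad⟩
  refine ⟨ha, ?_⟩
  by_contra hgood
  push Not at hgood
  apply hbad
  have hTa : T a ≤ |ρ₀| + ∑ a ∈ Finset.range N, T a := by
    have := Finset.single_le_sum (f := T) (fun a _ => hT0 a) (Finset.mem_range.2 ha)
    linarith [abs_nonneg ρ₀]
  have hGa : F.GInv ν (T a) τ := hG.mono hTa le_rfl
  have hR0 : (0 : ℝ) ≤ ((n₀ * k ^ a * k : ℕ) : ℝ) := Nat.cast_nonneg _
  refine hass (n₀ * k ^ a) (hn1.trans (hpow a)) u hu ν hν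
    (hGa.mono (by simp only [hT]; linarith [hS a]) hτ2) fun i g hg => ?_
  have hi := Finset.single_le_sum
    (f := fun i => F.M.len (F.lin (b i) (-((n₀ * k ^ a : ℕ) : ℝ))) +
      F.M.len (F.lin (b i) (-((n₀ * k ^ a * k : ℕ) : ℝ))))
    (fun i _ => add_nonneg (F.M.len_nonneg _) (F.M.len_nonneg _)) (Finset.mem_univ i)
  have l1 := F.M.len_nonneg (F.lin (b i) (-((n₀ * k ^ a : ℕ) : ℝ)))
  have l2 := F.M.len_nonneg (F.lin (b i) (-((n₀ * k ^ a * k : ℕ) : ℝ)))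
  obtain ⟨g1, g2⟩ := F.cdm_good (ν := ν) hu.1 (b i) (hB u hu i) hk2 (n := n₀ * k ^ a) (ε := ε' / 6)
    (τ := τ) (fun l hl => by rw [mul_assoc n₀, ← pow_succ]; exact hgood i l hl)
    (hGa _ (by simp only [hT]; linarith [hΛn a])) (hGa _ (by simp only [hT]; linarith [hΛn a]))
  refine hinv i (n₀ * k ^ a * k)
    ((hnR i).trans ((hpow a).trans (Nat.le_mul_of_pos_right _ (by omega)))) u hu ν hν
    (hGa.mono (by simp only [hT]; linarith [hS a, hΛn a]) (hτ3.trans (hεle i))) _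
    (F.cdm_meas_gq hu.1 _ _) (hB u hu i _) (by linarith [hεle i]) (by linarith [hεle i]) g
    (hg.trans ?_)
  have hn0 : (0 : ℝ) ≤ ((n₀ * k ^ a : ℕ) : ℝ) := Nat.cast_nonneg _
  rw [Nat.cast_mul _ k]
  calc Λ * ((n₀ * k ^ a : ℕ) : ℝ) ≤ δi i * k * ((n₀ * k ^ a : ℕ) : ℝ) := by
        refine mul_le_mul_of_nonneg_right (hkΛ.trans ?_) hn0
        exact mul_le_mul_of_nonneg_right (hδle i) (Nat.cast_nonneg _)
    _ = _ := by ring

/-- `β` from `exists_folner_left (1/10)` at scale `r`, support `len ≤ C₀ r ≤ r / ε`.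
`𝒢 = {z | β {y | ε'' r ≤ ‖u (z y) - u z - B z (pr y)‖} < 1/10}` (Markov, `prod_real_le`,
`real_slice_le`).  For `z' = z g` in `𝒢` there is `y` in the support, good for `z'`, with `g y` good for
`z`; subtract, use `Field.slow` and `norm_pr_le`. -/
theorem cd_pair (K A ε' : ℝ) (hε' : 0 < ε') : ∃ ε : ℝ, 0 < ε ∧ ε ≤ ε' ∧ ∀ r : ℝ, 1 ≤ r →
    ∀ u, F.Lip K u → ∀ ν : Measure F.G, IsProbabilityMeasure ν → ∀ B, F.CD u ν r ε A B →
      ∃ 𝒢, F.Pair u r ε' B 𝒢 ∧ ν.real 𝒢ᶜ ≤ ε' := by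
  obtain ⟨C₀, hC₀, hfol⟩ := F.exists_folner_left (1 / 10) (by norm_num)
  obtain ⟨Cp, hCp, hpr⟩ := F.norm_pr_le
  set ε : ℝ := min (min ε' (1 / C₀)) (min (ε' * (ε' / 3) / 10) (ε' / (3 * (Cp * C₀)))) with hεd
  have hε : 0 < ε := by positivity
  have h1 : ε ≤ ε' := (min_le_left _ _).trans (min_le_left _ _)
  have h2 : ε * C₀ ≤ 1 := by
    have : ε ≤ 1 / C₀ := (min_le_left _ _).trans (min_le_right _ _)
    rwa [le_div_iff₀ (by linarith)] at this
  have h3 : ε ≤ ε' * (ε' / 3) / 10 := (min_le_right _ _).trans (min_le_left _ _)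
  have h4 : ε * (Cp * C₀) ≤ ε' / 3 := by
    have : ε ≤ ε' / (3 * (Cp * C₀)) := (min_le_right _ _).trans (min_le_right _ _)
    rw [le_div_iff₀ (by positivity)] at this
    linarith
  refine ⟨ε, hε, h1, fun r hr u hu ν hν B hB => ?_⟩
  obtain ⟨β, hβ, hsupp, hnear⟩ := hfol r hr
  have hr1 : C₀ * r ≤ r / ε := by
    rw [le_div_iff₀ hε]
    nlinarith
  have hr2 : r ≤ r / ε := le_trans (by nlinarith) hr1
  have hm : Measurable fun p : F.G × F.G => ‖u (p.1 * p.2) - u p.1 - B p.1 (F.pr p.2)‖ :=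
    (((hu.1.comp measurable_mul).sub (hu.1.comp measurable_fst)).sub (F.cdm_meas_B hB.1.meas)).norm
  set Bd : Set (F.G × F.G) := {p | ε' / 3 * r ≤ ‖u (p.1 * p.2) - u p.1 - B p.1 (F.pr p.2)‖} with hBd
  have hBm : MeasurableSet Bd := measurableSet_le measurable_const hm
  have hprod : (ν.prod β).real Bd ≤ ε / (ε' / 3) := by
    refine prod_real_le ν β hBm ?_
    filter_upwards [hsupp] with y hy
    have hint : Integrable (fun z => ‖u (z * y) - u z - B z (F.pr y)‖) ν :=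
      Integrable.of_bound (hm.comp measurable_prodMk_right).aestronglyMeasurable
        (K * (F.M.len y + 1) + A * ‖F.pr y‖) (ae_of_all _ fun z => by
          rw [norm_norm]
          linarith [norm_sub_le (u (z * y) - u z) (B z (F.pr y)), hu.2 z y, hB.1.bound z (F.pr y)])
    refine (real_markov ν hint (fun z => norm_nonneg _) (η := ε' / 3 * r) (by positivity)).trans ?_
    refine (div_le_div_of_nonneg_right (hB.2 y (hy.trans hr1)) (by positivity)).trans (le_of_eq ?_)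
    field_simp
  refine ⟨{z | β.real {y | (z, y) ∈ Bd} < 1 / 10}, ⟨?_, fun z hz z' hz' hd => ?_⟩, ?_⟩
  · exact measurableSet_lt (measurable_measure_prodMk_left hBm).ennreal_toReal measurable_const
  · obtain ⟨g, rfl⟩ : ∃ g, z' = z * g := ⟨z⁻¹ * z', by rw [mul_inv_cancel_left]⟩
    rw [F.M.dd_mul_right] at hd
    have hz1 : β.real {y | (z, y) ∈ Bd} < 1 / 10 := hz
    have hz2 : β.real {y | (z * g, y) ∈ Bd} < 1 / 10 := hz'
    have hS : MeasurableSet {y | (z, y) ∈ Bd} := measurable_prodMk_left hBm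
    have h5 : β.real {y | (z, g * y) ∈ Bd} ≤ β.real {y | (z, y) ∈ Bd} + 1 / 10 := by
      have := Near.symm (hnear g hd) _ hS
      rwa [Frame.lt, map_measureReal_apply (measurable_const_mul g) hS] at this
    have h6 := measureReal_union_le (μ := β) {y | (z * g, y) ∈ Bd} {y | (z, g * y) ∈ Bd}
    obtain ⟨y, hy, hyl⟩ := exists_not_mem_of_real_lt β
      (A := {y | (z * g, y) ∈ Bd} ∪ {y | (z, g * y) ∈ Bd}) (by linarith) hsupp
    have y1 : ‖u (z * g * y) - u (z * g) - B (z * g) (F.pr y)‖ < ε' / 3 * r :=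
      not_le.1 fun h => hy (Or.inl h)
    have y2 : ‖u (z * (g * y)) - u z - B z (F.pr (g * y))‖ < ε' / 3 * r :=
      not_le.1 fun h => hy (Or.inr h)
    have y3 := hB.1.slow z g (F.pr y) (hd.trans hr2)
    have y4 : ε * ‖F.pr y‖ ≤ ε' / 3 * r := by
      calc ε * ‖F.pr y‖ ≤ ε * (Cp * (C₀ * r)) := by
            gcongr
            exact (hpr y).trans (by gcongr)
        _ = ε * (Cp * C₀) * r := by ring
        _ ≤ _ := by gcongr
    have e : u (z * g) - u z - B z (F.pr (z * g) - F.pr z) =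
        (u (z * (g * y)) - u z - B z (F.pr (g * y))) -
          (u (z * g * y) - u (z * g) - B (z * g) (F.pr y)) -
          (B (z * g) (F.pr y) - B z (F.pr y)) := by
      rw [F.pr_mul, F.pr_mul, add_sub_cancel_left, map_add, mul_assoc]
      abel
    rw [e]
    have y5 := norm_sub_le ((u (z * (g * y)) - u z - B z (F.pr (g * y))) -
      (u (z * g * y) - u (z * g) - B (z * g) (F.pr y))) (B (z * g) (F.pr y) - B z (F.pr y))
    have y6 := norm_sub_le (u (z * (g * y)) - u z - B z (F.pr (g * y)))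
      (u (z * g * y) - u (z * g) - B (z * g) (F.pr y))
    linarith
  · have h5 := real_slice_le ν β hBm (η := 1 / 10) (by norm_num)
    have e : {z | β.real {y | (z, y) ∈ Bd} < 1 / 10}ᶜ = {z | 1 / 10 ≤ β.real {y | (z, y) ∈ Bd}} := by
      ext z
      exact not_lt (α := ℝ)
    rw [e]
    refine h5.trans ?_
    rw [div_le_iff₀ (by norm_num)]
    refine hprod.trans ?_
    rw [div_le_iff₀ (by positivity)]
    linarith

end Frame

end Crest.Agent.R182
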