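import Crest.Agent.R182.Frame
import Crest.Agent.R182.BoxVol

/-! Row 182, task `R182/GeoBasic`: elementary facts on frames. -/

set_option autoImplicit false

namespace Crest.Agent.R182

open scoped BigOperators
open MeasureTheory

namespace Frame

variable (F : Frame)

theorem gb_bound {E E' : Type} [NormedAddCommGroup E] [NormedSpace ℝ E] [FiniteDimensional ℝ E]
    [NormedAddCommGroup E'] [NormedSpace ℝ E'] (T : E →ₗ[ℝ] E') :
    ∃ C : ℝ, 1 ≤ C ∧ ∀ x, ‖T x‖ ≤ C * ‖x‖ := by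
  have h0 := norm_nonneg (LinearMap.toContinuousLinearMap T)
  refine ⟨‖LinearMap.toContinuousLinearMap T‖ + 1, by linarith, fun x => ?_⟩
  have h1 : ‖T x‖ ≤ _ := (LinearMap.toContinuousLinearMap T).le_opNorm x
  linarith [norm_nonneg x]

theorem a_mem (i : Fin F.m) : F.a i ∈ F.D := by
  exact F.N.letter_mem F.a (Set.mem_univ i)

theorem X_mem (j : F.J) : F.X j ∈ F.R := by
  exact F.N.letter_mem F.X (Set.mem_univ j)

theorem hat_mem (v : F.L) : F.hat v ∈ F.D := by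
  rw [hat, Fintype.linearCombination_apply]
  exact Submodule.sum_mem _ fun i _ => Submodule.smul_mem _ _ (F.a_mem i)

theorem hat_single (i : Fin F.m) : F.hat (Pi.single i 1) = F.a i := by
  simp [hat]

theorem D_fix {d : F.E} (hd : d ∈ F.D) (u : F.V) : F.M.τ u d = d := by
  refine F.N.idl_le F.a (S := LinearMap.eqLocus (F.M.τ u) LinearMap.id) (fun x hx y hy => ?_)
    (fun i => F.a_fix i u) hd
  have hx' : F.M.τ u x = x := hx
  have hy' : F.M.τ u y = y := hy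
  show F.M.τ u _ = _
  rw [F.M.τ_br', hx', hy']; rfl

theorem D_br {x y : F.E} (hx : x ∈ F.D) (hy : y ∈ F.D) : F.N.br x y ∈ F.D := by
  exact F.N.br_mem_idl F.a hx hy

theorem π_R {y : F.E} (hy : y ∈ F.R) : F.π y = 0 := by
  exact F.N.idl_le F.X (S := LinearMap.ker F.π) (fun x _ y _ => F.π_br x y) F.π_X hy

theorem φ_R {y : F.E} (hy : y ∈ F.R) : F.M.φ y = 0 := by
  rw [F.φ_eq, F.π_R hy, map_zero]

@[simp] theorem π_hat (v : F.L) : F.π (F.hat v) = v := by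
  rw [hat, Fintype.linearCombination_apply, map_sum]
  ext i
  simp [F.π_a, Finset.sum_apply, Pi.single_apply]

@[simp] theorem φ_hat (v : F.L) : F.M.φ (F.hat v) = F.φL v := by
  rw [F.φ_eq, π_hat]

theorem φL_surj : Function.Surjective F.φL := by
  intro u
  obtain ⟨x, rfl⟩ := F.M.φ_surj u
  exact ⟨_, (F.φ_eq x).symm⟩

theorem exists_section : ∃ s : F.V →ₗ[ℝ] F.L, ∀ u, F.φL (s u) = u := by
  obtain ⟨s, hs⟩ := F.φL.exists_rightInverse_of_surjective (LinearMap.range_eq_top.2 F.φL_surj)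
  exact ⟨s, fun u => LinearMap.congr_fun hs u⟩

theorem I_le (P : Set F.J) : F.I P ≤ F.R := by
  exact F.N.idl_mono F.X (Set.subset_univ P)

theorem I_univ : F.I Set.univ = F.R := rfl

theorem bi_univ (h : F.J → ℝ) : F.bi Set.univ h = F.bx h := rfl

/-- a subspace normalised by `R` and by the letters `a i` is an ideal -/
theorem gb_ideal (S : Submodule ℝ F.E) (hR : ∀ x ∈ F.R, ∀ y ∈ S, F.N.br x y ∈ S)
    (ha : ∀ i, ∀ y ∈ S, F.N.br (F.a i) y ∈ S) (x : F.E) : ∀ y ∈ S, F.N.br x y ∈ S := by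
  let T : Submodule ℝ F.E :=
    { carrier := {x | ∀ y ∈ S, F.N.br x y ∈ S}
      add_mem' := fun h h' y hy => by
        rw [map_add, LinearMap.add_apply]; exact S.add_mem (h y hy) (h' y hy)
      zero_mem' := fun y _ => by simp
      smul_mem' := fun c _ h y hy => by
        rw [map_smul, LinearMap.smul_apply]; exact S.smul_mem c (h y hy) }
  have h1 : F.N.idl F.a Set.univ ≤ T := F.N.idl_le F.a (fun x hx y hy z hz => by
    rw [F.N.ba_br_br]; exact S.sub_mem (hx _ (hy z hz)) (hy _ (hx z hz))) ha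
  have h2 : F.N.idl F.X Set.univ ⊔ F.N.idl F.a Set.univ ≤ T := sup_le hR h1
  rw [F.sup_eq] at h2
  exact h2 Submodule.mem_top

theorem gb_sz_mu (u : F.V) (l : List F.J) : sz (F.mu u) l = (l.map F.μ).sum u := by
  induction l with
  | nil => simp
  | cons j l ih => simp [ih, mu]

theorem gb_br_a (i : Fin F.m) (j : F.J) {P : Set F.J}
    (h : ∀ l : List F.J, l ≠ [] → (l.map F.μ).sum = F.μ j → ∃ j ∈ l, j ∈ P) :
    F.N.br (F.a i) (F.X j) ∈ F.I P := by
  refine Submodule.span_le.2 ?_ (F.br_a i j)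
  rintro _ ⟨l, h1, h2, rfl⟩
  exact F.N.mon_mem F.X (h l h1 h2)

/-- `R` is an ideal of `E` (`br_a`, `sup_eq`, Jacobi) -/
theorem R_br (x : F.E) {y : F.E} (hy : y ∈ F.R) : F.N.br x y ∈ F.R := by
  refine F.gb_ideal F.R (fun x hx y hy => F.N.br_mem_idl F.X hx hy) (fun i y hy => ?_) x y hy
  refine (F.N.idl_le F.X (S := F.R ⊓ F.R.comap (F.N.br (F.a i))) (fun x hx y hy => ?_)
    (fun j => ⟨F.X_mem j, F.gb_br_a i j fun l hl _ => ?_⟩) hy).2
  · refine ⟨F.N.br_mem_idl F.X hx.1 hy.1, ?_⟩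
    show F.N.br _ _ ∈ F.R
    rw [F.N.br_jacobi]
    exact F.R.add_mem (F.N.br_mem_idl F.X hx.2 hy.1) (F.N.br_mem_idl F.X hx.1 hy.2)
  · obtain ⟨j, hj⟩ := List.exists_mem_of_ne_nil l hl
    exact ⟨j, hj, trivial⟩

theorem I_br_R (P : Set F.J) {x y : F.E} (hx : x ∈ F.R) (hy : y ∈ F.I P) :
    F.N.br x y ∈ F.I P := by
  exact F.N.br_mem_idl F.X hx hy

/-- a monomial of weight `μ j` with `μ j u > 0` contains a letter of `Pos u` -/
theorem I_br (u : F.V) (x : F.E) {y : F.E} (hy : y ∈ F.I (F.Pos u)) :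
    F.N.br x y ∈ F.I (F.Pos u) := by
  refine F.gb_ideal _ (fun x hx y hy => F.I_br_R _ hx hy) (fun i y hy => ?_) x y hy
  have h0 : ∀ j ∈ F.Pos u, F.N.br (F.a i) (F.X j) ∈ F.I (F.Pos u) := fun j hj =>
    F.gb_br_a i j fun l _ hl => by
      by_contra hc
      have h1 : sz (F.mu u) l ≤ sz (fun _ => 0) l :=
        List.sum_le_sum fun j hj => not_lt.1 fun h => hc ⟨j, hj, h⟩
      rw [gb_sz_mu, hl, sz_const, mul_zero] at h1
      exact absurd hj (not_lt.2 h1)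
  have key : ∀ l : List F.J, (∃ j ∈ l, j ∈ F.Pos u) →
      F.N.br (F.a i) (F.N.mon F.X l) ∈ F.I (F.Pos u) := by
    intro l
    induction l with
    | nil => simp
    | cons j l ih =>
      intro hl
      by_cases hn : l = []
      · subst hn
        exact h0 j (by simpa using hl)
      obtain ⟨j', hj'⟩ := List.exists_mem_of_ne_nil l hn
      have hm : F.N.mon F.X l ∈ F.R := F.N.mon_mem F.X ⟨j', hj', trivial⟩
      rw [F.N.mon_cons F.X j hn, F.N.br_jacobi]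
      by_cases hj : j ∈ F.Pos u
      · rw [F.N.br_anti _ (F.N.mon F.X l), F.N.br_anti (F.X j)]
        exact Submodule.add_mem _ (Submodule.neg_mem _ (F.I_br_R _ hm (h0 j hj)))
          (Submodule.neg_mem _ (F.I_br_R _ (F.R_br _ hm) (F.N.letter_mem F.X hj)))
      · have hl' : ∃ j ∈ l, j ∈ F.Pos u := by simpa [hj] using hl
        exact Submodule.add_mem _ (F.I_br_R _ (F.R_br _ (F.X_mem j)) (F.N.mon_mem F.X hl'))
          (F.I_br_R _ (F.X_mem j) (ih hl'))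
  refine Submodule.span_le (p := (F.I (F.Pos u)).comap (F.N.br (F.a i))).2 ?_ hy
  rintro _ ⟨l, hl, rfl⟩
  exact key l hl

theorem τ_I (P : Set F.J) (u : F.V) {y : F.E} (hy : y ∈ F.I P) : F.M.τ u y ∈ F.I P := by
  exact (F.N.bI_map F.X P 0 (F.M.τ u) (F.M.τ_br' u) (F.mu u) (fun j => F.τ_X j u) hy).1

theorem bi_τ (P : Set F.J) (h : F.J → ℝ) (u : F.V) {y : F.E} (hy : y ∈ F.I P) :
    F.bi P (h + F.mu u) (F.M.τ u y) ≤ F.bi P h y := by
  exact (F.N.bI_map F.X P h (F.M.τ u) (F.M.τ_br' u) (F.mu u) (fun j => F.τ_X j u) hy).2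

theorem ofE_mul_R {x : F.E} (hx : x ∈ F.R) (y : F.E) :
    F.M.ofE x * F.M.ofE y = F.M.ofE (F.N.mul x y) := by
  exact F.M.ofE_mul_of_φ (F.φ_R hx) y

theorem ofE_mul_D (x : F.E) {y : F.E} (hy : y ∈ F.D) :
    F.M.ofE x * F.M.ofE y = F.M.ofE (F.N.mul x y) := by
  exact F.M.ofE_mul_of_fix x (F.D_fix hy)

theorem ofE_inv_R {x : F.E} (hx : x ∈ F.R) : (F.M.ofE x)⁻¹ = F.M.ofE (-x) := by
  exact F.M.ofE_inv_of_φ (F.φ_R hx)

theorem ofE_inv_D {x : F.E} (hx : x ∈ F.D) : (F.M.ofE x)⁻¹ = F.M.ofE (-x) := by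
  exact F.M.ofE_inv_of_fix (F.D_fix hx)

theorem ofE_prod_R {l : List F.E} (hl : ∀ x ∈ l, x ∈ F.R) :
    F.M.ofE (F.N.prod l) = (l.map F.M.ofE).prod := by
  induction l with
  | nil => simp
  | cons x l ih =>
    rw [NL.prod_cons, List.map_cons, List.prod_cons, ← F.ofE_mul_R (hl x List.mem_cons_self),
      ih fun y hy => hl y (List.mem_cons_of_mem _ hy)]

theorem ofE_prod_D {l : List F.E} (hl : ∀ x ∈ l, x ∈ F.D) :
    F.M.ofE (F.N.prod l) = (l.map F.M.ofE).prod := by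
  induction l with
  | nil => simp
  | cons x l ih =>
    have h := fun y hy => hl y (List.mem_cons_of_mem _ hy)
    rw [NL.prod_cons, List.map_cons, List.prod_cons,
      ← F.ofE_mul_D x ((F.N.isLN_bI F.a Set.univ 0).prod_mem h), ih h]

theorem conj_R {g y : F.E} (hg : g ∈ F.R) (hy : y ∈ F.R) :
    F.M.ofE g * F.M.ofE y * (F.M.ofE g)⁻¹ = F.M.ofE (F.N.Ad g y) := by
  rw [F.M.conj_ofE _ (F.φ_R hy), Model.ht_ofE, F.φ_R hg, Model.τ_zero, Model.toE_ofE]

theorem conj_D {g y : F.E} (hg : g ∈ F.D) (hy : y ∈ F.D) :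
    F.M.ofE g * F.M.ofE y * (F.M.ofE g)⁻¹ = F.M.ofE (F.N.Ad g y) := by
  rw [F.ofE_mul_D _ hy, F.ofE_inv_D hg, F.ofE_mul_D _ (F.D.neg_mem hg), F.N.mul_mul_neg]

theorem gb_proj : ∃ δ : F.E →ₗ[ℝ] F.E, ∀ x, δ x ∈ F.D ∧ x - δ x ∈ F.R := by
  obtain ⟨s, hs⟩ := (F.R.subtype.coprod F.D.subtype).exists_rightInverse_of_surjective (by
    rw [LinearMap.range_coprod, Submodule.range_subtype, Submodule.range_subtype]; exact F.sup_eq)
  refine ⟨F.D.subtype ∘ₗ LinearMap.snd ℝ _ _ ∘ₗ s, fun x => ⟨(s x).2.2, ?_⟩⟩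
  have h : ((s x).1 : F.E) + (s x).2 = x := LinearMap.congr_fun hs x
  exact (sub_eq_of_eq_add h.symm).symm ▸ (s x).1.2

theorem gb_decomp (g : F.G) {d : F.E} (hd : d ∈ F.D) (h : F.M.toE g - d ∈ F.R) :
    F.N.mul (F.M.toE g) (-d) ∈ F.R ∧ g = F.M.ofE (F.N.mul (F.M.toE g) (-d)) * F.M.ofE d := by
  constructor
  · simpa using F.N.mul_congr (I := F.R) (fun x y hy => F.R_br x hy) h
      (y := -d) (y' := -d) (by simp)
  · rw [F.ofE_mul_D _ hd, F.N.mul_assoc', F.N.neg_mul', F.N.mul_zero', Model.ofE_toE]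

/-- every element is `r * d` -/
theorem exists_decomp (g : F.G) : ∃ r ∈ F.R, ∃ d ∈ F.D, g = F.M.ofE r * F.M.ofE d := by
  obtain ⟨δ, h⟩ := F.gb_proj
  obtain ⟨h1, h2⟩ := F.gb_decomp g (h _).1 (h _).2
  exact ⟨_, h1, _, (h _).1, h2⟩

/-- with norm control (choose `d` linearly, `r = g • (-d)`) -/
theorem exists_decomp_norm : ∃ (C : ℝ) (e : ℕ), 1 ≤ C ∧ ∀ g : F.G, ∃ r ∈ F.R, ∃ d ∈ F.D,
    g = F.M.ofE r * F.M.ofE d ∧ ‖r‖ ≤ C * (1 + ‖F.M.toE g‖) ^ e ∧ ‖d‖ ≤ C * ‖F.M.toE g‖ := by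
  obtain ⟨δ, h⟩ := F.gb_proj
  obtain ⟨A, hA, hδ⟩ := gb_bound δ
  obtain ⟨C, e, hC, hm⟩ := F.N.norm_mul_le
  have h0 : 1 ≤ (1 + A) ^ e := one_le_pow₀ (by linarith)
  refine ⟨C * (1 + A) ^ e + A, e, by nlinarith, fun g => ?_⟩
  obtain ⟨h1, h2⟩ := F.gb_decomp g (h _).1 (h _).2
  have h3 := norm_nonneg (F.M.toE g)
  have h4 := hδ (F.M.toE g)
  refine ⟨_, h1, _, (h _).1, h2, (hm _ _).trans ?_, h4.trans (by gcongr; nlinarith)⟩
  calc C * (1 + ‖F.M.toE g‖ + ‖-δ (F.M.toE g)‖) ^ e ≤ C * ((1 + A) * (1 + ‖F.M.toE g‖)) ^ e := by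
        rw [norm_neg]; gcongr; nlinarith
    _ ≤ _ := by rw [mul_pow, ← mul_assoc]; gcongr; linarith

@[simp] theorem pr_mul (g h : F.G) : F.pr (g * h) = F.pr g + F.pr h := by
  have h0 : F.N.lcs 1 ≤ LinearMap.ker F.π := by
    rw [show F.N.lcs 1 = Submodule.span ℝ {z | ∃ x, ∃ y ∈ F.N.lcs 0, z = F.N.br x y} from rfl,
      Submodule.span_le]
    rintro z ⟨x, y, -, rfl⟩
    exact F.π_br x y
  have h1 := h0 (F.N.mul_sub_add_mem_lcs (F.M.toE g) (F.M.τ (F.M.φ (F.M.toE g)) (F.M.toE h)))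
  rw [LinearMap.mem_ker, map_sub, map_add, sub_eq_zero, F.π_τ] at h1
  exact h1

@[simp] theorem pr_one : F.pr 1 = 0 := by
  simp [pr]

@[simp] theorem pr_inv (g : F.G) : F.pr g⁻¹ = -F.pr g := by
  rw [eq_neg_iff_add_eq_zero, ← pr_mul, inv_mul_cancel, pr_one]

theorem ht_eq (g : F.G) : F.M.ht g = F.φL (F.pr g) := F.φ_eq _

theorem norm_pr_le : ∃ C : ℝ, 0 < C ∧ ∀ g, ‖F.pr g‖ ≤ C * F.M.len g := by
  obtain ⟨C, hC, h⟩ := gb_bound F.π
  refine ⟨C, by linarith, fun g => ?_⟩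
  obtain ⟨l, h1, h2, rfl⟩ := F.M.exists_list g
  rw [← h1]
  clear h1
  induction l with
  | nil => simp
  | cons x l ih =>
    have h3 := ih fun y hy => h2 y (List.mem_cons_of_mem _ hy)
    have h4 : ‖F.pr x‖ ≤ C * ‖F.M.toE x‖ := h _
    have h5 := (h2 x List.mem_cons_self).1
    have h6 := norm_add_le (F.pr x) (F.pr l.prod)
    rw [List.prod_cons, pr_mul, List.length_cons]
    push_cast
    nlinarith

theorem continuous_pr : Continuous F.pr := by
  exact F.π.continuous_of_finiteDimensional.comp F.M.continuous_toE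

@[simp] theorem pr_lin (v : F.L) (t : ℝ) : F.pr (F.lin v t) = t • v := by
  simp [pr, lin]

@[simp] theorem ht_lin (v : F.L) (t : ℝ) : F.M.ht (F.lin v t) = t • F.φL v := by
  simp [lin]

theorem lin_add (v : F.L) (s t : ℝ) : F.lin v (s + t) = F.lin v s * F.lin v t := by
  rw [lin, lin, lin, F.ofE_mul_D _ (F.D.smul_mem t (F.hat_mem v)), F.N.smul_mul_smul]

@[simp] theorem lin_zero (v : F.L) : F.lin v 0 = 1 := by
  simp [lin]

theorem lin_neg (v : F.L) (t : ℝ) : F.lin v (-t) = (F.lin v t)⁻¹ := by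
  rw [lin, lin, F.ofE_inv_D (F.D.smul_mem t (F.hat_mem v)), neg_smul]

theorem continuous_lin : Continuous fun q : F.L × ℝ => F.lin q.1 q.2 := by
  exact F.M.continuous_ofE.comp
    (continuous_snd.smul (F.hat.continuous_of_finiteDimensional.comp continuous_fst))

@[simp] theorem ht_root (j : F.J) (σ : ℝ) : F.M.ht (F.root j σ) = 0 := by
  exact F.φ_R (F.R.smul_mem σ (F.X_mem j))

theorem wt_X (j : F.J) (σ : ℝ) : F.Wt j (σ • F.X j) := by
  exact ⟨F.R.smul_mem σ (F.X_mem j), fun u => by rw [map_smul, F.τ_X, smul_comm]⟩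

theorem len_lin : ∃ C : ℝ, 0 < C ∧ ∀ v t, F.M.len (F.lin v t) ≤ C * (1 + |t| * ‖v‖) := by
  obtain ⟨C, hC, h⟩ := F.M.len_ofE_le
  obtain ⟨A, hA, h'⟩ := gb_bound F.hat
  refine ⟨C * A, by positivity, fun v t => ?_⟩
  refine (h _ (Or.inr (F.D_fix (F.D.smul_mem t (F.hat_mem v))))).trans ?_
  rw [mul_assoc, norm_smul, Real.norm_eq_abs]
  have := mul_le_mul_of_nonneg_left (h' v) (abs_nonneg t)
  gcongr
  linarith

theorem isLN_bx (h : F.J → ℝ) : IsLN F.N F.R (F.bx h) := F.N.isLN_bI F.X _ h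

theorem isLN_bi (P : Set F.J) (h : F.J → ℝ) : IsLN F.N (F.I P) (F.bi P h) := F.N.isLN_bI F.X P h

theorem isLN_dn (r : ℝ) : IsLN F.N F.D (F.dn r) := F.N.isLN_bI F.a _ _

theorem dn_hat : ∃ C : ℝ, 0 < C ∧ ∀ r, 0 < r → ∀ v t, F.dn r (t • F.hat v) ≤ C * |t| * ‖v‖ / r := by
  refine ⟨(F.m + 1) * 2 ^ F.N.m, by positivity, fun r hr v t => ?_⟩
  have h1 : F.dn r (F.hat v) ≤ F.m * (‖v‖ * (2 ^ F.N.m / r)) := by
    rw [hat, Fintype.linearCombination_apply]
    refine ((F.isLN_dn r).sum_le _ fun i _ => F.D.smul_mem _ (F.a_mem i)).trans ?_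
    refine (Finset.sum_le_card_nsmul _ _ (‖v‖ * (2 ^ F.N.m / r)) fun i _ => ?_).trans (by simp)
    have h2 : F.dn r (F.a i) ≤ _ := F.N.bI_letter F.a _ (Set.mem_univ i)
    rw [Real.exp_neg, Real.exp_log hr, ← div_eq_mul_inv] at h2
    rw [(F.isLN_dn r).smul _ _ (F.a_mem i)]
    exact mul_le_mul (norm_le_pi_norm v i) h2 ((F.isLN_dn r).nonneg (F.a_mem i)) (norm_nonneg _)
  rw [(F.isLN_dn r).smul _ _ (F.hat_mem v)]
  calc |t| * F.dn r (F.hat v) ≤ |t| * ((F.m + 1) * (‖v‖ * (2 ^ F.N.m / r))) := by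
        gcongr; refine h1.trans ?_; gcongr; linarith
    _ = _ := by ring

theorem dn_scale {r r' : ℝ} (hr : 0 < r) (h : r ≤ r') {d : F.E} (hd : d ∈ F.D) :
    F.dn r' d ≤ r / r' * F.dn r d := by
  have h1 := F.N.bI_shift F.a Set.univ (h := fun _ => Real.log r) (h' := fun _ => Real.log r')
    (sub_nonneg.2 (Real.log_le_log hr h)) (fun _ => by simp) hd
  rwa [neg_sub, Real.exp_sub, Real.exp_log hr, Real.exp_log (hr.trans_le h)] at h1

theorem dn_scale' {r r' : ℝ} (hr : 0 < r) (h : r ≤ r') {d : F.E} (hd : d ∈ F.D) :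
    F.dn r d ≤ (r' / r) ^ F.N.m * F.dn r' d := by
  have h1 := F.N.bI_shift' F.a Set.univ (h := fun _ => Real.log r') (h' := fun _ => Real.log r)
    (sub_nonneg.2 (Real.log_le_log hr h)) (fun _ => by simp) hd
  rwa [Real.exp_nat_mul, Real.exp_sub, Real.exp_log hr, Real.exp_log (hr.trans_le h)] at h1

theorem norm_le_dn : ∃ C : ℝ, 1 ≤ C ∧ ∀ r, 1 ≤ r → ∀ d ∈ F.D,
    ‖d‖ ≤ C * r ^ F.N.m * F.dn r d ∧ F.dn r d ≤ C * ‖d‖ / r := by
  obtain ⟨C, hC, h⟩ := F.N.bI_zero_norm F.a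
  refine ⟨C, hC, fun r hr d hd => ?_⟩
  have h0 : F.N.bI F.a Set.univ 0 = F.dn 1 := by rw [dn, Real.log_one]; rfl
  obtain ⟨h1, h2⟩ := h Set.univ d hd
  rw [h0] at h1 h2
  have h3 := F.dn_scale one_pos hr hd
  have h4 := F.dn_scale' one_pos hr hd
  rw [div_one] at h4
  refine ⟨h1.trans (by rw [mul_assoc]; gcongr), h3.trans ?_⟩
  rw [one_div, ← div_eq_inv_mul]
  gcongr

theorem norm_π_le_dn : ∃ C : ℝ, 1 ≤ C ∧ ∀ r, 0 < r → ∀ d ∈ F.D,
    ‖F.π d‖ ≤ C * r * F.dn r d ∧ ‖F.M.φ d‖ ≤ C * r * F.dn r d := by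
  obtain ⟨C, hC, h⟩ := gb_bound F.φL
  refine ⟨C, hC, fun r hr d hd => ?_⟩
  have h0 := mul_nonneg hr.le ((F.isLN_dn r).nonneg hd)
  have h1 : ‖F.π d‖ ≤ r * F.dn r d := by
    refine (pi_norm_le_iff_of_nonneg h0).2 fun i => ?_
    have h2 := F.N.abs_xi_le F.a (LinearMap.proj i ∘ₗ F.π) i (by simp [F.π_a])
      (fun j hj => by simp [F.π_a, hj.symm]) (fun l hl => by
        rw [LinearMap.comp_apply, F.N.map_mon_eq_zero F.a F.π F.π_br hl, map_zero])
      (fun _ => Real.log r) hd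
    rwa [Real.exp_log hr] at h2
  rw [F.φ_eq, mul_assoc]
  exact ⟨by nlinarith, (h _).trans (by gcongr)⟩

theorem norm_le_bi : ∃ C : ℝ, 1 ≤ C ∧ ∀ (P : Set F.J) (h : F.J → ℝ) (S : ℝ), 0 ≤ S →
    ∀ y ∈ F.I P, ((∀ j, h j ≤ S) → ‖y‖ ≤ C * Real.exp (F.N.m * S) * F.bi P h y) ∧
      ((∀ j, S ≤ h j) → F.bi P h y ≤ C * Real.exp (-S) * ‖y‖) := by
  obtain ⟨C, hC, H⟩ := F.N.bI_zero_norm F.X
  refine ⟨C, hC, fun P h S hS y hy => ⟨fun hh => ?_, fun hh => ?_⟩⟩
  · have h1 := F.N.bI_shift' F.X P (h := h) (h' := 0) hS (fun j => by simpa using hh j) hy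
    exact (H P y hy).1.trans (by rw [mul_assoc]; gcongr; exact h1)
  · have h1 := F.N.bI_shift F.X P (h := 0) (h' := h) hS (fun j => by simpa using hh j) hy
    refine h1.trans ?_
    rw [mul_comm C, mul_assoc]
    gcongr
    exact (H P y hy).2

/-- only the letters in `P` need to be large -/
theorem bi_le_norm : ∃ C : ℝ, 1 ≤ C ∧ ∀ (P : Set F.J) (h : F.J → ℝ) (S : ℝ), (∀ j, 0 ≤ h j) →
    (∀ j ∈ P, S ≤ h j) → ∀ y ∈ F.I P, F.bi P h y ≤ C * Real.exp (-S) * ‖y‖ := by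
  obtain ⟨C, hC, H⟩ := F.N.bI_zero_norm F.X
  refine ⟨C, hC, fun P h S h0 hh y hy => ?_⟩
  refine (F.N.bI_le_of_sz F.X P (h := 0) (h' := h) S (fun l ⟨j, hj, hP⟩ _ => ?_) hy).trans ?_
  · rw [show sz (0 : F.J → ℝ) l = _ from sz_const 0 l, mul_zero, zero_add]
    refine (hh j hP).trans (List.single_le_sum (fun x hx => ?_) _ (List.mem_map_of_mem hj))
    obtain ⟨i, -, rfl⟩ := List.mem_map.1 hx
    exact h0 i
  · rw [mul_comm C, mul_assoc]
    gcongr
    exact (H P y hy).2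

theorem norm_mu_le : ∃ C : ℝ, 0 < C ∧ ∀ j u, |F.μ j u| ≤ C * ‖u‖ := by
  obtain ⟨C, hC, h⟩ := gb_bound (LinearMap.pi F.μ)
  exact ⟨C, by linarith, fun j u => (norm_le_pi_norm (LinearMap.pi F.μ u) j).trans (h u)⟩

theorem adm_const {c : ℝ} (hc : 0 ≤ c) : F.Adm fun _ => c := by
  intro j l hl _
  have : (1 : ℝ) ≤ l.length := by exact_mod_cast List.length_pos_iff.2 hl
  rw [sz_const]
  nlinarith

variable {F} in
theorem Adm.add_mu {h : F.J → ℝ} (hh : F.Adm h) (u : F.V) : F.Adm (h + F.mu u) := by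
  intro j l hl h1
  rw [sz_add, gb_sz_mu, h1]
  exact add_le_add_left (hh j l hl h1) _

variable {F} in
theorem Adm.sub_mu {h : F.J → ℝ} (hh : F.Adm h) (u : F.V) : F.Adm (h - F.mu u) := by
  have : h - F.mu u = h + F.mu (-u) := by ext j; simp [mu, sub_eq_add_neg]
  rw [this]
  exact hh.add_mu _

variable {F} in
theorem Adm.add_const {h : F.J → ℝ} (hh : F.Adm h) {c : ℝ} (hc : 0 ≤ c) :
    F.Adm fun j => h j + c := by
  intro j l hl h1
  exact (add_le_add (hh j l hl h1) (F.adm_const hc j l hl h1)).trans (sz_add _ _ l).ge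

theorem adm_sup' {ι : Type} (s : Finset ι) (hs : s.Nonempty) (u : ι → F.V) :
    F.Adm fun j => s.sup' hs fun i => F.μ j (u i) := by
  intro j l _ h1
  refine Finset.sup'_le _ _ fun i hi => ?_
  rw [← h1, ← gb_sz_mu]
  exact sz_mono (fun j => Finset.le_sup' (fun i => F.μ j (u i)) hi) l

theorem adm_hS (Δ : F.Dirs) {S : ℝ} (hS : 0 ≤ S) : F.Adm (Δ.hS S) := by
  intro j l _ h1
  have h2 : Δ.hS S j = sz (F.mu (S • F.φL (Δ.sp j))) l := by
    rw [gb_sz_mu, h1, map_smul]; rfl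
  rw [h2]
  refine sz_mono (fun i => ?_) l
  rw [mu, map_smul]
  exact mul_le_mul_of_nonneg_left (Δ.sp_le i j) hS

/-- `∑ n j μ j = 0` -/
theorem lvol_add_mu (h : F.J → ℝ) (u : F.V) : F.lvol (h + F.mu u) = F.lvol h := by
  refine congrArg sSup (Set.image_congr fun n hn => ?_)
  have h1 := LinearMap.congr_fun (F.sum_μ n hn) u
  simp only [LinearMap.coe_sum, Finset.sum_apply, LinearMap.smul_apply, smul_eq_mul,
    LinearMap.zero_apply] at h1
  simp only [Pi.add_apply, mu, mul_add, Finset.sum_add_distrib, h1, add_zero]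

theorem gb_map (ν : Measure F.E) : ν.map F.M.ofE = ν := Measure.map_id

instance (h : F.J → ℝ) : IsProbabilityMeasure (F.uR h) := by
  rw [uR, gb_map]; exact (F.isLN_bx h).isProb

instance (P : Set F.J) (h : F.J → ℝ) : IsProbabilityMeasure (F.uI P h) := by
  rw [uI, gb_map]; exact (F.isLN_bi P h).isProb

instance (r : ℝ) : IsProbabilityMeasure (F.uD2 r) := by
  rw [uD2, gb_map]; exact (F.isLN_dn r).isProb2

/-- for `c > 0` the ball `{dn r ≤ c}` is compact of positive measure (`IsLN.hm_bl`) -/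
theorem isProb_uD (r : ℝ) {c : ℝ} (hc : 0 < c) : IsProbabilityMeasure (F.uD r c) := by
  rw [uD, gb_map, unif, IsLN.lnm_bl_div hc]
  refine ProbabilityTheory.cond_isProbabilityMeasure_of_finite ?_ ((F.isLN_dn r).lnm_ne_top c)
  have := (F.isLN_dn r).vol_pos
  exact ((ENNReal.ofReal_pos.2 (by positivity)).trans_eq ((F.isLN_dn r).hm_bl hc).symm).ne'

instance (ν : Measure F.G) [IsProbabilityMeasure ν] (g : F.G) :
    IsProbabilityMeasure (F.rt ν g) := by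
  exact Measure.isProbabilityMeasure_map (measurable_mul_const g).aemeasurable

instance (ν : Measure F.G) [IsProbabilityMeasure ν] (g : F.G) :
    IsProbabilityMeasure (F.lt g ν) := by
  exact Measure.isProbabilityMeasure_map (measurable_const_mul g).aemeasurable

instance (ν la : Measure F.G) [IsProbabilityMeasure ν] [IsProbabilityMeasure la] :
    IsProbabilityMeasure (F.conv ν la) := by
  exact Measure.isProbabilityMeasure_map measurable_mul.aemeasurable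

theorem uI_ae (P : Set F.J) (h : F.J → ℝ) :
    ∀ᵐ g ∂F.uI P h, F.M.toE g ∈ F.I P ∧ F.bi P h (F.M.toE g) ≤ 1 := by
  rw [uI, gb_map]; exact (F.isLN_bi P h).unif_ae

theorem uR_ae (h : F.J → ℝ) : ∀ᵐ g ∂F.uR h, F.M.toE g ∈ F.R ∧ F.bx h (F.M.toE g) ≤ 1 := by
  exact F.uI_ae Set.univ h

theorem uD_ae (r : ℝ) {c : ℝ} (hc : 0 < c) :
    ∀ᵐ g ∂F.uD r c, F.M.toE g ∈ F.D ∧ F.dn r (F.M.toE g) ≤ c := by
  rw [uD, gb_map, unif, IsLN.lnm_bl_div hc]
  exact ProbabilityTheory.ae_cond_mem ((F.isLN_dn r).lnm_mble c)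

theorem uD2_ae : ∃ C : ℝ, 1 ≤ C ∧ ∀ r,
    ∀ᵐ g ∂F.uD2 r, F.M.toE g ∈ F.D ∧ F.dn r (F.M.toE g) ≤ C := by
  obtain ⟨C, hC, h⟩ := F.N.unif2_ae
  refine ⟨C, hC, fun r => ?_⟩
  rw [uD2, gb_map]; exact h _ _ (F.isLN_dn r)

theorem rt_rt (ν : Measure F.G) (g h : F.G) : F.rt (F.rt ν g) h = F.rt ν (g * h) := by
  rw [rt, rt, rt, Measure.map_map (measurable_mul_const h) (measurable_mul_const g)]
  simp [Function.comp_def, mul_assoc]

@[simp] theorem rt_one (ν : Measure F.G) : F.rt ν 1 = ν := by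
  simp [rt]

theorem rt_conv (ν la : Measure F.G) [SFinite ν] [SFinite la] (g : F.G) :
    F.rt (F.conv ν la) g = F.conv ν (F.rt la g) := by
  rw [rt, rt, conv, conv, Measure.map_map (measurable_mul_const g) measurable_mul]
  conv_rhs => rw [← Measure.map_id (μ := ν),
    Measure.map_prod_map _ _ measurable_id (measurable_mul_const g),
    Measure.map_map measurable_mul (measurable_id.prodMap (measurable_mul_const g))]
  simp [Function.comp_def, mul_assoc]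

/-- bad sets pull back under right translation (no measurability needed) -/
theorem real_le_rt (ν : Measure F.G) [IsProbabilityMeasure ν] (g : F.G) (A : Set F.G) :
    ν.real {x | x * g ∈ A} = (F.rt ν g).real A := by
  rw [measureReal_def, measureReal_def, rt, (measurableEmbedding_mulRight g).map_apply]; rfl

variable {F} in
theorem RInv.real_le {ν : Measure F.G} [IsProbabilityMeasure ν] {g : F.G} {τ : ℝ}
    (h : F.RInv ν g τ) (A : Set F.G) : ν.real {x | x * g ∈ A} ≤ ν.real A + τ := by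
  rw [real_le_rt]
  exact (Near.symm h).le_all A

variable {F} in
theorem RInv.mul {ν : Measure F.G} {g h : F.G} {τ τ' : ℝ} (hg : F.RInv ν g τ)
    (hh : F.RInv ν h τ') : F.RInv ν (g * h) (τ + τ') := by
  have h1 := Near.trans hh (Near.map hg (measurable_mul_const h))
  rw [add_comm] at h1
  rw [RInv, ← rt_rt]
  exact h1

variable {F} in
theorem BInv.mono {ν : Measure F.G} {h h' : F.J → ℝ} {τ τ' : ℝ} (hb : F.BInv ν h τ)
    (hh : ∀ j, h' j ≤ h j) (hτ : τ ≤ τ') : F.BInv ν h' τ' := by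
  exact fun y hy h1 => Near.mono (hb y hy ((F.N.bI_mono F.X _ hh hy).trans h1)) hτ

variable {F} in
theorem GInv.mono {ν : Measure F.G} {ρ ρ' τ τ' : ℝ} (hb : F.GInv ν ρ τ) (hρ : ρ' ≤ ρ)
    (hτ : τ ≤ τ') : F.GInv ν ρ' τ' := by
  exact fun g hg => Near.mono (hb g (hg.trans hρ)) hτ

variable {F} in
theorem QI.symm {K : ℝ} {f q : F.G → F.G} (h : F.QI K f q) : F.QI K q f :=
  ⟨h.one_le, h.mq, h.mf, h.lq, h.lf, h.fq, h.qf⟩

variable {F} in
theorem QI.lower {K : ℝ} {f q : F.G → F.G} (h : F.QI K f q) (x y : F.G) :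
    F.M.dd x y ≤ K * F.M.dd (f x) (f y) + 3 * K := by
  have h1 := F.M.dd_triangle x (q (f x)) y
  have h2 := F.M.dd_triangle (q (f x)) (q (f y)) y
  rw [F.M.dd_comm x (q (f x))] at h1
  linarith [h.qf x, h.qf y, h.lq (f x) (f y)]

theorem qi_lip : ∃ C : ℝ, 0 < C ∧ ∀ K f q, F.QI K f q → ∀ x g,
    ‖F.M.ht (f (x * g)) - F.M.ht (f x)‖ ≤ C * K * (F.M.len g + 1) ∧
      ‖F.pr (f (x * g)) - F.pr (f x)‖ ≤ C * K * (F.M.len g + 1) := by
  obtain ⟨C, hC, h⟩ := F.norm_pr_le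
  obtain ⟨C', hC', h'⟩ := F.M.norm_ht_le
  refine ⟨C + C', by linarith, fun K f q H x g => ?_⟩
  have h1 := H.lf x (x * g)
  have h2 := h ((f x)⁻¹ * f (x * g))
  have h3 := h' ((f x)⁻¹ * f (x * g))
  have h4 := F.M.len_nonneg ((f x)⁻¹ * f (x * g))
  rw [F.M.dd_mul_right, Model.dd] at h1
  rw [pr_mul, pr_inv, neg_add_eq_sub] at h2
  rw [Model.ht_mul, Model.ht_inv, neg_add_eq_sub] at h3
  constructor <;> nlinarith

theorem measurableSet_good (𝒱 : Finset F.L) {f : F.G → F.G} (hf : Measurable f) (w : F.W)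
    (s η : ℝ) : MeasurableSet {x | F.Good 𝒱 f x w s η} := by
  simp only [Good, Set.ofPred_forall]
  refine MeasurableSet.biInter 𝒱.countable_toSet fun v _ =>
    MeasurableSet.iInter fun t => MeasurableSet.iInter fun _ => measurableSet_le ?_ measurable_const
  have h := F.M.continuous_ht.measurable.comp hf
  exact (((h.comp (measurable_mul_const _)).sub h).sub measurable_const).norm

variable {F} in
theorem Good.mono {𝒱 : Finset F.L} {f : F.G → F.G} {x : F.G} {w : F.W} {s s' η η' : ℝ}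
    (h : F.Good 𝒱 f x w s η) (hs : s' ≤ s) (hη : η ≤ η') : F.Good 𝒱 f x w s' η' := by
  exact fun v hv t ht => (h v hv t (ht.trans hs)).trans hη

end Frame

end Crest.Agent.R182
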