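import Crest.Agent.R182.Defs2
import Crest.Agent.R182.GeoBasic

/-! Row 182, task `R182/CD1`: energy increments along lines. -/

set_option autoImplicit false

namespace Crest.Agent.R182

open scoped BigOperators
open MeasureTheory

/-- squared Euclidean norm -/
def cd1_sq {m : ℕ} (x : Fin m → ℝ) : ℝ := ∑ c, x c ^ 2

theorem cd1_sq_nonneg {m : ℕ} (x : Fin m → ℝ) : 0 ≤ cd1_sq x :=
  Finset.sum_nonneg fun _ _ => sq_nonneg _

theorem cd1_sq_le {m : ℕ} {x : Fin m → ℝ} {A : ℝ} (h : ‖x‖ ≤ A) : cd1_sq x ≤ m * A ^ 2 := by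
  have := Finset.sum_le_card_nsmul Finset.univ (fun c => x c ^ 2) (A ^ 2) fun c _ => by
    rw [← sq_abs]
    exact pow_le_pow_left₀ (abs_nonneg _) ((norm_le_pi_norm x c).trans h) 2
  simpa [cd1_sq] using this

theorem cd1_le_sq {m : ℕ} (x : Fin m → ℝ) : ‖x‖ ^ 2 ≤ cd1_sq x := by
  rw [← Real.le_sqrt (norm_nonneg _) (cd1_sq_nonneg x), pi_norm_le_iff_of_nonneg (Real.sqrt_nonneg _)]
  exact fun c => Real.abs_le_sqrt
    (Finset.single_le_sum (f := fun c => x c ^ 2) (fun _ _ => sq_nonneg _) (Finset.mem_univ c))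

theorem cd1_measurable_sq {m : ℕ} : Measurable (cd1_sq : (Fin m → ℝ) → ℝ) := by
  unfold cd1_sq
  fun_prop

theorem cd1_var {m k : ℕ} (y : ℕ → Fin m → ℝ) (w : Fin m → ℝ)
    (h : (k : ℝ) • w = ∑ l ∈ Finset.range k, y l) :
    ∑ l ∈ Finset.range k, cd1_sq (y l - w) = ∑ l ∈ Finset.range k, cd1_sq (y l) - k * cd1_sq w := by
  unfold cd1_sq
  rw [Finset.sum_comm, Finset.sum_comm (s := Finset.range k), Finset.mul_sum,
    ← Finset.sum_sub_distrib]
  refine Finset.sum_congr rfl fun c _ => ?_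
  have h1 := congrFun h c
  rw [Finset.sum_apply, Pi.smul_apply, smul_eq_mul] at h1
  simp only [Pi.sub_apply, sub_sq, Finset.sum_add_distrib, Finset.sum_sub_distrib,
    ← Finset.sum_mul, ← Finset.mul_sum, ← h1, Finset.sum_const, Finset.card_range, nsmul_eq_mul]
  ring

theorem cd1_count {N : ℕ} {d : ℕ → ℝ} {δ : ℝ} (h0 : ∀ a < N, 0 ≤ d a) (p : ℕ → Prop)
    (hp : ∀ a < N, p a → δ ≤ d a) :
    ({a | a < N ∧ p a}.ncard : ℝ) * δ ≤ ∑ a ∈ Finset.range N, d a := by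
  classical
  have : {a | a < N ∧ p a} = ((Finset.range N).filter p : Finset ℕ) := by ext a; simp
  rw [this, Set.ncard_coe_finset, ← nsmul_eq_mul]
  refine (Finset.card_nsmul_le_sum _ d δ fun a ha => ?_).trans
    (Finset.sum_le_sum_of_subset_of_nonneg (Finset.filter_subset _ _) fun a ha _ =>
      h0 a (Finset.mem_range.1 ha))
  exact hp a (Finset.mem_range.1 (Finset.mem_filter.1 ha).1) (Finset.mem_filter.1 ha).2

theorem cd1_integrable_sq {Ω : Type} [MeasurableSpace Ω] (ν : Measure Ω) [IsFiniteMeasure ν]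
    {m : ℕ} {f : Ω → Fin m → ℝ} (hf : Measurable f) {A : ℝ} (hA : ∀ z, ‖f z‖ ≤ A) :
    Integrable (fun z => cd1_sq (f z)) ν :=
  Integrable.of_bound (cd1_measurable_sq.comp hf).aestronglyMeasurable (m * A ^ 2)
    (ae_of_all _ fun z => by
      rw [Real.norm_of_nonneg (cd1_sq_nonneg _)]
      exact cd1_sq_le (hA z))

theorem cd1_cs {Ω : Type} [MeasurableSpace Ω] (ν : Measure Ω) [IsProbabilityMeasure ν]
    {m : ℕ} {f : Ω → Fin m → ℝ} (hf : Measurable f) {A ε : ℝ} (hA : ∀ z, ‖f z‖ ≤ A) (hε : 0 < ε)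
    (h : ε < ∫ z, ‖f z‖ ∂ν) : ε ^ 2 ≤ ∫ z, cd1_sq (f z) ∂ν := by
  have h1 : Integrable (fun z => ‖f z‖) ν :=
    Integrable.of_bound hf.norm.aestronglyMeasurable A (ae_of_all _ fun z => by simpa using hA z)
  have h2 := cd1_integrable_sq ν hf hA
  have h3 := integral_mono (h1.const_mul (2 * ε)) (h2.add (integrable_const (ε ^ 2))) fun z => by
    have := cd1_le_sq (f z)
    have := sq_nonneg (‖f z‖ - ε)
    simp only [Pi.add_apply]
    linarith
  simp only [Pi.add_apply] at h3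
  rw [integral_const_mul, integral_add h2 (integrable_const _), integral_const] at h3
  simp only [probReal_univ, smul_eq_mul, one_mul] at h3
  have := mul_lt_mul_of_pos_left h hε
  linarith

namespace Frame

variable (F : Frame)

theorem cd1_measurable {u : F.G → F.L} (hu : Measurable u) (v : F.L) (n : ℕ) :
    Measurable (F.gq u v n) :=
  ((hu.comp (measurable_mul_const _)).sub hu).const_smul ((n : ℝ)⁻¹)

theorem cd1_avg (u : F.G → F.L) (v : F.L) (n : ℕ) {k : ℕ} (hk : 1 ≤ k) (z : F.G) :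
    (k : ℝ) • F.gq u v (n * k) z =
      ∑ l ∈ Finset.range k, F.gq u v n (z * F.lin v ((l * n : ℕ) : ℝ)) := by
  have hk' : (k : ℝ) ≠ 0 := Nat.cast_ne_zero.2 (by omega)
  have h1 := Finset.sum_range_sub (fun l : ℕ => u (z * F.lin v ((l * n : ℕ) : ℝ))) k
  simp only [gq, ← Finset.smul_sum, mul_assoc, ← F.lin_add, ← Nat.cast_add, ← Nat.succ_mul]
  simp only [Nat.succ_eq_add_one]
  rw [h1, smul_smul, Nat.zero_mul, Nat.cast_zero, lin_zero, mul_one, mul_comm k n]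
  congr 1
  rw [Nat.cast_mul, mul_inv, mul_left_comm, mul_inv_cancel₀ hk', mul_one]

theorem cd1_bound {C K : ℝ} (hC : 0 < C) (h : ∀ v t, F.M.len (F.lin v t) ≤ C * (1 + |t| * ‖v‖))
    {u : F.G → F.L} (hu : F.Lip K u) {v : F.L} {S : ℝ} (hv : ‖v‖ ≤ S) {n : ℕ} (hn : 1 ≤ n)
    (z : F.G) : ‖F.gq u v n z‖ ≤ |K| * (C + C * S + 1) := by
  have hn' : (1 : ℝ) ≤ n := by exact_mod_cast hn
  rw [gq, norm_smul, norm_inv, Real.norm_natCast, inv_mul_le_iff₀ (by linarith), mul_left_comm]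
  have h0 := F.M.len_nonneg (F.lin v n)
  refine (hu.2 z _).trans (mul_le_mul (le_abs_self K) ?_ (by linarith) (abs_nonneg K))
  have h1 := h v n
  rw [Nat.abs_cast] at h1
  have h2 := mul_le_mul_of_nonneg_left hn' hC.le
  have h3 := mul_le_mul_of_nonneg_left hv (mul_nonneg hC.le (Nat.cast_nonneg (α := ℝ) n))
  linarith

theorem cd1_step {u : F.G → F.L} (hu : Measurable u) (v : F.L) (n : ℕ) {k : ℕ} (hk : 1 ≤ k)
    {A τ : ℝ} (h1 : ∀ z, ‖F.gq u v n z‖ ≤ A) (h2 : ∀ z, ‖F.gq u v (n * k) z‖ ≤ A)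
    (ν : Measure F.G) [IsProbabilityMeasure ν]
    (hν : ∀ l < k, F.RInv ν (F.lin v ((l * n : ℕ) : ℝ)) τ) :
    ∑ l ∈ Finset.range k,
        ∫ z, cd1_sq (F.gq u v n (z * F.lin v ((l * n : ℕ) : ℝ)) - F.gq u v (n * k) z) ∂ν ≤
      k * (∫ z, cd1_sq (F.gq u v n z) ∂ν - ∫ z, cd1_sq (F.gq u v (n * k) z) ∂ν +
        F.m * A ^ 2 * τ) := by
  have m1 := F.cd1_measurable hu v n
  have m2 := F.cd1_measurable hu v (n * k)
  have i1 : ∀ l : ℕ, Integrable (fun z => cd1_sq (F.gq u v n (z * F.lin v ((l * n : ℕ) : ℝ)))) ν :=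
    fun l => cd1_integrable_sq ν (m1.comp (measurable_mul_const _)) fun z => h1 _
  have i2 := cd1_integrable_sq ν m2 h2
  have i3 : ∀ l : ℕ, Integrable (fun z =>
      cd1_sq (F.gq u v n (z * F.lin v ((l * n : ℕ) : ℝ)) - F.gq u v (n * k) z)) ν :=
    fun l => cd1_integrable_sq ν ((m1.comp (measurable_mul_const _)).sub m2) (A := A + A)
      fun z => (norm_sub_le _ _).trans (add_le_add (h1 _) (h2 _))
  rw [← integral_finsetSum _ fun l _ => i3 l]
  simp only [fun z => cd1_var _ _ (F.cd1_avg u v n hk z)]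
  rw [integral_sub (integrable_finsetSum _ fun l _ => i1 l) (i2.const_mul _),
    integral_finsetSum _ fun l _ => i1 l, integral_const_mul]
  have h3 := Finset.sum_le_card_nsmul (Finset.range k)
    (fun l : ℕ => ∫ z, cd1_sq (F.gq u v n (z * F.lin v ((l * n : ℕ) : ℝ))) ∂ν)
    (∫ z, cd1_sq (F.gq u v n z) ∂ν + F.m * A ^ 2 * τ) fun l hl => by
      have h4 := (Near.symm (hν l (Finset.mem_range.1 hl))).integral_le
        (cd1_measurable_sq.comp m1) (fun z => cd1_sq_nonneg _) fun z => cd1_sq_le (h1 z)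
      rwa [rt, integral_map (measurable_mul_const _).aemeasurable
        (cd1_measurable_sq.comp m1).aestronglyMeasurable] at h4
  rw [Finset.card_range, nsmul_eq_mul] at h3
  linarith

/-- `gq (n k) z = k⁻¹ ∑_{l<k} gq n (z lin (l n))`, so coordinatewise
`k⁻¹ ∑_l (gq n (z lin (l n)) - gq (n k) z)² = k⁻¹ ∑_l gq n (z lin (l n))² - gq (n k) z²`.
With `En a = ∑_i ∑_c ∫ (gq u (b i) (n₀ k^a) z c)² dν ∈ [0, C]` and near invariance,
`k⁻¹ ∑_l ∑_i ∑_c ∫ (…)² ≤ En a - En (a+1) + C τ`.  The drops telescope, each is `≥ -C τ`, so fewer than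
`N / 3` of them exceed `ε² / (2 k)`; Cauchy–Schwarz. -/
theorem cd_energy {ι : Type} [Fintype ι] (b : ι → F.L) (K ε : ℝ) (hε : 0 < ε) (k n₀ : ℕ)
    (hk : 1 ≤ k) (hn : 1 ≤ n₀) : ∃ (N : ℕ) (ρ τ : ℝ), 0 < N ∧ 0 < τ ∧ ∀ u, F.Lip K u →
      ∀ ν : Measure F.G, IsProbabilityMeasure ν → F.GInv ν ρ τ →
        3 * {a | a < N ∧ ∃ i, ∃ l < k, ε < ∫ z, ‖F.gq u (b i) (n₀ * k ^ a)
          (z * F.lin (b i) ((l * (n₀ * k ^ a) : ℕ) : ℝ)) - F.gq u (b i) (n₀ * k ^ (a + 1)) z‖ ∂ν}.ncard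
          < N := by
  obtain ⟨C, hC, hlen⟩ := F.len_lin
  set S := ∑ i, ‖b i‖ with hS
  have hbS : ∀ i, ‖b i‖ ≤ S := fun i =>
    Finset.single_le_sum (f := fun i => ‖b i‖) (fun _ _ => norm_nonneg _) (Finset.mem_univ i)
  set A := |K| * (C + C * S + 1) with hA
  set B := (F.m : ℝ) * A ^ 2 with hB
  have hB0 : 0 ≤ B := by positivity
  obtain ⟨N, hN⟩ := exists_nat_gt (6 * (k * (Fintype.card ι * B)) / ε ^ 2)
  have hN0 : (0 : ℝ) < N := lt_of_le_of_lt (by positivity) hN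
  refine ⟨N, C * (1 + (n₀ * k ^ N : ℕ) * S), (N : ℝ)⁻¹, by exact_mod_cast hN0, inv_pos.2 hN0,
    fun u hu ν hν hinv => ?_⟩
  have hb : ∀ i a z, ‖F.gq u (b i) (n₀ * k ^ a) z‖ ≤ A := fun i a z =>
    F.cd1_bound hC hlen hu (hbS i) (Nat.mul_pos hn (pow_pos hk a)) z
  let e : ι → ℕ → ℝ := fun i a => ∫ z, cd1_sq (F.gq u (b i) (n₀ * k ^ a) z) ∂ν
  let D : ι → ℕ → ℕ → ℝ := fun i a l => ∫ z, cd1_sq (F.gq u (b i) (n₀ * k ^ a)
    (z * F.lin (b i) ((l * (n₀ * k ^ a) : ℕ) : ℝ)) - F.gq u (b i) (n₀ * k ^ (a + 1)) z) ∂ν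
  have hD0 : ∀ i a l, 0 ≤ D i a l := fun i a l => integral_nonneg fun z => cd1_sq_nonneg _
  have hst : ∀ i, ∀ a < N, ∑ l ∈ Finset.range k, D i a l ≤
      k * (e i a - e i (a + 1) + B * (N : ℝ)⁻¹) := by
    intro i a ha
    have h1 := F.cd1_step hu.1 (b i) (n₀ * k ^ a) hk (hb i a)
      (by rw [mul_assoc, ← pow_succ]; exact hb i (a + 1)) ν fun l hl => hinv _ <| by
        refine (hlen _ _).trans (mul_le_mul_of_nonneg_left (add_le_add_right ?_ _) hC.le)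
        rw [Nat.abs_cast]
        refine mul_le_mul (Nat.cast_le.2 ?_) (hbS i) (norm_nonneg _) (Nat.cast_nonneg _)
        rw [mul_left_comm]
        refine Nat.mul_le_mul_left _ ((Nat.mul_le_mul_right _ hl.le).trans ?_)
        rw [← pow_succ']
        exact Nat.pow_le_pow_right hk ha
    rwa [mul_assoc n₀, ← pow_succ] at h1
  have hst0 : ∀ i, ∀ a < N, 0 ≤ k * (e i a - e i (a + 1) + B * (N : ℝ)⁻¹) :=
    fun i a ha => (Finset.sum_nonneg fun l _ => hD0 i a l).trans (hst i a ha)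
  have hc := cd1_count (d := fun a => ∑ i, k * (e i a - e i (a + 1) + B * (N : ℝ)⁻¹)) (δ := ε ^ 2)
    (fun a ha => Finset.sum_nonneg fun i _ => hst0 i a ha)
    (fun a => ∃ i, ∃ l < k, ε < ∫ z, ‖F.gq u (b i) (n₀ * k ^ a)
      (z * F.lin (b i) ((l * (n₀ * k ^ a) : ℕ) : ℝ)) - F.gq u (b i) (n₀ * k ^ (a + 1)) z‖ ∂ν)
    (fun a ha ⟨i, l, hl, h⟩ => by
      have h1 : ε ^ 2 ≤ D i a l := cd1_cs ν
        (((F.cd1_measurable hu.1 _ _).comp (measurable_mul_const _)).sub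
          (F.cd1_measurable hu.1 _ _)) (A := A + A)
        (fun z => (norm_sub_le _ _).trans (add_le_add (hb _ _ _) (hb _ _ _))) hε h
      exact (h1.trans (Finset.single_le_sum (fun l _ => hD0 i a l) (Finset.mem_range.2 hl))).trans
        ((hst i a ha).trans (Finset.single_le_sum (fun i _ => hst0 i a ha) (Finset.mem_univ i))))
  have hsum : ∑ a ∈ Finset.range N, ∑ i, (k : ℝ) * (e i a - e i (a + 1) + B * (N : ℝ)⁻¹) ≤
      Fintype.card ι * (k * (2 * B)) := by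
    rw [Finset.sum_comm, ← nsmul_eq_mul]
    refine Finset.sum_le_card_nsmul _ _ _ fun i _ => ?_
    rw [← Finset.mul_sum, Finset.sum_add_distrib, Finset.sum_range_sub', Finset.sum_const,
      Finset.card_range, nsmul_eq_mul, mul_left_comm (N : ℝ), mul_inv_cancel₀ hN0.ne']
    refine mul_le_mul_of_nonneg_left ?_ (Nat.cast_nonneg _)
    have h1 : 0 ≤ e i N := integral_nonneg fun z => cd1_sq_nonneg _
    have h2 : e i 0 ≤ B := by
      have := integral_mono (cd1_integrable_sq ν (F.cd1_measurable hu.1 _ _) (hb i 0))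
        (integrable_const B) fun z => cd1_sq_le (hb i 0 z)
      simpa [e] using this
    linarith
  rw [div_lt_iff₀ (by positivity)] at hN
  rw [← Nat.cast_lt (α := ℝ), Nat.cast_mul, Nat.cast_ofNat]
  refine lt_of_mul_lt_mul_right ?_ (sq_nonneg ε)
  have := hc.trans hsum
  linarith

end Frame

end Crest.Agent.R182
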