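import Crest.Agent.R182.GeoCov

/-! Row 182, task `R182/GeoVC`: covering numbers of confined sets. -/

set_option autoImplicit false

namespace Crest.Agent.R182

open scoped BigOperators
open MeasureTheory

namespace Frame

variable (F : Frame)

theorem vc_thick {Y Y' : Set F.G} {ρ δ n : ℝ} (h : F.Cov Y ρ n)
    (hY : ∀ y' ∈ Y', ∃ y ∈ Y, F.M.dd y y' ≤ δ) : F.Cov Y' (ρ + δ) n := by
  obtain ⟨Z, hZ, hc⟩ := h
  refine ⟨Z, hZ, fun y' hy' => ?_⟩
  obtain ⟨y, hy, h1⟩ := hY y' hy'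
  obtain ⟨z, hz, h2⟩ := hc y hy
  exact ⟨z, hz, (F.M.dd_triangle z y y').trans (add_le_add h2 h1)⟩

theorem vc_const {A : ℝ} (hA : 1 ≤ A) : ∃ a : ℝ, 0 ≤ a ∧ ∀ n : ℝ, 2 ≤ n →
    A ≤ Real.exp (a * Real.log n) := by
  have h2 : 0 < Real.log 2 := Real.log_pos (by norm_num)
  have hA0 : 0 ≤ Real.log A := Real.log_nonneg hA
  refine ⟨Real.log A / Real.log 2, by positivity, fun n hn => ?_⟩
  have h3 : Real.log 2 ≤ Real.log n := Real.log_le_log (by norm_num) hn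
  calc A = Real.exp (Real.log A) := (Real.exp_log (by linarith)).symm
    _ = Real.exp (Real.log A / Real.log 2 * Real.log 2) := by rw [div_mul_cancel₀ _ h2.ne']
    _ ≤ _ := Real.exp_le_exp.2 (mul_le_mul_of_nonneg_left h3 (by positivity))

/-- conjugating the unit ball by a centre `c ∈ D` -/
theorem vc_conj (C₀ : ℝ) (hC₀ : 1 ≤ C₀) : ∃ a : ℝ, 0 ≤ a ∧ ∀ n : ℝ, 2 ≤ n → ∀ c ∈ F.D,
    F.dn (C₀ * n) c ≤ 1 → ∀ y' ∈ F.R, ∀ z, F.M.ofE c * F.M.ofE z * (F.M.ofE c)⁻¹ = F.M.ofE y' →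
      ‖z‖ ≤ 1 → F.bx (fun j => F.μ j (F.M.φ c) + a * Real.log n) y' ≤ 1 := by
  obtain ⟨C₁, e, hC₁, hcb⟩ := F.conj_box
  obtain ⟨C₂, hC₂, hnd⟩ := F.norm_le_dn
  obtain ⟨C₃, hC₃, hz⟩ := F.N.bI_zero_norm F.X
  obtain ⟨a, ha, hA⟩ := vc_const (A := C₁ * (2 * C₂ * C₀ ^ F.N.m) ^ e * C₃)
    (one_le_mul_of_one_le_of_one_le (one_le_mul_of_one_le_of_one_le hC₁ (one_le_pow₀
      (one_le_mul_of_one_le_of_one_le (by linarith) (one_le_pow₀ hC₀)))) hC₃)
  refine ⟨a + F.N.m * e, by positivity, fun n hn c hc hcn y' hy' z hzc hz1 => ?_⟩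
  have hn0 : 0 < n := by linarith
  have hl : 0 ≤ Real.log n := Real.log_nonneg (by linarith)
  have hadm : F.Adm 0 := F.adm_const (c := 0) le_rfl
  -- `z ∈ R`
  have hzR : z ∈ F.R := by
    obtain ⟨y'', hy'', h1, -⟩ := hcb 0 hadm (-c) (F.D.neg_mem hc) y' hy'
    rw [← F.ofE_inv_D hc, ← hzc] at h1
    have h2 : F.M.ofE z = F.M.ofE y'' := by rw [← h1]; group
    rw [F.M.ofE_injective h2]; exact hy''
  obtain ⟨y'', hy'', h1, h2⟩ := hcb 0 hadm c hc z hzR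
  obtain rfl : y'' = y' := F.M.ofE_injective (h1.symm.trans hzc)
  have h1n : 1 ≤ C₀ * n := one_le_mul_of_one_le_of_one_le hC₀ (by linarith)
  have hnc : ‖c‖ ≤ C₂ * (C₀ * n) ^ F.N.m := by
    refine (hnd _ h1n c hc).1.trans ?_
    exact mul_le_of_le_one_right (by positivity) hcn
  have hnc' : 1 + ‖c‖ ≤ 2 * C₂ * C₀ ^ F.N.m * n ^ F.N.m := by
    have : 1 ≤ C₂ * (C₀ * n) ^ F.N.m := one_le_mul_of_one_le_of_one_le hC₂ (one_le_pow₀ h1n)
    rw [mul_pow] at hnc this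
    nlinarith
  have hz' : F.bx 0 z ≤ C₃ := ((hz Set.univ z hzR).2).trans (mul_le_of_le_one_right (by linarith) hz1)
  have hz0 : 0 ≤ F.bx 0 z := F.N.bI_nonneg _ _ _ _
  have h3 : F.bx (0 + F.mu (F.M.φ c)) y'' ≤ Real.exp ((a + F.N.m * e) * Real.log n) := by
    refine h2.trans ?_
    have e1 : Real.exp ((a + F.N.m * e) * Real.log n) =
        Real.exp (a * Real.log n) * (n ^ F.N.m) ^ e := by
      rw [add_mul, Real.exp_add, ← pow_mul, ← Nat.cast_mul, Real.exp_nat_mul, Real.exp_log hn0]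
    rw [e1]
    calc C₁ * (1 + ‖c‖) ^ e * F.bx 0 z
        ≤ C₁ * (2 * C₂ * C₀ ^ F.N.m * n ^ F.N.m) ^ e * C₃ := by gcongr
      _ = C₁ * (2 * C₂ * C₀ ^ F.N.m) ^ e * C₃ * (n ^ F.N.m) ^ e := by rw [mul_pow]; ring
      _ ≤ _ := mul_le_mul_of_nonneg_right (hA n hn) (by positivity)
  have h4 := F.N.bI_shift F.X Set.univ (h := 0 + F.mu (F.M.φ c))
    (h' := fun j => F.μ j (F.M.φ c) + (a + F.N.m * e) * Real.log n)
    (c := (a + F.N.m * e) * Real.log n) (by positivity) (fun j => by simp [mu]) hy'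
  refine h4.trans ?_
  calc _ ≤ Real.exp (-((a + F.N.m * e) * Real.log n)) *
        Real.exp ((a + F.N.m * e) * Real.log n) :=
        mul_le_mul_of_nonneg_left h3 (Real.exp_pos _).le
    _ = 1 := by rw [← Real.exp_add]; simp

/-- the general covering statement -/
theorem vc_gen (C₀ : ℝ) (hC₀ : 1 ≤ C₀) : ∃ C a : ℝ, 1 ≤ C ∧ 0 ≤ a ∧ ∀ n : ℝ, 2 ≤ n →
    ∀ (A : Set F.G) (Y Y' : Set F.E) (V : ℝ), 0 ≤ V → Y ⊆ F.R →
      (∀ g ∈ A, ∃ r ∈ Y, ∃ d ∈ F.D, F.dn (C₀ * n) d ≤ 1 ∧ g = F.M.ofE r * F.M.ofE d) →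
      (∀ g ∈ A, ∀ y ∈ Y, ∀ y' ∈ F.R,
        F.bx (fun j => F.μ j (F.M.ht g) + a * Real.log n) y' ≤ 1 → F.N.mul y y' ∈ Y') →
      hm F.R Y' ≤ ENNReal.ofReal V → F.Cov A C (V * Real.exp (C * Real.log n)) := by
  classical
  obtain ⟨a, ha, hconj⟩ := F.vc_conj C₀ hC₀
  obtain ⟨C₁, hC₁, hD⟩ := F.cov_D
  obtain ⟨C₂, hC₂, hI⟩ := F.cov_ideal
  obtain ⟨nn, hnn⟩ := F.N.Bs_nonempty F.X Set.univ
  obtain ⟨b, hb, hB⟩ := vc_const (A := C₂ * Real.exp (C₁ * Real.log C₀))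
    (one_le_mul_of_one_le_of_one_le hC₂ (Real.one_le_exp
      (mul_nonneg (by linarith) (Real.log_nonneg hC₀))))
  refine ⟨C₂ + 2 * C₁ + b, a, by linarith, ha, fun n hn A Y Y' V hV hY hA hmul hvol => ?_⟩
  have hn0 : 0 < n := by linarith
  have hl : 0 ≤ Real.log n := Real.log_nonneg (by linarith)
  choose! r hr d hd hdn hg using hA
  obtain ⟨Z, hZ, hZc⟩ := hD (C₀ * n) (by nlinarith)
  -- the useful centres
  let Z' := Z.filter fun z => ∃ g ∈ A, F.M.dd z (F.M.ofE (d g)) ≤ C₁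
  have hch : ∀ z ∈ Z', ∃ g ∈ A, F.M.dd z (F.M.ofE (d g)) ≤ C₁ := fun z hz =>
    (Finset.mem_filter.1 hz).2
  choose! γ hγ hγd using hch
  have hcov : ∀ z ∈ Z', F.Cov ((fun y => F.M.ofE y * F.M.ofE (d (γ z))) '' Y) C₂ (C₂ * V) := by
    intro z hz
    have hht : F.M.ht (γ z) = F.M.φ (d (γ z)) := by
      conv_lhs => rw [hg _ (hγ z hz)]
      simp [F.φ_R (hY (hr _ (hγ z hz)))]
    have h1 := hI Set.univ (Or.inl rfl) nn hnn (F.M.ofE (d (γ z))) Y Y' V hV hY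
      (fun y hy y' hy' w hw hw1 => hmul _ (hγ z hz) y hy y' hy' (by
        rw [hht]
        exact hconj n hn _ (hd _ (hγ z hz)) (hdn _ (hγ z hz)) y' hy' w hw hw1)) hvol
    have h2 : ∑ j, (nn j : ℝ) * F.μ j (F.M.ht (F.M.ofE (d (γ z)))) = 0 := by
      have := LinearMap.congr_fun (F.sum_μ nn hnn) (F.M.ht (F.M.ofE (d (γ z))))
      simpa [LinearMap.sum_apply] using this
    rw [h2] at h1
    simpa using h1
  have hU := F.Cov_biUnion Z' _ (by positivity) hcov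
  have hT := F.vc_thick (Y' := A) (δ := 2 * C₁) hU (fun g hgA => by
    obtain ⟨z, hz, hzd⟩ := hZc (F.M.ofE (d g)) ⟨d g, ⟨hd g hgA, hdn g hgA⟩, rfl⟩
    have hz' : z ∈ Z' := Finset.mem_filter.2 ⟨hz, g, hgA, hzd⟩
    refine ⟨F.M.ofE (r g) * F.M.ofE (d (γ z)), Set.mem_biUnion hz' ⟨r g, hr g hgA, rfl⟩, ?_⟩
    conv_lhs => rw [hg g hgA]
    rw [← hg g hgA]
    have e1 : F.M.dd (F.M.ofE (r g) * F.M.ofE (d (γ z))) g =
        F.M.dd (F.M.ofE (d (γ z))) (F.M.ofE (d g)) := by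
      conv_lhs => arg 3; rw [hg g hgA]
      exact F.M.dd_mul_left _ _ _
    rw [e1]
    have h1 := F.M.dd_triangle (F.M.ofE (d (γ z))) z (F.M.ofE (d g))
    rw [F.M.dd_comm _ z] at h1
    linarith [hγd z hz'])
  refine F.Cov_mono hT subset_rfl (by linarith) ?_
  have hc : (Z'.card : ℝ) ≤ Real.exp (C₁ * Real.log (C₀ * n)) :=
    le_trans (by exact_mod_cast Finset.card_filter_le _ _) hZ
  rw [Real.log_mul (by linarith) hn0.ne', mul_add, Real.exp_add] at hc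
  calc (Z'.card : ℝ) * (C₂ * V)
      ≤ Real.exp (C₁ * Real.log C₀) * Real.exp (C₁ * Real.log n) * (C₂ * V) := by gcongr
    _ = V * ((C₂ * Real.exp (C₁ * Real.log C₀)) * Real.exp (C₁ * Real.log n)) := by ring
    _ ≤ V * (Real.exp (b * Real.log n) * Real.exp (C₁ * Real.log n)) := by
        gcongr; exact hB n hn
    _ ≤ _ := by
        rw [← Real.exp_add]
        refine mul_le_mul_of_nonneg_left (Real.exp_le_exp.2 ?_) hV
        nlinarith

/-- products of two elements of a box -/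
theorem vc_mul : ∃ a : ℝ, 0 ≤ a ∧ ∀ n : ℝ, 2 ≤ n → ∀ H H' : F.J → ℝ,
    (∀ j, H j + a * Real.log n ≤ H' j) → ∀ y ∈ F.R, ∀ y' ∈ F.R, F.bx H y ≤ 1 → F.bx H y' ≤ 1 →
      F.N.mul y y' ∈ F.R ∧ F.bx H' (F.N.mul y y') ≤ 1 := by
  obtain ⟨K, hK, hm⟩ := F.N.lnm_mul
  obtain ⟨a, ha, hA⟩ := vc_const (A := 2 + K) (by linarith)
  refine ⟨a, ha, fun n hn H H' hH y hy y' hy' h1 h2 => ?_⟩
  have hl : 0 ≤ Real.log n := Real.log_nonneg (by linarith)
  have hmem := (F.isLN_bx H).mul_mem hy hy'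
  refine ⟨hmem, ?_⟩
  have h3 := hm _ _ (F.isLN_bx H) y hy y' hy' h1 h2
  have h0 : 0 ≤ F.bx H y := F.N.bI_nonneg _ _ _ _
  have h0' : 0 ≤ F.bx H y' := F.N.bI_nonneg _ _ _ _
  have h4 : F.bx H (F.N.mul y y') ≤ Real.exp (a * Real.log n) := by
    refine h3.trans (le_trans ?_ (hA n hn))
    have : F.bx H y * F.bx H y' ≤ 1 := mul_le_one₀ h1 h0' h2
    nlinarith
  refine (F.N.bI_shift F.X Set.univ (c := a * Real.log n) (by positivity) hH hmem).trans ?_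
  calc _ ≤ Real.exp (-(a * Real.log n)) * Real.exp (a * Real.log n) :=
        mul_le_mul_of_nonneg_left h4 (Real.exp_pos _).le
    _ = 1 := by rw [← Real.exp_add]; simp

/-- `PC_conf`: `g = r d`; cover the `d`'s by `cov_D` (`d = c q`, `len q ≤ C`, `poly n` centres `c`,
which can be taken in the set or at bounded distance).  The height of `g`, hence of `c`, need not be
small, but `lvol (h - mu u) = lvol h`: for a fixed centre `c` apply `cov_ideal` (`P = univ`, the exponent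
vanishes by `sum_μ`) with `k = c`, `Y = {bx (h + C log n) ≤ 1}`.  For `‖z‖ ≤ 1`, `c z c⁻¹` has
`bx (mu (ht c)) ≤ poly n` (`conj_box` with `h = 0`), and `mu (ht c) ≤ h + C` (`PC_ht`), so
`Y' = {bx (h + C' log n) ≤ 1}` works; `vol_bI`, `lvol_lip`. -/
theorem VC1 : ∃ C : ℝ, 1 ≤ C ∧ ∀ (h : F.J → ℝ) (n : ℝ), 2 ≤ n →
    F.Cov (F.PC h n) C (Real.exp (F.lvol h + C * Real.log n)) := by
  obtain ⟨C₀, hC₀, hPC⟩ := F.PC_conf
  obtain ⟨C₁, a, hC₁, ha, hgen⟩ := F.vc_gen C₀ hC₀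
  obtain ⟨b, hb, hmul⟩ := F.vc_mul
  obtain ⟨C₂, hC₂, hvol⟩ := F.N.vol_bI F.X
  obtain ⟨C₃, hC₃, hlip⟩ := F.N.lvol_lip F.X
  obtain ⟨c, hc, hC⟩ := vc_const hC₂
  refine ⟨C₁ + c + C₃ * (C₀ + a + b), by nlinarith, fun h n hn => ?_⟩
  have hl : 0 ≤ Real.log n := Real.log_nonneg (by linarith)
  set H : F.J → ℝ := fun j => h j + (C₀ + a) * Real.log n with hH
  set H' : F.J → ℝ := fun j => h j + (C₀ + a + b) * Real.log n with hH'
  have h1 := hgen n hn (F.PC h n) (bl F.R (F.bx H) 1) (bl F.R (F.bx H') 1)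
    (vol F.R (F.bx H')) (F.isLN_bx H').vol_pos.le (fun x hx => hx.1)
    (fun g hg => by
      obtain ⟨r, hr, d, hd, h1, h2, h3⟩ := hPC h n hn g hg
      refine ⟨r, ⟨hr, le_trans (F.N.bI_mono F.X Set.univ (fun j => ?_) hr) h1⟩, d, hd, h2, h3⟩
      simp only [hH]; nlinarith)
    (fun g hg y hy y' hy' h1 => hmul n hn H H' (fun j => by simp only [hH, hH']; linarith)
      y hy.1 y' hy' hy.2 (le_trans (F.N.bI_mono F.X Set.univ (fun j => by
        have := F.PC_ht hg j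
        simp only [hH]; nlinarith) hy') h1))
    (F.isLN_bx H').lnm_one.le
  refine F.Cov_mono h1 subset_rfl (by nlinarith) ?_
  have h2 : F.lvol H' ≤ F.lvol h + C₃ * ((C₀ + a + b) * Real.log n) :=
    hlip Set.univ H' h _ (by positivity) fun j => le_rfl
  calc vol F.R (F.bx H') * Real.exp (C₁ * Real.log n)
      ≤ (C₂ * Real.exp (F.lvol H')) * Real.exp (C₁ * Real.log n) :=
        mul_le_mul_of_nonneg_right (hvol Set.univ H').2 (Real.exp_pos _).le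
    _ ≤ (Real.exp (c * Real.log n) * Real.exp (F.lvol h + C₃ * ((C₀ + a + b) * Real.log n))) *
          Real.exp (C₁ * Real.log n) := by gcongr; exact hC n hn
    _ = _ := by rw [← Real.exp_add, ← Real.exp_add]; congr 1; ring

/-- As `VC1`, but if `g = r d = r' d'` then `(-r') • r ∈ R ∩ D`, so `ξ i r = ξ i r'` (`ξ_D`, `xi_mul`)
and `|ξ i r| ≤ exp (h' i + C log n)` (`abs_xi_le`).  Use `Y = {bx (h + C log n) ≤ 1, |ξ i| ≤ …}`,
`hm_slab`; `ξ i` of `c z c⁻¹` is `≤ poly n · exp (μ i (ht c))` and `μ i (ht c) ≤ h' i + C`. -/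
theorem VC2 : ∃ C : ℝ, 1 ≤ C ∧ ∀ (h h' : F.J → ℝ) (n : ℝ) (i : F.J), 2 ≤ n →
    F.Cov (F.PC h n ∩ F.PC h' n) C (Real.exp (F.lvol h - (h i - h' i) + C * Real.log n)) := by
  obtain ⟨C₀, hC₀, hPC⟩ := F.PC_conf
  obtain ⟨C₁, a, hC₁, ha, hgen⟩ := F.vc_gen C₀ hC₀
  obtain ⟨b, hb, hmul⟩ := F.vc_mul
  obtain ⟨C₂, hC₂, hvol⟩ := F.N.hm_slab F.X F.ξ F.ξ_X F.ξ_mon
  obtain ⟨C₃, hC₃, hlip⟩ := F.N.lvol_lip F.X
  obtain ⟨c, hc, hC⟩ := vc_const hC₂
  refine ⟨C₁ + c + C₃ * (C₀ + a + b + 1), by nlinarith, fun h h' n i hn => ?_⟩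
  have hl : 0 ≤ Real.log n := Real.log_nonneg (by linarith)
  have hxi : ∀ (k : F.J → ℝ), ∀ x ∈ F.R, F.bx k x ≤ 1 → |F.ξ i x| ≤ Real.exp (k i) := by
    intro k x hx h1
    refine (F.N.abs_xi_le F.X (F.ξ i) i (by simp [F.ξ_X]) (fun j hj => by
      simp [F.ξ_X, hj.symm]) (F.ξ_mon i) k hx).trans ?_
    exact mul_le_of_le_one_right (Real.exp_pos _).le h1
  set H : F.J → ℝ := fun j => h j + (C₀ + a) * Real.log n with hH
  set H' : F.J → ℝ := fun j => h j + (C₀ + a + b + 1) * Real.log n with hH'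
  have h1 := hgen n hn (F.PC h n ∩ F.PC h' n)
    {x | x ∈ F.R ∧ F.bx H x ≤ 1 ∧ |F.ξ i x| ≤ Real.exp (h' i + (C₀ + a) * Real.log n)}
    {x | x ∈ F.R ∧ F.bx H' x ≤ 1 ∧ |F.ξ i x| ≤ Real.exp (H' i - (h i - h' i))}
    (C₂ * Real.exp (F.lvol H' - (h i - h' i))) (by positivity) (fun x hx => hx.1)
    (fun g hg => by
      obtain ⟨r, hr, d, hd, h1, h2, h3⟩ := hPC h n hn g hg.1
      obtain ⟨r', hr', d', hd', h1', -, h3'⟩ := hPC h' n hn g hg.2
      refine ⟨r, ⟨hr, le_trans (F.N.bI_mono F.X Set.univ (fun j => ?_) hr) h1, ?_⟩, d, hd, h2, h3⟩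
      · simp only [hH]; nlinarith
      · have e1 : F.N.mul (-r') r = F.N.mul d' (-d) := by
          apply F.M.ofE_injective
          rw [← F.ofE_mul_R (F.R.neg_mem hr'), ← F.ofE_mul_D _ (F.D.neg_mem hd),
            ← F.ofE_inv_R hr', ← F.ofE_inv_D hd, inv_mul_eq_iff_eq_mul, ← mul_assoc, ← h3', h3]
          group
        have e2 : F.ξ i (F.N.mul (-r') r) = 0 := by
          refine F.ξ_D i _ ?_ ((F.isLN_bx 0).mul_mem (F.R.neg_mem hr') hr)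
          rw [e1]
          exact (F.isLN_dn 1).mul_mem hd' (F.D.neg_mem hd)
        rw [F.N.xi_mul F.X (F.ξ i) (F.ξ_mon i) (F.R.neg_mem hr') hr, map_neg] at e2
        have e3 : F.ξ i r = F.ξ i r' := by linarith
        rw [e3]
        refine (hxi _ r' hr' h1').trans (Real.exp_le_exp.2 ?_)
        nlinarith)
    (fun g hg y hy y' hy' h1 => by
      obtain ⟨h2, h3⟩ := hmul n hn H H' (fun j => by simp only [hH, hH']; linarith)
        y hy.1 y' hy' hy.2.1 (le_trans (F.N.bI_mono F.X Set.univ (fun j => by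
          have := F.PC_ht hg.1 j
          simp only [hH]; nlinarith) hy') h1)
      refine ⟨h2, h3, ?_⟩
      rw [F.N.xi_mul F.X (F.ξ i) (F.ξ_mon i) hy.1 hy']
      have h4 : |F.ξ i y'| ≤ Real.exp (h' i + (C₀ + a) * Real.log n) := by
        refine (hxi _ y' hy' h1).trans (Real.exp_le_exp.2 ?_)
        have := F.PC_ht hg.2 i
        nlinarith
      have h5 : (2 : ℝ) ≤ Real.exp ((b + 1) * Real.log n) := by
        calc (2 : ℝ) ≤ n := hn
          _ = Real.exp (Real.log n) := (Real.exp_log (by linarith)).symm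
          _ ≤ _ := Real.exp_le_exp.2 (by nlinarith)
      calc |F.ξ i y + F.ξ i y'| ≤ |F.ξ i y| + |F.ξ i y'| := abs_add_le _ _
        _ ≤ 2 * Real.exp (h' i + (C₀ + a) * Real.log n) := by linarith [hy.2.2]
        _ ≤ Real.exp ((b + 1) * Real.log n) * Real.exp (h' i + (C₀ + a) * Real.log n) := by gcongr
        _ = _ := by rw [← Real.exp_add]; congr 1; simp only [hH']; ring)
    (hvol H' i (h i - h' i))
  refine F.Cov_mono h1 subset_rfl (by nlinarith) ?_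
  have h2 : F.lvol H' ≤ F.lvol h + C₃ * ((C₀ + a + b + 1) * Real.log n) :=
    hlip Set.univ H' h _ (by positivity) fun j => le_rfl
  calc C₂ * Real.exp (F.lvol H' - (h i - h' i)) * Real.exp (C₁ * Real.log n)
      ≤ (Real.exp (c * Real.log n) * Real.exp (F.lvol h + C₃ * ((C₀ + a + b + 1) * Real.log n) -
          (h i - h' i))) * Real.exp (C₁ * Real.log n) := by gcongr; exact hC n hn
    _ = _ := by rw [← Real.exp_add, ← Real.exp_add]; congr 1; ring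

end Frame

end Crest.Agent.R182
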