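import Crest.Agent.R182.Defs2
import Crest.Agent.R182.GeoVC
import Crest.Agent.R182.LinNrm
import Crest.Agent.R182.BoxCL

/-! Row 182, task `R182/CL`: the counting lemma. -/

set_option autoImplicit false

namespace Crest.Agent.R182

open scoped BigOperators
open MeasureTheory

namespace Frame

variable (F : Frame)

theorem cl_log_ge {n : ℕ} (hn : 2 ≤ n) : 1 ≤ 2 * Real.log n := by
  have h1 : Real.log 2 ≤ Real.log n := Real.log_le_log (by norm_num) (by exact_mod_cast hn)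
  have := Real.log_two_gt_d9
  linarith

theorem cl_log_add {n : ℕ} (hn : 2 ≤ n) {t : ℝ} (h0 : 0 ≤ t) (ht : t ≤ n) :
    Real.log (2 + |t|) ≤ 2 * Real.log n := by
  have h2 : (2 : ℝ) ≤ n := by exact_mod_cast hn
  rw [abs_of_nonneg h0, show 2 * Real.log n = Real.log ((n : ℝ) ^ 2) by rw [Real.log_pow]; norm_num]
  exact Real.log_le_log (by linarith) (by nlinarith)

theorem cl_log_le {n : ℕ} (hn : 2 ≤ n) : Real.log n ≤ n := by
  have h2 : (2 : ℝ) ≤ n := by exact_mod_cast hn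
  have := Real.log_le_sub_one_of_pos (show (0 : ℝ) < n by linarith)
  linarith

/-- the image of a segment is a confined path -/
theorem cl_seg (K : ℝ) (v : F.L) : ∃ a C : ℝ, 0 ≤ a ∧ 0 ≤ C ∧ ∀ f q, F.QI K f q → ∀ (x : F.G) (t₁ : ℕ)
    (h : F.J → ℝ), (∀ t ≤ t₁, ∀ i, F.μ i (F.M.ht (f (x * F.lin v t)) - F.M.ht (f x)) ≤ h i) →
    (f x)⁻¹ * f (x * F.lin v t₁) ∈ F.PC (fun i => h i + C) (t₁ * a) := by
  obtain ⟨C, hC, hch⟩ := F.PC_chain
  have hl := F.M.len_nonneg (F.lin v 1)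
  refine ⟨|K| * F.M.len (F.lin v 1) + |K|, C * (|K| * F.M.len (F.lin v 1) + |K|), by positivity,
    by positivity, fun f q hf x t₁ h hh => ?_⟩
  have hK : |K| = K := abs_of_nonneg (by linarith [hf.one_le])
  have := hch (fun i => f (x * F.lin v i)) t₁ (|K| * F.M.len (F.lin v 1) + |K|) h (by positivity)
    (fun i _ => by
      have h1 := hf.lf (x * F.lin v i) (x * F.lin v (i + 1 : ℕ))
      rw [Nat.cast_succ, F.lin_add, ← mul_assoc, Model.dd_mul_right] at h1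
      rw [hK, Nat.cast_succ, F.lin_add, ← mul_assoc]
      exact h1)
    (fun i hi j => by simpa using hh i hi j)
  simpa using this

/-- the jump between the two lines -/
theorem cl_jump (K : ℝ) (v : F.L) : ∃ C : ℝ, 0 ≤ C ∧ ∀ f q, F.QI K f q → ∀ (n : ℕ) (x : F.G)
    (j : F.J) (σ : ℝ), 2 ≤ n → |σ| ≤ Real.exp (F.mup ((n : ℝ) • F.φL v) j) → ∃ t₁ : ℕ, t₁ ≤ n ∧
      F.M.dd (f (x * F.lin v t₁)) (f (x * F.root j σ * F.lin v t₁)) ≤ C * Real.log n := by
  obtain ⟨C₁, hC₁, hc⟩ := F.conj_wt_lin v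
  obtain ⟨C₂, hC₂, hl⟩ := F.len_R_norm
  set B := ∑ j, ‖F.X j‖ with hB
  have hB0 : 0 ≤ B := Finset.sum_nonneg fun _ _ => norm_nonneg _
  refine ⟨|K| * (C₂ * (2 * C₁ + 2 * B + 2) + 2), by positivity, fun f q hf n x j σ hn hσ => ?_⟩
  have hK : |K| = K := abs_of_nonneg (by linarith [hf.one_le])
  have hK1 := hf.one_le
  obtain ⟨t₁, ht₁, hm⟩ : ∃ t₁ : ℕ, t₁ ≤ n ∧ F.mup ((n : ℝ) • F.φL v) j = t₁ * F.μ j (F.φL v) := by
    have hn0 : (0 : ℝ) ≤ n := Nat.cast_nonneg n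
    by_cases ha : 0 < F.μ j (F.φL v)
    · refine ⟨n, le_rfl, ?_⟩
      simp only [mup, map_smul, smul_eq_mul]
      exact max_eq_left (by positivity)
    · refine ⟨0, Nat.zero_le _, ?_⟩
      simp only [mup, map_smul, smul_eq_mul, Nat.cast_zero, zero_mul]
      exact max_eq_right (mul_nonpos_of_nonneg_of_nonpos hn0 (not_lt.1 ha))
  refine ⟨t₁, ht₁, ?_⟩
  obtain ⟨b', hb', he, hn'⟩ := hc j _ (F.wt_X j σ) t₁
  have hlog := cl_log_ge hn
  have hlog2 := cl_log_add hn (t := t₁) (Nat.cast_nonneg _) (by exact_mod_cast ht₁)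
  have hX : ‖F.X j‖ ≤ Real.exp B :=
    (Finset.single_le_sum (f := fun j => ‖F.X j‖) (fun _ _ => norm_nonneg _) (Finset.mem_univ j)).trans
      (by linarith [Real.add_one_le_exp B])
  have hb2 : ‖b'‖ ≤ Real.exp (C₁ * (2 * Real.log n) + B) := by
    refine hn'.trans ?_
    rw [norm_smul, Real.norm_eq_abs]
    rw [hm] at hσ
    calc Real.exp (C₁ * Real.log (2 + |(t₁ : ℝ)|) - t₁ * F.μ j (F.φL v)) * (|σ| * ‖F.X j‖)
        ≤ Real.exp (C₁ * (2 * Real.log n) - t₁ * F.μ j (F.φL v)) *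
          (Real.exp (t₁ * F.μ j (F.φL v)) * Real.exp B) := by gcongr
      _ = _ := by rw [← Real.exp_add, ← Real.exp_add]; congr 1; ring
  have hlen := hl _ (by positivity) b' hb'.1 hb2
  have h1 := hf.lf (x * F.lin v t₁) (x * F.root j σ * F.lin v t₁)
  have he' : F.M.dd (x * F.lin v t₁) (x * F.root j σ * F.lin v t₁) = F.M.len (F.M.ofE b') := by
    rw [mul_assoc x, Model.dd_mul_mul, ← mul_assoc, ← he]
    rfl
  rw [he'] at h1
  rw [hK]
  have h2 : F.M.len (F.M.ofE b') ≤ C₂ * (2 * C₁ + 2 * B + 2) * Real.log n := by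
    refine hlen.trans ?_
    rw [mul_assoc C₂]
    gcongr
    nlinarith
  refine h1.trans ?_
  calc K * F.M.len (F.M.ofE b') + K ≤ K * (C₂ * (2 * C₁ + 2 * B + 2) * Real.log n) + K * (2 * Real.log n) := by
        gcongr
        nlinarith
    _ = _ := by ring

/-- One root move.  `x' = x * root j σ` with `|σ| ≤ exp (n (μ j φL v)⁺)`.  Let `t₁ = n` if
`μ j (φL v) > 0` and `t₁ = 0` otherwise; `x lin t₁` and `x' lin t₁` are at distance `≤ C log (n + 2)`
(`conj_wt_lin`, `len_R_norm`).  Go along `f (x lin [0, t₁])`, jump, and come back along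
`f (x' lin [0, t₁])` (`PC_chain`, `PC_trans`, `PC_inv`). -/
theorem cl_move (K : ℝ) (v : F.L) : ∃ C : ℝ, 1 ≤ C ∧ ∀ f q, F.QI K f q → ∀ (n : ℕ) (x : F.G)
    (j : F.J) (σ E : ℝ) (Φ : ℕ → F.V) (h : F.J → ℝ), 0 ≤ E → 2 ≤ n →
    |σ| ≤ Real.exp (F.mup ((n : ℝ) • F.φL v) j) →
    (∀ t ≤ n, ‖F.M.ht (f (x * F.lin v t)) - F.M.ht (f x) - Φ t‖ ≤ E) →
    (∀ t ≤ n, ‖F.M.ht (f (x * F.root j σ * F.lin v t)) - F.M.ht (f (x * F.root j σ)) - Φ t‖ ≤ E) →
    (∀ t ≤ n, ∀ i, F.μ i (Φ t) ≤ h i) →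
      ‖F.M.ht (f (x * F.root j σ)) - F.M.ht (f x)‖ ≤ C * (E + Real.log n) ∧
      (f x)⁻¹ * f (x * F.root j σ) ∈ F.PC (fun i => h i + C * (E + Real.log n)) (C * n) := by
  obtain ⟨a, C₇, ha, hC₇, hseg⟩ := F.cl_seg K v
  obtain ⟨C₄, hC₄, hjump⟩ := F.cl_jump K v
  obtain ⟨C₅, hC₅, hht⟩ := F.M.norm_ht_le
  obtain ⟨C₆, hC₆, hmu⟩ := F.norm_mu_le
  obtain ⟨C₈, hC₈, hpl⟩ := F.PC_of_len
  obtain ⟨C, hC⟩ : ∃ C, C = 3 + 3 * C₆ + C₅ * C₄ + C₆ * (C₅ * C₄) + C₈ * C₄ + 2 * C₇ + 2 * a + C₄ :=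
    ⟨_, rfl⟩
  have p1 : 0 ≤ C₅ * C₄ := by positivity
  have p2 : 0 ≤ C₆ * (C₅ * C₄) := by positivity
  have p3 : 0 ≤ C₈ * C₄ := by positivity
  refine ⟨C, by linarith, fun f q hf n x j σ E Φ h hE hn hσ h1 h2 h3 => ?_⟩
  obtain ⟨t₁, ht₁, hd⟩ := hjump f q hf n x j σ hn hσ
  set x' := x * F.root j σ with hx'
  have hlog := cl_log_ge hn
  have hlog0 : 0 ≤ Real.log n := by linarith
  have hCE : ∀ c c' : ℝ, c ≤ C → c' ≤ C → c * E + c' * Real.log n ≤ C * (E + Real.log n) := by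
    intro c c' hc hc'
    rw [mul_add]
    gcongr
  have hj1 : ‖F.M.ht (f (x' * F.lin v t₁)) - F.M.ht (f (x * F.lin v t₁))‖ ≤ C₅ * C₄ * Real.log n := by
    have := hht ((f (x * F.lin v t₁))⁻¹ * f (x' * F.lin v t₁))
    rw [Model.ht_mul, Model.ht_inv, neg_add_eq_sub] at this
    refine this.trans ?_
    rw [mul_assoc C₅]
    exact mul_le_mul_of_nonneg_left hd hC₅.le
  have hn1 : ‖F.M.ht (f x') - F.M.ht (f x)‖ ≤ 2 * E + C₅ * C₄ * Real.log n := by
    have e : F.M.ht (f x') - F.M.ht (f x) =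
        (F.M.ht (f (x' * F.lin v t₁)) - F.M.ht (f (x * F.lin v t₁))) -
        (F.M.ht (f (x' * F.lin v t₁)) - F.M.ht (f x') - Φ t₁) +
        (F.M.ht (f (x * F.lin v t₁)) - F.M.ht (f x) - Φ t₁) := by abel
    rw [e]
    have := h1 t₁ ht₁
    have := h2 t₁ ht₁
    refine (norm_add_le _ _).trans ((add_le_add_left (norm_sub_le _ _) _).trans ?_)
    linarith
  refine ⟨hn1.trans (hCE _ _ (by linarith) (by linarith)), ?_⟩
  have hμ : ∀ z : F.G, (∀ t ≤ n, ‖F.M.ht (f (z * F.lin v t)) - F.M.ht (f z) - Φ t‖ ≤ E) →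
      ∀ t ≤ t₁, ∀ i, F.μ i (F.M.ht (f (z * F.lin v t)) - F.M.ht (f z)) ≤ h i + C₆ * E := by
    intro z hz t ht i
    have e1 := hz t (ht.trans ht₁)
    have e2 := h3 t (ht.trans ht₁) i
    have e3 := (le_abs_self _).trans (hmu i (F.M.ht (f (z * F.lin v t)) - F.M.ht (f z) - Φ t))
    rw [map_sub] at e3
    have e4 : C₆ * ‖F.M.ht (f (z * F.lin v t)) - F.M.ht (f z) - Φ t‖ ≤ C₆ * E := by gcongr
    linarith
  have s1 := hseg f q hf x t₁ _ (hμ x h1)
  have s2 := hpl ((f (x * F.lin v t₁))⁻¹ * f (x' * F.lin v t₁)) _ hd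
  have s3 := F.PC_inv (hseg f q hf x' t₁ _ (hμ x' h2))
  rw [mul_inv_rev, inv_inv] at s3
  have hC7 : C₇ ≤ 2 * C₇ * Real.log n := by nlinarith
  have s1' := F.PC_mono (h' := fun i => h i + C * (E + Real.log n)) (n' := t₁ * a) (fun i => by
    have := hCE C₆ (2 * C₇) (by linarith) (by linarith)
    linarith) le_rfl s1
  have s12 := F.PC_trans s1' s2 (fun i => by
    have := hCE C₆ (C₈ * C₄) (by linarith) (by linarith)
    have := hμ x h1 t₁ le_rfl i
    linarith)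
  have s123 := F.PC_trans s12 s3 (fun i => by
    have e1 := (le_abs_self _).trans (hmu i (F.M.ht (f x') - F.M.ht (f x)))
    have e2 : C₆ * ‖F.M.ht (f x') - F.M.ht (f x)‖ ≤ C₆ * (2 * E + C₅ * C₄ * Real.log n) := by gcongr
    have := hCE (3 * C₆) (C₆ * (C₅ * C₄) + 2 * C₇) (by linarith) (by linarith)
    simp only [Pi.sub_apply, mu, Model.ht_mul, Model.ht_inv, map_add, map_neg, map_sub] at e1 ⊢
    linarith)
  refine F.PC_mono (fun _ => le_rfl) ?_ s123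
  have e1 : (t₁ : ℝ) * a ≤ n * a := by gcongr
  have e2 : C₄ * Real.log n ≤ C₄ * n := by gcongr; exact cl_log_le hn
  have e3 : (2 * a + C₄) * n ≤ C * n := by gcongr; linarith
  linarith

/-- chains of root moves inside `A` -/
theorem cl_chain {C₆ : ℝ} (hC₆ : 0 ≤ C₆) (hmu : ∀ j u, |F.μ j u| ≤ C₆ * ‖u‖) (f : F.G → F.G)
    (A : Set F.G) (h₀ h : F.J → ℝ) {D N : ℝ} (hD : 0 ≤ D) (h0 : ∀ j, 0 ≤ h j)
    (hstep : ∀ x ∈ A, ∀ j σ, |σ| ≤ Real.exp (h₀ j) → x * F.root j σ ∈ A →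
      ‖F.M.ht (f (x * F.root j σ)) - F.M.ht (f x)‖ ≤ D ∧
        (f x)⁻¹ * f (x * F.root j σ) ∈ F.PC (fun i => h i + D) N)
    (l : List (F.J × ℝ)) : ∀ ω : F.G, (∀ q ∈ l, |q.2| ≤ Real.exp (h₀ q.1)) →
      (∀ b, ω * ((l.take b).map fun q => F.root q.1 q.2).prod ∈ A) →
      (f ω)⁻¹ * f (ω * (l.map fun q => F.root q.1 q.2).prod) ∈
        F.PC (fun i => h i + D + C₆ * (l.length * D)) (l.length * N) := by
  induction l with
  | nil =>
    intro ω _ _
    simp only [List.map_nil, List.prod_nil, mul_one, inv_mul_cancel, List.length_nil, Nat.cast_zero,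
      zero_mul, mul_zero, add_zero]
    exact F.one_mem_PC (fun j => add_nonneg (h0 j) hD) le_rfl
  | cons q l ih =>
    intro ω h1 h2
    have hω : ω ∈ A := by simpa using h2 0
    have hω' : ω * F.root q.1 q.2 ∈ A := by simpa using h2 1
    obtain ⟨s0, s1⟩ := hstep ω hω q.1 q.2 (h1 q List.mem_cons_self) hω'
    have s2 := ih (ω * F.root q.1 q.2) (fun q' hq' => h1 q' (List.mem_cons_of_mem _ hq'))
      (fun b => by simpa [mul_assoc] using h2 (b + 1))
    have hl : (0 : ℝ) ≤ l.length := Nat.cast_nonneg _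
    have s1' := F.PC_mono (h' := fun i => h i + D + C₆ * (((l.length : ℝ) + 1) * D)) (n' := N)
      (fun i => le_add_of_nonneg_right (by positivity)) le_rfl s1
    have s := F.PC_trans s1' s2 (fun i => by
      have e1 := (le_abs_self _).trans (hmu i (F.M.ht (f (ω * F.root q.1 q.2)) - F.M.ht (f ω)))
      have e2 : C₆ * ‖F.M.ht (f (ω * F.root q.1 q.2)) - F.M.ht (f ω)‖ ≤ C₆ * D := by gcongr
      linarith)
    simp only [List.map_cons, List.prod_cons, List.length_cons, Nat.cast_succ, ← mul_assoc ω]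
    refine F.PC_mono (fun _ => le_rfl) (le_of_eq ?_) s
    ring

theorem cl_eventually (c₁ c₃ ε : ℝ) (hε : 0 < ε) :
    ∃ n₀ : ℕ, ∀ n : ℕ, n₀ ≤ n → c₁ + c₃ * Real.log n ≤ ε * n := by
  have h1 := (Real.isLittleO_log_id_atTop.const_mul_left c₃).bound (half_pos hε)
  have h2 := Filter.eventually_ge_atTop (max (c₁ / (ε / 2)) 0)
  obtain ⟨n₀, hn₀⟩ := Filter.eventually_atTop.1 (tendsto_natCast_atTop_atTop.eventually (h1.and h2))
  refine ⟨n₀, fun n hn => ?_⟩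
  obtain ⟨e1, e2⟩ := hn₀ n hn
  simp only [id, Real.norm_eq_abs, Nat.abs_cast] at e1
  have e3 := (le_max_left _ _).trans e2
  rw [div_le_iff₀ (half_pos hε)] at e3
  have := le_abs_self (c₃ * Real.log n)
  linarith

/-- the counting inequality for one class of large measure -/
theorem cl_class (K : ℝ) (v : F.L) : ∃ c₂ c₃ : ℝ, 0 ≤ c₂ ∧ ∀ δ : ℝ, 0 < δ → ∃ c₁ τ : ℝ, 0 < τ ∧
    ∀ f q, F.QI K f q → ∀ n : ℕ, 2 ≤ n → ∀ ν : Measure F.G, IsProbabilityMeasure ν →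
      F.BInv ν (F.mup ((n : ℝ) • F.φL v)) τ → ∀ A : Set F.G, MeasurableSet A → δ ≤ ν.real A →
      ∀ E : ℝ, 0 ≤ E → ∀ x₀ : F.G,
      (∀ x ∈ A, ∀ t : ℕ, t ≤ n → ‖F.M.ht (f (x * F.lin v t)) - F.M.ht (f x) -
        (F.M.ht (f (x₀ * F.lin v t)) - F.M.ht (f x₀))‖ ≤ E) →
      F.Big f v n (c₁ + c₂ * E + c₃ * Real.log n) x₀ := by
  obtain ⟨C, hC, hmove⟩ := F.cl_move K v
  obtain ⟨n₀, hcore⟩ := F.N.cl_core F.X
  obtain ⟨C₆, hC₆, hmu⟩ := F.norm_mu_le
  obtain ⟨CV, hCV, hVC⟩ := F.VC1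
  obtain ⟨Cc, hCc, hcount⟩ := F.count K CV
  obtain ⟨Cv, hCv, hvol⟩ := F.N.vol_bI F.X
  obtain ⟨Cl, hCl, hlip⟩ := F.lvol_le_add
  refine ⟨Cl * (1 + C₆ * n₀) * C, Cl * (1 + C₆ * n₀) * C + CV, by positivity, fun δ hδ => ?_⟩
  obtain ⟨c, τ, hc, hτ, hcore⟩ := hcore δ hδ
  refine ⟨Real.log (Cv * Cc / c) + CV * Real.log (n₀ * C + 1), τ, hτ,
    fun f q hf n hn ν hν hB A hA hδA E hE x₀ hx₀ h hh => ?_⟩
  obtain ⟨ω, -, hω⟩ := hcore F.G ν (fun x y => x * F.M.ofE y)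
    (measurable_fst.mul (F.M.measurable_ofE.comp measurable_snd)) (fun ω => by simp)
    (fun ω x hx y _ => by rw [mul_assoc, F.ofE_mul_R hx]) (F.mup ((n : ℝ) • F.φL v)) hB A hA hδA
  have hlog := cl_log_ge hn
  have hn2 : (2 : ℝ) ≤ n := by exact_mod_cast hn
  have hD : 0 ≤ C * (E + Real.log n) := mul_nonneg (by linarith) (by linarith)
  have h0 : ∀ j, 0 ≤ h j := fun j => by simpa using hh 0 (Nat.zero_le _) j
  have hN : (2 : ℝ) ≤ (n₀ * C + 1) * n :=
    hn2.trans (le_mul_of_one_le_left (by linarith) (le_add_of_nonneg_left (by positivity)))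
  have hcov := hVC (fun i => h i + (1 + C₆ * n₀) * (C * (E + Real.log n))) _ hN
  have hc2 := hω.trans (hcount f q hf ω (f ω) Set.univ 0 (zero_mem _) _ _ hcov _ ?_ ?_)
  · rw [ENNReal.ofReal_le_ofReal_iff (by positivity)] at hc2
    have e1 := (hvol Set.univ (F.mup ((n : ℝ) • F.φL v))).1
    have e2 : F.N.lvol F.X Set.univ (F.mup ((n : ℝ) • F.φL v)) = n * F.nrm (F.φL v) := by
      have := F.nrm_smul n (F.φL v)
      rwa [Nat.abs_cast] at this
    rw [e2] at e1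
    have e3 := hlip (fun i => h i + (1 + C₆ * n₀) * (C * (E + Real.log n))) h _ (by positivity)
      (fun _ => le_rfl)
    have e4 : Real.exp (n * F.nrm (F.φL v)) ≤ Cv * Cc / c * Real.exp
        (F.lvol (fun i => h i + (1 + C₆ * n₀) * (C * (E + Real.log n))) +
          CV * Real.log ((n₀ * C + 1) * n)) := by
      refine e1.trans ?_
      rw [mul_div_assoc, mul_assoc]
      gcongr
      rw [div_mul_eq_mul_div, le_div_iff₀ hc, mul_comm]
      exact hc2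
    have e5 := Real.log_le_log (Real.exp_pos _) e4
    rw [Real.log_exp, Real.log_mul (by positivity) (Real.exp_pos _).ne', Real.log_exp,
      Real.log_mul (by positivity) (by positivity)] at e5
    linarith
  · rintro y ⟨l, -, -, rfl, -⟩
    refine (F.isLN_bx 0).prod_mem fun x hx => ?_
    obtain ⟨q, -, rfl⟩ := List.mem_map.1 hx
    exact (F.wt_X _ _).1
  · rintro y ⟨l, l1, l2, rfl, l4⟩
    have := F.cl_chain hC₆.le hmu f A (F.mup ((n : ℝ) • F.φL v)) h hD (N := C * n) h0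
      (fun x hx j σ hσ hx' => hmove f q hf n x j σ E _ h hE hn hσ (hx₀ x hx) (hx₀ _ hx') hh) l ω l2
      (fun b => by rw [F.gl_root_prod]; exact l4 b)
    rw [F.gl_root_prod] at this
    rw [Model.ofE_zero, mul_one]
    have hl : (l.length : ℝ) ≤ n₀ := by exact_mod_cast l1
    refine F.PC_mono (fun i => ?_) ?_ this
    · have : C₆ * (l.length * (C * (E + Real.log n))) ≤ C₆ * (n₀ * (C * (E + Real.log n))) := by gcongr
      linarith
    · have : (l.length : ℝ) * (C * n) ≤ n₀ * (C * n) := by gcongr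
      linarith

/-- Lipschitz bound along a line -/
theorem cl_lip (K : ℝ) (v : F.L) : ∃ L : ℝ, 0 ≤ L ∧ ∀ f q, F.QI K f q → ∀ (x : F.G) (s r : ℕ),
    ‖F.M.ht (f (x * F.lin v (s + r : ℕ))) - F.M.ht (f (x * F.lin v s))‖ ≤ L * r := by
  obtain ⟨C, hC, hq⟩ := F.qi_lip
  have hl := F.M.len_nonneg (F.lin v 1)
  refine ⟨C * |K| * (F.M.len (F.lin v 1) + 1), by positivity, fun f q hf x s r => ?_⟩
  have hK : |K| = K := abs_of_nonneg (by linarith [hf.one_le])
  induction r with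
  | zero => simp
  | succ r ih =>
    have h1 := (hq K f q hf (x * F.lin v (s + r : ℕ)) (F.lin v 1)).1
    rw [mul_assoc, ← F.lin_add, ← Nat.cast_succ, ← hK] at h1
    have h2 := norm_sub_le_norm_sub_add_norm_sub (F.M.ht (f (x * F.lin v (s + r).succ)))
      (F.M.ht (f (x * F.lin v (s + r : ℕ)))) (F.M.ht (f (x * F.lin v s)))
    rw [Nat.add_succ, Nat.cast_succ r]
    linarith

/-- the partition into classes -/
theorem cl_classes (K : ℝ) (v : F.L) : ∃ L : ℝ, 0 ≤ L ∧ ∀ m : ℕ, 0 < m →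
    ∃ S : Finset (Fin m → Fin F.k → ℤ), S.Nonempty ∧ ∀ f q, F.QI K f q → ∀ n : ℕ, 0 < n →
      ∃ c : F.G → (Fin m → Fin F.k → ℤ), Measurable c ∧ (∀ x, c x ∈ S) ∧ ∀ x x₀, c x = c x₀ →
        ∀ t : ℕ, t ≤ n → ‖F.M.ht (f (x * F.lin v t)) - F.M.ht (f x) -
          (F.M.ht (f (x₀ * F.lin v t)) - F.M.ht (f x₀))‖ ≤ L * (n / m) := by
  obtain ⟨L, hL, hlip⟩ := F.cl_lip K v
  refine ⟨1 + 2 * L, by positivity, fun m hm => ⟨Fintype.piFinset fun _ => Fintype.piFinset fun _ =>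
    Finset.Icc (-⌈L * m⌉) ⌈L * m⌉, ?_, fun f q hf n hn => ?_⟩⟩
  · have : 0 ≤ ⌈L * m⌉ := Int.ceil_nonneg (by positivity)
    refine ⟨0, ?_⟩
    simp [this]
  have hm0 : (0 : ℝ) < m := by exact_mod_cast hm
  have hn0 : (0 : ℝ) < n := by exact_mod_cast hn
  let Φ : F.G → ℕ → F.V := fun x t => F.M.ht (f (x * F.lin v t)) - F.M.ht (f x)
  have hΦ : ∀ x t, ‖Φ x t‖ ≤ L * t := fun x t => by simpa using hlip f q hf x 0 t
  have hΦ' : ∀ x s r, ‖Φ x (s + r) - Φ x s‖ ≤ L * r := fun x s r => by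
    simpa only [Φ, sub_sub_sub_cancel_right] using hlip f q hf x s r
  refine ⟨fun x i l => ⌊Φ x (min (i * (n / m + 1)) n) l * m / n⌋, ?_, fun x => ?_, fun x x₀ hc t ht => ?_⟩
  · refine measurable_pi_iff.2 fun i => measurable_pi_iff.2 fun l => Measurable.floor ?_
    refine Measurable.div_const (Measurable.mul_const ((measurable_pi_apply l).comp ?_) _) _
    exact (F.M.continuous_ht.measurable.comp (hf.mf.comp (measurable_mul_const _))).sub
      (F.M.continuous_ht.measurable.comp hf.mf)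
  · simp only [Fintype.mem_piFinset, Finset.mem_Icc]
    intro i l
    have h1 : |Φ x (min (i * (n / m + 1)) n) l| ≤ L * n := by
      refine (norm_le_pi_norm (Φ x (min (i * (n / m + 1)) n)) l).trans ((hΦ x _).trans ?_)
      gcongr
      exact min_le_right _ _
    have h2 : |Φ x (min (i * (n / m + 1)) n) l * m / n| ≤ L * m := by
      rw [abs_div, abs_mul, Nat.abs_cast, Nat.abs_cast, div_le_iff₀ hn0]
      nlinarith
    rw [abs_le] at h2
    constructor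
    · rw [Int.le_floor]
      push_cast
      linarith [Int.le_ceil (L * m)]
    · exact (Int.floor_le_ceil _).trans (Int.ceil_mono h2.2)
  · have hq : 0 < n / m + 1 := Nat.succ_pos _
    have hi : t / (n / m + 1) < m := by
      rw [Nat.div_lt_iff_lt_mul hq]
      exact lt_of_le_of_lt ht (Nat.lt_mul_div_succ n hm)
    set s := t / (n / m + 1) * (n / m + 1) with hs
    have hst : s ≤ t := Nat.div_mul_le_self _ _
    have hmin : min s n = s := min_eq_left (hst.trans ht)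
    obtain ⟨r, hr⟩ := Nat.exists_eq_add_of_le hst
    have hr' : (r : ℝ) ≤ n / m := by
      have h1 : r ≤ n / m := by
        have := Nat.lt_div_mul_add (a := t) hq
        omega
      exact (Nat.cast_le.2 h1).trans Nat.cast_div_le
    have h1 : ‖Φ x s - Φ x₀ s‖ ≤ n / m := by
      refine (pi_norm_le_iff_of_nonneg (by positivity)).2 fun l => ?_
      have h2 := congrFun (congrFun hc ⟨_, hi⟩) l
      simp only [← hs, hmin] at h2
      have h3 := Int.abs_sub_lt_one_of_floor_eq_floor h2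
      rw [← sub_div, ← sub_mul, abs_div, abs_mul, Nat.abs_cast, Nat.abs_cast, div_lt_one hn0] at h3
      rw [Pi.sub_apply, Real.norm_eq_abs, le_div_iff₀ hm0]
      exact h3.le
    have h2 := hΦ' x s r
    have h3 := hΦ' x₀ s r
    rw [← hr] at h2 h3
    have e : Φ x t - Φ x₀ t = (Φ x t - Φ x s) + (Φ x s - Φ x₀ s) - (Φ x₀ t - Φ x₀ s) := by abel
    show ‖Φ x t - Φ x₀ t‖ ≤ _
    rw [e]
    have h4 : L * r ≤ L * (n / m) := by gcongr
    refine (norm_sub_le _ _).trans ((add_le_add_left (norm_add_le _ _) _).trans ?_)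
    linarith

/-- **Counting lemma.**  Partition `G` into the finitely many (`≤ M (η')`, independent of `n`)
measurable classes of `x` with the same rounding of `Φ_x (i ⌈η' n⌉) / (η' n)`, where
`Φ_x t = ht (f (x lin t)) - ht (f x)` (`qi_lip`); on a class all `Φ_x` are within `C η' n` of each other on
`[0, n]`.  Classes of measure `< δ / M` have total measure `< δ`.  For a class `A` of measure `≥ δ / M`
apply `cl_core` (`act x y = x * ofE y`, `h = mup (n • φL v)`), `cl_move` along the chain, `VC1`, `count`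
(`P = univ`, `g = 0`), `vol_bI`, `nrm_smul`: `c(δ / M) exp (n nrm) ≤ C exp (lvol h + C (η' n + log n))`
for every `h` dominating `Φ_x` for some `x ∈ A`. -/
theorem CL (K : ℝ) (v : F.L) : ∃ A : ℝ, 1 ≤ A ∧ ∀ η δ : ℝ, 0 < η → 0 < δ → ∃ (n₀ : ℕ) (τ : ℝ),
    0 < τ ∧ ∀ f q, F.QI K f q → ∀ n : ℕ, n₀ ≤ n → ∀ ν : Measure F.G, IsProbabilityMeasure ν →
      F.BInv ν (fun _ => A * n) τ → ν.real {x | ¬F.Big f v n (η * n) x} ≤ δ := by
  classical
  obtain ⟨C₆, hC₆, hmu⟩ := F.norm_mu_le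
  obtain ⟨c₂, c₃, hc₂, hcl⟩ := F.cl_class K v
  obtain ⟨L, hL, hcls⟩ := F.cl_classes K v
  refine ⟨1 + C₆ * ‖F.φL v‖, le_add_of_nonneg_right (by positivity), fun η δ hη hδ => ?_⟩
  obtain ⟨m, hm⟩ := exists_nat_gt (c₂ * L / (η / 2))
  have hm0 : (0 : ℝ) < m := lt_of_le_of_lt (by positivity) hm
  obtain ⟨S, hS, hcls⟩ := hcls m (by exact_mod_cast hm0)
  have hS0 : (0 : ℝ) < S.card := by exact_mod_cast hS.card_pos
  obtain ⟨c₁, τ, hτ, hcl⟩ := hcl (δ / S.card) (by positivity)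
  obtain ⟨n₀, hn₀⟩ := cl_eventually c₁ c₃ (η / 2) (half_pos hη)
  refine ⟨max n₀ 2, τ, hτ, fun f q hf n hn ν hν hB => ?_⟩
  have hn2 : 2 ≤ n := (le_max_right _ _).trans hn
  have hn0 : (0 : ℝ) ≤ n := Nat.cast_nonneg n
  obtain ⟨c, hcm, hcS, hcc⟩ := hcls f q hf n (by omega)
  have hB' : F.BInv ν (F.mup ((n : ℝ) • F.φL v)) τ := by
    refine hB.mono (fun j => max_le ?_ (by positivity)) le_rfl
    have := (le_abs_self _).trans (hmu j (F.φL v))
    rw [map_smul, smul_eq_mul, mul_comm]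
    gcongr
    linarith
  have hsub : {x | ¬F.Big f v n (η * n) x} ⊆
      ⋃ s ∈ S.filter (fun s => ν.real (c ⁻¹' {s}) < δ / S.card), c ⁻¹' {s} := by
    intro x hx
    simp only [Set.mem_iUnion, Finset.mem_filter, exists_prop]
    refine ⟨c x, ⟨hcS x, ?_⟩, rfl⟩
    by_contra hlt
    have hbig := hcl f q hf n hn2 ν hν hB' _ (hcm (measurableSet_singleton (c x))) (not_lt.1 hlt)
      (L * (n / m)) (by positivity) x (fun y hy => hcc y x hy)
    refine hx fun h hh => le_trans ?_ (hbig h hh)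
    have e1 := hn₀ n ((le_max_left _ _).trans hn)
    have e2 : c₂ * (L * (n / m)) ≤ η / 2 * n := by
      rw [div_lt_iff₀ (half_pos hη)] at hm
      rw [← mul_assoc, ← mul_div_assoc, div_le_iff₀ hm0]
      nlinarith
    linarith
  refine (measureReal_mono hsub (measure_ne_top _ _)).trans ((measureReal_biUnion_finset_le _ _).trans ?_)
  refine (Finset.sum_le_card_nsmul _ _ (δ / S.card) fun s hs => (Finset.mem_filter.1 hs).2.le).trans ?_
  rw [nsmul_eq_mul, ← mul_div_assoc, div_le_iff₀ hS0, mul_comm]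
  gcongr
  exact Finset.filter_subset _ _

end Frame

end Crest.Agent.R182
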