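import Crest.Agent.R182.Frame

/-! Row 182: notions for coarse differentiation.  Definitions only: DO NOT CHANGE (owner helper37). -/

set_option autoImplicit false

namespace Crest.Agent.R182

open scoped BigOperators
open MeasureTheory

namespace Frame

variable (F : Frame)

/-- coarsely Lipschitz maps `G → L` -/
def Lip (K : ℝ) (u : F.G → F.L) : Prop :=
  Measurable u ∧ ∀ x g, ‖u (x * g) - u x‖ ≤ K * (F.M.len g + 1)

/-- difference quotient along a line -/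
noncomputable def gq (u : F.G → F.L) (v : F.L) (n : ℕ) (z : F.G) : F.L :=
  (n : ℝ)⁻¹ • (u (z * F.lin v n) - u z)

/-- a bounded, measurable, slowly varying field of linear maps -/
structure Field (B : F.G → F.L →ₗ[ℝ] F.L) (A ρ ε : ℝ) : Prop where
  meas : ∀ v, Measurable fun z => B z v
  bound : ∀ z v, ‖B z v‖ ≤ A * ‖v‖
  slow : ∀ z g v, F.M.len g ≤ ρ → ‖B (z * g) v - B z v‖ ≤ ε * ‖v‖

/-- `B` is a coarse derivative of `u` at scale `r`, on average -/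
def CD (u : F.G → F.L) (ν : Measure F.G) (r ε A : ℝ) (B : F.G → F.L →ₗ[ℝ] F.L) : Prop :=
  F.Field B A (r / ε) ε ∧
    ∀ g, F.M.len g ≤ r / ε → ∫ z, ‖u (z * g) - u z - B z (F.pr g)‖ ∂ν ≤ ε * r

/-- `B` is a coarse derivative of `u` at scale `r` on the set `𝒢` -/
def Pair (u : F.G → F.L) (r ε : ℝ) (B : F.G → F.L →ₗ[ℝ] F.L) (𝒢 : Set F.G) : Prop :=
  MeasurableSet 𝒢 ∧ ∀ z ∈ 𝒢, ∀ z' ∈ 𝒢, F.M.dd z z' ≤ r →
    ‖u z' - u z - B z (F.pr z' - F.pr z)‖ ≤ ε * r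

/-- labels at scale `r` -/
def Lab (f : F.G → F.G) (r ε : ℝ) (𝒢 : F.W → Set F.G) : Prop :=
  (∀ w, MeasurableSet (𝒢 w)) ∧ ∀ w w' z z', z ∈ 𝒢 w → z' ∈ 𝒢 w' → F.M.dd z z' ≤ r →
    w = w' ∧ ‖F.M.ht (f z') - F.M.ht (f z) - w.1 (F.M.ht z' - F.M.ht z)‖ ≤ ε * r

/-- points whose label makes `μ j` increase along `v` -/
def Up (𝒢 : F.W → Set F.G) (j : F.J) (v : F.L) : Set F.G :=
  {x | ∃ w, x ∈ 𝒢 w ∧ 0 < F.μ j (w.1 (F.φL v))}

/-- points whose label makes `μ j` decrease along `v` -/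
def Down (𝒢 : F.W → Set F.G) (j : F.J) (v : F.L) : Set F.G :=
  {x | ∃ w, x ∈ 𝒢 w ∧ F.μ j (w.1 (F.φL v)) < 0}

/-- the counting inequality holds for the image of the segment `x · lin v [0, n]` -/
def Big (f : F.G → F.G) (v : F.L) (n : ℕ) (E : ℝ) (x : F.G) : Prop :=
  ∀ h : F.J → ℝ, (∀ t : ℕ, t ≤ n → ∀ j,
    F.μ j (F.M.ht (f (x * F.lin v t)) - F.M.ht (f x)) ≤ h j) → n * F.nrm (F.φL v) - E ≤ F.lvol h

end Frame

end Crest.Agent.R182
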