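import Crest.Agent.R182.GeoBasic

/-! Row 182, task `R182/Dens`: regular densities of Følner measures. -/

set_option autoImplicit false

namespace Crest.Agent.R182

open scoped BigOperators ENNReal
open MeasureTheory

section aux

variable {G : Type} [Group G] [MeasurableSpace G] [MeasurableMul₂ G] [MeasurableInv G]

/-- unnormalised density of `ν * μ|_Q` -/
noncomputable def densθ (ν : Measure G) (Q : Set G) (x : G) : ℝ := ν.real {y | y⁻¹ * x ∈ Q}

theorem dens_meas_aux (ν : Measure G) [IsProbabilityMeasure ν] {Q : Set G}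
    (hQ : MeasurableSet Q) : Measurable fun x : G => ν {y | y⁻¹ * x ∈ Q} := by
  have hS : MeasurableSet {p : G × G | p.2⁻¹ * p.1 ∈ Q} :=
    (measurable_snd.inv.mul measurable_fst) hQ
  exact measurable_measure_prodMk_left hS

theorem densθ_meas (ν : Measure G) [IsProbabilityMeasure ν] {Q : Set G}
    (hQ : MeasurableSet Q) : Measurable (densθ ν Q) :=
  (dens_meas_aux ν hQ).ennreal_toReal

omit [MeasurableMul₂ G] [MeasurableInv G] in
theorem densθ_nonneg (ν : Measure G) (Q : Set G) (x : G) : 0 ≤ densθ ν Q x := measureReal_nonneg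

omit [MeasurableMul₂ G] [MeasurableInv G] in
theorem densθ_le (ν : Measure G) [IsProbabilityMeasure ν] (Q : Set G) (x : G) :
    densθ ν Q x ≤ 1 := measureReal_le_one

variable (μ : Measure G) [SigmaFinite μ] [μ.IsMulLeftInvariant] [μ.IsMulRightInvariant]

theorem dens_lint (ν : Measure G) [IsProbabilityMeasure ν] {Q A : Set G}
    (hQ : MeasurableSet Q) (hA : MeasurableSet A) (g : G) :
    ∫⁻ x in A, ν {y | y⁻¹ * (x * g) ∈ Q} ∂μ = ∫⁻ q in Q, ν {y | y * (q * g⁻¹) ∈ A} ∂μ := by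
  have hS : MeasurableSet {p : G × G | p.1 ∈ A ∧ p.2⁻¹ * (p.1 * g) ∈ Q} :=
    (measurable_fst hA).inter ((measurable_snd.inv.mul (measurable_fst.mul_const g)) hQ)
  have hT : MeasurableSet {p : G × G | p.1 ∈ Q ∧ p.2 * (p.1 * g⁻¹) ∈ A} :=
    (measurable_fst hQ).inter ((measurable_snd.mul (measurable_fst.mul_const g⁻¹)) hA)
  have e1 : ∫⁻ x in A, ν {y | y⁻¹ * (x * g) ∈ Q} ∂μ =
      (μ.prod ν) {p : G × G | p.1 ∈ A ∧ p.2⁻¹ * (p.1 * g) ∈ Q} := by
    rw [Measure.prod_apply hS, ← lintegral_indicator hA]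
    refine lintegral_congr fun x => ?_
    by_cases hx : x ∈ A
    · simp [hx, Set.preimage]
    · simp [hx, Set.preimage]
  have e2 : ∫⁻ q in Q, ν {y | y * (q * g⁻¹) ∈ A} ∂μ =
      (μ.prod ν) {p : G × G | p.1 ∈ Q ∧ p.2 * (p.1 * g⁻¹) ∈ A} := by
    rw [Measure.prod_apply hT, ← lintegral_indicator hQ]
    refine lintegral_congr fun x => ?_
    by_cases hx : x ∈ Q
    · simp [hx, Set.preimage]
    · simp [hx, Set.preimage]
  rw [e1, e2, Measure.prod_apply_symm hS, Measure.prod_apply_symm hT]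
  refine lintegral_congr fun y => ?_
  have h1 := measure_preimage_mul μ y
    ((fun q => q * g⁻¹) ⁻¹' ((fun x => (x, y)) ⁻¹' {p : G × G | p.1 ∈ A ∧ p.2⁻¹ * (p.1 * g) ∈ Q}))
  rw [measure_preimage_mul_right] at h1
  rw [← h1]
  congr 1
  ext q
  simp [mul_assoc, and_comm]

theorem dens_int (ν : Measure G) [IsProbabilityMeasure ν] {Q A : Set G}
    (hQ : MeasurableSet Q) (hA : MeasurableSet A) (g : G) :
    ∫ x in A, densθ ν Q (x * g) ∂μ = ∫ q in Q, ν.real {y | y * (q * g⁻¹) ∈ A} ∂μ := by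
  have hT : MeasurableSet {p : G × G | p.2 * (p.1 * g⁻¹) ∈ A} :=
    (measurable_snd.mul (measurable_fst.mul_const g⁻¹)) hA
  have m1 : Measurable fun x : G => ν {y | y⁻¹ * (x * g) ∈ Q} :=
    (dens_meas_aux ν hQ).comp (measurable_mul_const g)
  have m2 : Measurable fun q : G => ν {y | y * (q * g⁻¹) ∈ A} := measurable_measure_prodMk_left hT
  simp only [densθ, measureReal_def]
  rw [integral_toReal m1.aemeasurable (ae_of_all _ fun x => measure_lt_top _ _),
    integral_toReal m2.aemeasurable (ae_of_all _ fun x => measure_lt_top _ _),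
    dens_lint μ ν hQ hA g]

theorem dens_integrable (ν : Measure G) [IsProbabilityMeasure ν] {Q : Set G}
    (hQ : MeasurableSet Q) (hQf : μ Q ≠ ∞) (g : G) :
    Integrable (fun x => densθ ν Q (x * g)) μ := by
  have m1 : Measurable fun x : G => ν {y | y⁻¹ * (x * g) ∈ Q} :=
    (dens_meas_aux ν hQ).comp (measurable_mul_const g)
  refine integrable_toReal_of_lintegral_ne_top m1.aemeasurable ?_
  have := dens_lint μ ν hQ MeasurableSet.univ g
  rw [Measure.restrict_univ] at this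
  rw [this]
  simpa using hQf

theorem dens_total (ν : Measure G) [IsProbabilityMeasure ν] {Q : Set G}
    (hQ : MeasurableSet Q) : ∫ x, densθ ν Q x ∂μ = μ.real Q := by
  have := dens_int μ ν hQ MeasurableSet.univ 1
  simpa using this

theorem dens_close (ν : Measure G) [IsProbabilityMeasure ν] {Q A : Set G}
    (hQ : MeasurableSet Q) (hQf : μ Q ≠ ∞) (hA : MeasurableSet A) (g : G) {τ : ℝ}
    (h : ∀ q ∈ Q, |ν.real {y | y * (q * g⁻¹) ∈ A} - ν.real A| ≤ τ) :
    |∫ x in A, densθ ν Q (x * g) ∂μ - μ.real Q * ν.real A| ≤ μ.real Q * τ := by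
  have hT : MeasurableSet {p : G × G | p.2 * (p.1 * g⁻¹) ∈ A} :=
    (measurable_snd.mul (measurable_fst.mul_const g⁻¹)) hA
  have m2 : Measurable fun q : G => ν.real {y | y * (q * g⁻¹) ∈ A} :=
    (measurable_measure_prodMk_left hT).ennreal_toReal
  have i2 : IntegrableOn (fun q : G => ν.real {y | y * (q * g⁻¹) ∈ A}) Q μ :=
    Measure.integrableOn_of_bounded (M := 1) hQf m2.aestronglyMeasurable (ae_of_all _ fun q => by
      rw [Real.norm_eq_abs, abs_of_nonneg measureReal_nonneg]; exact measureReal_le_one)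
  have e : μ.real Q * ν.real A = ∫ _q in Q, ν.real A ∂μ := by simp
  rw [dens_int μ ν hQ hA g, e, ← integral_sub i2 (integrableOn_const hQf), mul_comm _ τ]
  rw [← Real.norm_eq_abs]
  exact norm_setIntegral_le_of_norm_le_const (lt_top_iff_ne_top.2 hQf)
    fun q hq => by rw [Real.norm_eq_abs]; exact h q hq

omit [Group G] [MeasurableMul₂ G] [MeasurableInv G] [SigmaFinite μ] [μ.IsMulLeftInvariant]
  [μ.IsMulRightInvariant] in
theorem dens_l1 {f : G → ℝ} (hm : Measurable f) (hf : Integrable f μ) {ε : ℝ}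
    (h : ∀ A, MeasurableSet A → |∫ x in A, f x ∂μ| ≤ ε) : ∫ x, |f x| ∂μ ≤ 2 * ε := by
  have hA : MeasurableSet {x | 0 ≤ f x} := measurableSet_le measurable_const hm
  rw [← integral_add_compl hA hf.abs]
  have e1 : ∫ x in {x | 0 ≤ f x}, |f x| ∂μ = ∫ x in {x | 0 ≤ f x}, f x ∂μ :=
    setIntegral_congr_fun hA fun x hx => abs_of_nonneg hx
  have e2 : ∫ x in {x | 0 ≤ f x}ᶜ, |f x| ∂μ = -∫ x in {x | 0 ≤ f x}ᶜ, f x ∂μ := by
    rw [← integral_neg]
    exact setIntegral_congr_fun hA.compl fun x hx => abs_of_neg (not_le.1 hx)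
  have h1 := (abs_le.1 (h _ hA)).2
  have h2 := (abs_le.1 (h _ hA.compl)).1
  rw [e1, e2]
  linarith

/-- the abstract statement -/
theorem dens_main (ν : Measure G) [IsProbabilityMeasure ν] {Q B P : Set G}
    (hQ : MeasurableSet Q) (hQf : μ Q ≠ ∞) (hQ0 : 0 < μ.real Q) (hB : MeasurableSet B)
    (hBf : μ B ≠ ∞) (hP : ∀ g ∈ P, ∀ q ∈ Q, g * q ∈ B) {τ : ℝ}
    (h1 : ∀ A, MeasurableSet A → ∀ q ∈ Q, |ν.real {y | y * q ∈ A} - ν.real A| ≤ τ)
    (h2 : ∀ A, MeasurableSet A → ∀ q ∈ Q, ∀ g ∈ B,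
      |ν.real {y | y * (q * g⁻¹) ∈ A} - ν.real A| ≤ τ) :
    ∃ Θ₁ Θ₂ Ξ : G → ℝ, Measurable Θ₁ ∧ Measurable Θ₂ ∧
      Measurable Ξ ∧ (∀ x, 0 ≤ Θ₁ x) ∧ (∀ x, 0 ≤ Θ₂ x) ∧ (∀ x, 0 ≤ Ξ x) ∧
      Integrable Θ₁ μ ∧ Integrable Ξ μ ∧ ∫ x, Θ₁ x ∂μ = 1 ∧
      ∫ x, Ξ x ∂μ ≤ 4 * τ * μ.real B / μ.real Q ∧
      (∀ A, MeasurableSet A → ν.real A ≤ ∫ x in A, Θ₁ x ∂μ + τ) ∧
      ∀ x, ∀ g ∈ P, |Θ₂ (x * g) - Θ₁ x| ≤ Ξ x := by
  set c := μ.real Q with hc
  set θ := densθ ν Q with hθ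
  have mθ : Measurable θ := densθ_meas ν hQ
  have θ0 : ∀ x, 0 ≤ θ x := densθ_nonneg ν Q
  have θ1 : ∀ x, θ x ≤ 1 := densθ_le ν Q
  have iθ : ∀ g, Integrable (fun x => θ (x * g)) μ := dens_integrable μ ν hQ hQf
  have iθ1 : Integrable θ μ := by simpa using iθ 1
  have : IsFiniteMeasure (μ.restrict B) := ⟨by simpa using lt_top_iff_ne_top.2 hBf⟩
  have : IsFiniteMeasure (μ.restrict Q) := ⟨by simpa using lt_top_iff_ne_top.2 hQf⟩
  have cl1 : ∀ A, MeasurableSet A → |∫ x in A, θ x ∂μ - c * ν.real A| ≤ c * τ := by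
    intro A hA
    have := dens_close μ ν hQ hQf hA 1 (τ := τ) (fun q hq => by simpa using h1 A hA q hq)
    simpa using this
  have l1 : ∀ g ∈ B, ∫ x, |θ (x * g) - θ x| ∂μ ≤ 2 * (2 * (c * τ)) := by
    intro g hg
    refine dens_l1 μ (f := fun x => θ (x * g) - θ x) ((mθ.comp (measurable_mul_const g)).sub mθ)
      ((iθ g).sub iθ1) fun A hA => ?_
    have a1 := dens_close μ ν hQ hQf hA g (τ := τ) (fun q hq => h2 A hA q hq g hg)
    have a2 := cl1 A hA
    rw [integral_sub (iθ g).integrableOn iθ1.integrableOn]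
    rw [abs_le] at a1 a2 ⊢
    constructor <;> linarith [a1.1, a1.2, a2.1, a2.2]
  have mD : Measurable fun p : G × G => |θ (p.1 * p.2) - θ p.1| :=
    ((mθ.comp measurable_mul).sub (mθ.comp measurable_fst)).abs
  have bD : ∀ x y, |θ y - θ x| ≤ 1 := fun x y => by
    rw [abs_le]; constructor <;> linarith [θ0 x, θ0 y, θ1 x, θ1 y]
  have iD : Integrable (fun p : G × G => |θ (p.1 * p.2) - θ p.1|) (μ.prod (μ.restrict B)) := by
    rw [integrable_prod_iff' mD.aestronglyMeasurable]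
    refine ⟨ae_of_all _ fun g => ((iθ g).sub iθ1).abs, ?_⟩
    refine Integrable.of_bound (C := 2 * (2 * (c * τ))) ?_ ?_
    · exact (mD.norm.stronglyMeasurable.integral_prod_left (μ := μ)).aestronglyMeasurable
    · filter_upwards [ae_restrict_mem hB] with g hg
      rw [Real.norm_eq_abs, abs_of_nonneg (integral_nonneg fun x => norm_nonneg _)]
      simpa using l1 g hg
  refine ⟨fun x => θ x / c, fun x => (∫ q in Q, θ (x * q) ∂μ) / c / c,
    fun x => (∫ g in B, |θ (x * g) - θ x| ∂μ) / c / c, mθ.div_const c, ?_, ?_,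
    fun x => div_nonneg (θ0 x) hQ0.le, fun x => ?_, fun x => ?_, iθ1.div_const c,
    (iD.integral_prod_left.div_const c).div_const c, ?_, ?_, fun A hA => ?_, fun x g hg => ?_⟩
  · exact (((mθ.comp measurable_mul).stronglyMeasurable.integral_prod_right'
      (ν := μ.restrict Q)).measurable.div_const c).div_const c
  · exact ((mD.stronglyMeasurable.integral_prod_right
      (ν := μ.restrict B)).measurable.div_const c).div_const c
  · exact div_nonneg (div_nonneg (integral_nonneg fun q => θ0 _) hQ0.le) hQ0.le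
  · exact div_nonneg (div_nonneg (integral_nonneg fun q => abs_nonneg _) hQ0.le) hQ0.le
  · rw [integral_div, hθ, dens_total μ ν hQ, div_self hQ0.ne']
  · rw [integral_div, integral_div, integral_integral_swap iD]
    have : ∫ g in B, ∫ x, |θ (x * g) - θ x| ∂μ ∂μ ≤ ∫ _g in B, 2 * (2 * (c * τ)) ∂μ := by
      refine integral_mono_ae iD.integral_prod_right (integrable_const _) ?_
      filter_upwards [ae_restrict_mem hB] with g hg using l1 g hg
    rw [setIntegral_const, smul_eq_mul] at this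
    refine div_le_div_of_nonneg_right ?_ hQ0.le
    rw [div_le_iff₀ hQ0]
    linarith
  · rw [integral_div]
    have a := (abs_le.1 (cl1 A hA)).1
    have : ν.real A - τ ≤ (∫ x in A, θ x ∂μ) / c := by
      rw [le_div_iff₀ hQ0]; linarith
    linarith
  · have iq : IntegrableOn (fun q => θ (x * g * q)) Q μ :=
      Integrable.of_bound (mθ.comp (measurable_const_mul _)).aestronglyMeasurable 1
        (ae_of_all _ fun q => by rw [Real.norm_eq_abs, abs_of_nonneg (θ0 _)]; exact θ1 _)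
    have e : (∫ q in Q, θ (x * g * q) ∂μ) / c / c - θ x / c =
        (∫ q in Q, (θ (x * g * q) - θ x) ∂μ) / c / c := by
      rw [integral_sub iq (integrable_const _), setIntegral_const, smul_eq_mul, ← hc]
      field_simp
    rw [e, abs_div, abs_div, abs_of_pos hQ0]
    refine div_le_div_of_nonneg_right (div_le_div_of_nonneg_right ?_ hQ0.le) hQ0.le
    refine abs_integral_le_integral_abs.trans ?_
    have mx : Measurable fun y => |θ (x * y) - θ x| :=
      ((mθ.comp (measurable_const_mul x)).sub measurable_const).abs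
    have iB : IntegrableOn (fun y => |θ (x * y) - θ x|) B μ :=
      Integrable.of_bound mx.aestronglyMeasurable 1
        (ae_of_all _ fun q => by rw [Real.norm_eq_abs, abs_abs]; exact bD _ _)
    rw [← integral_indicator hQ, ← integral_indicator hB,
      ← integral_mul_left_eq_self (B.indicator fun y => |θ (x * y) - θ x|) g]
    refine integral_mono_of_nonneg (ae_of_all _ fun q => Set.indicator_nonneg
      (fun _ _ => abs_nonneg _) q) ((iB.integrable_indicator hB).comp_mul_left g)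
      (ae_of_all _ fun q => ?_)
    by_cases hq : q ∈ Q
    · simp [hq, hP g hg q hq, mul_assoc]
    · simp only [hq, not_false_eq_true, Set.indicator_of_notMem]
      exact Set.indicator_nonneg (fun _ _ => abs_nonneg _) _

end aux

namespace Frame

variable (F : Frame)

/-- Let `μ = μG`, `c = μ Q`.  `Θ₁ x = ν (x Q) / c` is the density of `ν * unif Q` (`Q` is symmetric, `μ`
left invariant), which is `τ`-close to `ν` (`Near.of_prod_right`); for `len g ≤ ρ`,
`∫ |Θ₁ (x g) - Θ₁ x| dμ ≤ 6 τ` (`x ↦ Θ₁ (x g)` is the density of the translate by `g⁻¹`, `μ` right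
invariant).  `Θ₂ x = c⁻¹ ∫_{y ∈ Q} Θ₁ (x y) dμ`, `Ξ x = c⁻¹ ∫_{len y ≤ ρ' + 1} |Θ₁ (x y) - Θ₁ x| dμ`. -/
theorem dens (ρ' τ' : ℝ) (hτ' : 0 < τ') : ∃ ρ τ : ℝ, 0 < τ ∧ ∀ ν : Measure F.G,
    IsProbabilityMeasure ν → F.GInv ν ρ τ → ∃ Θ₁ Θ₂ Ξ : F.G → ℝ, Measurable Θ₁ ∧ Measurable Θ₂ ∧
      Measurable Ξ ∧ (∀ x, 0 ≤ Θ₁ x) ∧ (∀ x, 0 ≤ Θ₂ x) ∧ (∀ x, 0 ≤ Ξ x) ∧
      Integrable Θ₁ F.M.μG ∧ Integrable Ξ F.M.μG ∧ ∫ x, Θ₁ x ∂F.M.μG = 1 ∧
      ∫ x, Ξ x ∂F.M.μG ≤ τ' ∧
      (∀ A, MeasurableSet A → ν.real A ≤ ∫ x in A, Θ₁ x ∂F.M.μG + τ') ∧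
      ∀ x x', F.M.dd x x' ≤ ρ' → |Θ₂ x' - Θ₁ x| ≤ Ξ x := by
  set B : Set F.G := {g | F.M.len g ≤ ρ' + 1} with hB
  have hBc : IsCompact B := F.M.isCompact_ball _
  have hQ : MeasurableSet F.M.Q := F.M.isCompact_Q.isClosed.measurableSet
  have hQf : F.M.μG F.M.Q ≠ ∞ := F.M.isCompact_Q.measure_lt_top.ne
  have hQ0 : 0 < F.M.μG.real F.M.Q :=
    ENNReal.toReal_pos (Measure.measure_pos_of_mem_nhds _ F.M.Q_mem_nhds).ne' hQf
  set c := F.M.μG.real F.M.Q with hc
  set b := F.M.μG.real B with hb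
  have hb0 : 0 ≤ b := measureReal_nonneg
  set τ := τ' / (1 + 4 * b / c) with hτ
  have hD : 0 < 1 + 4 * b / c := by positivity
  have hτ0 : 0 < τ := div_pos hτ' hD
  have hττ : τ * (1 + 4 * b / c) = τ' := div_mul_cancel₀ _ hD.ne'
  have hbc : 0 ≤ τ * (4 * b / c) := by positivity
  refine ⟨max (ρ' + 2) 1, τ, hτ0, fun ν hν h => ?_⟩
  have key : ∀ A, MeasurableSet A → ∀ g, F.M.len g ≤ max (ρ' + 2) 1 →
      |ν.real {y | y * g ∈ A} - ν.real A| ≤ τ := by
    intro A hA g hg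
    have a1 := (h g hg).real_le A
    have a2 := h g hg A hA
    rw [← F.real_le_rt] at a2
    rw [abs_le]; constructor <;> linarith
  obtain ⟨Θ₁, Θ₂, Ξ, m1, m2, m3, n1, n2, n3, i1, i2, e1, e2, e3, e4⟩ :=
    dens_main F.M.μG ν (Q := F.M.Q) (B := B) (P := {g | F.M.len g ≤ ρ'}) (τ := τ) hQ hQf hQ0
      hBc.isClosed.measurableSet hBc.measure_lt_top.ne
      (fun g hg q hq => (F.M.len_mul_le g q).trans (add_le_add hg (F.M.len_le_one hq)))
      (fun A hA q hq => key A hA q ((F.M.len_le_one hq).trans (le_max_right _ _)))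
      (fun A hA q hq g hg => key A hA _ (by
        have a1 := F.M.len_mul_le q g⁻¹
        have a2 := F.M.len_le_one hq
        have a3 : F.M.len g ≤ ρ' + 1 := hg
        rw [F.M.len_inv] at a1
        exact le_trans (by linarith) (le_max_left _ _)))
  refine ⟨Θ₁, Θ₂, Ξ, m1, m2, m3, n1, n2, n3, i1, i2, e1, e2.trans ?_, fun A hA => ?_,
    fun x x' hx => ?_⟩
  · rw [← hb, ← hc, show 4 * τ * b / c = τ * (4 * b / c) by ring]
    linarith
  · have := e3 A hA
    linarith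
  · simpa using e4 x (x⁻¹ * x') hx

end Frame

end Crest.Agent.R182
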