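import Crest.Agent.R182.EWord

/-! Row 182, task `R182/EAlg1`: finite generation of the subgroup generated by small elements. -/

set_option autoImplicit false

namespace Crest.Agent.R182

open scoped BigOperators
open MeasureTheory Crest.GroupTheory Crest.Geometry

variable {H : Type*} [Group H]

theorem eAlg1_zero {k : ℕ} {ψ : H → Fin k → ℝ} (hψ : ∀ a b, ψ (a * b) = ψ a + ψ b) : ψ 1 = 0 := by
  have h := hψ 1 1
  rw [mul_one] at h
  exact left_eq_add.mp h

theorem eAlg1_div {k : ℕ} {ψ : H → Fin k → ℝ} (hψ : ∀ a b, ψ (a * b) = ψ a + ψ b) (a b : H) :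
    ψ (a * b⁻¹) = ψ a - ψ b := by
  have h := hψ (a * b⁻¹) b
  rw [inv_mul_cancel_right] at h
  rw [h]; abel

theorem eAlg1_path {k : ℕ} {T : Finset H} {ψ : H → Fin k → ℝ} {M : ℝ} (P : H → Prop)
    (hP : ∀ g s, (s ∈ T ∨ s⁻¹ ∈ T) → P g → ‖ψ (g * s)‖ ≤ M → P (g * s)) :
    ∀ (l : List H) (g : H), (∀ x ∈ l, x ∈ T ∨ x⁻¹ ∈ T) → P g →
      (∀ b : ℕ, ‖ψ (g * (l.take b).prod)‖ ≤ M) → P (g * l.prod) := by
  intro l
  induction l with
  | nil => intro g _ hg _; simpa using hg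
  | cons x l ih =>
    intro g hl hg hb
    rw [List.prod_cons, ← mul_assoc]
    refine ih (g * x) (fun y hy => hl y (List.mem_cons_of_mem _ hy)) ?_ ?_
    · refine hP g x (hl x List.mem_cons_self) hg ?_
      simpa using hb 1
    · intro b
      simpa [mul_assoc] using hb (b + 1)

theorem eAlg1_refine {k : ℕ} {T S : Finset H} (hT : Subgroup.closure (T : Set H) = ⊤)
    {ψ : H → Fin k → ℝ} (hψ : ∀ a b, ψ (a * b) = ψ a + ψ b) {c : ℝ} (hc0 : 0 ≤ c)
    (hc : ∀ g, ‖ψ g‖ ≤ c * wl T g) {L : ℕ} (hL : ∀ x, (x ∈ S ∨ x⁻¹ ∈ S) → wl T x ≤ L) {M : ℝ} :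
    ∀ (l : List H) (g : H), (∀ x ∈ l, x ∈ S ∨ x⁻¹ ∈ S) →
      (∀ b : ℕ, ‖ψ (g * (l.take b).prod)‖ ≤ M) →
      ∃ l' : List H, l'.length ≤ L * l.length ∧ (∀ x ∈ l', x ∈ T ∨ x⁻¹ ∈ T) ∧ l'.prod = l.prod ∧
        ∀ b : ℕ, ‖ψ (g * (l'.take b).prod)‖ ≤ M + c * L := by
  have hcL : 0 ≤ c * L := mul_nonneg hc0 (Nat.cast_nonneg _)
  intro l
  induction l with
  | nil =>
    intro g _ hb
    refine ⟨[], by simp, by simp, rfl, fun b => ?_⟩
    have := hb 0
    simp only [List.take_nil] at this ⊢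
    linarith
  | cons x l ih =>
    intro g hl hb
    obtain ⟨l'', h1, h2, h3, h4⟩ := ih (g * x) (fun y hy => hl y (List.mem_cons_of_mem _ hy))
      (fun b => by simpa [mul_assoc] using hb (b + 1))
    obtain ⟨w, hw1, hw2, hw3⟩ := wl_exists_list hT x
    have hwL : (w.length : ℝ) ≤ L := hw1 ▸ hL x (hl x List.mem_cons_self)
    have hwL' : w.length ≤ L := by exact_mod_cast hwL
    refine ⟨w ++ l'', ?_, ?_, ?_, fun b => ?_⟩
    · rw [List.length_append, List.length_cons, Nat.mul_succ]; omega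
    · intro y hy
      rcases List.mem_append.mp hy with hy | hy
      · exact hw2 y hy
      · exact h2 y hy
    · rw [List.prod_append, hw3, h3, List.prod_cons]
    · rw [List.take_append, List.prod_append]
      by_cases hbw : b ≤ w.length
      · have h0 : b - w.length = 0 := by omega
        rw [h0, List.take_zero, List.prod_nil, mul_one, hψ]
        have hg : ‖ψ g‖ ≤ M := by simpa using hb 0
        have h5 : wl T (w.take b).prod ≤ (w.take b).length :=
          wl_prod_le fun y hy => hw2 y (List.mem_of_mem_take hy)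
        have h6 : ((w.take b).length : ℝ) ≤ L := by
          have : (w.take b).length ≤ L := (List.length_take_le' _ _).trans hwL'
          exact_mod_cast this
        have h7 := hc (w.take b).prod
        have h8 : c * wl T (w.take b).prod ≤ c * L := mul_le_mul_of_nonneg_left (h5.trans h6) hc0
        have := norm_add_le (ψ g) (ψ (w.take b).prod)
        linarith
      · rw [List.take_of_length_le (by omega), hw3, ← mul_assoc]
        exact h4 _

/-- Let `A = closure {h | ‖ψ h‖ ≤ η}`; it contains `ker ψ`, and `‖ψ a - ψ b‖ ≤ η` implies `a b⁻¹ ∈ A`.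
Let `M'` be given by `SlabConn` for `η`.  The ball of radius `M'` in `V` is totally bounded, so there
is a finite set of `t_c` such that every `h` with `‖ψ h‖ ≤ M'` has `h t_c⁻¹ ∈ A` for some `c = c h`
(take `c 1` with `t = 1`, one representative per coset).  Schreier: along a slab path `h_{i+1} = h_i s_i`,
`h_{i+1} t_{c(i+1)}⁻¹ = (h_i t_{c i}⁻¹) (t_{c i} s_i t_{c(i+1)}⁻¹)`; so `A` is generated by the finitely many
elements of `A` of the form `t_c s t_{c'}⁻¹` or `t_c`. -/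
theorem fg_small {k : ℕ} {T : Finset H} (hT : Subgroup.closure (T : Set H) = ⊤)
    {ψ : H → Fin k → ℝ} (hψ : ∀ a b, ψ (a * b) = ψ a + ψ b) (hc : SlabConn T ψ) {η : ℝ}
    (hη : 0 < η) : (Subgroup.closure {h : H | ‖ψ h‖ ≤ η}).FG := by
  classical
  obtain ⟨M', hM'⟩ := hc η
  have htb : TotallyBounded (ψ '' {h | ‖ψ h‖ ≤ M'}) := by
    refine (isCompact_closedBall (0 : Fin k → ℝ) M').totallyBounded.subset ?_
    rintro _ ⟨h, hh, rfl⟩
    simpa using hh
  obtain ⟨t, hts, htf, hcov⟩ := Metric.finite_approx_of_totallyBounded htb η hη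
  obtain ⟨R, -, hRf, hRt⟩ : ∃ R ⊆ {h | ‖ψ h‖ ≤ M'}, R.Finite ∧ t = ψ '' R :=
    (Set.exists_subset_image_finite_and (p := fun u => t = u)).mp ⟨t, hts, htf, rfl⟩
  have hR : ∀ h, ‖ψ h‖ ≤ M' → ∃ r ∈ R, ‖ψ (h * r⁻¹)‖ ≤ η := by
    intro h hh
    have := hcov ⟨h, hh, rfl⟩
    simp only [Set.mem_iUnion] at this
    obtain ⟨y, hy, hy'⟩ := this
    rw [hRt] at hy
    obtain ⟨r, hr, rfl⟩ := hy
    refine ⟨r, hr, ?_⟩
    rw [eAlg1_div hψ, ← dist_eq_norm]
    exact (Metric.mem_ball.mp hy').le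
  set A := Subgroup.closure {h : H | ‖ψ h‖ ≤ η} with hA
  have hsm : ∀ h, ‖ψ h‖ ≤ η → h ∈ A := fun h hh => Subgroup.subset_closure hh
  let U : Set H := (T : Set H) ∪ (T : Set H)⁻¹
  have hU : U.Finite := T.finite_toSet.union T.finite_toSet.inv
  let G0 : Set H := R ∪ (fun p : H × H × H => p.1 * p.2.1 * p.2.2⁻¹) '' (R ×ˢ U ×ˢ R)
  have hG0 : G0.Finite := hRf.union ((hRf.prod (hU.prod hRf)).image _)
  have hle : Subgroup.closure (G0 ∩ A) ≤ A := (Subgroup.closure_le _).mpr Set.inter_subset_right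
  refine (Subgroup.fg_iff _).mpr ⟨G0 ∩ A, le_antisymm hle ?_, hG0.subset Set.inter_subset_left⟩
  rw [hA, Subgroup.closure_le]
  intro h hh
  obtain ⟨n, l, -, hl, hlp, hb⟩ := hM' h hh
  have key := eAlg1_path (T := T) (ψ := ψ) (M := M')
    (fun g => ∃ r ∈ R, g * r⁻¹ ∈ Subgroup.closure (G0 ∩ A)) ?_ l 1 hl ?_ (by simpa using hb)
  · obtain ⟨r, hr, hr'⟩ := key
    rw [one_mul, hlp] at hr'
    have hrA : r ∈ A := by
      have := A.mul_mem (A.inv_mem (hle hr')) (hsm h hh)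
      simpa using this
    have := Subgroup.mul_mem _ hr' (Subgroup.subset_closure (k := G0 ∩ A) ⟨Or.inl hr, hrA⟩)
    simpa using this
  · rintro g s hs ⟨r, hr, hr'⟩ hgs
    obtain ⟨r', hr1, hr2⟩ := hR _ hgs
    refine ⟨r', hr1, ?_⟩
    have e : g * s * r'⁻¹ = (g * r⁻¹) * (r * s * r'⁻¹) := by group
    have hmem : r * s * r'⁻¹ ∈ A := by
      have := A.mul_mem (A.inv_mem (hle hr')) (hsm _ hr2)
      rwa [e, inv_mul_cancel_left] at this
    rw [e]
    refine Subgroup.mul_mem _ hr' (Subgroup.subset_closure ⟨Or.inr ⟨(r, s, r'), ⟨hr, ?_, hr1⟩, rfl⟩, hmem⟩)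
    rcases hs with hs | hs
    · exact Or.inl hs
    · exact Or.inr hs
  · obtain ⟨r, hr, hr'⟩ := hR 1 (by simpa using hb 0)
    refine ⟨r, hr, ?_⟩
    rw [one_mul]
    refine Subgroup.inv_mem _ (Subgroup.subset_closure ⟨Or.inl hr, ?_⟩)
    have := A.inv_mem (hsm _ hr')
    simpa using this

/-- paths with steps in another finite set -/
theorem slab_growth' {k : ℕ} {T : Finset H} (hT : Subgroup.closure (T : Set H) = ⊤)
    {ψ : H → Fin k → ℝ} (hψ : ∀ a b, ψ (a * b) = ψ a + ψ b) (hg : SlabGrowth T ψ) :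
    ∃ C : ℝ, 0 < C ∧ ∀ S : Finset H, ∃ C' : ℝ, ∀ (M : ℝ) (n : ℕ), 0 ≤ M → 2 ≤ n →
      ({h | SlabPath S ψ M n h}.ncard : ℝ) ≤ Real.exp (C * (M + Real.log n) + C') := by
  obtain ⟨C, hC, hg⟩ := hg
  obtain ⟨c, hc0, hc⟩ := norm_hom_le hT ψ hψ
  refine ⟨C, hC, fun S => ?_⟩
  obtain ⟨L, hL1, hL⟩ : ∃ L : ℕ, 1 ≤ L ∧ ∀ x, (x ∈ S ∨ x⁻¹ ∈ S) → wl T x ≤ L := by
    obtain ⟨L, hL⟩ := exists_nat_ge (∑ x ∈ S, wl T x)
    have h1 : ∀ x ∈ S, wl T x ≤ L := fun x hx =>
      (Finset.single_le_sum (f := fun x => wl T x) (fun y _ => wl_nonneg y) hx).trans hL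
    refine ⟨L + 1, by omega, fun x hx => ?_⟩
    push_cast
    rcases hx with hx | hx
    · linarith [h1 x hx]
    · have := h1 _ hx
      rw [wl_inv] at this
      linarith
  refine ⟨C * (c * L + Real.log L), fun M n hM hn => ?_⟩
  have hcL : 0 ≤ c * L := mul_nonneg hc0.le (Nat.cast_nonneg _)
  have hsub : {h | SlabPath S ψ M n h} ⊆ {h | SlabPath T ψ (M + c * L) (L * n) h} := by
    rintro h ⟨l, h1, h2, h3, h4⟩
    obtain ⟨l', k1, k2, k3, k4⟩ := eAlg1_refine hT hψ hc0.le hc hL (M := M) l 1 h2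
      (by simpa using h4)
    exact ⟨l', k1.trans (Nat.mul_le_mul_left _ h1), k2, k3.trans h3, by simpa using k4⟩
  have h1 := Set.ncard_le_ncard hsub (finite_slabPath ψ _ _)
  have h2 := hg (M + c * L) (L * n) (by linarith) (by nlinarith)
  have h3 : Real.log ((L * n : ℕ) : ℝ) = Real.log L + Real.log n := by
    push_cast
    exact Real.log_mul (by positivity) (by positivity)
  rw [h3] at h2
  have h4 : C * (M + c * L + (Real.log L + Real.log n)) =
      C * (M + Real.log n) + C * (c * L + Real.log L) := by ring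
  rw [h4] at h2
  exact le_trans (by exact_mod_cast h1) h2

end Crest.Agent.R182
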