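import Crest.Agent.R182.GroBasic

/-!
# R182, Gromov's theorem: growth lemmas
-/

set_option autoImplicit false

namespace Crest.Agent.R182.Gro

open Pointwise Filter Topology Crest.GroupTheory

variable {G : Type*} [Group G]

theorem growth_exists_list {S : Set G} (hS : Subgroup.closure S = ⊤) (g : G) :
    ∃ l : List G, l.length = wordLength S g ∧ (∀ x ∈ l, x ∈ S ∨ x⁻¹ ∈ S) ∧ l.prod = g := by
  have hg : g ∈ Subgroup.closure S := by rw [hS]; trivial
  have hne : {n : ℕ | ∃ l : List G, l.length = n ∧ (∀ x ∈ l, x ∈ S ∨ x⁻¹ ∈ S) ∧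
      l.prod = g}.Nonempty := by
    have hg' : g ∈ Submonoid.closure (S ∪ S⁻¹) := by
      rw [← Subgroup.closure_toSubmonoid]; exact hg
    obtain ⟨l, h1, h2⟩ := Submonoid.exists_list_of_mem_closure hg'
    exact ⟨_, l, rfl, h1, h2⟩
  exact Nat.sInf_mem hne

theorem growth_mul_le {S : Set G} (hS : Subgroup.closure S = ⊤) (a b : G) :
    wordLength S (a * b) ≤ wordLength S a + wordLength S b := by
  obtain ⟨l, h1, h2, h3⟩ := growth_exists_list hS a
  obtain ⟨l', h1', h2', h3'⟩ := growth_exists_list hS b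
  refine Nat.sInf_le ⟨l ++ l', by simp [h1, h1'], ?_, by simp [h3, h3']⟩
  intro x hx
  exact (List.mem_append.1 hx).elim (h2 x) (h2' x)

theorem growth_ball_finite (S : Finset G) (hS : Subgroup.closure (S : Set G) = ⊤) (n : ℕ) :
    {g : G | wordLength (S : Set G) g ≤ n}.Finite := by
  classical
  have hfin : ((S : Set G) ∪ (S : Set G)⁻¹).Finite := S.finite_toSet.union S.finite_toSet.inv
  have : Finite ↥((S : Set G) ∪ (S : Set G)⁻¹) := hfin
  refine ((List.finite_length_le ↥((S : Set G) ∪ (S : Set G)⁻¹) n).image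
    fun l => (l.map Subtype.val).prod).subset ?_
  intro g hg
  obtain ⟨l, h1, h2, h3⟩ := growth_exists_list hS g
  refine ⟨l.pmap (fun x hx => ⟨x, hx⟩) h2, ?_, ?_⟩
  · simpa [h1] using hg
  · simp [List.map_pmap, h3]

theorem growth_pow_mem {T : Set G} {t : G} (h1 : (1 : G) ∈ T) (ht : t ∈ T) {j n : ℕ}
    (h : j ≤ n) : t ^ j ∈ T ^ n :=
  Set.pow_subset_pow_right h1 h (Set.pow_mem_pow ht)

/-- From the ball bound to `PG`.  Let `S' = insert 1 (S ∪ S⁻¹)`; the ball
`{g | wordLength S g ≤ n}` is contained in `S' ^ n`, hence finite (the `sInf` is attained,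
`Nat.sInf_mem`, because `S` generates).  `wordLength (a * b) ≤ wordLength a + wordLength b`.
For a finite `T`, with `L` a bound of the word lengths of its elements,
`T ^ n ⊆ ball (L * n)` and `L * n + 1 ≤ (L + 1) * (n + 1)`; note `0 ≤ C` from `n = 0`. -/
theorem pg_of_wordLength (S : Finset G) (hS : Subgroup.closure (S : Set G) = ⊤) (C : ℝ) (D : ℕ)
    (h : ∀ n : ℕ,
      (({g : G | wordLength (S : Set G) g ≤ n}.ncard : ℕ) : ℝ) ≤ C * ((n : ℝ) + 1) ^ D) :
    PG G D := by
  intro T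
  obtain ⟨L, hL⟩ : ∃ L : ℕ, ∀ x ∈ T, wordLength (S : Set G) x ≤ L :=
    ⟨T.sup (wordLength (S : Set G)), fun x hx => Finset.le_sup (f := wordLength (S : Set G)) hx⟩
  have hC : 0 ≤ C := by
    have := h 0
    simp only [Nat.cast_zero, zero_add, one_pow, mul_one] at this
    exact le_trans (Nat.cast_nonneg _) this
  have hsub : ∀ n : ℕ, (T : Set G) ^ n ⊆ {g : G | wordLength (S : Set G) g ≤ L * n} := by
    intro n
    induction n with
    | zero =>
      intro g hg
      obtain rfl : g = 1 := by simpa using hg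
      exact Nat.sInf_le ⟨[], rfl, by simp, rfl⟩
    | succ n ih =>
      intro g hg
      rw [pow_succ] at hg
      obtain ⟨a, ha, b, hb, rfl⟩ := hg
      have h1 : wordLength (S : Set G) a ≤ L * n := ih ha
      have h2 := hL b hb
      have h3 := growth_mul_le hS a b
      show wordLength (S : Set G) (a * b) ≤ L * (n + 1)
      rw [mul_add]
      omega
  refine ⟨C * ((L : ℝ) + 1) ^ D, fun n => ?_⟩
  have h1 : (((T : Set G) ^ n).ncard : ℝ) ≤
      ({g : G | wordLength (S : Set G) g ≤ L * n}.ncard : ℝ) := by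
    exact_mod_cast Set.ncard_le_ncard (hsub n) (growth_ball_finite S hS _)
  refine h1.trans ((h (L * n)).trans ?_)
  rw [mul_assoc, ← mul_pow]
  refine mul_le_mul_of_nonneg_left (pow_le_pow_left₀ (by positivity) ?_ D) hC
  push_cast
  nlinarith [Nat.cast_nonneg (α := ℝ) L, Nat.cast_nonneg (α := ℝ) n]

/-- `g = (g * t ^ (-j)) * t ^ j` with `j = toAdd (φ g)`. -/
theorem ker_sup_zpowers (φ : G →* Multiplicative ℤ) (t : G) (ht : φ t = Multiplicative.ofAdd 1) :
    φ.ker ⊔ Subgroup.zpowers t = ⊤ := by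
  rw [eq_top_iff]
  intro g _
  have e : g = (g * t ^ (-Multiplicative.toAdd (φ g))) * t ^ Multiplicative.toAdd (φ g) := by
    group
  rw [e]
  refine Subgroup.mul_mem_sup ?_ (Subgroup.zpow_mem_zpowers _ _)
  rw [MonoidHom.mem_ker, map_mul, map_zpow, ht, ← ofAdd_zsmul]
  simp

/-- `t ^ j * 1 ^ (n - j)`, `j ≤ n`, are `n + 1` distinct elements of `{1, t} ^ n`
(`PG.card_le_of_inj`). -/
theorem not_pg_zero (h : PG G 0) (φ : G →* Multiplicative ℤ) (hφ : Function.Surjective φ) :
    False := by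
  classical
  obtain ⟨t, ht⟩ := hφ (Multiplicative.ofAdd 1)
  obtain ⟨C, -, hC⟩ := h.card_le_of_inj {1, t}
  obtain ⟨n, hn⟩ := exists_nat_gt C
  have := hC n (Fin (n + 1)) (fun j => t ^ (j : ℕ)) (by
    intro i j hij
    have h1 := congrArg (fun g => Multiplicative.toAdd (φ g)) hij
    simp only [map_pow, ht, toAdd_pow, toAdd_ofAdd, nsmul_eq_mul, mul_one, Nat.cast_inj] at h1
    exact Fin.ext h1) fun j => growth_pow_mem (by simp) (by simp) (Nat.lt_succ_iff.1 j.2)
  simp only [Fintype.card_fin, pow_zero, mul_one] at this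
  push_cast at this
  linarith

/-- For a finite `T ⊆ ker φ` let `T' = {1, t} ∪ T`.  The map `(k, j) ↦ k * t ^ j` is injective
on `T ^ n × {0, …, n}` (apply `φ`) with values in `T' ^ (2 n)`, so
`|T ^ n| (n + 1) ≤ C (2 n + 1) ^ (D + 1) ≤ C 2 ^ (D + 1) (n + 1) ^ (D + 1)`. -/
theorem pg_ker {D : ℕ} (h : PG G (D + 1)) (φ : G →* Multiplicative ℤ)
    (hφ : Function.Surjective φ) : PG φ.ker D := by
  classical
  obtain ⟨t, ht⟩ := hφ (Multiplicative.ofAdd 1)
  intro T
  set T' : Finset G := insert 1 (insert t (T.image Subtype.val)) with hT'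
  obtain ⟨C, hC1, hC⟩ := h.card_le T'
  refine ⟨C * 2 ^ (D + 1), fun n => ?_⟩
  have hsub : ∀ k ∈ (T : Set φ.ker) ^ n, (k : G) ∈ (T' : Set G) ^ n := by
    intro k hk
    have h1 : (k : G) ∈ φ.ker.subtype '' ((T : Set φ.ker) ^ n) := ⟨k, hk, rfl⟩
    rw [Set.image_pow] at h1
    refine Set.pow_subset_pow_left ?_ h1
    rintro _ ⟨x, hx, rfl⟩
    simp only [hT', Finset.coe_insert, Finset.coe_image]
    exact Or.inr (Or.inr ⟨x, hx, rfl⟩)
  have hinj : Set.InjOn (fun p : φ.ker × ℕ => (p.1 : G) * t ^ p.2)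
      ((T ^ n) ×ˢ Finset.range (n + 1) : Finset (φ.ker × ℕ)) := by
    rintro ⟨k, i⟩ - ⟨k', j⟩ - hij
    have h1 := congrArg (fun g => Multiplicative.toAdd (φ g)) hij
    simp only [map_mul, MonoidHom.mem_ker.1 k.2, MonoidHom.mem_ker.1 k'.2, one_mul, map_pow, ht,
      toAdd_pow, toAdd_ofAdd, nsmul_eq_mul, mul_one, Nat.cast_inj] at h1
    subst h1
    exact Prod.ext (Subtype.ext (mul_right_cancel hij)) rfl
  have h2 := hC (n + n) (((T ^ n) ×ˢ Finset.range (n + 1) : Finset (φ.ker × ℕ)).image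
    fun p => (p.1 : G) * t ^ p.2) (by
      intro x hx
      obtain ⟨⟨k, j⟩, hp, rfl⟩ := Finset.mem_image.1 (Finset.mem_coe.1 hx)
      obtain ⟨hk, hj⟩ := Finset.mem_product.1 hp
      rw [pow_add]
      refine Set.mul_mem_mul (hsub k (by rw [← Finset.coe_pow]; exact hk)) ?_
      exact growth_pow_mem (by simp [hT']) (by simp [hT'])
        (Nat.lt_succ_iff.1 (Finset.mem_range.1 hj)))
  rw [Finset.card_image_of_injOn hinj, Finset.card_product, Finset.card_range] at h2
  rw [← Finset.coe_pow, Set.ncard_coe_finset]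
  push_cast at h2
  have hn : (0 : ℝ) < (n : ℝ) + 1 := by positivity
  refine le_of_mul_le_mul_right (h2.trans ?_) hn
  rw [mul_assoc, mul_assoc, ← pow_succ, ← mul_pow]
  refine mul_le_mul_of_nonneg_left (pow_le_pow_left₀ (by positivity) (by linarith) _) (by linarith)

end Crest.Agent.R182.Gro
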