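import Crest.Agent.R182.GroBasic

/-!
# R182, Gromov's theorem: the kernel of a map onto `ℤ`
-/

set_option autoImplicit false

namespace Crest.Agent.R182.Gro

open Pointwise Filter Topology Crest.GroupTheory

variable {G : Type*} [Group G]

/-- ordered products of conjugates -/
def milnorW (t x : G) (e : ℕ → Bool) : ℕ → G
  | 0 => 1
  | m + 1 => milnorW t x e m * (if e m then t ^ m * x * (t ^ m)⁻¹ else 1)

/-- the subgroup generated by the first conjugates -/
def milnorM (t x : G) (b : ℕ) : Subgroup G :=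
  Subgroup.closure ((fun j : ℕ => t ^ j * x * (t ^ j)⁻¹) '' Set.Iio b)

theorem milnorM_mono (t x : G) {a b : ℕ} (h : a ≤ b) : milnorM t x a ≤ milnorM t x b :=
  Subgroup.closure_mono (Set.image_mono (Set.Iio_subset_Iio h))

theorem milnor_mem_M (t x : G) {j b : ℕ} (h : j < b) : t ^ j * x * (t ^ j)⁻¹ ∈ milnorM t x b :=
  Subgroup.subset_closure ⟨j, h, rfl⟩

theorem milnorW_mem (t x : G) (e : ℕ → Bool) (m : ℕ) : milnorW t x e m ∈ milnorM t x m := by
  induction m with
  | zero => exact one_mem _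
  | succ m ih =>
    refine mul_mem (milnorM_mono t x m.le_succ ih) ?_
    split_ifs
    · exact milnor_mem_M t x m.lt_succ_self
    · exact one_mem _

theorem milnorW_inj {t x : G} (h : ∀ b, t ^ b * x * (t ^ b)⁻¹ ∉ milnorM t x b) (e e' : ℕ → Bool)
    (m : ℕ) (hm : milnorW t x e m = milnorW t x e' m) : ∀ j < m, e j = e' j := by
  induction m with
  | zero => intro j hj; omega
  | succ m ih =>
    have key : e m = e' m := by
      by_contra hne
      refine h m ?_
      have a := milnorW_mem t x e m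
      have a' := milnorW_mem t x e' m
      simp only [milnorW] at hm
      cases h1 : e m <;> cases h2 : e' m
      · exact absurd (h1.trans h2.symm) hne
      · rw [h1, h2] at hm
        simp only [Bool.false_eq_true, if_false, if_true, mul_one] at hm
        rw [← inv_mul_eq_iff_eq_mul] at hm
        rw [← hm]
        exact mul_mem (inv_mem a') a
      · rw [h1, h2] at hm
        simp only [Bool.false_eq_true, if_false, if_true, mul_one] at hm
        rw [← eq_inv_mul_iff_mul_eq] at hm
        rw [hm]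
        exact mul_mem (inv_mem a) a'
      · exact absurd (h1.trans h2.symm) hne
    have hm' : milnorW t x e m = milnorW t x e' m := by
      simp only [milnorW, key] at hm
      exact mul_right_cancel hm
    intro j hj
    rcases Nat.lt_succ_iff_lt_or_eq.1 hj with hj | rfl
    · exact ih hm' j hj
    · exact key

theorem milnorW_pow (t x : G) (e : ℕ → Bool) {T : Set G} (h1 : (1 : G) ∈ T) (hx : x ∈ T)
    (ht : t ∈ T) (m : ℕ) : milnorW t x e m * t ^ m ∈ T ^ (2 * m) := by
  induction m with
  | zero => simp [milnorW]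
  | succ m ih =>
    have e1 : milnorW t x e (m + 1) * t ^ (m + 1) =
        milnorW t x e m * t ^ m * (if e m then x else 1) * t := by
      simp only [milnorW]
      split_ifs <;> group
    rw [e1, show 2 * (m + 1) = 2 * m + 1 + 1 by ring, pow_succ, pow_succ]
    refine Set.mul_mem_mul (Set.mul_mem_mul ih ?_) ht
    split_ifs
    · exact hx
    · exact h1

theorem milnor_exists {D : ℕ} (h : PG G D) (t x : G) :
    ∃ b, t ^ b * x * (t ^ b)⁻¹ ∈ milnorM t x b := by
  classical
  by_contra hne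
  push Not at hne
  obtain ⟨C, hC1, hC⟩ := h.card_le_of_inj {1, x, t}
  have key : ∀ m : ℕ, (2 : ℝ) ^ m ≤ C * (((2 * m : ℕ) : ℝ) + 1) ^ D := fun m => by
    have := hC (2 * m) (Fin m → Bool)
      (fun e => milnorW t x (fun j => if hj : j < m then e ⟨j, hj⟩ else false) m * t ^ m)
      (fun e e' hee => by
        funext j
        have := milnorW_inj hne _ _ m (mul_right_cancel hee) j.1 j.2
        simpa [j.2] using this)
      (fun e => milnorW_pow t x _ (by simp) (by simp) (by simp) m)
    simpa using this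
  have lim := (tendsto_pow_const_div_const_pow_of_one_lt D (one_lt_two (α := ℝ))).const_mul
    (C * 3 ^ D)
  rw [mul_zero] at lim
  obtain ⟨m, hm, hm1⟩ := ((lim.eventually (gt_mem_nhds one_pos)).and (eventually_ge_atTop 1)).exists
  have hm1' : (1 : ℝ) ≤ m := by exact_mod_cast hm1
  have h2 : (0 : ℝ) < 2 ^ m := by positivity
  have h3 : (((2 * m : ℕ) : ℝ) + 1) ^ D ≤ (3 * (m : ℝ)) ^ D := by
    refine pow_le_pow_left₀ (by positivity) ?_ D
    push_cast
    linarith
  rw [← mul_div_assoc, div_lt_one h2, mul_assoc, ← mul_pow] at hm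
  have := (key m).trans (mul_le_mul_of_nonneg_left h3 (by linarith))
  linarith

/-- Milnor's lemma.  Let `x j = t ^ j * x * (t ^ j)⁻¹`.  If `x b ∉ closure {x j | j < b}` for
every `b`, then the products `w m e = ∏_{j < m} (x j) ^ (e j)` (increasing order,
`e : Fin m → Bool`) are distinct (induction on `m`: compare the last factors), and
`w m e * t ^ m = ∏_{j < m} (x ^ (e j) * t) ∈ {1, x, t} ^ (2 m)`, so `2 ^ m ≤ C (2 m + 1) ^ D` for
all `m`, absurd.  So some `x b ∈ M := closure {x j | j < b}`; then `t M t⁻¹ ≤ M`.  If `b = 0` then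
`x = 1`; in all cases `x ∈ M`. -/
theorem exists_fg_stable {D : ℕ} (h : PG G D) (t x : G) :
    ∃ M : Subgroup G, M.FG ∧ x ∈ M ∧ (∀ y ∈ M, t * y * t⁻¹ ∈ M) ∧
      M ≤ Subgroup.normalClosure {x} := by
  obtain ⟨b, hb⟩ := milnor_exists h t x
  refine ⟨milnorM t x b, ?_, ?_, ?_, ?_⟩
  · exact (Subgroup.fg_iff _).2 ⟨_, rfl, (Set.finite_Iio b).image _⟩
  · rcases Nat.eq_zero_or_pos b with rfl | hb0
    · simpa using hb
    · simpa using milnor_mem_M t x hb0
  · intro y hy
    have : milnorM t x b ≤ (milnorM t x b).comap (MulAut.conj t).toMonoidHom := by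
      refine (Subgroup.closure_le _).2 ?_
      rintro _ ⟨j, hj, rfl⟩
      have e : t * (t ^ j * x * (t ^ j)⁻¹) * t⁻¹ = t ^ (j + 1) * x * (t ^ (j + 1))⁻¹ := by group
      change t * (t ^ j * x * (t ^ j)⁻¹) * t⁻¹ ∈ milnorM t x b
      rw [e]
      rcases (Nat.succ_le_of_lt hj).lt_or_eq with hj' | hj'
      · exact milnor_mem_M t x hj'
      · rw [show j + 1 = b from hj']; exact hb
    exact this hy
  · refine (Subgroup.closure_le _).2 ?_
    rintro _ ⟨j, -, rfl⟩
    exact Subgroup.normalClosure_normal.conj_mem _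
      (Subgroup.subset_normalClosure (Set.mem_singleton x)) _

theorem milnor_pow_mem {M : Subgroup G} {t x : G} (hx : x ∈ M) (h : ∀ y ∈ M, t * y * t⁻¹ ∈ M)
    (n : ℕ) : t ^ n * x * (t ^ n)⁻¹ ∈ M := by
  induction n with
  | zero => simpa using hx
  | succ n ih =>
    have e : t ^ (n + 1) * x * (t ^ (n + 1))⁻¹ = t * (t ^ n * x * (t ^ n)⁻¹) * t⁻¹ := by group
    rw [e]
    exact h _ ih

/-- Pick `t` with `φ t = ofAdd 1` and a finite generating set `S`; `x s = s * t ^ (-toAdd (φ s))`
lies in the kernel.  Let `N` be the sup over `s ∈ S` of the subgroups given by `exists_fg_stable`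
for `(t, x s)` and `(t⁻¹, x s)`: `N` is finitely generated and `N ≤ ker φ`.  Let
`N' = closure {t ^ j * x s * (t ^ j)⁻¹ | s ∈ S, j : ℤ}`; `N' ≤ N`, `N'` is normalised by `t ^ j`,
and every `g` has `g * t ^ (-toAdd (φ g)) ∈ N'` (closure induction).  So
`ker φ ≤ N' ≤ N ≤ ker φ`. -/
theorem ker_fg [Group.FG G] {D : ℕ} (h : PG G D) (φ : G →* Multiplicative ℤ)
    (hφ : Function.Surjective φ) : φ.ker.FG := by
  obtain ⟨t, ht⟩ := hφ (Multiplicative.ofAdd 1)
  obtain ⟨S, hS⟩ := exists_gen G
  have htz : ∀ n : ℤ, φ (t ^ n) = Multiplicative.ofAdd n := fun n => by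
    rw [map_zpow, ht, ← ofAdd_zsmul]; simp
  let x : G → G := fun s => s * t ^ (-(φ s).toAdd)
  have hx : ∀ s, x s ∈ φ.ker := fun s => by
    rw [MonoidHom.mem_ker, map_mul, htz, ofAdd_neg, ofAdd_toAdd, mul_inv_cancel]
  choose M hM using fun s => exists_fg_stable h t (x s)
  choose M' hM' using fun s => exists_fg_stable h t⁻¹ (x s)
  let N : Subgroup G := ⨆ s ∈ S, (M s ⊔ M' s)
  have hN : N.FG := Subgroup.FG.biSup_finset S _ fun s _ => (hM s).1.sup (hM' s).1
  have hle : ∀ s, Subgroup.normalClosure {x s} ≤ φ.ker := fun s =>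
    Subgroup.normalClosure_le_normal (Set.singleton_subset_iff.2 (hx s))
  have hNk : N ≤ φ.ker := iSup₂_le fun s _ =>
    sup_le ((hM s).2.2.2.trans (hle s)) ((hM' s).2.2.2.trans (hle s))
  have hxN : ∀ s ∈ S, ∀ n : ℤ, t ^ n * x s * (t ^ n)⁻¹ ∈ N := by
    intro s hs n
    have hs' : M s ⊔ M' s ≤ N := le_iSup₂ (f := fun s (_ : s ∈ S) => M s ⊔ M' s) s hs
    refine hs' ?_
    obtain ⟨k, rfl | rfl⟩ := n.eq_nat_or_neg
    · rw [zpow_natCast]
      exact Subgroup.mem_sup_left (milnor_pow_mem (hM s).2.1 (hM s).2.2.1 k)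
    · rw [zpow_neg, zpow_natCast, ← inv_pow]
      exact Subgroup.mem_sup_right (milnor_pow_mem (hM' s).2.1 (hM' s).2.2.1 k)
  have key : ∀ g, x g ∈ N := fun g => by
    refine hS.induction (q := fun g => x g ∈ N) ?_ ?_ g
    · simp [x]
    · intro g s hs hg
      have e : x (g * s) = x g * (t ^ (φ g).toAdd * x s * (t ^ (φ g).toAdd)⁻¹) := by
        simp only [x, map_mul, toAdd_mul]
        group
      rw [e]
      exact mul_mem hg (hxN s hs _)
  have : φ.ker = N := le_antisymm (fun g hg => by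
    have := key g
    simpa [x, MonoidHom.mem_ker.1 hg] using this) hNk
  rw [this]
  exact hN

end Crest.Agent.R182.Gro
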