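import Crest.Agent.R182.GroInd
import Crest.Agent.R182.GroMilnor
import Crest.Agent.R182.GroGrowth
import Crest.Agent.R182.GroPoly

/-!
# R182, Gromov's theorem: the induction
-/

set_option autoImplicit false

namespace Crest.Agent.R182.Gro

open Pointwise Filter Topology Crest.GroupTheory

variable {G : Type*} [Group G]

universe u

theorem vpoly_of_pg (D : ℕ) : ∀ (G : Type u) [Group G] [Group.FG G], PG G D →
    IsVirtuallyPolycyclic G := by
  induction D with
  | zero =>
    intro G _ _ h
    rcases finite_or_infinite G with hG | hG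
    · exact vpoly_of_finite
    · obtain ⟨H, _, φ, hφ⟩ := exists_indicable h
      exact (not_pg_zero (h.subgroup H) φ hφ).elim
  | succ D ih =>
    intro G _ _ h
    rcases finite_or_infinite G with hG | hG
    · exact vpoly_of_finite
    · obtain ⟨H, _, φ, hφ⟩ := exists_indicable h
      have hfg : φ.ker.FG := ker_fg (h.subgroup H) φ hφ
      have : Group.FG φ.ker := (Group.fg_iff_subgroup_fg _).2 hfg
      have hK := ih φ.ker (pg_ker (h.subgroup H) φ hφ)
      obtain ⟨t, ht⟩ := hφ (Multiplicative.ofAdd 1)
      exact vpoly_of_finiteIndex H (vpoly_ext_cyclic φ.ker hfg hK t (ker_sup_zpowers φ t ht))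

end Crest.Agent.R182.Gro
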