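import Mathlib
import Crest.Prelude.Def_Polycyclic
import Crest.Prelude.Def_WordHyperbolic
import Crest.Agent.R182.GroMain

/-!
Row 182, part A: Gromov's polynomial growth theorem (in the weak form "virtually polycyclic").
SUB-PROJECT: the owner of task `R182/Gromov` splits the proof into files `R182/Gro*.lean`
(namespace `Crest.Agent.R182`, declarations prefixed `gro_` or in a sub-namespace) and finally fills
the three sorries below.  The statements in this file are used by the rest of row 182: keep them.
-/

set_option autoImplicit false

namespace Crest.Agent.R182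

open Crest.GroupTheory

/-- An extension of a finitely generated virtually polycyclic group by a cyclic group is virtually
polycyclic.  (`K` has a finite-index polycyclic subgroup that is characteristic in `K`: intersect all
subgroups of the same index, finitely many because `K` is finitely generated; subgroups of polycyclic
groups are polycyclic.  Then take `K₀ ⊔ zpowers t`.) -/
theorem vpoly_ext_cyclic {G : Type*} [Group G] (K : Subgroup G) [K.Normal] (hK : K.FG)
    (hv : IsVirtuallyPolycyclic K) (t : G) (ht : K ⊔ Subgroup.zpowers t = ⊤) :
    IsVirtuallyPolycyclic G :=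
  Gro.vpoly_ext_cyclic K hK hv t ht

/-- passing to a finite-index overgroup -/
theorem vpoly_of_finiteIndex {G : Type*} [Group G] (K : Subgroup G) [K.FiniteIndex]
    (hv : IsVirtuallyPolycyclic K) : IsVirtuallyPolycyclic G :=
  Gro.vpoly_of_finiteIndex K hv

/-- **Gromov**: a finitely generated group of polynomial growth is virtually polycyclic. -/
theorem gromov {G : Type*} [Group G] (S : Finset G) (hS : Subgroup.closure (S : Set G) = ⊤)
    (C : ℝ) (D : ℕ)
    (h : ∀ n : ℕ, (({g : G | wordLength (S : Set G) g ≤ n}.ncard : ℕ) : ℝ) ≤ C * ((n : ℝ) + 1) ^ D) :
    IsVirtuallyPolycyclic G := by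
  have : Group.FG G := Group.fg_def.2 ⟨S, hS⟩
  exact Gro.vpoly_of_pg D G (Gro.pg_of_wordLength S hS C D h)

end Crest.Agent.R182
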