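import Crest.Agent.R182.EAlg1
import Crest.Agent.R182.Gromov

/-! Row 182, task `R182/EAlg2`: the kernel is finitely generated. -/

set_option autoImplicit false

namespace Crest.Agent.R182

open scoped BigOperators
open MeasureTheory Crest.GroupTheory Crest.Geometry

variable {H : Type*} [Group H]

section Aux

variable {k : ℕ} {ψ : H → Fin k → ℝ}

theorem e2_psi_one (hψ : ∀ a b, ψ (a * b) = ψ a + ψ b) : ψ 1 = 0 := by
  have h := hψ 1 1
  rw [mul_one] at h
  exact left_eq_add.1 h

theorem e2_psi_inv (hψ : ∀ a b, ψ (a * b) = ψ a + ψ b) (a : H) : ψ a⁻¹ = -ψ a := by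
  have h := hψ a⁻¹ a
  rw [inv_mul_cancel, e2_psi_one hψ] at h
  exact eq_neg_of_add_eq_zero_left h.symm

theorem e2_norm_prod_le (hψ : ∀ a b, ψ (a * b) = ψ a + ψ b) {η : ℝ} (l : List H)
    (hl : ∀ y ∈ l, ‖ψ y‖ ≤ η) : ‖ψ l.prod‖ ≤ l.length * η := by
  induction l with
  | nil => simp [e2_psi_one hψ]
  | cons a l ih =>
    rw [List.prod_cons, hψ, List.length_cons]
    have h1 := hl a (by simp)
    have h2 := ih fun y hy => hl y (by simp [hy])
    have h3 := norm_add_le (ψ a) (ψ l.prod)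
    push_cast
    linarith

/-- the word `∏_{j<m} (x^{e_j} t)` as a list -/
def e2L (t x : H) (e : ℕ → Bool) : ℕ → List H
  | 0 => []
  | m + 1 => e2L t x e m ++ (if e m then [x, t] else [t])

theorem e2L_prod (t x : H) (e : ℕ → Bool) (m : ℕ) :
    (e2L t x e m).prod = Gro.milnorW t x e m * t ^ m := by
  induction m with
  | zero => simp [e2L, Gro.milnorW]
  | succ m ih =>
    simp only [e2L, Gro.milnorW, List.prod_append, ih]
    split_ifs
    · simp only [List.prod_cons, List.prod_nil]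
      group
    · simp only [List.prod_cons, List.prod_nil]
      group

omit [Group H] in
theorem e2L_length (t x : H) (e : ℕ → Bool) (m : ℕ) : (e2L t x e m).length ≤ 2 * m := by
  induction m with
  | zero => simp [e2L]
  | succ m ih =>
    simp only [e2L, List.length_append]
    split_ifs
    · simp only [List.length_cons, List.length_nil]
      omega
    · simp only [List.length_cons, List.length_nil]
      omega

omit [Group H] in
theorem e2L_mem (t x : H) (e : ℕ → Bool) (m : ℕ) : ∀ y ∈ e2L t x e m, y = x ∨ y = t := by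
  induction m with
  | zero => simp [e2L]
  | succ m ih =>
    intro y hy
    simp only [e2L, List.mem_append] at hy
    rcases hy with hy | hy
    · exact ih y hy
    · split_ifs at hy
      · simpa using hy
      · exact Or.inr (by simpa using hy)

theorem e2_collision {T : Finset H} (hT : Subgroup.closure (T : Set H) = ⊤)
    (hψ : ∀ a b, ψ (a * b) = ψ a + ψ b) (hg : SlabGrowth T ψ) :
    ∃ η : ℝ, 0 < η ∧ ∀ x t : H, ‖ψ x‖ ≤ η → ‖ψ t‖ ≤ η →
      ∃ b, t ^ b * x * (t ^ b)⁻¹ ∈ Gro.milnorM t x b := by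
  classical
  obtain ⟨C, hC, hS⟩ := slab_growth' hT hψ hg
  have hl2 : 0 < Real.log 2 := Real.log_pos one_lt_two
  refine ⟨Real.log 2 / (4 * C), by positivity, fun x t hx ht => ?_⟩
  set η := Real.log 2 / (4 * C) with hη
  have hη0 : 0 < η := by positivity
  by_contra hne
  push Not at hne
  obtain ⟨C', hC'⟩ := hS {x, t}
  have key : ∀ m : ℕ, 1 ≤ m →
      (2 : ℝ) ^ m ≤ Real.exp (C * (((2 * m : ℕ) : ℝ) * η + Real.log ((2 * m : ℕ) : ℝ)) + C') := by
    intro m hm
    refine le_trans ?_ (hC' (((2 * m : ℕ) : ℝ) * η) (2 * m) (by positivity) (by omega))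
    let f : (Fin m → Bool) → H := fun e =>
      Gro.milnorW t x (fun j => if hj : j < m then e ⟨j, hj⟩ else false) m * t ^ m
    have hf : Function.Injective f := fun e e' hee => by
      funext j
      have := Gro.milnorW_inj hne _ _ m (mul_right_cancel hee) j.1 j.2
      simpa [j.2] using this
    have hsub : Set.range f ⊆ {h | SlabPath ({x, t} : Finset H) ψ (((2 * m : ℕ) : ℝ) * η) (2 * m) h} := by
      rintro _ ⟨e, rfl⟩
      set e' : ℕ → Bool := fun j => if hj : j < m then e ⟨j, hj⟩ else false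
      refine ⟨e2L t x e' m, e2L_length t x e' m, fun y hy => Or.inl ?_, e2L_prod t x e' m,
        fun b => ?_⟩
      · rcases e2L_mem t x e' m y hy with rfl | rfl <;> simp
      · refine (e2_norm_prod_le hψ (η := η) _ fun y hy => ?_).trans ?_
        · rcases e2L_mem t x e' m y (List.mem_of_mem_take hy) with rfl | rfl
          · exact hx
          · exact ht
        · refine mul_le_mul_of_nonneg_right ?_ hη0.le
          have h1 : ((e2L t x e' m).take b).length ≤ 2 * m :=
            (List.length_take_le' _ _).trans (e2L_length t x e' m)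
          exact_mod_cast h1
    have h1 := Set.ncard_le_ncard hsub (finite_slabPath ψ _ _)
    rw [Set.ncard_range_of_injective hf] at h1
    have h2 : Nat.card (Fin m → Bool) = 2 ^ m := by simp
    rw [h2] at h1
    exact_mod_cast h1
  set a : ℝ := 8 * C / Real.log 2 with ha
  have ha0 : 0 < a := by positivity
  obtain ⟨m, hm⟩ := exists_nat_gt (max 1 (4 * (C * Real.log a + C') / Real.log 2))
  have hm1 : (1 : ℝ) < m := (le_max_left _ _).trans_lt hm
  have hm2 : 4 * (C * Real.log a + C') / Real.log 2 < m := (le_max_right _ _).trans_lt hm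
  have hm1' : 1 ≤ m := by exact_mod_cast hm1.le
  have h1 := key m hm1'
  have h2 : (2 : ℝ) ^ m = Real.exp (m * Real.log 2) := by
    rw [← Real.log_pow, Real.exp_log (by positivity)]
  rw [h2, Real.exp_le_exp] at h1
  have h3 : Real.log ((2 * m : ℕ) : ℝ) ≤ ((2 * m : ℕ) : ℝ) / a + Real.log a := by
    have hp : (0 : ℝ) < ((2 * m : ℕ) : ℝ) := by
      push_cast
      linarith
    have h4 := Real.log_le_sub_one_of_pos (div_pos hp ha0)
    rw [Real.log_div hp.ne' ha0.ne'] at h4
    linarith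
  have h4 : C * (((2 * m : ℕ) : ℝ) * η) = m * Real.log 2 / 2 := by
    rw [hη]
    push_cast
    field_simp
    ring
  have h5 : C * (((2 * m : ℕ) : ℝ) / a) = m * Real.log 2 / 4 := by
    rw [ha]
    push_cast
    field_simp
    ring
  have h6 := mul_le_mul_of_nonneg_left h3 hC.le
  rw [div_lt_iff₀ hl2] at hm2
  rw [mul_add] at h1 h6
  linarith

theorem e2_stable {t x : H} {b : ℕ} (hb : t ^ b * x * (t ^ b)⁻¹ ∈ Gro.milnorM t x b) (n : ℕ) :
    t ^ n * x * (t ^ n)⁻¹ ∈ Gro.milnorM t x b := by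
  refine Gro.milnor_pow_mem ?_ ?_ n
  · rcases Nat.eq_zero_or_pos b with rfl | hb0
    · simpa using hb
    · simpa using Gro.milnor_mem_M t x hb0
  · intro y hy
    have : Gro.milnorM t x b ≤ (Gro.milnorM t x b).comap (MulAut.conj t).toMonoidHom := by
      refine (Subgroup.closure_le _).2 ?_
      rintro _ ⟨j, hj, rfl⟩
      have e : t * (t ^ j * x * (t ^ j)⁻¹) * t⁻¹ = t ^ (j + 1) * x * (t ^ (j + 1))⁻¹ := by group
      change t * (t ^ j * x * (t ^ j)⁻¹) * t⁻¹ ∈ Gro.milnorM t x b
      rw [e]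
      rcases (Nat.succ_le_of_lt hj).lt_or_eq with hj' | hj'
      · exact Gro.milnor_mem_M t x hj'
      · rw [show j + 1 = b from hj']; exact hb
    exact this hy

/-- an element of a closure lies in the closure of a finite subset -/
theorem e2_mem_closure_finset {Z : Set H} {g : H} (hg : g ∈ Subgroup.closure Z) :
    ∃ Y : Finset H, (Y : Set H) ⊆ Z ∧ g ∈ Subgroup.closure (Y : Set H) := by
  classical
  induction hg using Subgroup.closure_induction with
  | mem x hx => exact ⟨{x}, by simpa using hx, Subgroup.subset_closure (by simp)⟩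
  | one => exact ⟨∅, by simp, one_mem _⟩
  | mul x y _ _ hx hy =>
    obtain ⟨Y, hY, hx⟩ := hx
    obtain ⟨Y', hY', hy⟩ := hy
    refine ⟨Y ∪ Y', by simp [hY, hY'], mul_mem ?_ ?_⟩
    · exact Subgroup.closure_mono (by simp) hx
    · exact Subgroup.closure_mono (by simp) hy
  | inv x _ hx =>
    obtain ⟨Y, hY, hx⟩ := hx
    exact ⟨Y, hY, inv_mem hx⟩

/-- a finitely generated closure is the closure of a finite subset -/
theorem e2_fg_closure {Z : Set H} (h : (Subgroup.closure Z).FG) :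
    ∃ Y : Finset H, (Y : Set H) ⊆ Z ∧ Subgroup.closure (Y : Set H) = Subgroup.closure Z := by
  classical
  obtain ⟨S, hS⟩ := h
  have h1 : ∀ s ∈ S, ∃ Y : Finset H, (Y : Set H) ⊆ Z ∧ s ∈ Subgroup.closure (Y : Set H) :=
    fun s hs => e2_mem_closure_finset (hS ▸ Subgroup.subset_closure hs)
  choose! Y hY using h1
  have hsub : ((S.biUnion Y : Finset H) : Set H) ⊆ Z := by
    intro y hy
    obtain ⟨s, hs, hy⟩ := Finset.mem_biUnion.1 (Finset.mem_coe.1 hy)
    exact (hY s hs).1 hy
  refine ⟨S.biUnion Y, hsub, le_antisymm (Subgroup.closure_mono hsub) ?_⟩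
  rw [← hS, Subgroup.closure_le]
  intro s hs
  refine Subgroup.closure_mono ?_ (hY s hs).2
  intro y hy
  exact Finset.mem_coe.2 (Finset.mem_biUnion.2 ⟨s, hs, hy⟩)

/-- the descent step -/
theorem e2_step {Z : Set H} {t : H}
    (hn : ∀ y ∈ Subgroup.closure Z, ∀ j : ℤ, t ^ j * y * (t ^ j)⁻¹ ∈ Subgroup.closure Z)
    (hr : ∀ y ∈ Z, (Subgroup.closure {w | ∃ j : ℤ, w = t ^ j * y * (t ^ j)⁻¹}).FG)
    (h : (Subgroup.closure (insert t Z)).FG) : (Subgroup.closure Z).FG := by
  classical
  obtain ⟨Y₀, hY₀, hcl⟩ := e2_fg_closure h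
  let Y : Finset H := Y₀.filter (· ∈ Z)
  let M : Subgroup H := ⨆ y ∈ Y, Subgroup.closure {w | ∃ j : ℤ, w = t ^ j * y * (t ^ j)⁻¹}
  have hM : M.FG := Subgroup.FG.biSup_finset Y _ fun y hy => hr y (Finset.mem_filter.1 hy).2
  have hMle : M ≤ Subgroup.closure Z := by
    refine iSup₂_le fun y hy => (Subgroup.closure_le _).2 ?_
    rintro _ ⟨j, rfl⟩
    exact hn y (Subgroup.subset_closure (Finset.mem_filter.1 hy).2) j
  have hgen : ∀ y ∈ Y, ∀ j : ℤ, t ^ j * y * (t ^ j)⁻¹ ∈ M := fun y hy j =>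
    le_iSup₂ (f := fun y (_ : y ∈ Y) =>
      Subgroup.closure {w | ∃ j : ℤ, w = t ^ j * y * (t ^ j)⁻¹}) y hy
      (Subgroup.subset_closure ⟨j, rfl⟩)
  have hMn : ∀ i : ℤ, ∀ m ∈ M, t ^ i * m * (t ^ i)⁻¹ ∈ M := by
    intro i m hm
    have : M ≤ M.comap (MulAut.conj (t ^ i)).toMonoidHom := by
      refine iSup₂_le fun y hy => (Subgroup.closure_le _).2 ?_
      rintro _ ⟨j, rfl⟩
      have e : t ^ i * (t ^ j * y * (t ^ j)⁻¹) * (t ^ i)⁻¹ = t ^ (i + j) * y * (t ^ (i + j))⁻¹ := by
        group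
      change t ^ i * (t ^ j * y * (t ^ j)⁻¹) * (t ^ i)⁻¹ ∈ M
      rw [e]
      exact hgen y hy _
    exact this hm
  have hdec : ∀ g ∈ Subgroup.closure (Y₀ : Set H), ∃ j : ℤ, g * (t ^ j)⁻¹ ∈ M := by
    intro g hg
    induction hg using Subgroup.closure_induction with
    | mem x hx =>
      rcases hY₀ hx with rfl | hxZ
      · exact ⟨1, by simp⟩
      · refine ⟨0, ?_⟩
        simpa using hgen x (Finset.mem_filter.2 ⟨hx, hxZ⟩) 0
    | one => exact ⟨0, by simp⟩
    | mul x y _ _ hx hy =>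
      obtain ⟨i, hi⟩ := hx
      obtain ⟨j, hj⟩ := hy
      refine ⟨i + j, ?_⟩
      have e : x * y * (t ^ (i + j))⁻¹ =
          x * (t ^ i)⁻¹ * (t ^ i * (y * (t ^ j)⁻¹) * (t ^ i)⁻¹) := by group
      rw [e]
      exact mul_mem hi (hMn i _ hj)
    | inv x _ hx =>
      obtain ⟨i, hi⟩ := hx
      refine ⟨-i, ?_⟩
      have e : x⁻¹ * (t ^ (-i))⁻¹ = t ^ (-i) * (x * (t ^ i)⁻¹)⁻¹ * (t ^ (-i))⁻¹ := by group
      rw [e]
      exact hMn _ _ (inv_mem hi)
  let J : AddSubgroup ℤ :=
    { carrier := {j | t ^ j ∈ Subgroup.closure Z}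
      add_mem' := fun {a b} ha hb => by
        change t ^ (a + b) ∈ Subgroup.closure Z
        rw [zpow_add]
        exact mul_mem ha hb
      zero_mem' := by
        change t ^ (0 : ℤ) ∈ Subgroup.closure Z
        rw [zpow_zero]
        exact one_mem _
      neg_mem' := fun {a} ha => by
        change t ^ (-a) ∈ Subgroup.closure Z
        rw [zpow_neg]
        exact inv_mem ha }
  obtain ⟨d, hd⟩ := Int.subgroup_cyclic J
  have hdJ : d ∈ J := hd ▸ AddSubgroup.subset_closure (Set.mem_singleton d)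
  have hfin : Subgroup.closure Z = M ⊔ Subgroup.closure {t ^ d} := by
    refine le_antisymm (fun g hg => ?_) (sup_le hMle ?_)
    · have hg' : g ∈ Subgroup.closure (Y₀ : Set H) := by
        rw [hcl]
        exact Subgroup.closure_mono (Set.subset_insert t Z) hg
      obtain ⟨j, hj⟩ := hdec g hg'
      have hjJ : j ∈ J := by
        change t ^ j ∈ Subgroup.closure Z
        have e : t ^ j = (g * (t ^ j)⁻¹)⁻¹ * g := by group
        rw [e]
        exact mul_mem (inv_mem (hMle hj)) hg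
      rw [hd, AddSubgroup.mem_closure_singleton] at hjJ
      obtain ⟨q, rfl⟩ := hjJ
      have e : g = g * (t ^ (q • d))⁻¹ * (t ^ d) ^ q := by
        rw [smul_eq_mul, mul_comm q d, zpow_mul]
        group
      rw [e]
      exact mul_mem (Subgroup.mem_sup_left hj)
        (Subgroup.mem_sup_right (zpow_mem (Subgroup.subset_closure (Set.mem_singleton _)) q))
    · rw [Subgroup.closure_le, Set.singleton_subset_iff]
      exact hdJ
  rw [hfin]
  exact hM.sup ((Subgroup.fg_iff _).2 ⟨_, rfl, Set.finite_singleton _⟩)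

end Aux

/-- Rosset–Milnor collision: the `2^n` words `∏_{j<n} (x^{e_j} t)` are slab paths with `2 n` steps in
`{x, t}` and width `2 n η`; if `2 C η < log 2` two of them coincide for large `n` (`slab_growth'`,
`finite_slabPath`), so `t^b x t^{-b} ∈ closure {t^j x t^{-j} | j < b}` for some `b`; the same for `t⁻¹`.
(See `Crest.Agent.R182.Gro.milnorW_inj`, `exists_fg_stable` in `R182/GroMilnor`.) -/
theorem rosset {k : ℕ} {T : Finset H} (hT : Subgroup.closure (T : Set H) = ⊤)
    {ψ : H → Fin k → ℝ} (hψ : ∀ a b, ψ (a * b) = ψ a + ψ b) (hg : SlabGrowth T ψ) :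
    ∃ η : ℝ, 0 < η ∧ ∀ x t : H, ‖ψ x‖ ≤ η → ‖ψ t‖ ≤ η →
      (Subgroup.closure {y | ∃ j : ℤ, y = t ^ j * x * (t ^ j)⁻¹}).FG := by
  obtain ⟨η, hη, h⟩ := e2_collision hT hψ hg
  refine ⟨η, hη, fun x t hx ht => ?_⟩
  obtain ⟨b, hb⟩ := h x t hx ht
  obtain ⟨b', hb'⟩ := h x t⁻¹ hx (by rwa [e2_psi_inv hψ, norm_neg])
  have e : Subgroup.closure {y | ∃ j : ℤ, y = t ^ j * x * (t ^ j)⁻¹} =
      Gro.milnorM t x b ⊔ Gro.milnorM t⁻¹ x b' := by
    refine le_antisymm ((Subgroup.closure_le _).2 ?_) (sup_le ?_ ?_)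
    · rintro _ ⟨n, rfl⟩
      obtain ⟨m, rfl | rfl⟩ := n.eq_nat_or_neg
      · rw [zpow_natCast]
        exact Subgroup.mem_sup_left (e2_stable hb m)
      · rw [zpow_neg, zpow_natCast, ← inv_pow]
        exact Subgroup.mem_sup_right (e2_stable hb' m)
    · refine Subgroup.closure_mono ?_
      rintro _ ⟨j, -, rfl⟩
      exact ⟨j, by rw [zpow_natCast]⟩
    · refine Subgroup.closure_mono ?_
      rintro _ ⟨j, -, rfl⟩
      exact ⟨-j, by rw [zpow_neg, zpow_natCast, ← inv_pow]⟩
  rw [e]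
  exact Subgroup.FG.sup ((Subgroup.fg_iff _).2 ⟨_, rfl, (Set.finite_Iio b).image _⟩)
    ((Subgroup.fg_iff _).2 ⟨_, rfl, (Set.finite_Iio b').image _⟩)

/-- `A = closure {‖ψ‖ ≤ η}` is generated by finitely many small `t₁, …, t_r` (`fg_small`).
`M_i = N ⊔ closure {t₁, …, t_i}` is normal (it contains the commutators), `M_r = A`.  Downward induction:
if `M_i` is f.g. and `t = t_i` has a positive power in `M_{i-1}`, the index is finite (Schreier).
Otherwise `M_i` is generated by `t` and a finite `Y ⊆ N ∪ {t₁, …, t_{i-1}}`; the subgroup `M'` generated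
by all `t^j y t^{-j}` is f.g. (`rosset`), normalised by `t`, `M' ≤ M_{i-1}`, `M_i = M' ⟨t⟩`, so
`M_{i-1} = M'`. -/
theorem fg_ker {k : ℕ} {T : Finset H} (hT : Subgroup.closure (T : Set H) = ⊤)
    {ψ : H → Fin k → ℝ} (hψ : ∀ a b, ψ (a * b) = ψ a + ψ b) (hg : SlabGrowth T ψ)
    (hc : SlabConn T ψ) (N : Subgroup H) (hN : ∀ h, h ∈ N ↔ ψ h = 0) : N.FG := by
  classical
  obtain ⟨η, hη, hr⟩ := rosset hT hψ hg
  have key : ∀ S : Finset H, (∀ s ∈ S, ‖ψ s‖ ≤ η) →
      (Subgroup.closure ((N : Set H) ∪ (S : Set H))).FG → N.FG := by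
    intro S
    induction S using Finset.induction_on with
    | empty =>
      intro _ h
      simpa using h
    | insert t S _ ih =>
      intro hS h
      refine ih (fun s hs => hS s (Finset.mem_insert_of_mem hs)) ?_
      have ht := hS t (Finset.mem_insert_self t S)
      refine e2_step (t := t) (fun y hy j => ?_) (fun y hy => hr y t ?_ ht) ?_
      · have e : t ^ j * y * (t ^ j)⁻¹ = t ^ j * y * (t ^ j)⁻¹ * y⁻¹ * y := by group
        rw [e]
        refine mul_mem (Subgroup.subset_closure (Or.inl ?_)) hy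
        rw [SetLike.mem_coe, hN, hψ, hψ, hψ, e2_psi_inv hψ, e2_psi_inv hψ]
        abel
      · rcases hy with hy | hy
        · rw [(hN y).1 hy, norm_zero]
          exact hη.le
        · exact hS y (Finset.mem_insert_of_mem hy)
      · rwa [Finset.coe_insert, Set.union_insert] at h
  have hA := fg_small hT hψ hc hη
  obtain ⟨S, hS, hcl⟩ := e2_fg_closure hA
  refine key S (fun s hs => hS hs) ?_
  have e : Subgroup.closure ((N : Set H) ∪ (S : Set H)) = Subgroup.closure {h : H | ‖ψ h‖ ≤ η} := by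
    refine le_antisymm (Subgroup.closure_mono ?_) ?_
    · rintro y (hy | hy)
      · change ‖ψ y‖ ≤ η
        rw [(hN y).1 hy, norm_zero]
        exact hη.le
      · exact hS hy
    · rw [← hcl]
      exact Subgroup.closure_mono Set.subset_union_right
  rwa [e]

end Crest.Agent.R182
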