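import Crest.Agent.R182.EAlg2

/-! Row 182, task `R182/EAlg3`: conclusion from Gromov's theorem. -/

set_option autoImplicit false

namespace Crest.Agent.R182

open scoped BigOperators
open MeasureTheory Crest.GroupTheory Crest.Geometry

variable {H : Type*} [Group H]

theorem ealg3_equiv {G G' : Type*} [Group G] [Group G'] (e : G ≃* G')
    (h : IsVirtuallyPolycyclic G) : IsVirtuallyPolycyclic G' := by
  obtain ⟨P, hP, hp⟩ := h
  refine ⟨P.map (e : G →* G'), ⟨?_⟩, Gro.poly_iff.2 ((Gro.poly_iff.1 hp).map _)⟩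
  rw [Subgroup.index_map_equiv]
  exact hP.index_ne_zero

theorem ealg3_step (M : Subgroup H) [M.Normal] (hM : M.FG) (hv : IsVirtuallyPolycyclic M) (t : H) :
    IsVirtuallyPolycyclic (M ⊔ Subgroup.zpowers t : Subgroup H) := by
  have hle : M ≤ M ⊔ Subgroup.zpowers t := le_sup_left
  let e := Subgroup.subgroupOfEquivOfLe hle
  have hfg : (M.subgroupOf (M ⊔ Subgroup.zpowers t)).FG := by
    have : Group.FG M := (Group.fg_iff_subgroup_fg M).2 hM
    exact (Group.fg_iff_subgroup_fg _).1
      (Group.fg_of_surjective (f := e.symm.toMonoidHom) e.symm.surjective)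
  refine vpoly_ext_cyclic (M.subgroupOf (M ⊔ Subgroup.zpowers t)) hfg (ealg3_equiv e.symm hv)
    ⟨t, Subgroup.mem_sup_right (Subgroup.mem_zpowers t)⟩ ?_
  apply Subgroup.map_injective (M ⊔ Subgroup.zpowers t).subtype_injective
  rw [Subgroup.map_sup, Subgroup.subgroupOf_map_subtype, MonoidHom.map_zpowers, inf_eq_left.2 hle,
    ← MonoidHom.range_eq_map, Subgroup.range_subtype]
  rfl

/-- `N = ker ψ` is f.g. (`fg_ker`) and has polynomial growth (`slab_growth'` with `M = 0`), so it is
virtually polycyclic (`gromov`).  Adjoin the generators of `H` one at a time: `N ⊔ closure S` is normal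
and f.g.; `vpoly_ext_cyclic` in the group `N ⊔ closure (insert t S)` (induction on the finset `S`). -/
theorem vpoly_of_slab {k : ℕ} {T : Finset H} (hT : Subgroup.closure (T : Set H) = ⊤)
    {ψ : H → Fin k → ℝ} (hψ : ∀ a b, ψ (a * b) = ψ a + ψ b) (hg : SlabGrowth T ψ)
    (hc : SlabConn T ψ) : IsVirtuallyPolycyclic H := by
  classical
  let φ : H →* Multiplicative (Fin k → ℝ) :=
    MonoidHom.mk' (fun h => Multiplicative.ofAdd (ψ h)) fun a b => congrArg Multiplicative.ofAdd (hψ a b)
  have hN : ∀ h, h ∈ φ.ker ↔ ψ h = 0 := fun h => Iff.rfl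
  have hfg : φ.ker.FG := fg_ker hT hψ hg hc _ hN
  have hnorm : ∀ M : Subgroup H, φ.ker ≤ M → M.Normal := by
    intro M hM
    refine ⟨fun h hh g => ?_⟩
    have h1 : g * h * g⁻¹ * h⁻¹ ∈ φ.ker := by
      rw [MonoidHom.mem_ker, map_mul, map_mul, map_mul, map_inv, map_inv, mul_comm (φ g),
        mul_inv_cancel_right, mul_inv_cancel]
    have := M.mul_mem (hM h1) hh
    rwa [inv_mul_cancel_right] at this
  have hvN : IsVirtuallyPolycyclic φ.ker := by
    obtain ⟨S, hS⟩ := Group.fg_def.1 ((Group.fg_iff_subgroup_fg _).2 hfg)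
    obtain ⟨C, hC, hC'⟩ := slab_growth' hT hψ hg
    obtain ⟨C', hC'⟩ := hC' (S.image Subtype.val)
    refine gromov S hS (Real.exp C' * 2 ^ ⌈C⌉₊) ⌈C⌉₊ fun n => ?_
    have h1 : {g : φ.ker | wordLength (S : Set φ.ker) g ≤ n}.ncard ≤
        {h | SlabPath (S.image Subtype.val) ψ 0 (n + 2) h}.ncard := by
      refine Set.ncard_le_ncard_of_injOn Subtype.val (fun g hg => ?_)
        Subtype.val_injective.injOn (finite_slabPath ψ 0 (n + 2))
      obtain ⟨l, h1, h2, h3⟩ := wl_exists_list hS g
      have h4 : l.length = wordLength (S : Set φ.ker) g := by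
        unfold wl at h1
        exact_mod_cast h1
      have hg' : wordLength (S : Set φ.ker) g ≤ n := hg
      refine ⟨l.map φ.ker.subtype, by rw [List.length_map]; omega, fun x hx => ?_, ?_, fun b => ?_⟩
      · obtain ⟨y, hy, rfl⟩ := List.mem_map.1 hx
        exact (h2 y hy).imp (fun h => Finset.mem_image_of_mem _ h)
          fun h => Finset.mem_image_of_mem Subtype.val h
      · rw [← map_list_prod, h3]
        rfl
      · rw [← List.map_take, ← map_list_prod, Subgroup.coe_subtype,
          (hN _).1 (l.take b).prod.2, norm_zero]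
    have h2 := hC' 0 (n + 2) le_rfl (by omega)
    have hn : (0 : ℝ) ≤ n := Nat.cast_nonneg n
    have h3 : Real.exp (C * (0 + Real.log ((n + 2 : ℕ) : ℝ))) ≤ 2 ^ ⌈C⌉₊ * ((n : ℝ) + 1) ^ ⌈C⌉₊ := by
      have hl : 0 ≤ Real.log ((n + 2 : ℕ) : ℝ) := Real.log_natCast_nonneg _
      calc Real.exp (C * (0 + Real.log ((n + 2 : ℕ) : ℝ)))
          ≤ Real.exp ((⌈C⌉₊ : ℕ) * Real.log ((n + 2 : ℕ) : ℝ)) := by
            rw [zero_add]
            exact Real.exp_le_exp.2 (mul_le_mul_of_nonneg_right (Nat.le_ceil C) hl)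
        _ = ((n + 2 : ℕ) : ℝ) ^ ⌈C⌉₊ := by
            rw [Real.exp_nat_mul, Real.exp_log (by positivity)]
        _ ≤ _ := by
            rw [← mul_pow]
            push_cast
            exact pow_le_pow_left₀ (by positivity) (by linarith) _
    calc (({g : φ.ker | wordLength (S : Set φ.ker) g ≤ n}.ncard : ℕ) : ℝ)
        ≤ ({h | SlabPath (S.image Subtype.val) ψ 0 (n + 2) h}.ncard : ℝ) := Nat.cast_le.2 h1
      _ ≤ _ := h2
      _ ≤ _ := by
          rw [Real.exp_add, mul_comm, mul_assoc]
          exact mul_le_mul_of_nonneg_left h3 (Real.exp_pos _).le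
  have key : ∀ S : Finset H,
      IsVirtuallyPolycyclic (φ.ker ⊔ Subgroup.closure (S : Set H) : Subgroup H) := by
    intro S
    induction S using Finset.induction_on with
    | empty => rwa [Finset.coe_empty, Subgroup.closure_empty, sup_bot_eq]
    | insert t S _ ih =>
      have := hnorm (φ.ker ⊔ Subgroup.closure (S : Set H)) le_sup_left
      have h1 := ealg3_step _ (hfg.sup ⟨S, rfl⟩) ih t
      rwa [Subgroup.zpowers_eq_closure, sup_assoc, ← Subgroup.closure_union, Set.union_singleton,
        ← Finset.coe_insert] at h1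
  have h := key T
  rw [hT, sup_top_eq] at h
  exact ealg3_equiv Subgroup.topEquiv h

end Crest.Agent.R182
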