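import Crest.Agent.R182.EDefs
import Crest.Prelude.Def_QuasiIsometry
import Crest.Agent.R182.GeoBasic

/-! Row 182, task `R182/EWord`: word metrics, quasi-isometries, the measurable quasi-inverse. -/

set_option autoImplicit false

namespace Crest.Agent.R182

open scoped BigOperators
open MeasureTheory Crest.GroupTheory Crest.Geometry

variable {H : Type*} [Group H]

section Word

variable {T : Finset H} (hT : Subgroup.closure (T : Set H) = ⊤)

theorem wl_nonneg (g : H) : 0 ≤ wl T g := Nat.cast_nonneg _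

private theorem ew_le {l : List H} (hl : ∀ x ∈ l, x ∈ T ∨ x⁻¹ ∈ T) : wl T l.prod ≤ l.length := by
  rw [wl, Nat.cast_le]
  exact Nat.sInf_le ⟨l, rfl, hl, rfl⟩

include hT in
private theorem ew_ex (g : H) :
    ∃ l : List H, (l.length : ℝ) = wl T g ∧ (∀ x ∈ l, x ∈ T ∨ x⁻¹ ∈ T) ∧ l.prod = g := by
  have hg : g ∈ Submonoid.closure ((T : Set H) ∪ (T : Set H)⁻¹) := by
    rw [← Subgroup.closure_toSubmonoid, hT]
    trivial
  obtain ⟨l, h1, h2⟩ := Submonoid.exists_list_of_mem_closure hg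
  have hne : {n : ℕ | ∃ l : List H, l.length = n ∧ (∀ x ∈ l, x ∈ (T : Set H) ∨ x⁻¹ ∈ (T : Set H)) ∧
      l.prod = g}.Nonempty := ⟨l.length, l, rfl, h1, h2⟩
  obtain ⟨l', a1, a2, a3⟩ := Nat.sInf_mem hne
  exact ⟨l', by rw [a1]; rfl, a2, a3⟩

private theorem ew_fin (T : Finset H) (n : ℕ) :
    {g : H | ∃ l : List H, l.length ≤ n ∧ (∀ x ∈ l, x ∈ T ∨ x⁻¹ ∈ T) ∧ l.prod = g}.Finite := by
  induction n with
  | zero =>
    refine (Set.finite_singleton 1).subset ?_
    rintro _ ⟨l, h1, -, rfl⟩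
    rw [List.length_eq_zero_iff.1 (Nat.le_zero.1 h1)]
    rfl
  | succ n ih =>
    refine ((Set.finite_singleton 1).union
      (Set.Finite.image2 (· * ·) (T.finite_toSet.union T.finite_toSet.inv) ih)).subset ?_
    rintro _ ⟨l, h1, h2, rfl⟩
    cases l with
    | nil => exact Or.inl rfl
    | cons x l =>
      exact Or.inr ⟨x, h2 x List.mem_cons_self, l.prod,
        ⟨l, by simpa using h1, fun y hy => h2 y (List.mem_cons_of_mem _ hy), rfl⟩, by simp⟩

include hT in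
private theorem ew_ind (φ : H → ℝ) (c : ℝ) (h1 : φ 1 ≤ 0)
    (hs : ∀ x g, (x ∈ T ∨ x⁻¹ ∈ T) → φ (x * g) ≤ c + φ g) (g : H) : φ g ≤ c * wl T g := by
  obtain ⟨l, a1, a2, rfl⟩ := ew_ex hT g
  rw [← a1]
  clear a1
  induction l with
  | nil => simpa using h1
  | cons x l ih =>
    have := hs x l.prod (a2 x List.mem_cons_self)
    have := ih fun y hy => a2 y (List.mem_cons_of_mem _ hy)
    rw [List.prod_cons, List.length_cons]
    push_cast
    linarith

@[simp] theorem wl_one : wl T (1 : H) = 0 := by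
  exact le_antisymm (by simpa using ew_le (T := T) (l := []) (by simp)) (wl_nonneg _)

theorem wl_inv (g : H) : wl T g⁻¹ = wl T g := by
  have key : ∀ (g : H) (n : ℕ), (∃ l : List H, l.length = n ∧
      (∀ x ∈ l, x ∈ (T : Set H) ∨ x⁻¹ ∈ (T : Set H)) ∧ l.prod = g) → ∃ l : List H, l.length = n ∧
      (∀ x ∈ l, x ∈ (T : Set H) ∨ x⁻¹ ∈ (T : Set H)) ∧ l.prod = g⁻¹ := by
    rintro g n ⟨l, h1, h2, rfl⟩
    refine ⟨(l.map fun x => x⁻¹).reverse, by simpa using h1, fun x hx => ?_,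
      (List.prod_inv_reverse l).symm⟩
    obtain ⟨y, hy, rfl⟩ := List.mem_map.1 (List.mem_reverse.1 hx)
    rw [inv_inv]
    exact (h2 y hy).symm
  unfold wl wordLength
  congr 2
  ext n
  exact ⟨fun h => by simpa using key _ _ h, key _ _⟩

include hT in
theorem wl_mul_le (g h : H) : wl T (g * h) ≤ wl T g + wl T h := by
  obtain ⟨l, h1, h2, rfl⟩ := ew_ex hT g
  obtain ⟨l', h1', h2', rfl⟩ := ew_ex hT h
  rw [← h1, ← h1', ← List.prod_append]
  refine (ew_le fun x hx => ?_).trans (by simp)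
  exact (List.mem_append.1 hx).elim (h2 x) (h2' x)

theorem wl_le_one {s : H} (hs : s ∈ T ∨ s⁻¹ ∈ T) : wl T s ≤ 1 := by
  simpa using ew_le (T := T) (l := [s]) (by simpa using hs)

include hT in
theorem wl_exists_list (g : H) :
    ∃ l : List H, (l.length : ℝ) = wl T g ∧ (∀ x ∈ l, x ∈ T ∨ x⁻¹ ∈ T) ∧ l.prod = g := by
  exact ew_ex hT g

theorem wl_prod_le {l : List H} (hl : ∀ x ∈ l, x ∈ T ∨ x⁻¹ ∈ T) : wl T l.prod ≤ l.length := by
  exact ew_le hl

include hT in
theorem finite_ball (r : ℝ) : {g : H | wl T g ≤ r}.Finite := by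
  refine (ew_fin T ⌊r⌋₊).subset fun g hg => ?_
  obtain ⟨l, h1, h2, h3⟩ := ew_ex hT g
  exact ⟨l, Nat.le_floor (h1.trans_le hg), h2, h3⟩

include hT in
theorem countable_of_gen : Countable H := by
  rw [← Set.countable_univ_iff]
  refine (Set.countable_iUnion fun n : ℕ => (finite_ball hT n).countable).mono fun g _ => ?_
  exact Set.mem_iUnion.2 ⟨wordLength (T : Set H) g, le_refl (wl T g)⟩

include hT in
theorem norm_hom_le {V : Type} [NormedAddCommGroup V] (ψ : H → V)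
    (hψ : ∀ a b, ψ (a * b) = ψ a + ψ b) : ∃ C : ℝ, 0 < C ∧ ∀ g, ‖ψ g‖ ≤ C * wl T g := by
  have h1 : ψ 1 = 0 := by simpa using hψ 1 1
  have h2 : ∀ x, ψ x⁻¹ = -ψ x := fun x => by
    rw [eq_neg_iff_add_eq_zero, ← hψ, inv_mul_cancel, h1]
  have h0 : 0 ≤ ∑ s ∈ T, ‖ψ s‖ := Finset.sum_nonneg fun _ _ => norm_nonneg _
  refine ⟨∑ s ∈ T, ‖ψ s‖ + 1, by linarith, ew_ind hT (fun g => ‖ψ g‖) _ (by simp [h1])
    fun x g hx => ?_⟩
  rw [hψ]
  refine (norm_add_le _ _).trans (add_le_add ?_ le_rfl)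
  rcases hx with hx | hx
  · linarith [Finset.single_le_sum (f := fun s => ‖ψ s‖) (fun _ _ => norm_nonneg _) hx]
  · have := Finset.single_le_sum (f := fun s => ‖ψ s‖) (fun _ _ => norm_nonneg _) hx
    simp only [h2, norm_neg] at this
    linarith

theorem finite_slabPath {V : Type} [NormedAddCommGroup V] (ψ : H → V) (M : ℝ) (n : ℕ) :
    {h | SlabPath T ψ M n h}.Finite := by
  exact (ew_fin T n).subset fun g ⟨l, h1, h2, h3, _⟩ => ⟨l, h1, h2, h3⟩

end Word

/-- Schreier: a finite-index subgroup is undistorted and coarsely dense -/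
private theorem ew_sub {T : Finset H} (hT : Subgroup.closure (T : Set H) = ⊤) (H' : Subgroup H)
    [H'.FiniteIndex] : ∃ (T' : Finset H') (R : ℝ), 1 ≤ R ∧ Subgroup.closure (T' : Set H') = ⊤ ∧
      (∀ g : H', wl T g ≤ R * wl T' g) ∧ (∀ g : H', wl T' g ≤ wl T g + 1) ∧
      ∀ g : H, ∃ h : H', ∃ t, g = h * t ∧ wl T t ≤ R := by
  obtain ⟨R, hR⟩ := Finite.exists_le fun c : H ⧸ H' => wl T c.out
  have hR0 : 0 ≤ R := (wl_nonneg _).trans (hR (QuotientGroup.mk 1))
  have hdec : ∀ g : H, ∃ h : H', ∃ t, g = h * t ∧ wl T t ≤ R := by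
    intro g
    obtain ⟨h, hh⟩ := QuotientGroup.mk_out_eq_mul H' g⁻¹
    exact ⟨h, (g⁻¹ * h)⁻¹, by group, by rw [wl_inv, ← hh]; exact hR _⟩
  have hfin : {h : H' | wl T h ≤ 2 * R + 1}.Finite :=
    (finite_ball hT (2 * R + 1)).preimage Subtype.val_injective.injOn
  have key : ∀ l : List H, (∀ x ∈ l, x ∈ T ∨ x⁻¹ ∈ T) → ∀ (t : H) (g : H'), wl T t ≤ R →
      (g : H) = t * l.prod → ∃ l' : List H', l'.length = l.length + 1 ∧
        (∀ x ∈ l', x ∈ hfin.toFinset) ∧ l'.prod = g := by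
    intro l
    induction l with
    | nil =>
      intro _ t g ht hg
      refine ⟨[g], rfl, fun x hx => ?_, by simp⟩
      rw [List.mem_singleton.1 hx, Set.Finite.mem_toFinset, Set.mem_ofPred_eq, hg]
      simpa using ht.trans (by linarith)
    | cons x l ih =>
      intro hl t g ht hg
      obtain ⟨h, t', e, ht'⟩ := hdec (t * x)
      obtain ⟨l', a1, a2, a3⟩ := ih (fun y hy => hl y (List.mem_cons_of_mem _ hy)) t' (h⁻¹ * g) ht'
        (by rw [Subgroup.coe_mul, hg, List.prod_cons, ← mul_assoc t, e]; simp [mul_assoc])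
      refine ⟨h :: l', by simp [a1], fun y hy => ?_, by simp [a3]⟩
      rcases List.mem_cons.1 hy with rfl | hy
      · rw [Set.Finite.mem_toFinset, Set.mem_ofPred_eq, eq_mul_inv_of_mul_eq e.symm]
        have b1 := wl_mul_le hT (t * x) t'⁻¹
        have b2 := wl_mul_le hT t x
        have b3 := wl_le_one (hl x List.mem_cons_self)
        rw [wl_inv] at b1
        linarith
      · exact a2 y hy
  have key' : ∀ g : H', ∃ l' : List H', (l'.length : ℝ) = wl T g + 1 ∧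
      (∀ x ∈ l', x ∈ hfin.toFinset) ∧ l'.prod = g := by
    intro g
    obtain ⟨l, a1, a2, a3⟩ := wl_exists_list hT (g : H)
    obtain ⟨l', b1, b2, b3⟩ := key l a2 1 g (by simpa using hR0) (by simp [a3])
    exact ⟨l', by rw [b1, ← a1]; simp, b2, b3⟩
  have hgen : Subgroup.closure (hfin.toFinset : Set H') = ⊤ := by
    rw [eq_top_iff]
    intro g _
    obtain ⟨l', -, b2, rfl⟩ := key' g
    exact Subgroup.list_prod_mem _ fun x hx => Subgroup.subset_closure (b2 x hx)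
  refine ⟨hfin.toFinset, 2 * R + 1, by linarith, hgen, ?_, fun g => ?_, fun g => ?_⟩
  · refine ew_ind hgen (fun g : H' => wl T g) _ (by simp) fun x g hx => ?_
    refine (wl_mul_le hT x g).trans (add_le_add ?_ le_rfl)
    simpa [wl_inv] using hx
  · obtain ⟨l', b1, b2, b3⟩ := key' g
    rw [← b1]
    conv_lhs => rw [← b3]
    exact wl_prod_le fun x hx => Or.inl (b2 x hx)
  · obtain ⟨h, t, e, ht⟩ := hdec g
    exact ⟨h, t, e, by linarith⟩

namespace Frame

variable (F : Frame)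

theorem hqi_of_comp {P : Type*} [Group P] (S : Finset P) (T : Finset H)
    (hT : Subgroup.closure (T : Set H) = ⊤) (Φ : H → P)
    (hΦ : IsQuasiIsometry (wordDist (T : Set H)) (wordDist (S : Set P)) Φ) (Φ' : P → F.G)
    (hΦ' : IsQuasiIsometry (wordDist (S : Set P)) (wordDist F.M.Q) Φ') :
    ∃ K, F.HQI T (Φ' ∘ Φ) K := by
  obtain ⟨K, C, hK, hC, h1, h2⟩ := hΦ
  obtain ⟨K', C', hK', hC', h1', h2'⟩ := hΦ'
  have e : ∀ g s : H, wordDist (T : Set H) g (g * s) = wl T s := fun g s => by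
    simp [wordDist, wl]
  have hK0 : 0 < K := by linarith
  have hK0' : 0 < K' := by linarith
  have hKK : 1 ≤ K * K' := one_le_mul_of_one_le_of_one_le hK hK'
  have p1 : 0 ≤ K * K' * C' := by positivity
  have p2 : 0 ≤ K * C := by positivity
  have p3 : 0 ≤ K' * C := by positivity
  obtain ⟨B, hB⟩ : ∃ B, B = K * K' * C' + K * C + K' * C + 2 * C' := ⟨_, rfl⟩
  refine ⟨K * K' + B, hT, by linarith, fun g s => ?_, fun g s => ?_, fun x => ?_⟩
  · have a1 := (h1 g (g * s)).2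
    have a2 := (h1' (Φ g) (Φ (g * s))).2
    rw [e] at a1
    have a3 := mul_le_mul_of_nonneg_left a1 hK0'.le
    have a4 : 0 ≤ B * wl T s := mul_nonneg (by linarith) (wl_nonneg s)
    rw [F.M.dd_eq, Function.comp_apply, Function.comp_apply]
    nlinarith
  · have a1 := (h1 g (g * s)).1
    have a2 := (h1' (Φ g) (Φ (g * s))).1
    rw [e, sub_le_iff_le_add, inv_mul_le_iff₀ hK0] at a1
    rw [sub_le_iff_le_add, inv_mul_le_iff₀ hK0', ← F.M.dd_eq] at a2
    have a3 := mul_le_mul_of_nonneg_left a2 hK0.le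
    have a4 : 0 ≤ B * F.M.dd (Φ' (Φ g)) (Φ' (Φ (g * s))) :=
      mul_nonneg (by linarith) (F.M.len_nonneg _)
    rw [Function.comp_apply, Function.comp_apply]
    nlinarith
  · obtain ⟨y, hy⟩ := h2' x
    obtain ⟨g, hg⟩ := h2 y
    have a2 := (h1' y (Φ g)).2
    have a3 := mul_le_mul_of_nonneg_left hg hK0'.le
    rw [← F.M.dd_eq] at a2 hy
    exact ⟨g, (F.M.dd_triangle x (Φ' y) _).trans (by rw [Function.comp_apply]; linarith)⟩

/-- Enumerate the countable group `H`; `β x` is the first `g` with `dd x (α g) ≤ K`.  The fibres of `β`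
are measurable (`measurable_dd`), so `x ↦ α (h * β x)` is measurable (`measurable_find`, or a countable
union of fibres). -/
theorem exists_beta {T : Finset H} {α : H → F.G} {K : ℝ} (hα : F.HQI T α K) :
    ∃ (K' : ℝ) (β : F.G → H), K ≤ K' ∧
      (∀ h : H, F.QI K' (fun x => α (h * β x)) fun x => α (h⁻¹ * β x)) ∧
      (∀ x, F.M.dd x (α (β x)) ≤ K') ∧ ∀ g, wl T (g⁻¹ * β (α g)) ≤ K' := by
  classical
  have := countable_of_gen hα.gen
  obtain ⟨e, he⟩ := exists_surjective_nat H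
  have hp : ∀ x, ∃ n, F.M.dd x (α (e n)) ≤ K := fun x => by
    obtain ⟨g, hg⟩ := hα.dense x
    obtain ⟨n, rfl⟩ := he g
    exact ⟨n, hg⟩
  have hd : ∀ c, Measurable fun x => F.M.dd x c := fun c =>
    F.M.measurable_len.comp (measurable_inv.mul_const c)
  have hm : Measurable fun x => Nat.find (hp x) := measurable_find hp fun n =>
    measurableSet_le (hd _) measurable_const
  obtain ⟨β, hβ, hβm⟩ : ∃ β : F.G → H, (∀ x, F.M.dd x (α (β x)) ≤ K) ∧
      ∀ h, Measurable fun x => α (h * β x) :=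
    ⟨fun x => e (Nat.find (hp x)), fun x => Nat.find_spec (hp x), fun h =>
      (measurable_from_nat (f := fun n => α (h * e n))).comp hm⟩
  have hK := hα.one_le
  have k1 : K ≤ K * K := by nlinarith
  have k2 : K * K ≤ K * K * K := by nlinarith
  have b1 : ∀ g, wl T (g⁻¹ * β (α g)) ≤ K * K + K := fun g => by
    have a1 := hα.low g (g⁻¹ * β (α g))
    rw [mul_inv_cancel_left] at a1
    have a2 := mul_le_mul_of_nonneg_left (hβ (α g)) (by linarith : 0 ≤ K)
    linarith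
  have b2 : ∀ h x y, F.M.dd (α (h * β x)) (α (h * β y)) ≤
      4 * (K * K * K) * F.M.dd x y + 4 * (K * K * K) := fun h x y => by
    have a1 := hα.up (h * β x) ((β x)⁻¹ * β y)
    have a2 := hα.low (β x) ((β x)⁻¹ * β y)
    rw [mul_assoc, mul_inv_cancel_left] at a1
    rw [mul_inv_cancel_left] at a2
    have a3 := F.M.dd_triangle (α (β x)) x (α (β y))
    have a4 := F.M.dd_triangle x y (α (β y))
    rw [F.M.dd_comm _ x] at a3
    have a5 : F.M.dd (α (β x)) (α (β y)) ≤ F.M.dd x y + 2 * K := by linarith [hβ x, hβ y]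
    have a6 := mul_le_mul_of_nonneg_left a5 (by linarith : 0 ≤ K)
    have a7 := mul_le_mul_of_nonneg_left (a2.trans (add_le_add a6 le_rfl)) (by linarith : 0 ≤ K)
    have a8 : K * K * F.M.dd x y ≤ 4 * (K * K * K) * F.M.dd x y :=
      mul_le_mul_of_nonneg_right (by linarith) (F.M.len_nonneg _)
    linarith
  have b3 : ∀ h x, F.M.dd (α (h⁻¹ * β (α (h * β x)))) x ≤ 4 * (K * K * K) := fun h x => by
    have a1 := hα.up (β x) ((h * β x)⁻¹ * β (α (h * β x)))
    rw [show β x * ((h * β x)⁻¹ * β (α (h * β x))) = h⁻¹ * β (α (h * β x)) by group] at a1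
    have a2 := mul_le_mul_of_nonneg_left (b1 (h * β x)) (by linarith : 0 ≤ K)
    have a3 := F.M.dd_triangle x (α (β x)) (α (h⁻¹ * β (α (h * β x))))
    rw [F.M.dd_comm]
    linarith [hβ x]
  refine ⟨4 * (K * K * K), β, by linarith, fun h => ⟨by linarith, hβm _, hβm _, b2 _, b2 _, b3 _,
    fun x => ?_⟩, fun x => (hβ x).trans (by linarith), fun g => (b1 g).trans (by linarith)⟩
  simpa using b3 h⁻¹ x

theorem norm_inc_le {T : Finset H} {α : H → F.G} {K : ℝ} (hα : F.HQI T α K) :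
    ∃ C : ℝ, 0 < C ∧ ∀ g s, ‖F.inc α g s‖ ≤ C * (wl T s + 1) := by
  obtain ⟨C, hC, h⟩ := F.M.norm_ht_le
  have hK := hα.one_le
  refine ⟨C * K, by positivity, fun g s => ?_⟩
  have h1 := h ((α g)⁻¹ * α (g * s))
  rw [F.M.ht_mul, F.M.ht_inv, neg_add_eq_sub] at h1
  refine h1.trans ((mul_le_mul_of_nonneg_left (hα.up g s) hC.le).trans_eq ?_)
  ring

/-- boundedly many points of `α H` in a ball -/
theorem ncard_le_of_cov {T : Finset H} {α : H → F.G} {K : ℝ} (hα : F.HQI T α K) (ρ : ℝ) :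
    ∃ C : ℝ, 0 < C ∧ ∀ (b : F.G) (Y : Set F.G) (n : ℝ) (A : Set H), F.Cov Y ρ n →
      (∀ g ∈ A, b⁻¹ * α g ∈ Y) → (A.ncard : ℝ) ≤ C * n := by
  classical
  have hB := finite_ball hα.gen (K * (2 * ρ) + K)
  refine ⟨(hB.toFinset.card : ℝ) + 1, by positivity, ?_⟩
  rintro b Y n A ⟨Z, hZ, hcov⟩ hA
  have key : ∀ z : F.G, ∃ U : Finset H, U.card ≤ hB.toFinset.card ∧
      ∀ g, F.M.dd z (b⁻¹ * α g) ≤ ρ → g ∈ U := by
    intro z
    by_cases h : ∃ g₀, F.M.dd z (b⁻¹ * α g₀) ≤ ρ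
    · obtain ⟨g₀, h₀⟩ := h
      refine ⟨hB.toFinset.image (g₀ * ·), Finset.card_image_le, fun g hg =>
        Finset.mem_image.2 ⟨g₀⁻¹ * g, ?_, by simp⟩⟩
      have a1 := hα.low g₀ (g₀⁻¹ * g)
      have a2 := F.M.dd_triangle (b⁻¹ * α g₀) z (b⁻¹ * α g)
      rw [F.M.dd_mul_left, F.M.dd_comm _ z] at a2
      rw [mul_inv_cancel_left] at a1
      have a3 : F.M.dd (α g₀) (α g) ≤ 2 * ρ := by linarith
      have a4 := mul_le_mul_of_nonneg_left a3 (zero_le_one.trans hα.one_le)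
      rw [Set.Finite.mem_toFinset, Set.mem_ofPred_eq]
      linarith
    · exact ⟨∅, by simp, fun g hg => absurd ⟨g, hg⟩ h⟩
  choose U hU hU' using key
  have h1 : A ⊆ (Z.biUnion U : Finset H) := fun g hg => by
    obtain ⟨z, hz, hd⟩ := hcov _ (hA g hg)
    exact Finset.mem_coe.2 (Finset.mem_biUnion.2 ⟨z, hz, hU' z g hd⟩)
  have h2 := (Set.ncard_le_ncard h1 (Finset.finite_toSet _)).trans_eq (Set.ncard_coe_finset _)
  have h3 : (A.ncard : ℝ) ≤ Z.card * hB.toFinset.card := by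
    exact_mod_cast h2.trans (Finset.card_biUnion_le_card_mul Z U _ fun z _ => hU z)
  have h4 : (0 : ℝ) ≤ Z.card := Nat.cast_nonneg _
  have h5 : (0 : ℝ) ≤ hB.toFinset.card := Nat.cast_nonneg _
  nlinarith

/-- Finite-index subgroups: `H'` is f.g. (Schreier), say by `T'`; `wl T ≤ C wl T'` on `H'`; conversely
choose coset representatives `t_c`, and add the Schreier generators to `T'`: then `wl T' ≤ wl T + 1`.
(Any proof.) -/
theorem hqi_subgroup {T : Finset H} {α : H → F.G} {K : ℝ} (hα : F.HQI T α K) (H' : Subgroup H)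
    [H'.FiniteIndex] (hA : F.PropA T α H') (hB : F.PropB α H') :
    ∃ (T' : Finset H') (K' : ℝ), F.HQI T' (fun g => α g) K' ∧
      F.PropA T' (fun g => α g) Set.univ ∧ F.PropB (fun g : H' => α g) Set.univ := by
  obtain ⟨T', R, hR, hgen, h1, h2, h3⟩ := ew_sub hα.gen H'
  have hK := hα.one_le
  have k1 : K ≤ K * R := by nlinarith
  refine ⟨T', K * R + 2 * K, ⟨hgen, by linarith, fun g s => ?_, fun g s => ?_, fun x => ?_⟩,
    fun ε hε => ?_, fun ε hε => ?_⟩
  · have a1 := hα.up g s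
    have a2 := mul_le_mul_of_nonneg_left (h1 s) (by linarith : 0 ≤ K)
    have a3 := mul_nonneg (by linarith : 0 ≤ K) (wl_nonneg (T := T') s)
    rw [Subgroup.coe_mul]
    nlinarith
  · have a1 := hα.low g s
    have a2 := h2 s
    have a3 : K * F.M.dd (α g) (α (g * s)) ≤ (K * R + 2 * K) * F.M.dd (α g) (α (g * s)) :=
      mul_le_mul_of_nonneg_right (by linarith) (F.M.len_nonneg _)
    rw [Subgroup.coe_mul]
    linarith
  · obtain ⟨g, hg⟩ := hα.dense x
    obtain ⟨h, t, rfl, ht⟩ := h3 g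
    have a1 := hα.up h t
    have a2 := mul_le_mul_of_nonneg_left ht (by linarith : 0 ≤ K)
    have a3 := F.M.dd_triangle x (α (h * t)) (α h)
    rw [F.M.dd_comm (α (h * t))] at a3
    exact ⟨h, by linarith⟩
  · obtain ⟨C, hC⟩ := hA (ε / R) (by positivity)
    refine ⟨C, fun h _ g s => (hC h h.2 g s).trans (add_le_add ?_ le_rfl)⟩
    refine (mul_le_mul_of_nonneg_left (h1 s) (by positivity)).trans_eq ?_
    field_simp
  · obtain ⟨C, hC⟩ := hB ε hε
    exact ⟨C, fun h _ g s => hC h h.2 g s⟩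

end Frame

end Crest.Agent.R182
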