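import Crest.Agent.R182.EConnD
import Crest.Agent.R182.EWord

/-! Row 182, task `R182/EConn`: slabs are coarsely connected. -/

set_option autoImplicit false

namespace Crest.Agent.R182

open scoped BigOperators
open MeasureTheory Crest.GroupTheory Crest.Geometry

variable {H : Type*} [Group H]

/-- extending a slab path by a geodesic of bounded length -/
theorem econn_extend {V : Type} [NormedAddCommGroup V] {T : Finset H}
    (hT : Subgroup.closure (T : Set H) = ⊤) {ψ : H → V} (hψ : ∀ a b, ψ (a * b) = ψ a + ψ b)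
    {C M M' D : ℝ} (hC : 0 ≤ C) (hb : ∀ g, ‖ψ g‖ ≤ C * wl T g) (hM : M + C * D ≤ M') {g g' : H}
    (hg : ∃ n, SlabPath T ψ M' n g) (hg1 : ‖ψ g‖ ≤ M) (hs : wl T (g⁻¹ * g') ≤ D) :
    ∃ n, SlabPath T ψ M' n g' := by
  obtain ⟨n, l, -, h2, h3, h4⟩ := hg
  obtain ⟨l', k1, k2, k3⟩ := wl_exists_list hT (g⁻¹ * g')
  refine ⟨_, l ++ l', le_rfl, fun x hx => ?_, ?_, fun b => ?_⟩
  · rcases List.mem_append.1 hx with hx | hx
    · exact h2 x hx
    · exact k2 x hx
  · rw [List.prod_append, h3, k3, mul_inv_cancel_left]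
  · rw [List.take_append]
    rcases le_total b l.length with hb' | hb'
    · rw [Nat.sub_eq_zero_of_le hb', List.take_zero, List.append_nil]
      exact h4 b
    · rw [List.take_of_length_le hb', List.prod_append, h3, hψ]
      have e1 := wl_prod_le (T := T) (l := l'.take (b - l.length))
        fun x hx => k2 x (List.mem_of_mem_take hx)
      have e2 : ((l'.take (b - l.length)).length : ℝ) ≤ l'.length := by
        rw [List.length_take]
        exact_mod_cast min_le_right _ _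
      have e3 := hb (l'.take (b - l.length)).prod
      have e4 : C * wl T (l'.take (b - l.length)).prod ≤ C * D :=
        mul_le_mul_of_nonneg_left (by linarith) hC
      linarith [norm_add_le (ψ g) (ψ (l'.take (b - l.length)).prod)]

namespace Frame

variable (F : Frame)

theorem econn_step {Ψ : F.G → F.V} {M : ℝ} {x x' : F.G} (h : F.M.dd x x' ≤ 1) (hx : ‖Ψ x‖ ≤ M)
    (hx' : ‖Ψ x'‖ ≤ M) : F.Joined Ψ M x x' := by
  refine ⟨1, fun i => if i = 0 then x else x', rfl, rfl, fun i hi => ?_, fun i _ => ?_⟩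
  · obtain rfl : i = 0 := by omega
    exact h
  · dsimp only
    split_ifs
    · exact hx
    · exact hx'

/-- `x⁻¹ x' = ofE r * ofE d` (`exists_decomp`), `y t = x * ofE (t • r)`, `d t` from `exists_slab_point`.
For `s` near `t`, `y s * d t` is within `1` of `y t * d t` (`Q_mem_nhds`, continuity), so the property
"`x` is joined to `y t * d t`" is locally constant in `t` (`joined_D`); `ℝ` is connected. -/
theorem joined_G {Ψ : F.G → F.V} (hΨ : F.Coarse Ψ) (M : ℝ) : ∃ M' : ℝ, ∀ x x', ‖Ψ x‖ ≤ M →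
    ‖Ψ x'‖ ≤ M → F.Joined Ψ M' x x' := by
  obtain ⟨M₀, hM₀⟩ := F.exists_slab_point hΨ
  obtain ⟨C0, hC0⟩ := hΨ 1 one_pos
  obtain ⟨C1, hC1, h1⟩ := F.M.norm_ht_le
  set M1 : ℝ := max M (max M₀ (M₀ + 1 + C0 + C1)) with hM1
  have hM1a : M ≤ M1 := le_max_left _ _
  have hM1b : M₀ ≤ M1 := (le_max_left _ _).trans (le_max_right _ _)
  have hM1c : M₀ + 1 + C0 + C1 ≤ M1 := (le_max_right _ _).trans (le_max_right _ _)
  obtain ⟨M2, hM2⟩ := F.joined_D hΨ M1
  refine ⟨max M1 M2, fun x x' hx hx' => ?_⟩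
  obtain ⟨r, -, d, hd, e⟩ := F.exists_decomp (x⁻¹ * x')
  set y : ℝ → F.G := fun t => x * F.M.ofE (t • r) with hy
  have hyc : Continuous y := continuous_const.mul
    (F.M.continuous_ofE.comp (continuous_id.smul continuous_const))
  choose D hD hD' using fun t => hM₀ (y t)
  have hJ : ∀ t, ∀ d ∈ F.D, ∀ d' ∈ F.D, ‖Ψ (y t * F.M.ofE d)‖ ≤ M1 → ‖Ψ (y t * F.M.ofE d')‖ ≤ M1 →
      F.Joined Ψ (max M1 M2) (y t * F.M.ofE d) (y t * F.M.ofE d') := fun t d hd d' hd' h h' =>
    F.Joined_mono (hM2 _ d hd d' hd' h h') (le_max_right _ _)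
  have key : ∀ t, ∀ᶠ s in nhds t,
      F.Joined Ψ (max M1 M2) (y t * F.M.ofE (D t)) (y s * F.M.ofE (D s)) := by
    intro t
    have hc : Continuous fun s => (y t * F.M.ofE (D t))⁻¹ * (y s * F.M.ofE (D t)) :=
      continuous_const.mul (hyc.mul continuous_const)
    have ht := hc.tendsto t
    rw [inv_mul_cancel] at ht
    filter_upwards [ht F.M.Q_mem_nhds] with s hs
    have e1 := F.M.len_le_one hs
    have e2 := hC0 (y t * F.M.ofE (D t)) ((y t * F.M.ofE (D t))⁻¹ * (y s * F.M.ofE (D t)))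
    have e3 := (h1 _).trans (mul_le_mul_of_nonneg_left e1 hC1.le)
    rw [mul_inv_cancel_left] at e2
    have e4 : ‖Ψ (y s * F.M.ofE (D t))‖ ≤ M1 := by
      have e5 := norm_add₃_le (a := Ψ (y s * F.M.ofE (D t)) - Ψ (y t * F.M.ofE (D t)) -
        F.M.ht ((y t * F.M.ofE (D t))⁻¹ * (y s * F.M.ofE (D t)))) (b := Ψ (y t * F.M.ofE (D t)))
        (c := F.M.ht ((y t * F.M.ofE (D t))⁻¹ * (y s * F.M.ofE (D t))))
      rw [add_right_comm, sub_add_cancel, sub_add_cancel] at e5
      linarith [hD' t]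
    exact F.Joined_trans
      (F.econn_step e1 (((hD' t).trans hM1b).trans (le_max_left _ _)) (e4.trans (le_max_left _ _)))
      (hJ s _ (hD t) _ (hD s) e4 ((hD' s).trans hM1b))
  have k1 : F.Joined Ψ (max M1 M2) (y 0 * F.M.ofE (D 0)) (y 1 * F.M.ofE (D 1)) := by
    refine PreconnectedSpace.induction₂'
      (fun t s : ℝ => F.Joined Ψ (max M1 M2) (y t * F.M.ofE (D t)) (y s * F.M.ofE (D s)))
      (fun t => (key t).mono fun s hs => ⟨hs, F.Joined_symm hs⟩) ⟨fun _ _ _ => F.Joined_trans⟩ 0 1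
  have e0 : y 0 * F.M.ofE 0 = x := by simp [hy]
  have e1 : y 1 * F.M.ofE d = x' := by
    simp only [hy, one_smul]
    rw [mul_assoc, ← e, mul_inv_cancel_left]
  have k0 := hJ 0 0 F.D.zero_mem _ (hD 0) (e0 ▸ hx.trans hM1a) ((hD' 0).trans hM1b)
  have k2 := hJ 1 _ (hD 1) d hd ((hD' 1).trans hM1b) (e1 ▸ hx'.trans hM1a)
  rw [e0] at k0
  rw [e1] at k2
  exact F.Joined_trans (F.Joined_trans k0 k1) k2

/-- `Ψ = ψ ∘ β` (`exists_beta`) is `Coarse`; map a chain from `α 1` to `α h` back by `β` and fill in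
geodesics of bounded length (`wl_exists_list`, `norm_hom_le`). -/
theorem slab_conn {T : Finset H} {α : H → F.G} {K : ℝ} (hα : F.HQI T α K) {ψ : H → F.V}
    (hψ : ∀ a b, ψ (a * b) = ψ a + ψ b) (hA : F.PsiA T α ψ) : SlabConn T ψ := by
  obtain ⟨K', β, hKK, -, hβ1, hβ2⟩ := F.exists_beta hα
  obtain ⟨C1, hC1, h1⟩ := F.M.norm_ht_le
  obtain ⟨C2, hC2, h2⟩ := norm_hom_le hα.gen ψ hψ
  have hK := hα.one_le
  have hsub : ∀ a b, ψ (a⁻¹ * b) = ψ b - ψ a := by
    intro a b
    rw [eq_sub_iff_add_eq', ← hψ, mul_inv_cancel_left]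
  have hone : ψ 1 = 0 := by simpa using hsub 1 1
  have hwl : ∀ x x', wl T ((β x)⁻¹ * β x') ≤ K * (F.M.dd x x' + 2 * K') + K := by
    intro x x'
    have e1 := hα.low (β x) ((β x)⁻¹ * β x')
    rw [mul_inv_cancel_left] at e1
    have e2 := F.M.dd_triangle (α (β x)) x (α (β x'))
    have e3 := F.M.dd_triangle x x' (α (β x'))
    rw [F.M.dd_comm _ x] at e2
    have e4 : F.M.dd (α (β x)) (α (β x')) ≤ F.M.dd x x' + 2 * K' := by linarith [hβ1 x, hβ1 x']
    have e5 := mul_le_mul_of_nonneg_left e4 (show 0 ≤ K by linarith)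
    linarith
  have hht : ∀ x, ‖F.M.ht (α (β x)) - F.M.ht x‖ ≤ C1 * K' := by
    intro x
    have e1 := h1 (x⁻¹ * α (β x))
    rw [Model.ht_mul, Model.ht_inv, neg_add_eq_sub] at e1
    exact e1.trans (mul_le_mul_of_nonneg_left (hβ1 x) hC1.le)
  have hΨ : F.Coarse fun x => ψ (β x) := by
    intro ε hε
    obtain ⟨C, hC⟩ := hA (ε / K) (by positivity)
    refine ⟨ε * (2 * K' + 1) + C + 2 * (C1 * K'), fun x g => ?_⟩
    have e1 := hC (β x) ((β x)⁻¹ * β (x * g))
    have e2 := hwl x (x * g)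
    rw [F.M.dd_mul_right] at e2
    rw [hsub, inc, mul_inv_cancel_left] at e1
    have e3 : ε / K * wl T ((β x)⁻¹ * β (x * g)) ≤ ε / K * (K * (F.M.len g + 2 * K') + K) :=
      mul_le_mul_of_nonneg_left e2 (by positivity)
    have e4 : ε / K * (K * (F.M.len g + 2 * K') + K) = ε * F.M.len g + ε * (2 * K' + 1) := by
      field_simp
      ring
    have e5 := hht x
    have e6 := hht (x * g)
    rw [Model.ht_mul] at e6
    have e7 : ψ (β (x * g)) - ψ (β x) - F.M.ht g =
        (ψ (β (x * g)) - ψ (β x) - (F.M.ht (α (β (x * g))) - F.M.ht (α (β x)))) +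
          ((F.M.ht (α (β (x * g))) - (F.M.ht x + F.M.ht g)) - (F.M.ht (α (β x)) - F.M.ht x)) := by
      abel
    dsimp only
    rw [e7]
    refine (norm_add_le _ _).trans ?_
    linarith [norm_sub_le (F.M.ht (α (β (x * g))) - (F.M.ht x + F.M.ht g))
      (F.M.ht (α (β x)) - F.M.ht x)]
  have hαn : ∀ g, ‖ψ (β (α g))‖ ≤ ‖ψ g‖ + C2 * K' := by
    intro g
    have e1 := (h2 _).trans (mul_le_mul_of_nonneg_left (hβ2 g) hC2.le)
    rw [hsub] at e1
    linarith [norm_sub_norm_le (ψ (β (α g))) (ψ g)]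
  intro M
  obtain ⟨M2, hM2⟩ := F.joined_G hΨ (max M 0 + C2 * K')
  set D : ℝ := K * (1 + 2 * K') + K with hD
  have hKD : K' ≤ D := by nlinarith
  have hCD : 0 ≤ C2 * D := mul_nonneg hC2.le (by linarith)
  refine ⟨max M2 0 + C2 * D, fun h hh => ?_⟩
  obtain ⟨n, y, hy0, hyn, hy1, hy2⟩ := hM2 (α 1) (α h)
    ((hαn 1).trans (by rw [hone, norm_zero]; linarith [le_max_right M 0]))
    ((hαn h).trans (by linarith [le_max_left M 0]))
  have k0 : ∃ n, SlabPath T ψ (max M2 0 + C2 * D) n 1 :=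
    ⟨0, [], le_rfl, by simp, rfl, fun b => by
      rw [List.take_nil, List.prod_nil, hone, norm_zero]
      linarith [le_max_right M2 0]⟩
  have key : ∀ i ≤ n, ∃ n, SlabPath T ψ (max M2 0 + C2 * D) n (β (y i)) := by
    intro i
    induction i with
    | zero =>
      intro _
      refine econn_extend hα.gen hψ hC2.le h2 le_rfl k0 (by rw [hone, norm_zero]; exact le_max_right _ _) ?_
      rw [hy0]
      exact (hβ2 1).trans hKD
    | succ i ih =>
      intro hi
      refine econn_extend hα.gen hψ hC2.le h2 le_rfl (ih (by omega))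
        ((hy2 i (by omega)).trans (le_max_left _ _)) ((hwl _ _).trans ?_)
      have := mul_le_mul_of_nonneg_left (add_le_add_left (hy1 i (by omega)) (2 * K'))
        (show 0 ≤ K by linarith)
      linarith
  refine econn_extend hα.gen hψ hC2.le h2 le_rfl (key n le_rfl)
    ((hy2 n le_rfl).trans (le_max_left _ _)) ?_
  rw [hyn, ← wl_inv, mul_inv_rev, inv_inv]
  exact (hβ2 h).trans hKD

end Frame

end Crest.Agent.R182
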