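import Crest.Agent.R182.GeoBasic
import Crest.Agent.R182.BoxFac

/-! Row 182, task `R182/GeoLen`: factorisations and lengths. -/

set_option autoImplicit false

namespace Crest.Agent.R182

open scoped BigOperators
open MeasureTheory

namespace Frame

variable (F : Frame)

theorem gl_len_prod {α : Type} (l : List α) (f : α → F.G) {n : ℕ} (hn : l.length ≤ n) {B : ℝ}
    (hB : 0 ≤ B) (h : ∀ q ∈ l, F.M.len (f q) ≤ B) : F.M.len (l.map f).prod ≤ n * B := by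
  refine (F.M.len_list_prod_le _).trans ?_
  have h1 := List.sum_le_card_nsmul ((l.map f).map F.M.len) B (by
    intro x hx
    rw [List.map_map] at hx
    obtain ⟨q, hq, rfl⟩ := List.mem_map.1 hx
    exact h q hq)
  rw [List.length_map, List.length_map, nsmul_eq_mul] at h1
  refine h1.trans (mul_le_mul_of_nonneg_right ?_ hB)
  exact_mod_cast hn

theorem gl_root_prod (l : List (F.J × ℝ)) : (l.map fun q => F.root q.1 q.2).prod =
    F.M.ofE (F.N.prod (l.map fun q => q.2 • F.X q.1)) := by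
  rw [F.ofE_prod_R, List.map_map]
  · rfl
  · intro x hx
    obtain ⟨q, -, rfl⟩ := List.mem_map.1 hx
    exact Submodule.smul_mem _ _ (F.X_mem _)

theorem gl_lin_prod {ι : Type} (b : ι → F.L) (l : List (ι × ℝ)) :
    (l.map fun q => F.lin (b q.1) q.2).prod =
      F.M.ofE (F.N.prod (l.map fun q => q.2 • F.hat (b q.1))) := by
  rw [F.ofE_prod_D, List.map_map]
  · rfl
  · intro x hx
    obtain ⟨q, -, rfl⟩ := List.mem_map.1 hx
    exact Submodule.smul_mem _ _ (F.hat_mem _)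

/-- `NL.factor` in `R` -/
theorem fac_R : ∃ n₀ : ℕ, ∀ h : F.J → ℝ, ∀ y ∈ F.R, F.bx h y ≤ 1 →
    ∃ l : List (F.J × ℝ), l.length ≤ n₀ ∧ (∀ q ∈ l, |q.2| ≤ Real.exp (h q.1)) ∧
      (l.map fun q => F.root q.1 q.2).prod = F.M.ofE y := by
  obtain ⟨n₀, hn⟩ := F.N.factor F.X
  refine ⟨n₀, fun h y hy hy1 => ?_⟩
  obtain ⟨l, h1, h2, h3⟩ := hn h y hy hy1
  exact ⟨l, h1, h2, by rw [F.gl_root_prod, h3]⟩

/-- with control of the partial products (`bI_letter`, `ln_prod_bdd`, `bI_shift`) -/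
theorem fac_R' : ∃ (n₀ : ℕ) (C : ℝ), 0 ≤ C ∧ ∀ h : F.J → ℝ, ∀ y ∈ F.R, F.bx h y ≤ 1 →
    ∃ l : List (F.J × ℝ), l.length ≤ n₀ ∧ (∀ q ∈ l, |q.2| ≤ Real.exp (h q.1)) ∧
      (l.map fun q => F.root q.1 q.2).prod = F.M.ofE y ∧
      ∀ b : ℕ, ∃ z ∈ F.R, F.bx (fun j => h j + C) z ≤ 1 ∧
        ((l.take b).map fun q => F.root q.1 q.2).prod = F.M.ofE z := by
  obtain ⟨n₀, hn⟩ := F.fac_R
  obtain ⟨C, e, hC, hp⟩ := F.N.ln_prod_bdd n₀
  set B : ℝ := C * (1 + 2 ^ F.N.m) ^ e * 2 ^ F.N.m with hB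
  have hB0 : 0 ≤ B := by positivity
  refine ⟨n₀, B, hB0, fun h y hy hy1 => ?_⟩
  obtain ⟨l, h1, h2, h3⟩ := hn h y hy hy1
  refine ⟨l, h1, h2, h3, fun b => ?_⟩
  have hl : ∀ x ∈ (l.take b).map fun q => q.2 • F.X q.1, x ∈ F.R ∧ F.bx h x ≤ 2 ^ F.N.m := by
    intro x hx
    obtain ⟨q, hq, rfl⟩ := List.mem_map.1 hx
    have hq2 := h2 q (List.mem_of_mem_take hq)
    refine ⟨Submodule.smul_mem _ _ (F.X_mem _), ?_⟩
    rw [(F.isLN_bx h).smul _ _ (F.X_mem _)]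
    have h4 : F.bx h (F.X q.1) ≤ 2 ^ F.N.m * Real.exp (-h q.1) :=
      F.N.bI_letter F.X h (Set.mem_univ _)
    have h5 := (F.isLN_bx h).nonneg (F.X_mem q.1)
    calc |q.2| * F.bx h (F.X q.1) ≤ Real.exp (h q.1) * (2 ^ F.N.m * Real.exp (-h q.1)) := by gcongr
      _ = 2 ^ F.N.m * (Real.exp (h q.1) * Real.exp (-h q.1)) := by ring
      _ = 2 ^ F.N.m := by rw [← Real.exp_add]; simp
  have hz := (F.isLN_bx h).prod_mem fun x hx => (hl x hx).1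
  refine ⟨_, hz, ?_, F.gl_root_prod _⟩
  have h6 := hp _ _ (F.isLN_bx h) _ (by
    rw [List.length_map, List.length_take]; exact (min_le_right _ _).trans h1) _ (by positivity) hl
  have h7 := F.N.bI_shift F.X Set.univ (h := h) (h' := fun j => h j + B) hB0 (fun j => le_rfl) hz
  refine h7.trans ((mul_le_mul_of_nonneg_left h6 (Real.exp_pos _).le).trans ?_)
  rw [← hB, Real.exp_neg, inv_mul_le_iff₀ (Real.exp_pos _), mul_one]
  linarith [Real.add_one_le_exp B]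

/-- Factorisation in `D` along any spanning family `b` of `L`.  The letters `hat (b i)` generate `D`
(they span the `a i`, `idl_le`), and `bI (hat ∘ b) univ (log (C r)) ≤ dn r` by `le_bI_of_isLN`
(each `a i` is a fixed combination of the `hat (b i)`).  Then `NL.factor`; partial products as above. -/
theorem fac_D {ι : Type} [Fintype ι] (b : ι → F.L) (hb : Submodule.span ℝ (Set.range b) = ⊤) :
    ∃ (n₀ : ℕ) (C : ℝ), 1 ≤ C ∧ ∀ r : ℝ, 0 < r → ∀ d ∈ F.D, F.dn r d ≤ 1 →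
      ∃ l : List (ι × ℝ), l.length ≤ n₀ ∧ (∀ q ∈ l, |q.2| ≤ C * r) ∧
        (l.map fun q => F.lin (b q.1) q.2).prod = F.M.ofE d ∧
        ∀ i : ℕ, ∃ z ∈ F.D, F.dn r z ≤ C ∧
          ((l.take i).map fun q => F.lin (b q.1) q.2).prod = F.M.ofE z := by
  classical
  have hc : ∀ j : Fin F.m, ∃ c : ι → ℝ, ∑ i, c i • b i = Pi.single j 1 := fun j =>
    (Submodule.mem_span_range_iff_exists_fun ℝ).1 (by rw [hb]; trivial)
  choose c hc using hc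
  set Y : ι → F.E := fun i => F.hat (b i) with hY
  obtain ⟨n₀, hn⟩ := F.N.factor Y
  obtain ⟨C₂, hC₂, hdn⟩ := F.dn_hat
  obtain ⟨C₃, e, hC₃, hp⟩ := F.N.ln_prod_bdd n₀
  have hs0 : 0 ≤ ∑ j, ∑ i, |c j i| := by positivity
  set C₁ : ℝ := 1 + 2 ^ F.N.m * ∑ j, ∑ i, |c j i| with hC₁
  have hC₁1 : 1 ≤ C₁ := le_add_of_nonneg_right (by positivity)
  set A : ℝ := C₂ * C₁ * ∑ i, ‖b i‖ with hA
  have hA0 : 0 ≤ A := by positivity
  set B : ℝ := C₃ * (1 + A) ^ e * A with hB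
  have hB0 : 0 ≤ B := by positivity
  refine ⟨n₀, C₁ + B, by linarith, fun r hr d hd hd1 => ?_⟩
  have hLN := F.N.isLN_bI Y Set.univ fun _ => Real.log (C₁ * r)
  have hYm : ∀ i, Y i ∈ F.N.idl Y Set.univ := fun i => F.N.letter_mem Y (Set.mem_univ i)
  have hCr : 0 < C₁ * r := by positivity
  obtain ⟨h1, h2⟩ := F.N.le_bI_of_isLN F.a hLN (fun _ => Real.log r) (x := d) (by
    intro j
    have e1 : F.a j = ∑ i, c j i • Y i := by
      rw [← F.hat_single, ← hc j, map_sum]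
      simp only [map_smul, hY]
    rw [e1]
    refine ⟨Submodule.sum_mem _ fun i _ => Submodule.smul_mem _ _ (hYm i), ?_⟩
    refine (hLN.sum_le _ fun i _ => Submodule.smul_mem _ _ (hYm i)).trans ?_
    have h3 : ∀ i, F.N.bI Y Set.univ (fun _ => Real.log (C₁ * r)) (c j i • Y i) ≤
        |c j i| * (2 ^ F.N.m * (C₁ * r)⁻¹) := by
      intro i
      rw [hLN.smul _ _ (hYm i)]
      refine mul_le_mul_of_nonneg_left ?_ (abs_nonneg _)
      have := F.N.bI_letter Y (fun _ => Real.log (C₁ * r)) (Set.mem_univ i)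
      rwa [Real.exp_neg, Real.exp_log hCr] at this
    refine (Finset.sum_le_sum fun i _ => h3 i).trans ?_
    rw [← Finset.sum_mul, Real.exp_neg, Real.exp_log hr]
    have h4 : ∑ i, |c j i| ≤ ∑ j, ∑ i, |c j i| :=
      Finset.single_le_sum (f := fun j => ∑ i, |c j i|) (fun j _ => by positivity)
        (Finset.mem_univ j)
    have h5 : (∑ i, |c j i|) * 2 ^ F.N.m ≤ C₁ := by
      have : (∑ i, |c j i|) * 2 ^ F.N.m ≤ (∑ j, ∑ i, |c j i|) * 2 ^ F.N.m := by gcongr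
      linarith
    calc (∑ i, |c j i|) * (2 ^ F.N.m * (C₁ * r)⁻¹)
        = ((∑ i, |c j i|) * 2 ^ F.N.m) * (C₁ * r)⁻¹ := by ring
      _ ≤ C₁ * (C₁ * r)⁻¹ := by gcongr
      _ = r⁻¹ := by field_simp) hd
  obtain ⟨l, h3, h4, h5⟩ := hn _ d h1 (h2.trans hd1)
  simp only [Real.exp_log hCr] at h4
  refine ⟨l, h3, fun q hq => (h4 q hq).trans (by nlinarith), by rw [F.gl_lin_prod, ← h5], fun i => ?_⟩
  have hl : ∀ x ∈ (l.take i).map fun q => q.2 • F.hat (b q.1), x ∈ F.D ∧ F.dn r x ≤ A := by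
    intro x hx
    obtain ⟨q, hq, rfl⟩ := List.mem_map.1 hx
    have hq2 := h4 q (List.mem_of_mem_take hq)
    refine ⟨Submodule.smul_mem _ _ (F.hat_mem _), (hdn r hr _ _).trans ?_⟩
    have h6 : ‖b q.1‖ ≤ ∑ i, ‖b i‖ :=
      Finset.single_le_sum (f := fun i => ‖b i‖) (fun _ _ => norm_nonneg _) (Finset.mem_univ _)
    calc C₂ * |q.2| * ‖b q.1‖ / r ≤ C₂ * (C₁ * r) * (∑ i, ‖b i‖) / r := by gcongr
      _ = A := by rw [hA]; field_simp
  refine ⟨_, (F.isLN_dn r).prod_mem fun x hx => (hl x hx).1, ?_, F.gl_lin_prod b _⟩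
  have h6 := hp _ _ (F.isLN_dn r) _ (by
    rw [List.length_map, List.length_take]; exact (min_le_right _ _).trans h3) _ hA0 hl
  linarith

theorem len_D : ∃ C : ℝ, 1 ≤ C ∧ ∀ r : ℝ, 0 < r → ∀ d ∈ F.D, F.dn r d ≤ 1 →
    F.M.len (F.M.ofE d) ≤ C * (r + 1) := by
  classical
  obtain ⟨n₀, C, hC, hf⟩ := F.fac_D (fun i : Fin F.m => (Pi.single i 1 : F.L)) (by
    have := (Pi.basisFun ℝ (Fin F.m)).span_eq
    rwa [show ⇑(Pi.basisFun ℝ (Fin F.m)) = fun i => Pi.single i 1 from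
      funext fun i => Pi.basisFun_apply ℝ _ i] at this)
  obtain ⟨C', hC', hl⟩ := F.len_lin
  refine ⟨n₀ * (C' * C) + 1, le_add_of_nonneg_left (by positivity), fun r hr d hd hd1 => ?_⟩
  obtain ⟨l, h1, h2, h3, -⟩ := hf r hr d hd hd1
  rw [← h3]
  refine (F.gl_len_prod l _ h1 (B := C' * C * (r + 1)) (by positivity) fun q hq => ?_).trans ?_
  · refine (hl _ _).trans ?_
    have h4 := h2 q hq
    rw [Pi.norm_single, norm_one, mul_one, mul_assoc]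
    refine mul_le_mul_of_nonneg_left ?_ hC'.le
    linarith
  · have : (n₀ : ℝ) * (C' * C * (r + 1)) = n₀ * (C' * C) * (r + 1) := by ring
    rw [this]
    nlinarith

/-- conjugating a weight vector by an element of `D` (`conj_ofE`, `norm_Ad_le`, `τ_Ad`, `D_fix`) -/
theorem conj_wt : ∃ (C : ℝ) (e : ℕ), 1 ≤ C ∧ ∀ j b, F.Wt j b → ∀ d ∈ F.D, ∃ b', F.Wt j b' ∧
    (F.M.ofE d)⁻¹ * F.M.ofE b * F.M.ofE d = F.M.ofE b' ∧
    ‖b'‖ ≤ C * (1 + ‖d‖) ^ e * Real.exp (-F.μ j (F.M.φ d)) * ‖b‖ := by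
  obtain ⟨C, e, hC, hAd⟩ := F.N.norm_Ad_le
  refine ⟨C, e, hC, fun j b hb d hd => ?_⟩
  have hnd : -d ∈ F.D := neg_mem hd
  refine ⟨F.N.Ad (-d) (Real.exp (-F.μ j (F.M.φ d)) • b), ⟨?_, fun u => ?_⟩, ?_, ?_⟩
  · exact F.N.Ad_mem (fun y hy => F.R_br _ hy) (Submodule.smul_mem _ _ hb.1)
  · rw [F.M.τ_Ad, F.D_fix hnd, map_smul, hb.2, smul_comm, map_smul]
  · have := F.M.conj_ofE (F.M.ofE d)⁻¹ (F.φ_R hb.1)
    rw [inv_inv] at this
    rw [this, F.ofE_inv_D hd, Model.toE_ofE, Model.ht_ofE, hb.2, map_neg, map_neg]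
  · refine (hAd _ _).trans ?_
    rw [norm_neg, norm_smul, Real.norm_eq_abs, abs_of_pos (Real.exp_pos _), mul_assoc _ _ ‖b‖]

/-- the same along a line -/
theorem conj_wt_lin (v : F.L) : ∃ C : ℝ, 1 ≤ C ∧ ∀ j b, F.Wt j b → ∀ t : ℝ, ∃ b', F.Wt j b' ∧
    (F.lin v t)⁻¹ * F.M.ofE b * F.lin v t = F.M.ofE b' ∧
    ‖b'‖ ≤ Real.exp (C * Real.log (2 + |t|) - t * F.μ j (F.φL v)) * ‖b‖ := by
  obtain ⟨C, e, hC, hc⟩ := F.conj_wt
  set K : ℝ := C * (1 + ‖F.hat v‖) ^ e with hK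
  have hK1 : 1 ≤ K :=
    one_le_mul_of_one_le_of_one_le hC (one_le_pow₀ (le_add_of_nonneg_right (norm_nonneg _)))
  refine ⟨2 * K + e, by linarith [(Nat.cast_nonneg e : (0 : ℝ) ≤ e)], fun j b hb t => ?_⟩
  obtain ⟨b', h1, h2, h3⟩ := hc j b hb (t • F.hat v) (Submodule.smul_mem _ _ (F.hat_mem v))
  refine ⟨b', h1, h2, h3.trans (mul_le_mul_of_nonneg_right ?_ (norm_nonneg _))⟩
  rw [map_smul, F.φ_hat, map_smul, smul_eq_mul, sub_eq_add_neg, Real.exp_add]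
  refine mul_le_mul_of_nonneg_right ?_ (Real.exp_pos _).le
  have ht := abs_nonneg t
  have hH := norm_nonneg (F.hat v)
  have h4 : 1 + ‖t • F.hat v‖ ≤ (1 + ‖F.hat v‖) * (2 + |t|) := by
    rw [norm_smul, Real.norm_eq_abs]; nlinarith
  have h5 : Real.log 2 ≤ Real.log (2 + |t|) := Real.log_le_log (by norm_num) (by linarith)
  have h6 := Real.log_two_gt_d9
  have h7 : K ≤ Real.exp (2 * K * Real.log (2 + |t|)) := by
    have := Real.add_one_le_exp (2 * K * Real.log (2 + |t|))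
    have h8 : K ≤ Real.exp K := by linarith [Real.add_one_le_exp K]
    exact h8.trans (Real.exp_le_exp.2 (by nlinarith))
  calc C * (1 + ‖t • F.hat v‖) ^ e ≤ C * ((1 + ‖F.hat v‖) * (2 + |t|)) ^ e := by gcongr
    _ = K * (2 + |t|) ^ e := by rw [mul_pow, hK]; ring
    _ ≤ Real.exp (2 * K * Real.log (2 + |t|)) * (2 + |t|) ^ e := by gcongr
    _ = Real.exp ((2 * K + e) * Real.log (2 + |t|)) := by
      rw [add_mul, Real.exp_add, Real.exp_nat_mul, Real.exp_log (by linarith)]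

/-- A weight vector is `lin v t * b' * (lin v t)⁻¹` with `‖b'‖ ≤ 1`, `|t| ≤ C (S + 1)`, for any `v` with
`μ j (φL v) ≠ 0` (choose the sign of `t`; `C log (2 + t) ≤ c t + C'`). -/
theorem wt_eq_conj (v : F.L) (j : F.J) (hv : F.μ j (F.φL v) ≠ 0) : ∃ C : ℝ, 1 ≤ C ∧ ∀ S : ℝ, 0 ≤ S →
    ∀ b, F.Wt j b → ‖b‖ ≤ Real.exp S → ∀ t : ℝ, C * (S + 1) ≤ |t| → 0 < t * F.μ j (F.φL v) →
      ∃ b', F.Wt j b' ∧ ‖b'‖ ≤ 1 ∧ (F.lin v t)⁻¹ * F.M.ofE b * F.lin v t = F.M.ofE b' := by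
  obtain ⟨C₀, hC₀, hc⟩ := F.conj_wt_lin v
  set a : ℝ := |F.μ j (F.φL v)| with ha
  have ha0 : 0 < a := abs_pos.2 hv
  set ε : ℝ := a / (2 * C₀) with hε
  have hε0 : 0 < ε := by positivity
  set c₁ : ℝ := a + C₀ * |Real.log ε| with hc₁
  have hc₁0 : 0 ≤ c₁ := by positivity
  refine ⟨2 * (1 + c₁) / a + 1, le_add_of_nonneg_left (by positivity),
    fun S hS b hb hbS t ht ht' => ?_⟩
  obtain ⟨b', h1, h2, h3⟩ := hc j b hb t
  refine ⟨b', h1, h3.trans ?_, h2⟩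
  have h0 := abs_nonneg t
  have e1 : t * F.μ j (F.φL v) = |t| * a := by rw [ha, ← abs_mul, abs_of_pos ht']
  have h4 : Real.log (2 + |t|) ≤ ε * (2 + |t|) + |Real.log ε| := by
    have h5 := Real.log_le_sub_one_of_pos (show 0 < ε * (2 + |t|) by positivity)
    rw [Real.log_mul hε0.ne' (by positivity)] at h5
    linarith [neg_abs_le (Real.log ε)]
  have h5 : C₀ * Real.log (2 + |t|) ≤ a * |t| / 2 + c₁ := by
    have : C₀ * (ε * (2 + |t|) + |Real.log ε|) = a * |t| / 2 + c₁ := by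
      rw [hε, hc₁, hε]; field_simp; ring
    rw [← this]
    exact mul_le_mul_of_nonneg_left h4 (by linarith)
  have h6 : (1 + c₁) * (S + 1) ≤ a * |t| / 2 := by
    have h7 : 2 * (1 + c₁) / a * (S + 1) ≤ |t| := by nlinarith
    have h8 := mul_le_mul_of_nonneg_left h7 ha0.le
    have : a * (2 * (1 + c₁) / a * (S + 1)) = 2 * ((1 + c₁) * (S + 1)) := by field_simp
    linarith
  refine (mul_le_mul_of_nonneg_left hbS (Real.exp_pos _).le).trans ?_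
  rw [← Real.exp_add, Real.exp_le_one_iff, e1]
  nlinarith

theorem gl_len_wt (j : F.J) : ∃ K : ℝ, 0 ≤ K ∧ ∀ S : ℝ, 0 ≤ S → ∀ b, F.Wt j b →
    ‖b‖ ≤ Real.exp S → F.M.len (F.M.ofE b) ≤ K * (S + 1) := by
  obtain ⟨v, hv⟩ : ∃ v, F.μ j (F.φL v) ≠ 0 := by
    by_contra hcon
    push Not at hcon
    refine F.μ_ne j (LinearMap.ext fun u => ?_)
    obtain ⟨v, rfl⟩ := F.φL_surj u
    exact hcon v
  obtain ⟨C, hC, hc⟩ := F.wt_eq_conj v j hv
  obtain ⟨C₁, hC₁, hl⟩ := F.len_lin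
  obtain ⟨C₂, hC₂, he⟩ := F.M.len_ofE_le
  refine ⟨2 * (C₁ * (1 + C * ‖v‖)) + 2 * C₂, by positivity, fun S hS b hb hbS => ?_⟩
  obtain ⟨t, ht, ht'⟩ : ∃ t : ℝ, |t| = C * (S + 1) ∧ 0 < t * F.μ j (F.φL v) := by
    have h0 : 0 < C * (S + 1) := by positivity
    rcases lt_or_gt_of_ne hv with h | h
    · exact ⟨-(C * (S + 1)), by rw [abs_neg, abs_of_pos h0], mul_pos_of_neg_of_neg (by linarith) h⟩
    · exact ⟨C * (S + 1), abs_of_pos h0, mul_pos h0 h⟩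
  obtain ⟨b', h1, h2, h3⟩ := hc S hS b hb hbS t ht.ge ht'
  have e1 : F.M.ofE b = F.lin v t * F.M.ofE b' * (F.lin v t)⁻¹ := by rw [← h3]; group
  have h4 := F.M.len_mul_le (F.lin v t * F.M.ofE b') (F.lin v t)⁻¹
  have h5 := F.M.len_mul_le (F.lin v t) (F.M.ofE b')
  have h6 := hl v t
  have h7 := he b' (Or.inl (F.φ_R h1.1))
  rw [F.M.len_inv, ← e1] at h4
  rw [ht] at h6
  have h8 : C₁ * (1 + C * (S + 1) * ‖v‖) ≤ C₁ * (1 + C * ‖v‖) * (S + 1) := by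
    rw [mul_assoc C₁]
    refine mul_le_mul_of_nonneg_left ?_ hC₁.le
    nlinarith
  have h9 : C₂ * (1 + ‖b'‖) ≤ 2 * C₂ * (S + 1) := by nlinarith
  nlinarith

/-- `R` is exponentially distorted (`fac_R`, `wt_eq_conj`, `len_lin`, `len_ofE_le`) -/
theorem len_R : ∃ C : ℝ, 1 ≤ C ∧ ∀ S : ℝ, 0 ≤ S → ∀ y ∈ F.R, F.bx (fun _ => S) y ≤ 1 →
    F.M.len (F.M.ofE y) ≤ C * (S + 1) := by
  obtain ⟨n₀, hn⟩ := F.fac_R
  choose K hK0 hK using F.gl_len_wt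
  set c : ℝ := ∑ j, ‖F.X j‖ with hc
  have hc0 : 0 ≤ c := by positivity
  have hK1 : 0 ≤ ∑ j, K j := Finset.sum_nonneg fun j _ => hK0 j
  refine ⟨n₀ * ((∑ j, K j) * (c + 1)) + 1, le_add_of_nonneg_left (by positivity),
    fun S hS y hy hy1 => ?_⟩
  obtain ⟨l, h1, h2, h3⟩ := hn _ y hy hy1
  rw [← h3]
  refine (F.gl_len_prod l _ h1 (B := (∑ j, K j) * (c + 1) * (S + 1)) (by positivity)
    fun q hq => ?_).trans ?_
  · have h4 : ‖F.X q.1‖ ≤ c :=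
      Finset.single_le_sum (f := fun j => ‖F.X j‖) (fun _ _ => norm_nonneg _) (Finset.mem_univ _)
    have h5 : K q.1 ≤ ∑ j, K j := Finset.single_le_sum (fun j _ => hK0 j) (Finset.mem_univ _)
    have h6 := hK q.1 (S + c) (by linarith) _ (F.wt_X q.1 q.2) (by
      rw [norm_smul, Real.norm_eq_abs, Real.exp_add]
      exact mul_le_mul (h2 q hq) (h4.trans (by linarith [Real.add_one_le_exp c])) (norm_nonneg _)
        (Real.exp_pos _).le)
    refine h6.trans ?_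
    rw [mul_assoc]
    exact mul_le_mul h5 (by nlinarith) (by linarith) hK1
  · have : (n₀ : ℝ) * ((∑ j, K j) * (c + 1) * (S + 1)) =
        n₀ * ((∑ j, K j) * (c + 1)) * (S + 1) := by ring
    rw [this]
    nlinarith

theorem len_R_norm : ∃ C : ℝ, 1 ≤ C ∧ ∀ S : ℝ, 0 ≤ S → ∀ y ∈ F.R, ‖y‖ ≤ Real.exp S →
    F.M.len (F.M.ofE y) ≤ C * (S + 1) := by
  obtain ⟨K, hK, hl⟩ := F.len_R
  obtain ⟨C, hC, hn⟩ := F.norm_le_bi
  refine ⟨K * (C + 1), by nlinarith, fun S hS y hy hyS => ?_⟩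
  have h1 := (hn Set.univ (fun _ => S + C) (S + C) (by linarith) y hy).2 fun _ => le_rfl
  have h2 := hl (S + C) (by linarith) y hy (h1.trans (by
    calc C * Real.exp (-(S + C)) * ‖y‖ ≤ C * Real.exp (-(S + C)) * Real.exp S := by gcongr
      _ = C * Real.exp (-C) := by rw [mul_assoc, ← Real.exp_add]; congr 2; ring
      _ ≤ 1 := by
        rw [Real.exp_neg, mul_inv_le_iff₀ (Real.exp_pos _), one_mul]
        linarith [Real.add_one_le_exp C]))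
  refine h2.trans ?_
  rw [mul_assoc]
  exact mul_le_mul_of_nonneg_left (by nlinarith) (by linarith)

theorem gl_len_small (ε : ℝ) (hε : 0 < ε) (B : ℝ) (hB : 0 < B) : ∃ κ C : ℝ, 0 < κ ∧ κ ≤ 1 ∧
    0 ≤ C ∧ ∀ r : ℝ, 0 < r → ∀ y ∈ F.D, F.dn r y ≤ B * κ → F.M.len (F.M.ofE y) ≤ ε * r + C := by
  obtain ⟨C₀, hC₀, hl⟩ := F.len_D
  set κ' : ℝ := min 1 (ε / C₀) with hκ'
  have h0 : 0 < κ' := lt_min one_pos (by positivity)
  have h1 : κ' ≤ 1 := min_le_left _ _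
  have h2 : C₀ * κ' ≤ ε := by
    have : κ' ≤ ε / C₀ := min_le_right _ _
    rwa [le_div_iff₀ (by linarith), mul_comm] at this
  refine ⟨min 1 (κ' ^ F.N.m / B), C₀, lt_min one_pos (by positivity), min_le_left _ _, by linarith,
    fun r hr y hy hy1 => ?_⟩
  have h3 : F.dn r y ≤ κ' ^ F.N.m := by
    refine hy1.trans ?_
    have : min 1 (κ' ^ F.N.m / B) ≤ κ' ^ F.N.m / B := min_le_right _ _
    rwa [le_div_iff₀ hB, mul_comm] at this
  have h4 := F.dn_scale' (r := κ' * r) (r' := r) (by positivity) (by nlinarith) hy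
  have h5 : F.dn (κ' * r) y ≤ 1 := by
    refine h4.trans ((mul_le_mul_of_nonneg_left h3 (by positivity)).trans (le_of_eq ?_))
    rw [← mul_pow]
    have : r / (κ' * r) * κ' = 1 := by field_simp
    rw [this, one_pow]
  refine (hl _ (by positivity) y hy h5).trans ?_
  nlinarith

/-- Sublinear divergence in `D`: `dn r (Ad (-k) d) ≤ C κ` (`ln_Ad`), and `dn (κ' r) y ≤ 1` when
`dn r y ≤ κ'^m` (`dn_scale'`); then `len_D`. -/
theorem len_conj_D (A ε : ℝ) (hε : 0 < ε) : ∃ κ C : ℝ, 0 < κ ∧ κ ≤ 1 ∧ 0 ≤ C ∧ ∀ r : ℝ, 0 < r →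
    ∀ k ∈ F.D, ∀ d ∈ F.D, F.dn r k ≤ A → F.dn r d ≤ κ →
      F.M.len ((F.M.ofE k)⁻¹ * F.M.ofE d * F.M.ofE k) ≤ ε * r + C := by
  obtain ⟨κ, C, h0, h1, h2, h3⟩ := F.gl_len_small ε hε ((1 + |A|) ^ F.N.m) (by positivity)
  refine ⟨κ, C, h0, h1, h2, fun r hr k hk d hd hkA hdκ => ?_⟩
  have hLN := F.isLN_dn r
  have hnk : -k ∈ F.D := neg_mem hk
  have e1 := F.conj_D hnk hd
  rw [← F.ofE_inv_D hk, inv_inv] at e1
  rw [e1]
  refine h3 r hr _ (hLN.Ad_mem hnk hd) ?_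
  have := F.N.ln_Ad F.D (F.dn r) hLN.add_le hLN.smul (-k) (abs_nonneg A)
    (fun y hy => ⟨hLN.br_mem _ hnk _ hy, (hLN.br_le _ hnk _ hy).trans
      (mul_le_mul_of_nonneg_right (by rw [hLN.neg hk]; exact hkA.trans (le_abs_self A))
        (hLN.nonneg hy))⟩) hd
  exact this.trans (mul_le_mul_of_nonneg_left hdκ (by positivity))

/-- `ln_neg_mul` and the same scaling -/
theorem len_inv_mul_D (A ε : ℝ) (hε : 0 < ε) : ∃ κ C : ℝ, 0 < κ ∧ κ ≤ 1 ∧ 0 ≤ C ∧ ∀ r : ℝ, 0 < r →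
    ∀ k ∈ F.D, ∀ k' ∈ F.D, F.dn r k ≤ A → F.dn r k' ≤ A → F.dn r (k' - k) ≤ κ →
      F.M.len ((F.M.ofE k)⁻¹ * F.M.ofE k') ≤ ε * r + C := by
  obtain ⟨C', e, hC', hm⟩ := F.N.ln_neg_mul
  obtain ⟨κ, C, h0, h1, h2, h3⟩ := F.gl_len_small ε hε (C' * (1 + |A|) ^ e) (by positivity)
  refine ⟨κ, C, h0, h1, h2, fun r hr k hk k' hk' hkA hkA' hκ => ?_⟩
  have hLN := F.isLN_dn r
  rw [F.ofE_inv_D hk, F.ofE_mul_D _ hk']
  refine h3 r hr _ (hLN.mul_mem (neg_mem hk) hk') ?_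
  have := (hm _ _ hLN k hk k' hk' |A| (hkA.trans (le_abs_self A)) (hkA'.trans (le_abs_self A))).1
  exact this.trans (mul_le_mul_of_nonneg_left hκ (by positivity))

end Frame

end Crest.Agent.R182
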