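import Crest.Agent.R182.EDefs
import Crest.Agent.R182.GeoLen

/-! Row 182, task `R182/EConnD`: slabs in cosets of `D`. -/

set_option autoImplicit false

namespace Crest.Agent.R182

open scoped BigOperators
open MeasureTheory

namespace Frame

variable (F : Frame)

theorem Joined_trans {Ψ : F.G → F.V} {M : ℝ} {x y z : F.G} (h : F.Joined Ψ M x y)
    (h' : F.Joined Ψ M y z) : F.Joined Ψ M x z := by
  obtain ⟨n, a, rfl, rfl, h1, h2⟩ := h
  obtain ⟨n', a', h0, rfl, h1', h2'⟩ := h'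
  obtain ⟨b, hb1, hb2⟩ : ∃ b : ℕ → F.G, (∀ i ≤ n, b i = a i) ∧ ∀ i, b (n + i) = a' i := by
    refine ⟨fun i => if i ≤ n then a i else a' (i - n), fun i hi => if_pos hi, fun i => ?_⟩
    beta_reduce
    split_ifs with h
    · obtain rfl : i = 0 := by omega
      exact h0.symm
    · rw [Nat.add_sub_cancel_left]
  refine ⟨n + n', b, hb1 0 (Nat.zero_le n), hb2 n', fun i hi => ?_, fun i hi => ?_⟩
  · rcases lt_or_ge i n with h | h
    · rw [hb1 i h.le, hb1 (i + 1) h]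
      exact h1 i h
    · obtain ⟨j, rfl⟩ := Nat.exists_eq_add_of_le h
      rw [hb2, add_assoc, hb2]
      exact h1' _ (by omega)
  · rcases le_total i n with h | h
    · rw [hb1 i h]
      exact h2 i h
    · obtain ⟨j, rfl⟩ := Nat.exists_eq_add_of_le h
      rw [hb2]
      exact h2' _ (by omega)

theorem Joined_symm {Ψ : F.G → F.V} {M : ℝ} {x y : F.G} (h : F.Joined Ψ M x y) :
    F.Joined Ψ M y x := by
  obtain ⟨n, a, rfl, rfl, h1, h2⟩ := h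
  refine ⟨n, fun i => a (n - i), rfl, by simp, fun i hi => ?_, fun i _ => h2 _ (Nat.sub_le n i)⟩
  have := h1 (n - (i + 1)) (by omega)
  rwa [F.M.dd_comm, show n - (i + 1) + 1 = n - i by omega] at this

theorem Joined_mono {Ψ : F.G → F.V} {M M' : ℝ} {x y : F.G} (h : F.Joined Ψ M x y) (hM : M ≤ M') :
    F.Joined Ψ M' x y := by
  obtain ⟨n, a, h0, hn, h1, h2⟩ := h
  exact ⟨n, a, h0, hn, h1, fun i hi => (h2 i hi).trans hM⟩

theorem ecd_lip {Ψ : F.G → F.V} (hΨ : F.Coarse Ψ) :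
    ∃ A : ℝ, 1 ≤ A ∧ ∀ x g, ‖Ψ (x * g) - Ψ x‖ ≤ A * (F.M.len g + 1) := by
  obtain ⟨C, hC⟩ := hΨ 1 one_pos
  obtain ⟨B, hB, h⟩ := F.M.norm_ht_le
  refine ⟨B + 1 + |C|, by linarith [abs_nonneg C], fun x g => ?_⟩
  have h1 := norm_le_norm_sub_add (Ψ (x * g) - Ψ x) (F.M.ht g)
  have h2 := F.M.len_nonneg g
  nlinarith [hC x g, h g, le_abs_self C, abs_nonneg C]

theorem ecd_cor {Ψ : F.G → F.V} (hΨ : F.Coarse Ψ) : ∃ (c : F.G → F.L) (B C : ℝ), 0 < B ∧ 0 < C ∧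
    (∀ x, ‖c x‖ ≤ B * ‖Ψ x‖) ∧ (∀ x z, ‖c z - c x‖ ≤ B * ‖Ψ z - Ψ x‖) ∧
      ∀ x, ‖Ψ (x * F.M.ofE (F.hat (c x)))‖ ≤ ‖Ψ x‖ / 8 + C := by
  obtain ⟨s, hs⟩ := F.exists_section
  obtain ⟨B, hB, hB'⟩ := gb_bound s
  obtain ⟨L, hL, hL'⟩ := F.len_lin
  obtain ⟨C, hC⟩ := hΨ (1 / (8 * L * B)) (by positivity)
  refine ⟨fun x => -s (Ψ x), B, 1 + |C|, by positivity, by positivity, fun x => ?_,
    fun x z => ?_, fun x => ?_⟩
  · rw [norm_neg]; exact hB' _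
  · rw [neg_sub_neg, norm_sub_rev, ← map_sub]; exact hB' _
  · have h1 := hC x (F.M.ofE (F.hat (-s (Ψ x))))
    have h2 := hL' (-s (Ψ x)) 1
    rw [lin, one_smul, abs_one, one_mul, norm_neg] at h2
    rw [F.M.ht_ofE, φ_hat, map_neg F.φL, hs, sub_neg_eq_add, sub_add_cancel] at h1
    have h3 : 1 / (8 * L * B) * F.M.len (F.M.ofE (F.hat (-s (Ψ x)))) ≤
        1 / (8 * L * B) * (L * (B + B * ‖Ψ x‖)) := by
      refine mul_le_mul_of_nonneg_left (h2.trans ?_) (by positivity)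
      gcongr
      exact hB' _
    have h4 : 1 / (8 * L * B) * (L * (B + B * ‖Ψ x‖)) = 1 / 8 + ‖Ψ x‖ / 8 := by
      field_simp
    linarith [le_abs_self C]

/-- correction `y ↦ y * ofE (hat (-s (Ψ y)))` (`exists_section`, `len_lin`) halves `‖Ψ‖` up to a
constant; induct on `i` with `‖Ψ y‖ ≤ 2^i M₀` -/
theorem exists_slab_point {Ψ : F.G → F.V} (hΨ : F.Coarse Ψ) :
    ∃ M₀ : ℝ, ∀ y, ∃ d ∈ F.D, ‖Ψ (y * F.M.ofE d)‖ ≤ M₀ := by
  obtain ⟨c, B, C, -, hC, -, -, h⟩ := F.ecd_cor hΨ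
  have key : ∀ (k : ℕ) y, ‖Ψ y‖ ≤ 2 ^ k * (2 * C) →
      ∃ d ∈ F.D, ‖Ψ (y * F.M.ofE d)‖ ≤ 2 * C := fun k => by
    induction k with
    | zero => exact fun y hy => ⟨0, F.D.zero_mem, by simpa using hy⟩
    | succ k ih =>
      intro y hy
      have h1 : (1 : ℝ) ≤ 2 ^ k := one_le_pow₀ one_le_two
      obtain ⟨d, hd, h2⟩ := ih _ ((h y).trans (by rw [pow_succ] at hy; nlinarith))
      exact ⟨_, (F.isLN_dn 1).mul_mem (F.hat_mem (c y)) hd, by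
        rwa [← F.ofE_mul_D _ hd, ← mul_assoc]⟩
  refine ⟨2 * C, fun y => ?_⟩
  obtain ⟨k, hk⟩ := pow_unbounded_of_one_lt (‖Ψ y‖ / (2 * C)) (one_lt_two (α := ℝ))
  exact key k y ((div_lt_iff₀ (by positivity)).1 hk).le

/-- chains with small steps in `D` -/
def EcdCh (Ψ : F.G → F.V) (M : ℝ) (x z : F.G) : Prop :=
  ‖Ψ x‖ ≤ M ∧ Relation.ReflTransGen
    (fun x z => ‖Ψ z‖ ≤ M ∧ ∃ s ∈ F.D, ‖s‖ ≤ 1 ∧ z = x * F.M.ofE s) x z

variable {F} in
theorem EcdCh.right {Ψ : F.G → F.V} {M : ℝ} {x z : F.G} (h : F.EcdCh Ψ M x z) : ‖Ψ z‖ ≤ M := by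
  obtain ⟨h0, h⟩ := h
  induction h with
  | refl => exact h0
  | tail _ h _ => exact h.1

variable {F} in
theorem EcdCh.joined {Ψ : F.G → F.V} {M : ℝ} {x z : F.G} (h : F.EcdCh Ψ M x z) :
    F.Joined Ψ M x z := by
  obtain ⟨h0, h⟩ := h
  induction h with
  | refl => exact ⟨0, fun _ => x, rfl, rfl, fun i hi => absurd hi (Nat.not_lt_zero i),
      fun _ _ => h0⟩
  | @tail y z h1 h2 ih =>
    obtain ⟨h3, s, hs, h4, rfl⟩ := h2
    refine F.Joined_trans ih ⟨1, fun i => if i = 0 then y else y * F.M.ofE s, rfl, rfl,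
      fun i hi => ?_, fun i _ => ?_⟩
    · obtain rfl : i = 0 := by omega
      simp only [if_pos, zero_add, one_ne_zero, if_false, Model.dd_mul_right]
      refine F.M.len_le_one ⟨h4, ?_⟩
      rwa [F.ofE_inv_D hs, F.M.toE_ofE, norm_neg]
    · simp only
      split_ifs
      · exact EcdCh.right ⟨h0, h1⟩
      · exact h3

theorem ecd_seg {Ψ : F.G → F.V} {M : ℝ} (z : F.G) {e : F.E} (he : e ∈ F.D)
    (h : ∀ t ∈ Set.Icc (0 : ℝ) 1, ‖Ψ (z * F.M.ofE (t • e))‖ ≤ M) :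
    F.EcdCh Ψ M z (z * F.M.ofE e) := by
  obtain ⟨n, hn⟩ := exists_nat_gt ‖e‖
  have hn0 : (0 : ℝ) < n := (norm_nonneg e).trans_lt hn
  have key : ∀ k : ℕ, k ≤ n → Relation.ReflTransGen
      (fun x z => ‖Ψ z‖ ≤ M ∧ ∃ s ∈ F.D, ‖s‖ ≤ 1 ∧ z = x * F.M.ofE s) z
      (z * F.M.ofE (((k : ℝ) / n) • e)) := fun k => by
    induction k with
    | zero => intro _; simpa using Relation.ReflTransGen.refl
    | succ k ih =>
      intro hk
      refine (ih (Nat.le_of_succ_le hk)).tail ⟨h _ ⟨by positivity, ?_⟩, ((1 : ℝ) / n) • e,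
        F.D.smul_mem _ he, ?_, ?_⟩
      · rw [div_le_one hn0]; exact_mod_cast hk
      · rw [norm_smul, Real.norm_of_nonneg (by positivity), one_div, inv_mul_le_iff₀ hn0, mul_one]
        exact hn.le
      · rw [mul_assoc, F.ofE_mul_D _ (F.D.smul_mem _ he), F.N.smul_mul_smul, ← add_div,
          Nat.cast_succ]
  refine ⟨by simpa using h 0 ⟨le_rfl, zero_le_one⟩, ?_⟩
  simpa [hn0.ne'] using key n le_rfl

theorem ecd_est (A : ℝ) (hA : 0 < A) : ∃ K : ℝ, 1 ≤ K ∧ ∀ E : ℝ, K ≤ E → ∀ s ∈ F.D, ‖s‖ ≤ 1 →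
    ∀ u v : F.L, ‖u‖ ≤ A * E → ‖v‖ ≤ A * E → ‖v - u‖ ≤ A →
      F.dn E (F.N.mul (-F.hat u) (F.N.mul s (F.hat v))) ≤ K / E := by
  obtain ⟨C₁, hC₁, h₁⟩ := F.dn_hat
  obtain ⟨C₂, hC₂, h₂⟩ := F.norm_le_dn
  obtain ⟨C₃, e₃, hC₃, h₃⟩ := F.N.ln_neg_mul
  obtain ⟨C₄, e₄, hC₄, h₄⟩ := F.N.ln_prod_bdd 2
  obtain ⟨K, hK⟩ : ∃ K, K = (1 + C₁ * A) ^ F.N.m * C₂ + C₃ * (1 + C₁ * A) ^ e₃ * (C₁ * A) :=
    ⟨_, rfl⟩
  have hK0 : 0 ≤ K := by rw [hK]; positivity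
  have hK1 : K ≤ C₄ * 2 ^ e₄ * K :=
    le_mul_of_one_le_left hK0 (one_le_mul_of_one_le_of_one_le hC₄ (one_le_pow₀ one_le_two))
  refine ⟨C₄ * 2 ^ e₄ * K + 1, by linarith, fun E hE s hs hs1 u v hu hv huv => ?_⟩
  have hE1 : 1 ≤ E := by linarith
  have hE0 : 0 < E := by linarith
  have hp := F.isLN_dn E
  have hd : ∀ w : F.L, F.dn E (F.hat w) ≤ C₁ * ‖w‖ / E := fun w => by
    simpa using h₁ E hE0 w 1
  have hd' : ∀ w : F.L, ‖w‖ ≤ A * E → F.dn E (F.hat w) ≤ C₁ * A := fun w hw => by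
    refine (hd w).trans ?_
    rw [div_le_iff₀ hE0, mul_assoc]
    gcongr
  have hu' := F.D.neg_mem (F.hat_mem u)
  have a1 : F.dn E (F.N.Ad (-F.hat u) s) ≤ (1 + C₁ * A) ^ F.N.m * C₂ / E := by
    refine (F.N.ln_Ad F.D (F.dn E) hp.add_le hp.smul _ (A := C₁ * A) (by positivity)
      (fun y hy => ⟨F.D_br hu' hy, (hp.br_le _ hu' _ hy).trans ?_⟩) hs).trans ?_
    · rw [hp.neg (F.hat_mem u)]
      exact mul_le_mul_of_nonneg_right (hd' u hu) (hp.nonneg hy)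
    · rw [mul_div_assoc]
      refine mul_le_mul_of_nonneg_left ((h₂ E hE1 s hs).2.trans ?_) (by positivity)
      gcongr
      exact mul_le_of_le_one_right (by positivity) hs1
  have a2 : F.dn E (F.N.mul (-F.hat u) (F.hat v)) ≤ C₃ * (1 + C₁ * A) ^ e₃ * (C₁ * A) / E := by
    refine (h₃ _ _ hp _ (F.hat_mem u) _ (F.hat_mem v) _ (hd' u hu) (hd' v hv)).1.trans ?_
    rw [mul_div_assoc, ← map_sub]
    refine mul_le_mul_of_nonneg_left ((hd _).trans ?_) (by positivity)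
    gcongr
  have e : F.N.mul (-F.hat u) (F.N.mul s (F.hat v)) =
      F.N.prod [F.N.Ad (-F.hat u) s, F.N.mul (-F.hat u) (F.hat v)] := by
    rw [F.N.prod_cons, F.N.prod_cons, F.N.prod_nil, F.N.mul_zero', ← F.N.mul_mul_neg, neg_neg,
      F.N.mul_assoc', ← F.N.mul_assoc' (F.hat u), F.N.mul_neg', F.N.zero_mul', F.N.mul_assoc']
  have hKE : K / E ≤ 1 := (div_le_one hE0).2 (by linarith)
  rw [e]
  refine (h₄ _ _ hp _ le_rfl (K / E) (by positivity) fun x hx => ?_).trans ?_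
  · simp only [List.mem_cons, List.not_mem_nil, or_false] at hx
    rcases hx with rfl | rfl
    · refine ⟨hp.Ad_mem hu' hs, a1.trans ?_⟩
      gcongr
      rw [hK]
      exact le_add_of_nonneg_right (by positivity)
    · refine ⟨hp.mul_mem hu' (F.hat_mem v), a2.trans ?_⟩
      gcongr
      rw [hK]
      exact le_add_of_nonneg_left (by positivity)
  · calc C₄ * (1 + K / E) ^ e₄ * (K / E) ≤ C₄ * 2 ^ e₄ * (K / E) := by
          gcongr
          linarith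
      _ ≤ _ := by
          rw [← mul_div_assoc]
          gcongr
          linarith

theorem ecd_half {Ψ : F.G → F.V} (hΨ : F.Coarse Ψ) : ∃ (c : F.G → F.L) (B E₀ : ℝ), 0 < B ∧
    0 < E₀ ∧ (∀ x, ‖c x‖ ≤ B * ‖Ψ x‖) ∧ ∀ E, E₀ ≤ E → ∀ x z, F.EcdCh Ψ E x z →
      F.EcdCh Ψ (E / 2) (x * F.M.ofE (F.hat (c x))) (z * F.M.ofE (F.hat (c z))) := by
  obtain ⟨c, B, C, hB, hC, h1, h2, h3⟩ := F.ecd_cor hΨ
  obtain ⟨A, hA, hA'⟩ := F.ecd_lip hΨ
  obtain ⟨L, hL, hL'⟩ := F.len_D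
  obtain ⟨K, hK, hK'⟩ := F.ecd_est (2 * A * B) (by positivity)
  have hAL : 1 ≤ 8 * A * L := by nlinarith
  have hP : 1 ≤ (8 * A * L) ^ F.N.m := one_le_pow₀ hAL
  have hPK : K ≤ (8 * A * L) ^ F.N.m * K := le_mul_of_one_le_left (by linarith) hP
  have hQ : 0 ≤ 4 * (C + A * (L + 1)) := by positivity
  refine ⟨c, B, (8 * A * L) ^ F.N.m * K + 4 * (C + A * (L + 1)), hB, by positivity, h1,
    fun E hE x z h => ?_⟩
  have hE0 : 0 < E := by linarith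
  obtain ⟨h0, h⟩ := h
  have hAL' : 0 ≤ A * (L + 1) := by positivity
  refine ⟨(h3 x).trans (by linarith), ?_⟩
  induction h with
  | refl => exact Relation.ReflTransGen.refl
  | @tail y z h4 h5 ih =>
    obtain ⟨hz, s, hs, hs1, rfl⟩ := h5
    have hy : ‖Ψ y‖ ≤ E := EcdCh.right ⟨h0, h4⟩
    have hb : ∀ x, ‖Ψ x‖ ≤ E → ‖c x‖ ≤ 2 * A * B * E := fun x hx =>
      (h1 x).trans (mul_le_mul (by nlinarith) hx (norm_nonneg _) (by positivity))
    have hlen : F.M.len (F.M.ofE s) ≤ 1 := by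
      refine F.M.len_le_one ⟨hs1, ?_⟩
      rwa [F.ofE_inv_D hs, F.M.toE_ofE, norm_neg]
    have h6 := hK' E (by linarith) s hs hs1 (c y) (c (y * F.M.ofE s)) (hb _ hy) (hb _ hz)
      ((h2 _ _).trans (by
        have a1 : A * (F.M.len (F.M.ofE s) + 1) ≤ A * 2 :=
          mul_le_mul_of_nonneg_left (by linarith) (by linarith)
        have a2 := mul_le_mul_of_nonneg_left ((hA' y (F.M.ofE s)).trans a1) hB.le
        linarith))
    have hp := F.isLN_dn (E / (8 * A * L))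
    have hm1 := hp.mul_mem hs (F.hat_mem (c (y * F.M.ofE s)))
    have hm := hp.mul_mem (F.D.neg_mem (F.hat_mem (c y))) hm1
    have h7 := F.dn_scale' (r := E / (8 * A * L)) (r' := E) (by positivity)
      (div_le_self hE0.le hAL) hm
    rw [div_div_cancel₀ hE0.ne'] at h7
    have h8 : F.dn (E / (8 * A * L)) (F.N.mul (-F.hat (c y))
        (F.N.mul s (F.hat (c (y * F.M.ofE s))))) ≤ 1 :=
      h7.trans ((mul_le_mul_of_nonneg_left h6 (by positivity)).trans (by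
        rw [← mul_div_assoc]; exact (div_le_one hE0).2 (by linarith)))
    have h9 := (F.ecd_seg (Ψ := Ψ) (M := E / 2) (y * F.M.ofE (F.hat (c y))) hm fun t ht => by
      have a1 := hL' (E / (8 * A * L)) (by positivity) _ (F.D.smul_mem t hm) (by
        rw [hp.smul t _ hm, abs_of_nonneg ht.1]
        exact mul_le_one₀ ht.2 (hp.nonneg hm) h8)
      have a2 := mul_le_mul_of_nonneg_left (add_le_add_left a1 1) (zero_le_one.trans hA)
      have a3 : A * (L * (E / (8 * A * L) + 1) + 1) = E / 8 + A * (L + 1) := by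
        field_simp
        ring
      refine (norm_le_norm_sub_add _ (Ψ (y * F.M.ofE (F.hat (c y))))).trans ?_
      linarith [hA' (y * F.M.ofE (F.hat (c y))) (F.M.ofE (t • F.N.mul (-F.hat (c y))
        (F.N.mul s (F.hat (c (y * F.M.ofE s)))))), h3 y]).2
    rw [← F.ofE_mul_D _ hm1, ← F.ofE_mul_D _ (F.hat_mem _), ← F.ofE_inv_D (F.hat_mem _), mul_assoc,
      mul_inv_cancel_left, ← mul_assoc] at h9
    exact ih.trans h9

/-- Consider chains `y d_0, …, y d_n` with `d_i ∈ D` and steps `(-d_i) • d_{i+1}` of norm `≤ 1` (such steps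
lie in `Q`).  Straight segments `t ↦ z * ofE (t • e)`, `e ∈ D`, can be subdivided into such steps, and if
`dn r e ≤ 1` all their points are within `C (r + 1)` of `z` (`len_D`, `dn r (t • e) ≤ 1`).  A chain from
`y d` to `y d'` exists with some bound `E` on `‖Ψ‖`.  If `E ≥ E₀`, replace `d_i` by
`p_i = d_i • hat v_i`, `v_i = -s (Ψ (y d_i))`: `‖Ψ (y p_i)‖ ≤ ε C E + C`; `e_i = (-p_i) • p_{i+1} =
(-hat v_i) • s_i • hat v_{i+1}` has `dn E e_i ≤ C / E` (`ln_Ad`, `ln_neg_mul`, `ln_prod_small`, `dn_hat`,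
`norm_le_dn`, `‖v_{i+1} - v_i‖ ≤ C`), hence `dn (κ E) e_i ≤ 1` (`dn_scale'`); join by straight segments, also
`d_0` to `p_0` and `p_n` to `d_n`.  The new bound is `max (E / 2) M'`. -/
theorem joined_D {Ψ : F.G → F.V} (hΨ : F.Coarse Ψ) (M : ℝ) : ∃ M' : ℝ, ∀ y, ∀ d ∈ F.D,
    ∀ d' ∈ F.D, ‖Ψ (y * F.M.ofE d)‖ ≤ M → ‖Ψ (y * F.M.ofE d')‖ ≤ M →
      F.Joined Ψ M' (y * F.M.ofE d) (y * F.M.ofE d') := by
  obtain ⟨c, B, E₀, hB, hE₀, h1, h2⟩ := F.ecd_half hΨ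
  obtain ⟨A, hA, hA'⟩ := F.ecd_lip hΨ
  obtain ⟨L, hL, hL'⟩ := F.M.len_ofE_le
  obtain ⟨H, hH, hH'⟩ := gb_bound F.hat
  have hseg : ∀ z, ∀ e ∈ F.D,
      F.EcdCh Ψ (‖Ψ z‖ + A * (L * (1 + ‖e‖) + 1)) z (z * F.M.ofE e) := fun z e he =>
    F.ecd_seg z he fun t ht => by
      refine (norm_le_norm_sub_add _ (Ψ z)).trans ?_
      rw [add_comm]
      refine add_le_add_right ((hA' _ _).trans ?_) _
      gcongr
      refine (hL' _ (Or.inr (F.D_fix (F.D.smul_mem t he)))).trans ?_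
      rw [norm_smul, Real.norm_of_nonneg ht.1]
      gcongr
      exact mul_le_of_le_one_left (norm_nonneg e) ht.2
  obtain ⟨M₁, hM₁, hM₁'⟩ : ∃ M₁, M ≤ M₁ ∧ E₀ ≤ M₁ := ⟨_, le_max_left _ _, le_max_right _ _⟩
  have hM0 : 0 < M₁ := hE₀.trans_le hM₁'
  have hj : ∀ z, ‖Ψ z‖ ≤ M₁ → F.Joined Ψ (M₁ + A * (L * (1 + H * (B * M₁)) + 1)) z
      (z * F.M.ofE (F.hat (c z))) := fun z hz => by
    refine F.Joined_mono (hseg z _ (F.hat_mem _)).joined ?_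
    gcongr
    refine (hH' _).trans ?_
    gcongr
    refine (h1 z).trans ?_
    gcongr
  have hh : ∀ z, ‖Ψ z‖ ≤ M₁ → ‖Ψ (z * F.M.ofE (F.hat (c z)))‖ ≤ M₁ := fun z hz =>
    (h2 M₁ hM₁' z z ⟨hz, Relation.ReflTransGen.refl⟩).1.trans (by linarith)
  have key : ∀ (k : ℕ) (E : ℝ), E ≤ 2 ^ k * E₀ → ∀ x z, ‖Ψ x‖ ≤ M₁ → ‖Ψ z‖ ≤ M₁ →
      F.EcdCh Ψ E x z → F.Joined Ψ (M₁ + A * (L * (1 + H * (B * M₁)) + 1)) x z := fun k => by
    have h0 : ∀ E : ℝ, E ≤ E₀ → ∀ x z, F.EcdCh Ψ E x z →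
        F.Joined Ψ (M₁ + A * (L * (1 + H * (B * M₁)) + 1)) x z := fun E hE x z h =>
      F.Joined_mono h.joined (hE.trans (hM₁'.trans (le_add_of_nonneg_right (by positivity))))
    induction k with
    | zero => exact fun E hE x z _ _ h => h0 E (by simpa using hE) x z h
    | succ k ih =>
      intro E hE x z hx hz h
      rcases le_total E E₀ with h3 | h3
      · exact h0 E h3 x z h
      · exact F.Joined_trans (hj x hx) (F.Joined_trans (ih (E / 2)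
          (by rw [pow_succ] at hE; linarith) _ _ (hh x hx) (hh z hz) (h2 E h3 x z h))
          (F.Joined_symm (hj z hz)))
  refine ⟨M₁ + A * (L * (1 + H * (B * M₁)) + 1), fun y d hd d' hd' h h' => ?_⟩
  have h3 := hseg (y * F.M.ofE d) _ ((F.isLN_dn 1).mul_mem (F.D.neg_mem hd) hd')
  rw [← F.ofE_mul_D _ hd', ← F.ofE_inv_D hd, mul_assoc, mul_inv_cancel_left] at h3
  obtain ⟨k, hk⟩ := pow_unbounded_of_one_lt ((‖Ψ (y * F.M.ofE d)‖ +
    A * (L * (1 + ‖F.N.mul (-d) d'‖) + 1)) / E₀) (one_lt_two (α := ℝ))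
  exact key k _ ((div_lt_iff₀ hE₀).1 hk).le _ _ (h.trans hM₁) (h'.trans hM₁) h3

end Frame

end Crest.Agent.R182
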