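import Crest.Agent.R182.Frame

/-! Row 182: notions for the endgame.  Definitions only: DO NOT CHANGE (owner helper37). -/

set_option autoImplicit false

namespace Crest.Agent.R182

variable {H : Type*} [Group H]

/-- word length as a real number -/
noncomputable def wl (T : Finset H) (g : H) : ℝ :=
  (Crest.GroupTheory.wordLength (T : Set H) g : ℝ)

/-- `h` is reached by a path with at most `n` steps along which `‖ψ‖ ≤ M` -/
def SlabPath {V : Type} [NormedAddCommGroup V] (T : Finset H) (ψ : H → V) (M : ℝ) (n : ℕ)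
    (h : H) : Prop :=
  ∃ l : List H, l.length ≤ n ∧ (∀ x ∈ l, x ∈ T ∨ x⁻¹ ∈ T) ∧ l.prod = h ∧
    ∀ b : ℕ, ‖ψ (l.take b).prod‖ ≤ M

/-- polynomial growth in slabs, exponential in the width -/
def SlabGrowth {V : Type} [NormedAddCommGroup V] (T : Finset H) (ψ : H → V) : Prop :=
  ∃ C : ℝ, 0 < C ∧ ∀ (M : ℝ) (n : ℕ), 0 ≤ M → 2 ≤ n →
    ({h | SlabPath T ψ M n h}.ncard : ℝ) ≤ Real.exp (C * (M + Real.log n))

/-- slabs are coarsely connected -/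
def SlabConn {V : Type} [NormedAddCommGroup V] (T : Finset H) (ψ : H → V) : Prop :=
  ∀ M : ℝ, ∃ M' : ℝ, ∀ h, ‖ψ h‖ ≤ M → ∃ n, SlabPath T ψ M' n h

/-- Reiter's condition -/
def Reiter (T : Finset H) : Prop :=
  ∀ ε : ℝ, 0 < ε → ∃ ω : H → ℝ, (∀ h, 0 ≤ ω h) ∧ HasSum ω 1 ∧
    ∀ s ∈ T, ∑' h, |ω (h * s) - ω h| ≤ ε

namespace Frame

variable (F : Frame)

/-- `α : H → G` is a quasi-isometry -/
structure HQI (T : Finset H) (α : H → F.G) (K : ℝ) : Prop where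
  gen : Subgroup.closure (T : Set H) = ⊤
  one_le : 1 ≤ K
  up : ∀ g s, F.M.dd (α g) (α (g * s)) ≤ K * wl T s + K
  low : ∀ g s, wl T s ≤ K * F.M.dd (α g) (α (g * s)) + K
  dense : ∀ x, ∃ g, F.M.dd x (α g) ≤ K

/-- increments of the height along `H` -/
def inc (α : H → F.G) (g s : H) : F.V := F.M.ht (α (g * s)) - F.M.ht (α g)

/-- left multiplication by elements of `A` preserves height increments up to a sublinear error -/
def PropA (T : Finset H) (α : H → F.G) (A : Set H) : Prop :=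
  ∀ ε : ℝ, 0 < ε → ∃ C : ℝ, ∀ h ∈ A, ∀ g s, ‖F.inc α (h * g) s - F.inc α g s‖ ≤ ε * wl T s + C

/-- … and up to a logarithmic error along slab paths -/
def PropB (α : H → F.G) (A : Set H) : Prop :=
  ∀ ε : ℝ, 0 < ε → ∃ C : ℝ, ∀ h ∈ A, ∀ g s, ∀ E n : ℝ, 2 ≤ n →
    (α g)⁻¹ * α (g * s) ∈ F.PC (fun _ => E) n → ‖F.inc α g s‖ ≤ E →
      ‖F.inc α (h * g) s - F.inc α g s‖ ≤ ε * E + C * Real.log n

def PsiA (T : Finset H) (α : H → F.G) (ψ : H → F.V) : Prop :=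
  ∀ ε : ℝ, 0 < ε → ∃ C : ℝ, ∀ g s, ‖ψ s - F.inc α g s‖ ≤ ε * wl T s + C

def PsiB (α : H → F.G) (ψ : H → F.V) : Prop :=
  ∀ ε : ℝ, 0 < ε → ∃ C : ℝ, ∀ g s, ∀ E n : ℝ, 2 ≤ n →
    (α g)⁻¹ * α (g * s) ∈ F.PC (fun _ => E) n → ‖F.inc α g s‖ ≤ E →
      ‖ψ s - F.inc α g s‖ ≤ ε * E + C * Real.log n

/-- a coarse height function on `G` -/
def Coarse (Ψ : F.G → F.V) : Prop :=
  ∀ ε : ℝ, 0 < ε → ∃ C : ℝ, ∀ x g, ‖Ψ (x * g) - Ψ x - F.M.ht g‖ ≤ ε * F.M.len g + C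

/-- `x` and `x'` are joined by a chain with unit steps inside `‖Ψ‖ ≤ M` -/
def Joined (Ψ : F.G → F.V) (M : ℝ) (x x' : F.G) : Prop :=
  ∃ (n : ℕ) (y : ℕ → F.G), y 0 = x ∧ y n = x' ∧ (∀ i < n, F.M.dd (y i) (y (i + 1)) ≤ 1) ∧
    ∀ i ≤ n, ‖Ψ (y i)‖ ≤ M

end Frame

end Crest.Agent.R182
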