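import Crest.Agent.R182.EWord

/-! Row 182, task `R182/EMean`: averaging with an invariant mean. -/

set_option autoImplicit false

namespace Crest.Agent.R182

open scoped BigOperators
open MeasureTheory Crest.GroupTheory Crest.Geometry

variable {H : Type*} [Group H]

theorem em_summable_tv {ω : H → ℝ} (hω : Summable ω) (s : H) :
    Summable fun h => |ω (h * s) - ω h| :=
  ((((Equiv.mulRight s).summable_iff (f := ω)).2 hω).sub hω).abs

theorem em_tv_mul {ω : H → ℝ} (hω : Summable ω) (s t : H) :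
    ∑' h, |ω (h * (s * t)) - ω h| ≤ ∑' h, |ω (h * s) - ω h| + ∑' h, |ω (h * t) - ω h| := by
  have h1 : Summable fun h => |ω (h * s * t) - ω (h * s)| :=
    ((Equiv.mulRight s).summable_iff (f := fun h => |ω (h * t) - ω h|)).2 (em_summable_tv hω t)
  have h2 : ∑' h, |ω (h * s * t) - ω (h * s)| = ∑' h, |ω (h * t) - ω h| :=
    (Equiv.mulRight s).tsum_eq fun h => |ω (h * t) - ω h|
  rw [← h2, ← (em_summable_tv hω s).tsum_add h1]
  refine (em_summable_tv hω _).tsum_le_tsum (fun h => ?_) ((em_summable_tv hω s).add h1)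
  rw [← mul_assoc]
  linarith [abs_sub_le (ω (h * s * t)) (ω (h * s)) (ω h)]

theorem em_tv_inv (ω : H → ℝ) (s : H) :
    ∑' h, |ω (h * s⁻¹) - ω h| = ∑' h, |ω (h * s) - ω h| := by
  rw [← (Equiv.mulRight s).tsum_eq fun h => |ω (h * s⁻¹) - ω h|]
  refine tsum_congr fun h => ?_
  rw [Equiv.coe_mulRight, mul_inv_cancel_right, abs_sub_comm]

omit [Group H] in
theorem em_summable {k : ℕ} {ω : H → ℝ} (hω : Summable ω) {D : H → Fin k → ℝ} {B : ℝ}
    (hD : ∀ h, ‖D h‖ ≤ B) : Summable fun h => ω h • D h :=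
  Summable.of_norm_bounded (hω.abs.mul_right B) fun h => by
    rw [norm_smul, Real.norm_eq_abs]
    exact mul_le_mul_of_nonneg_left (hD h) (abs_nonneg _)

omit [Group H] in
theorem em_norm_le {k : ℕ} {ω : H → ℝ} (hω : Summable ω) {D : H → Fin k → ℝ} {B : ℝ}
    (hD : ∀ h, ‖D h‖ ≤ B) : ‖∑' h, ω h • D h‖ ≤ (∑' h, |ω h|) * B :=
  tsum_of_norm_bounded (hω.abs.hasSum.mul_right B) fun h => by
    rw [norm_smul, Real.norm_eq_abs]
    exact mul_le_mul_of_nonneg_left (hD h) (abs_nonneg _)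

omit [Group H] in
theorem em_avg {k : ℕ} {ω : H → ℝ} (h0 : ∀ h, 0 ≤ ω h) (hω : HasSum ω 1) {D : H → Fin k → ℝ}
    {z : Fin k → ℝ} {B : ℝ} (hD : ∀ h, ‖D h - z‖ ≤ B) : ‖∑' h, ω h • D h - z‖ ≤ B := by
  have h1 := em_norm_le hω.summable hD
  have h2 : ∑' h, |ω h| = 1 := by
    rw [← hω.tsum_eq]
    exact tsum_congr fun h => abs_of_nonneg (h0 h)
  have h3 : HasSum (fun h => ω h • z) z := by simpa using hω.smul_const z
  have h4 := (em_summable hω.summable hD).tsum_add h3.summable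
  simp only [← smul_add, sub_add_cancel] at h4
  rw [h2, one_mul] at h1
  rwa [h4, h3.tsum_eq, add_sub_cancel_right]

theorem em_shift {k : ℕ} {ω : H → ℝ} (hω : Summable ω) {D : H → Fin k → ℝ} {B : ℝ}
    (hD : ∀ h, ‖D h‖ ≤ B) (a : H) :
    ‖∑' h, ω h • D (h * a) - ∑' h, ω h • D h‖ ≤ (∑' h, |ω (h * a) - ω h|) * B := by
  have hω' : Summable fun h => ω (h * a⁻¹) := ((Equiv.mulRight a⁻¹).summable_iff (f := ω)).2 hω
  have h1 : ∑' h, ω h • D (h * a) = ∑' h, ω (h * a⁻¹) • D h := by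
    rw [← (Equiv.mulRight a).tsum_eq fun h => ω (h * a⁻¹) • D h]
    refine tsum_congr fun h => ?_
    rw [Equiv.coe_mulRight, mul_inv_cancel_right]
  rw [h1, ← (em_summable hω' hD).tsum_sub (em_summable hω hD), ← em_tv_inv]
  simp only [← sub_smul]
  exact em_norm_le (hω'.sub hω) hD

/-- `ω_i` for `ε = 1 / (i + 1)`; `∑' |ω_i (h s) - ω_i h| ≤ wl T s / (i + 1)` for all `s`.
`ψ_i s = ∑' ω_i h • (Φ (h s) - Φ h)` is bounded; `ψ s` = limit along an ultrafilter `≤ atTop`
(`hyperfilter ℕ`, compact balls). -/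
theorem exists_mean {k : ℕ} {T : Finset H} (hT : Subgroup.closure (T : Set H) = ⊤) (hR : Reiter T)
    (Φ : H → Fin k → ℝ) (hΦ : ∀ s, ∃ B, ∀ h, ‖Φ (h * s) - Φ h‖ ≤ B) :
    ∃ ψ : H → Fin k → ℝ, (∀ a b, ψ (a * b) = ψ a + ψ b) ∧
      ∀ s z (B : ℝ), (∀ h, ‖Φ (h * s) - Φ h - z‖ ≤ B) → ‖ψ s - z‖ ≤ B := by
  choose ω h0 h1 h2 using fun i : ℕ => hR (1 / ((i : ℝ) + 1)) Nat.one_div_pos_of_nat
  have htv : ∀ s, Filter.Tendsto (fun i => ∑' h, |ω i (h * s) - ω i h|) Filter.atTop (nhds 0) := by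
    intro s
    have hs : s ∈ Subgroup.closure (T : Set H) := by rw [hT]; trivial
    induction hs using Subgroup.closure_induction with
    | mem s hs =>
      exact squeeze_zero (fun i => tsum_nonneg fun h => abs_nonneg _) (fun i => h2 i s hs)
        tendsto_one_div_add_atTop_nhds_zero_nat
    | one => simp
    | mul s t _ _ hs ht =>
      exact squeeze_zero (fun i => tsum_nonneg fun h => abs_nonneg _)
        (fun i => em_tv_mul (h1 i).summable s t) (by simpa using hs.add ht)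
    | inv s _ hs => simpa only [em_tv_inv] using hs
  choose B hB using hΦ
  set P : ℕ → H → Fin k → ℝ := fun i s => ∑' h, ω i h • (Φ (h * s) - Φ h) with hP
  have hlim : ∀ s, ∃ x, Filter.Tendsto (fun i => P i s)
      ((Ultrafilter.of (Filter.atTop : Filter ℕ) : Ultrafilter ℕ) : Filter ℕ) (nhds x) := by
    intro s
    obtain ⟨x, -, hx⟩ := (isCompact_closedBall (0 : Fin k → ℝ) (B s)).ultrafilter_le_nhds
      ((Ultrafilter.of (Filter.atTop : Filter ℕ)).map fun i => P i s) (by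
        rw [Filter.le_principal_iff, Ultrafilter.mem_coe, Ultrafilter.mem_map]
        refine Filter.univ_mem' fun i => ?_
        exact em_avg (h0 i) (h1 i) (z := 0) fun h => by simpa using hB s h)
    exact ⟨x, hx⟩
  choose ψ hψ using hlim
  refine ⟨ψ, fun a b => ?_, fun s z C hC => ?_⟩
  · have t1 := ((hψ (a * b)).sub (hψ a)).sub (hψ b)
    have t2 : Filter.Tendsto (fun i => P i (a * b) - P i a - P i b) Filter.atTop (nhds 0) := by
      refine squeeze_zero_norm (fun i => ?_) (by simpa using (htv a).mul_const (B b))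
      have e : P i (a * b) - P i a = ∑' h, ω i h • (Φ (h * a * b) - Φ (h * a)) := by
        rw [hP]
        dsimp only
        rw [← (em_summable (h1 i).summable (hB (a * b))).tsum_sub
          (em_summable (h1 i).summable (hB a))]
        refine tsum_congr fun h => ?_
        rw [← smul_sub, sub_sub_sub_cancel_right, mul_assoc]
      rw [e]
      exact em_shift (h1 i).summable (hB b) a
    have := tendsto_nhds_unique t1 (t2.mono_left (Ultrafilter.of_le _))
    rwa [sub_sub, sub_eq_zero] at this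
  · exact le_of_tendsto' ((hψ s).sub_const z).norm fun i => em_avg (h0 i) (h1 i) hC

theorem Frame.exists_psi (F : Frame) {T : Finset H} {α : H → F.G} {K : ℝ} (hα : F.HQI T α K)
    (hR : Reiter T) (hA : F.PropA T α Set.univ) (hB : F.PropB α Set.univ) :
    ∃ ψ : H → F.V, (∀ a b, ψ (a * b) = ψ a + ψ b) ∧ F.PsiA T α ψ ∧ F.PsiB α ψ := by
  obtain ⟨C₀, -, hC₀⟩ := F.norm_inc_le hα
  obtain ⟨ψ, h1, h2⟩ := exists_mean hα.gen hR (fun h => F.M.ht (α h))
    fun s => ⟨_, fun h => hC₀ h s⟩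
  refine ⟨ψ, h1, fun ε hε => ?_, fun ε hε => ?_⟩
  · obtain ⟨C, hC⟩ := hA ε hε
    refine ⟨C, fun g s => h2 s _ _ fun h => ?_⟩
    have := hC (h * g⁻¹) trivial g s
    rwa [inv_mul_cancel_right] at this
  · obtain ⟨C, hC⟩ := hB ε hε
    refine ⟨C, fun g s E n hn hp hE => h2 s _ _ fun h => ?_⟩
    have := hC (h * g⁻¹) trivial g s E n hn hp hE
    rwa [inv_mul_cancel_right] at this

end Crest.Agent.R182
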