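import Crest.Agent.R182.GeoCov

/-! Row 182, auxiliary lemmas for `R182/GeoVC3`. -/

set_option autoImplicit false

namespace Crest.Agent.R182

open scoped BigOperators
open MeasureTheory

theorem v3_log {n : ℝ} (hn : 2 ≤ n) : 1 / 2 ≤ Real.log n := by
  have h1 : Real.log 2 ≤ Real.log n := Real.log_le_log (by norm_num) hn
  have h2 := Real.log_two_gt_d9
  linarith

theorem v3_le_exp {C w : ℝ} (hC : 0 ≤ C) (hw : 1 / 2 ≤ w) : C ≤ Real.exp (2 * C * w) := by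
  have := Real.add_one_le_exp (2 * C * w)
  nlinarith

theorem v3_mul_bdd {E : Type} [AddCommGroup E] [Module ℝ E] (N : NL E) (A : ℝ) (hA : 0 ≤ A) :
    ∃ A' : ℝ, 1 ≤ A' ∧ ∀ S p, IsLN N S p → ∀ x ∈ S, ∀ y ∈ S, p x ≤ A → p y ≤ A →
      p (N.mul x y) ≤ A' := by
  obtain ⟨C, e, hC, h⟩ := N.ln_mul_sub
  have h0 : 0 ≤ C * (1 + A + A) ^ e * (A * A) := by positivity
  refine ⟨1 + A + A + C * (1 + A + A) ^ e * (A * A), by linarith, fun S p hp x hx y hy hxA hyA => ?_⟩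
  have h1 := h S p hp x hx y hy
  have hx0 := hp.nonneg hx
  have hy0 := hp.nonneg hy
  have hm : N.mul x y - x - y ∈ S := S.sub_mem (S.sub_mem (hp.mul_mem hx hy) hx) hy
  have h2 : p (N.mul x y) ≤ p (N.mul x y - x - y) + p (x + y) := by
    have := hp.add_le _ hm _ (S.add_mem hx hy)
    rwa [show N.mul x y - x - y + (x + y) = N.mul x y by abel] at this
  have h3 := hp.add_le x hx y hy
  have h4 : C * (1 + p x + p y) ^ e * (p x * p y) ≤ C * (1 + A + A) ^ e * (A * A) := by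
    gcongr
  linarith

namespace Frame

variable (F : Frame)

/-- elements of controlled norm and height -/
def v3Sm (t : ℝ) (g : F.G) : Prop := ‖F.M.toE g‖ ≤ Real.exp t ∧ ‖F.M.ht g‖ ≤ t

variable {F} in
theorem v3Sm.mono {t t' : ℝ} {g : F.G} (h : F.v3Sm t g) (ht : t ≤ t') : F.v3Sm t' g :=
  ⟨h.1.trans (Real.exp_le_exp.2 ht), h.2.trans ht⟩

theorem v3_sm_op : ∃ K : ℝ, 1 ≤ K ∧ ∀ t : ℝ, 1 ≤ t → ∀ g h : F.G, F.v3Sm t g → F.v3Sm t h →
    F.v3Sm (K * t) (g * h) ∧ F.v3Sm (K * t) (g * h⁻¹) := by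
  obtain ⟨K, hK, hmul⟩ := F.N.api_mul_le
  obtain ⟨C, hC, hτ⟩ := F.M.norm_τ_le
  have key : ∀ t : ℝ, 0 ≤ t → ∀ v x, ‖v‖ ≤ t → ‖x‖ ≤ Real.exp t →
      ‖F.M.τ v x‖ ≤ Real.exp ((C + 1) * t) := by
    intro t ht v x hv hx
    refine (hτ v x).trans ?_
    rw [add_mul, Real.exp_add, one_mul]
    gcongr
  have hm : ∀ t : ℝ, 1 ≤ t → ∀ g h : F.G, F.v3Sm t g → F.v3Sm t h →
      F.v3Sm ((K * (C + 1) + 2) * t) (g * h) := by
    intro t ht g h hg hh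
    have hKC : 1 ≤ K * (C + 1) := by nlinarith
    constructor
    · rw [F.M.toE_mul]
      have h1 := hmul ((C + 1) * t) (by nlinarith) (F.M.toE g) _
        (hg.1.trans (Real.exp_le_exp.2 (by nlinarith))) (key t (by linarith) _ _ hg.2 hh.1)
      exact h1.trans (Real.exp_le_exp.2 (by nlinarith))
    · rw [F.M.ht_mul]
      have := norm_add_le (F.M.ht g) (F.M.ht h)
      have := hg.2
      have := hh.2
      nlinarith
  have hi : ∀ t : ℝ, 1 ≤ t → ∀ h : F.G, F.v3Sm t h → F.v3Sm ((C + 1) * t) h⁻¹ := by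
    intro t ht h hh
    constructor
    · rw [F.M.toE_inv]
      refine key t (by linarith) _ _ ?_ ?_
      · rw [norm_neg]; exact hh.2
      · rw [norm_neg]; exact hh.1
    · rw [F.M.ht_inv, norm_neg]
      exact hh.2.trans (by nlinarith)
  have hK1 : 1 ≤ K * (C + 1) + 2 := by nlinarith
  refine ⟨(K * (C + 1) + 2) * (C + 1), by nlinarith, fun t ht g h hg hh => ⟨?_, ?_⟩⟩
  · refine (hm t ht g h hg hh).mono ?_
    have : 0 ≤ (K * (C + 1) + 2) * t := by positivity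
    nlinarith
  · have h1 : t ≤ (C + 1) * t := by nlinarith
    have := hm ((C + 1) * t) (by linarith) g h⁻¹ (hg.mono h1) (hi t ht h hh)
    rwa [← mul_assoc] at this

theorem v3_sm_len : ∃ K : ℝ, 1 ≤ K ∧ ∀ (g : F.G) (a : ℝ), F.M.len g ≤ a → F.v3Sm (K * (a + 1)) g := by
  obtain ⟨C, hC, h⟩ := F.M.norm_toE_le
  obtain ⟨C', hC', h'⟩ := F.M.norm_ht_le
  refine ⟨C + C' + 1, by linarith, fun g a ha => ?_⟩
  have h0 := F.M.len_nonneg g
  constructor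
  · exact (h g).trans (Real.exp_le_exp.2 (by nlinarith))
  · exact (h' g).trans (by nlinarith)

/-- products of five controlled elements -/
theorem v3_sm_five : ∃ K : ℝ, 1 ≤ K ∧ ∀ t : ℝ, 1 ≤ t → ∀ g₁ g₂ g₃ g₄ g₅ : F.G, F.v3Sm t g₁ →
    F.v3Sm t g₂ → F.v3Sm t g₃ → F.v3Sm t g₄ → F.v3Sm t g₅ →
    F.v3Sm (K * t) (g₁ * g₂ * g₃⁻¹ * g₄⁻¹ * g₅⁻¹) ∧ F.v3Sm (K * t) (g₁ * g₂ * g₃ * g₄⁻¹ * g₅⁻¹) := by
  obtain ⟨K, hK, h⟩ := F.v3_sm_op
  have up : ∀ t : ℝ, 1 ≤ t → t ≤ K * t := fun t ht => by nlinarith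
  refine ⟨K * (K * (K * K)), by nlinarith [up K hK, up (K * K) (by nlinarith)],
    fun t ht g₁ g₂ g₃ g₄ g₅ h1 h2 h3 h4 h5 => ?_⟩
  have u1 := up t ht
  have u2 := up (K * t) (by linarith)
  have u3 := up (K * (K * t)) (by linarith)
  have a1 := (h t ht _ _ h1 h2).1
  have a2 := h (K * t) (by linarith) _ _ a1 (h3.mono u1)
  have e : K * (K * (K * K)) * t = K * (K * (K * (K * t))) := by ring
  rw [e]
  constructor
  · have a3 := (h (K * (K * t)) (by linarith) _ _ a2.2 (h4.mono (by linarith))).2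
    exact (h _ (by linarith) _ _ a3 (h5.mono (by linarith))).2
  · have a3 := (h (K * (K * t)) (by linarith) _ _ a2.1 (h4.mono (by linarith))).2
    exact (h _ (by linarith) _ _ a3 (h5.mono (by linarith))).2

/-- the set of the second factors -/
def v3B (K η n : ℝ) : Set F.G :=
  {b | ∃ b₀ ∈ F.R, ∃ d ∈ F.D, b = F.M.ofE b₀ * F.M.ofE d ∧
    ‖b₀‖ ≤ Real.exp (K * (η + Real.log n)) ∧ F.dn (K * n) d ≤ 1 ∧ ‖F.M.φ d‖ ≤ η}

theorem v3_split : ∃ K : ℝ, 1 ≤ K ∧ ∀ (u : F.V) (h : F.J → ℝ) (n η : ℝ), 0 ≤ η → 2 ≤ n →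
    (∀ j, j ∉ F.Pos u → h j ≤ η) → ∀ g ∈ F.PC h n, ‖F.M.ht g‖ ≤ η →
    ∃ i ∈ F.I (F.Pos u), ∃ b ∈ F.v3B K η n, g = F.M.ofE i * b ∧
      F.bx (fun j => h j + K * Real.log n) i ≤ K := by
  obtain ⟨C₁, hC₁, hconf⟩ := F.PC_conf
  obtain ⟨C₂, hC₂, hsplit⟩ := F.N.bI_split F.X
  obtain ⟨A, hA, hmul⟩ := v3_mul_bdd F.N 3 (by norm_num)
  have hm : (0 : ℝ) ≤ F.N.m := Nat.cast_nonneg _
  have hmC : 0 ≤ F.N.m * C₁ := by positivity
  refine ⟨C₁ + A + 2 * C₂ + F.N.m * C₁, by linarith, fun u h n η hη hn hP g hg hht => ?_⟩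
  have hL := v3_log hn
  obtain ⟨r, hr, d, hd, hr1, hd1, rfl⟩ := hconf h n hn g hg
  obtain ⟨y, hy, hy1, hy2⟩ := hsplit (F.Pos u) (fun j => h j + C₁ * Real.log n)
    (η + C₁ * Real.log n) (by positivity) (fun j hj => by linarith [hP j hj]) r hr
  have hr1' : F.N.bI F.X Set.univ (fun j => h j + C₁ * Real.log n) r ≤ 1 := hr1
  have hyR : y ∈ F.R := F.I_le _ hy
  have hb : r - y ∈ F.R := F.R.sub_mem hr hyR
  have hLN := F.isLN_bx fun j => h j + C₁ * Real.log n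
  have hi : F.N.mul r (-(r - y)) ∈ F.I (F.Pos u) := by
    have := F.N.mul_congr (I := F.I (F.Pos u)) (fun x z hz => F.I_br u x hz) (x := r) (x' := r - y)
      (y := -(r - y)) (y' := -(r - y)) (by rw [sub_sub_cancel]; exact hy) (by simp)
    rwa [F.N.mul_neg', sub_zero] at this
  refine ⟨_, hi, F.M.ofE (r - y) * F.M.ofE d, ⟨r - y, hb, d, hd, rfl, ?_, ?_, ?_⟩, ?_, ?_⟩
  · refine hy2.trans ?_
    have h1 := v3_le_exp (C := C₂) (w := η + Real.log n) (by linarith) (by linarith)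
    have h0 := F.N.bI_nonneg F.X Set.univ (fun j => h j + C₁ * Real.log n) r
    calc C₂ * Real.exp (F.N.m * (η + C₁ * Real.log n)) *
          F.N.bI F.X Set.univ (fun j => h j + C₁ * Real.log n) r
        ≤ Real.exp (2 * C₂ * (η + Real.log n)) * Real.exp (F.N.m * (η + C₁ * Real.log n)) * 1 := by
          gcongr
      _ ≤ _ := by
          rw [mul_one, ← Real.exp_add]
          refine Real.exp_le_exp.2 ?_
          have h2 : F.N.m * η ≤ F.N.m * C₁ * η := by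
            rw [mul_assoc]; exact mul_le_mul_of_nonneg_left (by nlinarith) hm
          nlinarith
  · refine le_trans (F.dn_scale (r := C₁ * n) (by positivity) (by nlinarith) hd) ?_
    have h1 : C₁ * n / ((C₁ + A + 2 * C₂ + F.N.m * C₁) * n) ≤ 1 :=
      div_le_one_of_le₀ (by nlinarith) (by positivity)
    have h2 := (F.isLN_dn (C₁ * n)).nonneg hd
    nlinarith
  · simpa [F.φ_R hr] using hht
  · rw [← mul_assoc, F.ofE_mul_R (F.I_le _ hi), F.N.mul_assoc', F.N.neg_mul', F.N.mul_zero']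
  · have h1 : F.bx (fun j => h j + C₁ * Real.log n) y ≤ 2 :=
      (F.N.bI_anti F.X (Set.subset_univ _) _ hy).trans (by linarith)
    have h2 : F.bx (fun j => h j + C₁ * Real.log n) (-(r - y)) ≤ 3 := by
      rw [hLN.neg hb]
      have := hLN.sub_le hr hyR
      linarith
    have h3 := hmul _ _ hLN r hr _ (F.R.neg_mem hb) (by linarith) h2
    refine le_trans (F.N.bI_mono F.X Set.univ (h := fun j => h j + C₁ * Real.log n)
      (fun j => by nlinarith) (F.I_le _ hi)) (h3.trans (by linarith))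

theorem v3_sm_D (K : ℝ) (hK : 1 ≤ K) : ∃ K' : ℝ, 1 ≤ K' ∧ ∀ η n : ℝ, 0 ≤ η → 2 ≤ n → ∀ d ∈ F.D,
    F.dn (K * n) d ≤ 1 → ‖F.M.φ d‖ ≤ η → F.v3Sm (K' * (η + Real.log n)) (F.M.ofE d) := by
  obtain ⟨C, hC, h⟩ := F.norm_le_dn
  have hm : (0 : ℝ) ≤ F.N.m := Nat.cast_nonneg _
  have hCK : 0 ≤ C * K ^ F.N.m := by positivity
  refine ⟨2 * (C * K ^ F.N.m) + F.N.m + 1, by linarith, fun η n hη hn d hd hd1 hφ => ⟨?_, ?_⟩⟩
  · have hL := v3_log hn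
    have h1 := (h (K * n) (by nlinarith) d hd).1
    have h2 := v3_le_exp (C := C * K ^ F.N.m) (w := η + Real.log n) hCK (by linarith)
    have h3 : n ^ F.N.m = Real.exp (F.N.m * Real.log n) := by
      rw [Real.exp_nat_mul, Real.exp_log (by linarith)]
    rw [F.M.toE_ofE]
    calc ‖d‖ ≤ C * (K * n) ^ F.N.m * 1 := h1.trans (by gcongr)
      _ = C * K ^ F.N.m * Real.exp (F.N.m * Real.log n) := by rw [mul_pow, h3]; ring
      _ ≤ Real.exp (2 * (C * K ^ F.N.m) * (η + Real.log n)) * Real.exp (F.N.m * Real.log n) := by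
          gcongr
      _ ≤ _ := by
          rw [← Real.exp_add]
          refine Real.exp_le_exp.2 ?_
          nlinarith [mul_nonneg hm hη]
  · have hL := v3_log hn
    rw [F.M.ht_ofE]
    refine hφ.trans ?_
    nlinarith [mul_nonneg (add_nonneg hCK hm) (by linarith : 0 ≤ η + Real.log n)]

theorem v3_sm_B (K : ℝ) (hK : 1 ≤ K) : ∃ K' : ℝ, 1 ≤ K' ∧ ∀ η n : ℝ, 0 ≤ η → 2 ≤ n →
    ∀ b ∈ F.v3B K η n, F.v3Sm (K' * (η + Real.log n)) b ∧ ‖F.M.ht b‖ ≤ η := by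
  obtain ⟨K₁, hK₁, h₁⟩ := F.v3_sm_D K hK
  obtain ⟨K₂, hK₂, h₂⟩ := F.v3_sm_op
  refine ⟨K₂ * (K + K₁), by nlinarith, ?_⟩
  rintro η n hη hn _ ⟨b₀, hb₀, d, hd, rfl, hb1, hd1, hφ⟩
  have hL := v3_log hn
  constructor
  · rw [mul_assoc]
    refine (h₂ _ (by nlinarith) _ _ ⟨?_, ?_⟩ ((h₁ η n hη hn d hd hd1 hφ).mono (by nlinarith))).1
    · exact hb1.trans (Real.exp_le_exp.2 (by nlinarith))
    · rw [F.M.ht_ofE, F.φ_R hb₀, norm_zero]
      positivity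
  · simpa [F.φ_R hb₀] using hφ

theorem v3_cov_rep {Y : Set F.G} {ρ n : ℝ} (h : F.Cov Y ρ n) :
    ∃ Z : Finset F.G, (Z.card : ℝ) ≤ n ∧ (∀ z ∈ Z, z ∈ Y) ∧ ∀ y ∈ Y, ∃ z ∈ Z, F.M.dd z y ≤ 2 * ρ := by
  classical
  obtain ⟨Z, hZ, hY⟩ := h
  let p : F.G → Prop := fun z => ∃ y ∈ Y, F.M.dd z y ≤ ρ
  have : ∀ z, ∃ y, p z → y ∈ Y ∧ F.M.dd z y ≤ ρ := fun z => by
    by_cases hz : p z
    · obtain ⟨y, hy⟩ := hz
      exact ⟨y, fun _ => hy⟩
    · exact ⟨z, fun h => absurd h hz⟩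
  choose f hf using this
  refine ⟨(Z.filter p).image f, le_trans ?_ hZ, fun z hz => ?_, fun y hy => ?_⟩
  · exact_mod_cast Finset.card_image_le.trans (Finset.card_filter_le _ _)
  · obtain ⟨z', hz', rfl⟩ := Finset.mem_image.1 hz
    exact (hf z' (Finset.mem_filter.1 hz').2).1
  · obtain ⟨z, hz, hd⟩ := hY y hy
    have hp : p z := ⟨y, hy, hd⟩
    refine ⟨f z, Finset.mem_image_of_mem _ (Finset.mem_filter.2 ⟨hz, hp⟩), ?_⟩
    have h1 := F.M.dd_triangle (f z) z y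
    have h2 := (hf z hp).2
    rw [F.M.dd_comm] at h2
    linarith

theorem v3_cov_thick {Y Y' : Set F.G} {ρ ρ' n : ℝ} (h : F.Cov Y ρ n)
    (hY : ∀ g ∈ Y', ∃ y ∈ Y, F.M.dd y g ≤ ρ') : F.Cov Y' (ρ + ρ') n := by
  obtain ⟨Z, hZ, h⟩ := h
  refine ⟨Z, hZ, fun g hg => ?_⟩
  obtain ⟨y, hy, h1⟩ := hY g hg
  obtain ⟨z, hz, h2⟩ := h y hy
  exact ⟨z, hz, (F.M.dd_triangle z y g).trans (add_le_add h2 h1)⟩

theorem v3_lvol_zero (P : Set F.J) : F.N.lvol F.X P (fun _ => 0) = 0 := by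
  obtain ⟨n, -, h⟩ := F.N.exists_lvol F.X P (fun _ => 0)
  simpa using h

theorem v3_vol (ρ : ℝ) (hρ : 1 ≤ ρ) : ∃ K : ℝ, 1 ≤ K ∧ ∀ (P : Set F.J) (H : F.J → ℝ),
    hm (F.I P) (bl (F.I P) (F.bi P H) ρ) ≤
      ENNReal.ofReal (K * Real.exp (F.N.lvol F.X P H)) := by
  obtain ⟨C, hC, h⟩ := F.N.vol_bI F.X
  have h1 : 1 ≤ ρ ^ Module.finrank ℝ F.E := one_le_pow₀ hρ
  refine ⟨ρ ^ Module.finrank ℝ F.E * C, by nlinarith, fun P H => ?_⟩
  rw [(F.isLN_bi P H).hm_bl (by linarith)]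
  refine ENNReal.ofReal_le_ofReal ?_
  rw [mul_assoc]
  exact mul_le_mul (pow_le_pow_right₀ hρ (Submodule.finrank_le _)) (h P H).2
    (F.isLN_bi P H).vol_pos.le (by positivity)

theorem v3_conj_z {k : F.G} {z y' : F.E} (hy' : y' ∈ F.R)
    (h : k * F.M.ofE z * k⁻¹ = F.M.ofE y') (hz : ‖z‖ ≤ 1) {t : ℝ} (ht : 0 ≤ t) :
    F.v3Sm t (F.M.ofE z) := by
  constructor
  · exact hz.trans (Real.one_le_exp ht)
  · have := congrArg F.M.ht h
    simp only [Model.ht_mul, Model.ht_inv, Model.ht_ofE, F.φ_R hy'] at this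
    have h0 : F.M.φ z = 0 := by
      rw [← this]; abel
    rw [F.M.ht_ofE, h0, norm_zero]
    exact ht

theorem v3_cov_B (K : ℝ) (hK : 1 ≤ K) : ∃ K' : ℝ, 1 ≤ K' ∧ ∀ η n : ℝ, 0 ≤ η → 2 ≤ n →
    F.Cov (F.v3B K η n) K' (Real.exp (K' * (η + Real.log n))) := by
  obtain ⟨C₁, hC₁, hD⟩ := F.cov_D
  obtain ⟨C₂, hC₂, hI⟩ := F.cov_ideal
  obtain ⟨K₁, hK₁, hsm⟩ := F.v3_sm_D K hK
  obtain ⟨K₂, hK₂, hop⟩ := F.v3_sm_op
  obtain ⟨K₃, hK₃, hmul⟩ := F.N.api_mul_le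
  obtain ⟨C₃, hC₃, hbi⟩ := F.norm_le_bi
  obtain ⟨C₄, hC₄, hvol⟩ := F.v3_vol C₃ hC₃
  obtain ⟨C₅, hC₅, hlip⟩ := F.N.lvol_lip F.X
  obtain ⟨n₀, hn₀⟩ := F.N.Bs_nonempty F.X Set.univ
  obtain ⟨T, hT⟩ : ∃ T, T = K₂ * (K₂ * (2 * K₁)) + K := ⟨_, rfl⟩
  have hT0 : 2 ≤ K₂ * (K₂ * (2 * K₁)) := by
    have : 2 ≤ K₂ * (2 * K₁) := by nlinarith
    nlinarith
  have hT1 : 2 ≤ T := by rw [hT]; linarith
  have hlogK : 0 ≤ Real.log K := Real.log_nonneg hK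
  have hp1 : 0 ≤ C₁ * Real.log K := by positivity
  have hp2 : 0 ≤ C₅ * (K₃ * T) := by positivity
  have hp3 : 0 ≤ C₂ * C₄ := by positivity
  refine ⟨C₂ + 2 * C₁ + 2 * (C₁ * Real.log K) + 2 * (C₂ * C₄) + C₅ * (K₃ * T), by linarith,
    fun η n hη hn => ?_⟩
  have hL := v3_log hn
  obtain ⟨w, hw⟩ : ∃ w, w = η + Real.log n := ⟨_, rfl⟩
  have hw1 : 1 / 2 ≤ w := by linarith
  have hcov : F.Cov (F.M.ofE '' {d | d ∈ F.D ∧ F.dn (K * n) d ≤ 1 ∧ ‖F.M.φ d‖ ≤ η}) C₁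
      (Real.exp (C₁ * Real.log (K * n))) :=
    F.Cov_mono (hD (K * n) (by nlinarith))
      (Set.image_mono fun d hd => ⟨hd.1, hd.2.1⟩) le_rfl le_rfl
  obtain ⟨Z, hZ, hZY, hZc⟩ := F.v3_cov_rep hcov
  have hone : ∀ c ∈ Z, F.Cov ((fun y => F.M.ofE y * c) ''
      {y | y ∈ F.R ∧ ‖y‖ ≤ Real.exp (K * w)}) C₂
      (C₂ * (C₄ * Real.exp (C₅ * (K₃ * T * w)))) := by
    intro c hc
    obtain ⟨d, ⟨hd, hd1, hφ⟩, rfl⟩ := hZY c hc
    have hc1 := hsm η n hη hn d hd hd1 hφ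
    rw [← hw] at hc1
    have := hI Set.univ (Or.inl rfl) n₀ hn₀ (F.M.ofE d) {y | y ∈ F.R ∧ ‖y‖ ≤ Real.exp (K * w)}
      (bl (F.I Set.univ) (F.bi Set.univ fun _ => K₃ * T * w) C₃)
      (C₄ * Real.exp (C₅ * (K₃ * T * w))) (by positivity) (fun y hy => hy.1) ?_ ?_
    · have e : ∑ j, (n₀ j : ℝ) * F.μ j (F.M.ht (F.M.ofE d)) = 0 := by
        have := congrArg (fun f : F.V →ₗ[ℝ] ℝ => f (F.M.ht (F.M.ofE d))) (F.sum_μ n₀ hn₀)
        simpa [LinearMap.sum_apply] using this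
      rwa [e, neg_zero, Real.exp_zero, mul_one] at this
    · intro y hy y' hy' z hz hz1
      have hmem : F.N.mul y y' ∈ F.I Set.univ := (F.isLN_bx 0).mul_mem hy.1 hy'
      refine ⟨hmem, ?_⟩
      have ht1 : 1 ≤ 2 * K₁ * w := by nlinarith
      have hc2 : F.v3Sm (2 * K₁ * w) (F.M.ofE d) := hc1.mono (by nlinarith)
      have a1 := (hop _ ht1 _ _ hc2 (F.v3_conj_z hy' hz hz1 (by linarith))).1
      have a2 := (hop _ (by nlinarith) _ _ a1 (hc2.mono (by nlinarith))).2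
      rw [hz] at a2
      have a3 := hmul (T * w) (by nlinarith) y y'
        (hy.2.trans (Real.exp_le_exp.2 (by rw [hT]; nlinarith)))
        (a2.1.trans (Real.exp_le_exp.2 (by rw [hT]; nlinarith)))
      have a4 := (hbi Set.univ (fun _ => K₃ * T * w) (K₃ * T * w) (by positivity) _ hmem).2
        fun _ => le_rfl
      refine a4.trans ?_
      rw [← mul_assoc] at a3
      calc C₃ * Real.exp (-(K₃ * T * w)) * ‖F.N.mul y y'‖
          ≤ C₃ * Real.exp (-(K₃ * T * w)) * Real.exp (K₃ * T * w) := by gcongr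
        _ = C₃ := by rw [mul_assoc, ← Real.exp_add, neg_add_cancel, Real.exp_zero, mul_one]
    · refine (hvol _ _).trans (ENNReal.ofReal_le_ofReal ?_)
      have := hlip Set.univ (fun _ => K₃ * T * w) (fun _ => 0) (K₃ * T * w) (by positivity)
        fun _ => by simp
      rw [F.v3_lvol_zero, zero_add] at this
      gcongr
  have hU := F.Cov_biUnion Z _ (by positivity) hone
  refine F.Cov_mono (F.v3_cov_thick (ρ' := 2 * C₁) hU ?_) subset_rfl (by linarith) ?_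
  · rintro _ ⟨b₀, hb₀, d, hd, rfl, hb1, hd1, hφ⟩
    obtain ⟨c, hc, hcd⟩ := hZc (F.M.ofE d) ⟨d, ⟨hd, hd1, hφ⟩, rfl⟩
    refine ⟨F.M.ofE b₀ * c, Set.mem_biUnion hc ⟨b₀, ⟨hb₀, by rwa [hw]⟩, rfl⟩, ?_⟩
    rwa [F.M.dd_mul_left]
  · rw [← hw]
    rw [Real.log_mul (by linarith) (by linarith)] at hZ
    have h1 := v3_le_exp (C := C₂ * C₄) hp3 hw1
    calc (Z.card : ℝ) * (C₂ * (C₄ * Real.exp (C₅ * (K₃ * T * w))))
        = Z.card * (C₂ * C₄) * Real.exp (C₅ * (K₃ * T * w)) := by ring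
      _ ≤ Real.exp (C₁ * (Real.log K + Real.log n)) * Real.exp (2 * (C₂ * C₄) * w) *
          Real.exp (C₅ * (K₃ * T * w)) := by gcongr
      _ ≤ _ := by
          rw [← Real.exp_add, ← Real.exp_add]
          refine Real.exp_le_exp.2 ?_
          have h2 : C₁ * Real.log n ≤ C₁ * w := by gcongr; linarith
          nlinarith

/-- on the ideal, `bi` is comparable with `bx` when the letters of `P` are large -/
theorem v3_bi_le : ∃ K : ℝ, 1 ≤ K ∧ ∀ (P : Set F.J) (H : F.J → ℝ) (η : ℝ), 0 ≤ η →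
    (∀ j, 0 ≤ H j) → (∀ j, j ∉ P → H j ≤ η) → (∀ j ∈ P, K * (η + 1) ≤ H j) →
    ∀ y ∈ F.I P, F.bi P H y ≤ 3 * F.bx H y := by
  obtain ⟨C₁, hC₁, hs⟩ := F.N.bI_split F.X
  obtain ⟨C₂, hC₂, hb⟩ := F.bi_le_norm
  have hm : (0 : ℝ) ≤ F.N.m := Nat.cast_nonneg _
  have hp : 1 ≤ C₂ * C₁ := by nlinarith
  refine ⟨C₂ * C₁ + F.N.m, by linarith, fun P H η hη h0 hP hP' y hy => ?_⟩
  obtain ⟨y₁, hy₁, h1, h2⟩ := hs P H η hη hP y (F.I_le _ hy)
  have hy₂ : y - y₁ ∈ F.I P := (F.I P).sub_mem hy hy₁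
  have h3 := hb P H _ h0 hP' _ hy₂
  have h4 := (F.isLN_bi P H).add_le _ hy₁ _ hy₂
  rw [add_sub_cancel] at h4
  have h5 : 0 ≤ F.bx H y := F.N.bI_nonneg F.X _ _ _
  have h6 : C₂ * Real.exp (-((C₂ * C₁ + F.N.m) * (η + 1))) * (C₁ * Real.exp (F.N.m * η)) ≤ 1 := by
    have a1 := Real.add_one_le_exp (C₂ * C₁)
    calc _ = C₂ * C₁ * (Real.exp (-((C₂ * C₁ + F.N.m) * (η + 1))) * Real.exp (F.N.m * η)) := by ring
      _ ≤ Real.exp (C₂ * C₁) *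
          (Real.exp (-((C₂ * C₁ + F.N.m) * (η + 1))) * Real.exp (F.N.m * η)) := by
          gcongr; linarith
      _ ≤ 1 := by
          rw [← Real.exp_add, ← Real.exp_add]
          exact Real.exp_le_one_iff.2 (by nlinarith)
  have h7 : F.bi P H (y - y₁) ≤ F.bx H y := by
    refine h3.trans ?_
    calc _ ≤ C₂ * Real.exp (-((C₂ * C₁ + F.N.m) * (η + 1))) *
          (C₁ * Real.exp (F.N.m * η) * F.bx H y) := by gcongr; exact h2
      _ = C₂ * Real.exp (-((C₂ * C₁ + F.N.m) * (η + 1))) * (C₁ * Real.exp (F.N.m * η)) *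
          F.bx H y := by ring
      _ ≤ 1 * F.bx H y := by gcongr
      _ = _ := one_mul _
  have h8 : F.bi P H y₁ ≤ 2 * F.bx H y := h1
  linarith

theorem v3_small : ∃ K : ℝ, 1 ≤ K ∧ ∀ (P : Set F.J) (H : F.J → ℝ) (t : ℝ),
    (∀ j, 0 ≤ H j) → (∀ j ∈ P, t + K ≤ H j) → ∀ y ∈ F.I P, ‖y‖ ≤ Real.exp t → F.bx H y ≤ 1 := by
  obtain ⟨C, hC, hb⟩ := F.bi_le_norm
  refine ⟨C, hC, fun P H t h0 hP y hy hn => ?_⟩
  refine (F.N.bI_anti F.X (Set.subset_univ _) _ hy).trans ((hb P H _ h0 hP y hy).trans ?_)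
  have a1 := Real.add_one_le_exp C
  calc C * Real.exp (-(t + C)) * ‖y‖ ≤ Real.exp C * Real.exp (-(t + C)) * Real.exp t := by
        gcongr; linarith
    _ = 1 := by
        rw [← Real.exp_add, ← Real.exp_add, ← Real.exp_zero]
        congr 1; ring

theorem v3_expo : ∃ K : ℝ, 1 ≤ K ∧ ∀ (P : Set F.J), ∀ n ∈ F.N.Bs F.X P, ∀ (v w : F.V) (η : ℝ)
    (i₀ : F.J), 0 ≤ η → ‖w‖ ≤ η → (∀ j, j ∉ P → F.μ j v ≤ 0) → i₀ ∉ P →
    -∑ j, (n j : ℝ) * F.μ j (v + w) ≤ F.μ i₀ v + K * η := by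
  obtain ⟨C₁, hC₁, hμ⟩ := F.norm_mu_le
  obtain ⟨C₂, hC₂, hlip⟩ := F.N.lvol_lip F.X
  have hp : 0 ≤ C₂ * C₁ := by positivity
  refine ⟨C₂ * C₁ + 1, by linarith, fun P n hn v w η i₀ hη hw hP hi => ?_⟩
  obtain ⟨n', hn', h1, h2⟩ := F.N.Bs_extend' F.X F.ξ F.ξ_X F.ξ_mon hn
  have e : ∑ j, (n j : ℝ) * F.μ j v + ∑ j, (n' j : ℝ) * F.μ j v = 0 := by
    have := congrArg (fun f : F.V →ₗ[ℝ] ℝ => f v) (F.sum_μ _ hn')
    simpa [LinearMap.sum_apply, add_mul, Finset.sum_add_distrib] using this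
  have h3 : ∑ j, (n' j : ℝ) * F.μ j v ≤ F.μ i₀ v := by
    rw [← Finset.add_sum_erase _ _ (Finset.mem_univ i₀)]
    have a1 : ∑ j ∈ Finset.univ.erase i₀, (n' j : ℝ) * F.μ j v ≤ 0 := by
      refine Finset.sum_nonpos fun j _ => ?_
      by_cases hj : j ∈ P
      · simp [h1 j hj]
      · exact mul_nonpos_of_nonneg_of_nonpos (Nat.cast_nonneg _) (hP j hj)
    have a2 : (1 : ℝ) ≤ n' i₀ := by exact_mod_cast h2 i₀ hi
    nlinarith [hP i₀ hi]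
  have h4 : ∑ j, (n j : ℝ) * (-F.μ j w) ≤ C₂ * (C₁ * η) := by
    have a1 := F.N.le_lvol F.X (fun j => -F.μ j w) hn
    have a2 := hlip P (fun j => -F.μ j w) (fun _ => 0) (C₁ * η) (by positivity) fun j => by
      have b1 := hμ j w
      have b2 := neg_abs_le (F.μ j w)
      have b3 : C₁ * ‖w‖ ≤ C₁ * η := by gcongr
      linarith
    rw [F.v3_lvol_zero, zero_add] at a2
    exact a1.trans a2
  simp only [map_add, mul_add, Finset.sum_add_distrib, mul_neg, Finset.sum_neg_distrib] at h4 ⊢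
  nlinarith

end Frame

end Crest.Agent.R182
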