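import Crest.Agent.R182.CL
import Crest.Agent.R182.GeoVC3Aux

/-! Row 182, auxiliary lemmas for `R182/NR`. -/

set_option autoImplicit false

namespace Crest.Agent.R182

open scoped BigOperators
open MeasureTheory

namespace Frame

variable (F : Frame)

/-- path confinement in the single coordinate `j` -/
def nrP (j : F.J) (a N : ℝ) (g : F.G) : Prop := ∃ h : F.J → ℝ, h j ≤ a ∧ g ∈ F.PC h N

variable {F} in
theorem nrP.mono {j : F.J} {a a' N N' : ℝ} {g : F.G} (h : F.nrP j a N g) (ha : a ≤ a')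
    (hN : N ≤ N') : F.nrP j a' N' g := by
  obtain ⟨h, h1, h2⟩ := h
  exact ⟨h, h1.trans ha, F.PC_mono (fun _ => le_rfl) hN h2⟩

theorem nr_ht (x y : F.G) : F.M.ht (x⁻¹ * y) = F.M.ht y - F.M.ht x := by
  rw [F.M.ht_mul, F.M.ht_inv]; abel

variable {F} in
theorem nrP.trans {j : F.J} {a a' N N' : ℝ} {x y z : F.G} (h1 : F.nrP j a N (x⁻¹ * y))
    (h2 : F.nrP j a' N' (y⁻¹ * z)) (hh : F.μ j (F.M.ht y - F.M.ht x) + a' ≤ a) :
    F.nrP j a (N + N') (x⁻¹ * z) := by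
  obtain ⟨h, a1, a2⟩ := h1
  obtain ⟨h', b1, b2⟩ := h2
  refine ⟨fun i => max (h i) (F.μ i (F.M.ht y - F.M.ht x) + h' i), max_le a1 (by linarith), ?_⟩
  exact F.PC_trans (F.PC_mono (fun i => le_max_left _ _) le_rfl a2) b2 fun i => le_max_right _ _

variable {F} in
theorem nrP.symm {j : F.J} {a N : ℝ} {x y : F.G} (h : F.nrP j a N (x⁻¹ * y)) :
    F.nrP j (a - F.μ j (F.M.ht y - F.M.ht x)) N (y⁻¹ * x) := by
  obtain ⟨h, a1, a2⟩ := h
  have := F.PC_inv a2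
  rw [mul_inv_rev, inv_inv, F.nr_ht] at this
  exact ⟨_, by simp only [Pi.sub_apply, mu]; linarith, this⟩

variable {F} in
theorem nrP.ht_le {j : F.J} {a N : ℝ} {x y : F.G} (h : F.nrP j a N (x⁻¹ * y)) :
    F.μ j (F.M.ht y - F.M.ht x) ≤ a := by
  obtain ⟨h, a1, a2⟩ := h
  have := F.PC_ht a2 j
  rw [F.nr_ht] at this
  linarith

theorem nrP_len : ∃ C : ℝ, 1 ≤ C ∧ ∀ (j : F.J) (x y : F.G) (a : ℝ), F.M.dd x y ≤ a →
    F.nrP j (C * a) a (x⁻¹ * y) := by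
  obtain ⟨C, hC, h⟩ := F.PC_of_len
  exact ⟨C, hC, fun j x y a ha => ⟨_, le_rfl, h _ a ha⟩⟩

theorem nrP_chain : ∃ C : ℝ, 1 ≤ C ∧ ∀ (j : F.J) (y : ℕ → F.G) (n : ℕ) (a c : ℝ), 0 ≤ a →
    (∀ i < n, F.M.dd (y i) (y (i + 1)) ≤ a) →
    (∀ i ≤ n, F.μ j (F.M.ht (y i) - F.M.ht (y 0)) ≤ c) →
      F.nrP j (c + C * a) (n * a) ((y 0)⁻¹ * y n) := by
  classical
  obtain ⟨C, hC, h⟩ := F.PC_chain
  refine ⟨C, hC, fun j y n a c ha h1 h2 => ⟨_, ?_, h y n a (fun i => if i = j then c else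
    ∑ t ∈ Finset.range (n + 1), |F.μ i (F.M.ht (y t) - F.M.ht (y 0))|) ha h1 fun t ht i => ?_⟩⟩
  · simp
  · split_ifs with hi
    · rw [hi]; exact h2 t ht
    · exact (le_abs_self _).trans (Finset.single_le_sum
        (f := fun t => |F.μ i (F.M.ht (y t) - F.M.ht (y 0))|) (fun _ _ => abs_nonneg _)
        (Finset.mem_range.2 (Nat.lt_succ_of_le ht)))

open Classical in
theorem nrP_PC : ∃ B : ℝ, ∀ (j : F.J) (a N : ℝ) (g : F.G), F.nrP j a N g →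
    g ∈ F.PC (fun i => if i = j then a else B * N) N := by
  obtain ⟨C, hC, hμ⟩ := F.norm_mu_le
  obtain ⟨C', hC', hht⟩ := F.M.api_ht
  refine ⟨C * C', ?_⟩
  rintro j a N g ⟨h, h1, l, l1, l2, l3, l4⟩
  refine ⟨l, l1, l2, l3, fun b i => ?_⟩
  beta_reduce
  split_ifs with hi
  · rw [hi]; exact (l4 b j).trans h1
  · have a1 := hht (l.take b) fun x hx => l2 x (List.mem_of_mem_take hx)
    have a2 : ((l.take b).length : ℝ) ≤ N :=
      le_trans (by exact_mod_cast List.length_take_le' b l) l1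
    calc _ ≤ C * ‖F.M.ht (l.take b).prod‖ := (le_abs_self _).trans (hμ _ _)
      _ ≤ C * (C' * N) := by gcongr; exact a1.trans (by gcongr)
      _ = _ := by ring

theorem nr_dir (j : F.J) : ∃ v : F.L, F.μ j (F.φL v) = 1 := by
  obtain ⟨u, hu⟩ : ∃ u, F.μ j u ≠ 0 := by
    by_contra h
    push Not at h
    exact F.μ_ne j (LinearMap.ext h)
  obtain ⟨v, hv⟩ := F.φL_surj ((F.μ j u)⁻¹ • u)
  exact ⟨v, by rw [hv, map_smul, smul_eq_mul, inv_mul_cancel₀ hu]⟩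

/-- the hypothesis along lines -/
theorem nr_line (v : F.L) : ∃ C : ℝ, 1 ≤ C ∧ ∀ (f : F.G → F.G) (ε C₀ : ℝ), 0 ≤ ε →
    (∀ x g, ‖F.M.ht (f (x * g)) - F.M.ht (f x) - F.M.ht g‖ ≤ ε * F.M.len g + C₀) →
    ∀ (x : F.G) (t : ℕ), ‖F.M.ht (f (x * F.lin v t)) - F.M.ht (f x) - (t : ℝ) • F.φL v‖ ≤
      ε * (C * (1 + t)) + C₀ := by
  obtain ⟨C, hC, h⟩ := F.len_lin
  have hv := norm_nonneg v
  refine ⟨C * (1 + ‖v‖) + 1, by nlinarith, fun f ε C₀ hε hU x t => ?_⟩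
  have h1 := hU x (F.lin v t)
  rw [F.ht_lin] at h1
  refine h1.trans ?_
  have h2 := h v t
  have ht : (0 : ℝ) ≤ t := Nat.cast_nonneg _
  rw [abs_of_nonneg ht] at h2
  gcongr
  refine h2.trans ?_
  nlinarith [mul_nonneg hC.le hv, mul_nonneg hC.le ht]

/-- part (a) -/
theorem nr_a (K : ℝ) (v : F.L) : ∃ C : ℝ, 1 ≤ C ∧ ∀ f q, F.QI K f q → ∀ ε C₀ : ℝ, 0 ≤ ε → 0 ≤ C₀ →
    (∀ x g, ‖F.M.ht (f (x * g)) - F.M.ht (f x) - F.M.ht g‖ ≤ ε * F.M.len g + C₀) →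
    ∀ (s : ℕ) (x : F.G), 2 ≤ s → ∀ z ∈ F.R, F.bx (F.mup ((s : ℝ) • F.φL v)) z ≤ 1 →
      ‖F.M.ht (f (x * F.M.ofE z)) - F.M.ht (f x)‖ ≤ C * (ε * s + C₀ + Real.log s) ∧
      (f x)⁻¹ * f (x * F.M.ofE z) ∈
        F.PC (fun i => F.mup ((s : ℝ) • F.φL v) i + C * (ε * s + C₀ + Real.log s)) (C * s) := by
  obtain ⟨C₁, hC₁, hmove⟩ := F.cl_move K v
  obtain ⟨C₂, hC₂, hline⟩ := F.nr_line v
  obtain ⟨C₃, hC₃, hμ⟩ := F.norm_mu_le
  obtain ⟨n₀, hfac⟩ := F.fac_R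
  have hn₀ : (0 : ℝ) ≤ n₀ := Nat.cast_nonneg _
  have hp : 1 ≤ C₁ * (2 * C₂) := by nlinarith
  have hp' : 0 ≤ C₃ * n₀ := by positivity
  refine ⟨C₁ * (2 * C₂) * (1 + n₀ + C₃ * n₀), by nlinarith,
    fun f q hf ε C₀ hε hC₀ hU s x hs z hz hz1 => ?_⟩
  have hs' : (2 : ℝ) ≤ s := by exact_mod_cast hs
  have hls : 0 ≤ Real.log s := Real.log_nonneg (by linarith)
  obtain ⟨w, hw⟩ : ∃ w, w = ε * s + C₀ + Real.log s := ⟨_, rfl⟩
  have hw0 : 0 ≤ w := by rw [hw]; positivity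
  obtain ⟨B, hB⟩ : ∃ B, B = C₁ * (2 * C₂) * w := ⟨_, rfl⟩
  have hB0 : 0 ≤ B := by rw [hB]; positivity
  have hE : ∀ (x : F.G), ∀ t ≤ s, ‖F.M.ht (f (x * F.lin v t)) - F.M.ht (f x) - (t : ℝ) • F.φL v‖ ≤
      ε * (C₂ * (2 * s)) + C₀ := fun x t ht => (hline f ε C₀ hε hU x t).trans (by
        have : (t : ℝ) ≤ s := by exact_mod_cast ht
        gcongr
        linarith)
  have hle : C₁ * (ε * (C₂ * (2 * s)) + C₀ + Real.log s) ≤ B := by
    rw [hB, mul_assoc C₁, hw]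
    gcongr
    nlinarith [mul_nonneg hε (by linarith : (0 : ℝ) ≤ s)]
  have one : ∀ (x : F.G) (j : F.J) (σ : ℝ), |σ| ≤ Real.exp (F.mup ((s : ℝ) • F.φL v) j) →
      ‖F.M.ht (f (x * F.root j σ)) - F.M.ht (f x)‖ ≤ B ∧
      (f x)⁻¹ * f (x * F.root j σ) ∈
        F.PC (fun i => F.mup ((s : ℝ) • F.φL v) i + B) (C₁ * s) := by
    intro x j σ hσ
    obtain ⟨a1, a2⟩ := hmove f q hf s x j σ (ε * (C₂ * (2 * s)) + C₀) (fun t => (t : ℝ) • F.φL v)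
      (F.mup ((s : ℝ) • F.φL v)) (by positivity) hs hσ (hE x) (hE _) fun t ht i => by
        have ht' : (t : ℝ) ≤ s := by exact_mod_cast ht
        have ht0 : (0 : ℝ) ≤ t := Nat.cast_nonneg _
        simp only [mup, map_smul, smul_eq_mul]
        rcases le_total 0 (F.μ i (F.φL v)) with h | h
        · exact le_max_of_le_left (by gcongr)
        · exact le_max_of_le_right (mul_nonpos_of_nonneg_of_nonpos ht0 h)
    exact ⟨a1.trans hle, F.PC_mono (fun i => by linarith) le_rfl a2⟩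
  have key : ∀ (l : List (F.J × ℝ)), (∀ q ∈ l, |q.2| ≤ Real.exp (F.mup ((s : ℝ) • F.φL v) q.1)) →
      ∀ x : F.G, ‖F.M.ht (f (x * (l.map fun q => F.root q.1 q.2).prod)) - F.M.ht (f x)‖ ≤
        l.length * B ∧ (f x)⁻¹ * f (x * (l.map fun q => F.root q.1 q.2).prod) ∈
        F.PC (fun i => F.mup ((s : ℝ) • F.φL v) i + (B + C₃ * l.length * B))
          (l.length * (C₁ * s)) := by
    intro l
    induction l with
    | nil =>
      intro _ x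
      simp only [List.map_nil, List.prod_nil, mul_one, sub_self, norm_zero, List.length_nil,
        Nat.cast_zero, zero_mul, le_refl, inv_mul_cancel, mul_zero, add_zero, true_and]
      exact F.one_mem_PC (fun i => add_nonneg (le_max_right _ _) hB0) le_rfl
    | cons a l ih =>
      intro hl x
      obtain ⟨a1, a2⟩ := one x a.1 a.2 (hl a List.mem_cons_self)
      obtain ⟨b1, b2⟩ := ih (fun q hq => hl q (List.mem_cons_of_mem _ hq)) (x * F.root a.1 a.2)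
      have hl0 : (0 : ℝ) ≤ l.length := Nat.cast_nonneg _
      rw [List.map_cons, List.prod_cons, ← mul_assoc, List.length_cons]
      push_cast
      constructor
      · have := norm_sub_le_norm_sub_add_norm_sub
          (F.M.ht (f (x * F.root a.1 a.2 * (l.map fun q => F.root q.1 q.2).prod)))
          (F.M.ht (f (x * F.root a.1 a.2))) (F.M.ht (f x))
        linarith
      · rw [add_mul, one_mul, add_comm ((l.length : ℝ) * (C₁ * s))]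
        refine F.PC_trans (F.PC_mono (fun i => ?_) le_rfl a2) b2 fun i => ?_
        · have : 0 ≤ C₃ * (l.length + 1) * B := by positivity
          linarith
        · have c1 := (le_abs_self _).trans
            (hμ i (F.M.ht (f (x * F.root a.1 a.2)) - F.M.ht (f x)))
          have c2 : C₃ * ‖F.M.ht (f (x * F.root a.1 a.2)) - F.M.ht (f x)‖ ≤ C₃ * B := by gcongr
          nlinarith
  obtain ⟨l, l1, l2, l3⟩ := hfac _ z hz hz1
  obtain ⟨a1, a2⟩ := key l l2 x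
  rw [l3] at a1 a2
  have l1' : (l.length : ℝ) ≤ n₀ := by exact_mod_cast l1
  have e : C₁ * (2 * C₂) * (1 + n₀ + C₃ * n₀) * w = B * (1 + n₀ + C₃ * n₀) := by rw [hB]; ring
  rw [← hw, e]
  have b1 : (l.length : ℝ) * B ≤ n₀ * B := by gcongr
  have b2 : C₃ * l.length * B ≤ C₃ * n₀ * B := by gcongr
  have b3 : 0 ≤ C₃ * n₀ * B := by positivity
  have b4 : 0 ≤ n₀ * B := by positivity
  refine ⟨by nlinarith, F.PC_mono (fun i => by nlinarith) ?_ a2⟩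
  calc (l.length : ℝ) * (C₁ * s) ≤ n₀ * (C₁ * s) := by gcongr
    _ = C₁ * 1 * n₀ * s := by ring
    _ ≤ _ := by gcongr <;> linarith

/-- part (b) -/
theorem nr_b (K : ℝ) (hK : 1 ≤ K) (j : F.J) : ∃ ε₀ C : ℝ, 0 < ε₀ ∧ 1 ≤ C ∧ ∀ f q, F.QI K f q →
    ∀ ε C₀ : ℝ, 0 ≤ ε → ε ≤ ε₀ → 0 ≤ C₀ →
    (∀ x g, ‖F.M.ht (f (x * g)) - F.M.ht (f x) - F.M.ht g‖ ≤ ε * F.M.len g + C₀) →
    ∀ (y : F.G) (n : ℝ), 2 ≤ n → ∀ d ∈ F.D, F.dn n d ≤ 1 →
      F.nrP j (max 0 (F.μ j (F.M.ht (f (y * F.M.ofE d)) - F.M.ht (f y))) + C * (C₀ + 1)) (C * n)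
        ((f y)⁻¹ * f (y * F.M.ofE d)) := by
  obtain ⟨v', hv'⟩ := F.nr_dir j
  obtain ⟨v, hv⟩ : ∃ v, F.μ j (F.φL v) = -1 := ⟨-v', by rw [map_neg, map_neg, hv']⟩
  obtain ⟨C₁, hC₁, hline⟩ := F.nr_line v
  obtain ⟨C₂, hC₂, hμ⟩ := F.norm_mu_le
  obtain ⟨C₃, hC₃, hlen⟩ := F.nrP_len
  obtain ⟨C₄, hC₄, hchain⟩ := F.nrP_chain
  obtain ⟨C₅, hC₅, hdn⟩ := F.dn_hat
  have hCK : 0 < C₃ * K := by positivity
  obtain ⟨κ, C₆, hκ, hκ1, hC₆, hconj⟩ := F.len_conj_D (C₅ * ‖v‖) (1 / (2 * (C₃ * K)))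
    (by positivity)
  obtain ⟨a₁, ha₁⟩ : ∃ a₁, a₁ = K * F.M.len (F.lin v 1) + K := ⟨_, rfl⟩
  have ha₁0 : 0 ≤ a₁ := by
    have := F.M.len_nonneg (F.lin v 1)
    rw [ha₁]; positivity
  have hp1 : 0 < C₂ * C₁ := by positivity
  have hp2 : 0 ≤ C₄ * a₁ := by positivity
  have hp3 : 0 ≤ C₃ * (K * C₆ + K) := by positivity
  have hp4 : 0 ≤ K * C₆ + K := by positivity
  have hp5 : 0 ≤ (2 * a₁ + 1) * (1 / κ + 1) := by positivity
  refine ⟨1 / (2 * (C₂ * C₁)), 1 + C₂ + C₄ * a₁ + C₃ * (K * C₆ + K) + (K * C₆ + K) +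
    (2 * a₁ + 1) * (1 / κ + 1), by positivity, by linarith,
    fun f q hf ε C₀ hε hε₀ hC₀ hU y n hn d hd hd1 => ?_⟩
  have hε1 : ε * (C₂ * C₁) ≤ 1 / 2 := by
    rw [le_div_iff₀ (by positivity)] at hε₀
    linarith
  have hdown : ∀ (x : F.G) (t : ℕ), F.μ j (F.M.ht (f (x * F.lin v t)) - F.M.ht (f x)) ≤
      -(t / 2) + (1 + C₂ * C₀) := by
    intro x t
    have a1 := hline f ε C₀ hε hU x t
    have a2 := (le_abs_self _).trans
      (hμ j (F.M.ht (f (x * F.lin v t)) - F.M.ht (f x) - (t : ℝ) • F.φL v))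
    rw [map_sub _ _ ((t : ℝ) • F.φL v), map_smul, hv, smul_eq_mul] at a2
    have ht : (0 : ℝ) ≤ t := Nat.cast_nonneg _
    have a3 : C₂ * ‖F.M.ht (f (x * F.lin v t)) - F.M.ht (f x) - (t : ℝ) • F.φL v‖ ≤
        C₂ * (ε * (C₁ * (1 + t)) + C₀) := by gcongr
    have a4 : ε * (C₂ * C₁) * (1 + t) ≤ 1 / 2 * (1 + t) := by gcongr
    nlinarith
  have hseg : ∀ (x : F.G) (T : ℕ), F.nrP j (1 + C₂ * C₀ + C₄ * a₁) (T * a₁)
      ((f x)⁻¹ * f (x * F.lin v T)) := by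
    intro x T
    have := hchain j (fun t => f (x * F.lin v t)) T a₁ (1 + C₂ * C₀) ha₁0 (fun t _ => ?_)
      fun t _ => ?_
    · simpa using this
    · refine (hf.lf _ _).trans (le_of_eq ?_)
      rw [Nat.cast_succ, F.lin_add, ← mul_assoc, F.M.dd_mul_right, ha₁]
    · have := hdown x t
      have ht : (0 : ℝ) ≤ t := Nat.cast_nonneg _
      simp only [Nat.cast_zero, lin_zero, mul_one]
      linarith
  obtain ⟨T, hT⟩ : ∃ T : ℕ, T = ⌈n / κ⌉₊ := ⟨_, rfl⟩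
  have hT1 : n / κ ≤ T := by rw [hT]; exact Nat.le_ceil _
  have hT2 : (T : ℝ) ≤ (1 / κ + 1) * n := by
    have := Nat.ceil_lt_add_one (show 0 ≤ n / κ by positivity)
    rw [← hT] at this
    have e : (1 / κ + 1) * n = n / κ + n := by ring
    linarith
  have hT3 : n ≤ κ * T := by rwa [div_le_iff₀' hκ] at hT1
  have hT0 : (0 : ℝ) < T := by nlinarith
  have hT4 : n ≤ T := by nlinarith
  have hl : F.M.len ((F.lin v T)⁻¹ * F.M.ofE d * F.lin v T) ≤ 1 / (2 * (C₃ * K)) * T + C₆ := by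
    refine hconj T hT0 _ (F.D.smul_mem _ (F.hat_mem v)) d hd ?_ ?_
    · refine (hdn T hT0 v T).trans (le_of_eq ?_)
      rw [abs_of_pos hT0]
      field_simp
    · refine (F.dn_scale (by linarith) hT4 hd).trans ?_
      have b1 : n / T ≤ κ := by rwa [div_le_iff₀ hT0]
      have b2 := (F.isLN_dn n).nonneg hd
      have b3 : 0 ≤ n / T := by positivity
      nlinarith
  have hmid := hlen j (f (y * F.lin v T)) (f (y * F.M.ofE d * F.lin v T))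
    (K * (1 / (2 * (C₃ * K)) * T + C₆) + K) ((hf.lf _ _).trans (by
      rw [mul_assoc y, F.M.dd_mul_mul, ← mul_assoc]
      gcongr))
  have e1 : C₃ * (K * (1 / (2 * (C₃ * K)) * T + C₆) + K) = T / 2 + C₃ * (K * C₆ + K) := by
    field_simp
    ring
  rw [e1] at hmid
  obtain ⟨c, hc⟩ : ∃ c, c = 1 + C₂ * C₀ + C₄ * a₁ + C₃ * (K * C₆ + K) := ⟨_, rfl⟩
  have hm0 := le_max_left 0 (F.μ j (F.M.ht (f (y * F.M.ofE d)) - F.M.ht (f y)))
  have hm1 := le_max_right 0 (F.μ j (F.M.ht (f (y * F.M.ofE d)) - F.M.ht (f y)))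
  have s1 := ((hseg y T).mono
    (a' := max 0 (F.μ j (F.M.ht (f (y * F.M.ofE d)) - F.M.ht (f y))) + c)
    (by rw [hc]; linarith) le_rfl).trans hmid (by have := hdown y T; rw [hc]; linarith)
  have s2 := s1.trans (hseg (y * F.M.ofE d) T).symm (by
    simp only [map_sub] at hm1 ⊢
    rw [hc]; linarith)
  refine s2.mono ?_ ?_
  · rw [hc]
    nlinarith [mul_nonneg hC₀ hp2, mul_nonneg hC₀ hp3, mul_nonneg hC₀ hp4, mul_nonneg hC₀ hp5]
  · have b1 : K * (1 / (2 * (C₃ * K)) * T) ≤ T := by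
      have : K * (1 / (2 * (C₃ * K)) * T) = T / (2 * C₃) := by field_simp
      rw [this]
      exact div_le_self hT0.le (by linarith)
    have b2 : (2 * a₁ + 1) * T ≤ (2 * a₁ + 1) * ((1 / κ + 1) * n) := by gcongr
    nlinarith

/-- the middle step of part (c) -/
theorem nr_mid (v : F.L) : ∃ C : ℝ, 1 ≤ C ∧ ∀ (s : ℕ) (n : ℝ), 2 ≤ n → ∀ d ∈ F.D, F.M.φ d = 0 →
    F.dn n d ≤ 1 → ∀ z ∈ F.R, F.bx (F.mup ((s : ℝ) • F.φL v)) z ≤ 1 →
      F.M.len ((F.M.ofE d)⁻¹ * F.M.ofE z * F.M.ofE d) ≤ C * (s + Real.log n) := by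
  obtain ⟨K₁, hK₁, hD⟩ := F.v3_sm_D 1 le_rfl
  obtain ⟨K₂, hK₂, hfive⟩ := F.v3_sm_five
  obtain ⟨C₁, hC₁, hbi⟩ := F.norm_le_bi
  obtain ⟨C₂, hC₂, hμ⟩ := F.norm_mu_le
  obtain ⟨C₃, -, hconj⟩ := F.conj_norm
  obtain ⟨C₄, hC₄, hlen⟩ := F.len_R_norm
  have hm : (0 : ℝ) ≤ F.N.m := Nat.cast_nonneg _
  obtain ⟨T, hT⟩ : ∃ T, T = K₁ + 2 * C₁ + F.N.m * (C₂ * ‖F.φL v‖) := ⟨_, rfl⟩
  have hp : 0 ≤ F.N.m * (C₂ * ‖F.φL v‖) := by positivity
  have hT2 : 2 ≤ T := by rw [hT]; linarith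
  have hp2 : 0 ≤ K₂ * T := by positivity
  refine ⟨C₄ * (K₂ * T + 2), by nlinarith, fun s n hn d hd hφ hd1 z hz hz1 => ?_⟩
  have hL := v3_log hn
  have hs : (0 : ℝ) ≤ s := Nat.cast_nonneg _
  obtain ⟨w, hw⟩ : ∃ w, w = s + Real.log n := ⟨_, rfl⟩
  have hw1 : 1 / 2 ≤ w := by linarith
  have h1 : 1 ≤ T * w := by nlinarith
  have sd : F.v3Sm (T * w) (F.M.ofE (-d)) :=
    (hD 0 n le_rfl hn _ (F.D.neg_mem hd) (by rwa [one_mul, (F.isLN_dn n).neg hd])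
      (by simp [hφ])).mono (by
        rw [zero_add]
        exact mul_le_mul (by rw [hT]; linarith) (by linarith) (by linarith) (by linarith))
  have sz : F.v3Sm (T * w) (F.M.ofE z) := by
    constructor
    · have a1 := (hbi Set.univ (F.mup ((s : ℝ) • F.φL v)) (s * (C₂ * ‖F.φL v‖)) (by positivity)
        z hz).1 fun i => max_le (by
          rw [map_smul, smul_eq_mul]
          gcongr
          exact (le_abs_self _).trans (hμ _ _)) (by positivity)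
      have a2 := v3_le_exp (C := C₁) (by linarith) hw1
      have a3 : F.bi Set.univ (F.mup ((s : ℝ) • F.φL v)) z ≤ 1 := hz1
      have a4 := F.N.bI_nonneg F.X Set.univ (F.mup ((s : ℝ) • F.φL v)) z
      rw [F.M.toE_ofE]
      calc ‖z‖ ≤ Real.exp (2 * C₁ * w) * Real.exp (F.N.m * (s * (C₂ * ‖F.φL v‖))) * 1 :=
            a1.trans (by gcongr)
        _ ≤ _ := by
            rw [mul_one, ← Real.exp_add]
            refine Real.exp_le_exp.2 ?_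
            have b1 : F.N.m * (C₂ * ‖F.φL v‖) * s ≤ F.N.m * (C₂ * ‖F.φL v‖) * w := by
              gcongr; linarith
            rw [hT]
            nlinarith
    · rw [F.M.ht_ofE, F.φ_R hz, norm_zero]
      linarith
  have s1 : F.v3Sm (T * w) 1 := ⟨by simp; positivity, by simp; positivity⟩
  have a1 := (hfive _ h1 _ _ _ _ _ sd sz sd s1 s1).1
  obtain ⟨y', -, hy', -, hR, -⟩ := hconj (F.M.ofE (-d)) z (F.φ_R hz)
  rw [inv_one, mul_one, mul_one, hy'] at a1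
  rw [← F.ofE_inv_D hd, inv_inv] at hy'
  rw [hy', ← hw]
  refine (hlen _ (by positivity) y' (hR hz) a1.1).trans ?_
  rw [mul_assoc C₄]
  gcongr
  nlinarith

end Frame

end Crest.Agent.R182
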