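import Crest.Agent.R182.CL
import Crest.Agent.R182.NRAux

/-! Row 182, task `R182/NR`: logarithmic variation along the nilpotent directions. -/

set_option autoImplicit false

namespace Crest.Agent.R182

open scoped BigOperators
open MeasureTheory

namespace Frame

variable (F : Frame)

set_option maxHeartbeats 1600000 in
/-- part (c) -/
theorem nr_core (K : ℝ) (hK : 1 ≤ K) (j : F.J) : ∃ ε₀ c : ℝ, 0 < ε₀ ∧ 1 ≤ c ∧ ∀ f q, F.QI K f q →
    ∀ ε C₀ : ℝ, 0 ≤ ε → ε ≤ ε₀ → 0 ≤ C₀ →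
    (∀ x g, ‖F.M.ht (f (x * g)) - F.M.ht (f x) - F.M.ht g‖ ≤ ε * F.M.len g + C₀) →
    ∀ (x : F.G) (n : ℝ), 2 ≤ n → ∀ d ∈ F.D, F.M.φ d = 0 → F.dn n d ≤ 1 → ∀ s : ℕ, 2 ≤ s →
      F.μ j (F.M.ht (f (x * F.M.ofE d)) - F.M.ht (f x)) ≤ -(c * (s + Real.log n)) →
      s ≤ c * (ε * s + Real.log s + Real.log n + C₀) := by
  classical
  obtain ⟨v, hv⟩ := F.nr_dir j
  obtain ⟨C₁, hC₁, ha⟩ := F.nr_a K v
  obtain ⟨ε₀, C₂, hε₀, hC₂, hb⟩ := F.nr_b K hK j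
  obtain ⟨C₃, hC₃, hmid⟩ := F.nr_mid v
  obtain ⟨C₄, hC₄, hlen⟩ := F.nrP_len
  obtain ⟨B, hPC⟩ := F.nrP_PC
  obtain ⟨C₅, hC₅, hVC⟩ := F.VC2
  obtain ⟨C₆, hC₆, hcount⟩ := F.count K C₅
  obtain ⟨C₇, hC₇, hvol⟩ := F.N.vol_bI F.X
  obtain ⟨C₈, hC₈, hlip⟩ := F.lvol_le_add
  obtain ⟨C₉, hC₉, hμ⟩ := F.norm_mu_le
  obtain ⟨A, hA⟩ : ∃ A, A = C₁ + 2 * C₂ + K * (2 * C₃ + 1) := ⟨_, rfl⟩
  have hp0 : 0 ≤ K * (2 * C₃ + 1) := by positivity
  have hA1 : 1 ≤ A := by rw [hA]; linarith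
  have hp1 : 0 ≤ C₄ * (K * (C₃ + 1)) := by positivity
  have hp2 : 0 ≤ C₇ * C₆ := by positivity
  have hp3 : 0 ≤ (C₈ + C₉) * C₁ := by positivity
  have hp4 : 0 ≤ C₅ * A := by positivity
  obtain ⟨c, hc⟩ : ∃ c, c = C₄ * (K * (C₃ + 1)) + 2 * (C₇ * C₆) + (C₈ + C₉) * C₁ + 3 * C₂ +
    C₅ + 2 * (C₅ * A) := ⟨_, rfl⟩
  refine ⟨ε₀, c, hε₀, by rw [hc]; linarith,
    fun f q hf ε C₀ hε hε' hC₀ hU x n hn d hd hφ hd1 s hs hΔ => ?_⟩
  have hL := v3_log hn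
  have hs' : (2 : ℝ) ≤ s := by exact_mod_cast hs
  have hls := v3_log hs'
  obtain ⟨w, hw⟩ : ∃ w, w = ε * s + C₀ + Real.log s := ⟨_, rfl⟩
  have hεs : 0 ≤ ε * s := by positivity
  have hw0 : 0 ≤ w := by rw [hw]; positivity
  obtain ⟨ℓ, hℓ⟩ : ∃ ℓ, ℓ = K * (C₃ * (s + Real.log n)) + K := ⟨_, rfl⟩
  have hℓ0 : 0 ≤ ℓ := by rw [hℓ]; positivity
  have hℓ1 : C₄ * ℓ ≤ c * (s + Real.log n) := by
    have b1 : ℓ ≤ K * (C₃ + 1) * (s + Real.log n) := by rw [hℓ]; nlinarith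
    have b2 : C₄ * ℓ ≤ C₄ * (K * (C₃ + 1) * (s + Real.log n)) := by gcongr
    rw [← mul_assoc] at b2
    exact b2.trans (mul_le_mul_of_nonneg_right (by rw [hc]; linarith) (by linarith))
  have hns : 4 ≤ n * s := by nlinarith
  have hN2 : 2 ≤ A * (n * s) := by nlinarith
  have hlogn : Real.log n ≤ n := (Real.log_le_sub_one_of_pos (by linarith)).trans (by linarith)
  have hmem : ∀ z ∈ bl (F.I Set.univ) (F.bi Set.univ (F.mup ((s : ℝ) • F.φL v))) 1,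
      (f x)⁻¹ * f (x * F.M.ofE z * F.M.ofE 0) ∈
        F.PC (fun i => F.mup ((s : ℝ) • F.φL v) i + C₁ * w) (A * (n * s)) ∩
        F.PC (fun i => if i = j then C₂ * (C₀ + 1) + C₉ * (C₁ * w) else B * (A * (n * s)))
          (A * (n * s)) := by
    rintro z ⟨hz, hz1⟩
    rw [F.M.ofE_zero, mul_one]
    obtain ⟨a1, a2⟩ := ha f q hf ε C₀ hε hC₀ hU s x hs z hz hz1
    rw [← hw] at a1 a2
    refine ⟨F.PC_mono (fun _ => le_rfl) ?_ a2, hPC j _ _ _ ?_⟩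
    · have : C₁ * s ≤ C₁ * (n * s) := by gcongr; nlinarith
      have : C₁ * (n * s) ≤ A * (n * s) := by gcongr; rw [hA]; linarith
      linarith
    · have b1 := hb f q hf ε C₀ hε hε' hC₀ hU x n hn d hd hd1
      have b3 := hb f q hf ε C₀ hε hε' hC₀ hU (x * F.M.ofE z) n hn d hd hd1
      have b2 := hlen j (f (x * F.M.ofE d)) (f (x * F.M.ofE z * F.M.ofE d)) ℓ
        ((hf.lf _ _).trans (by
          rw [mul_assoc x, F.M.dd_mul_mul, ← mul_assoc, hℓ]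
          gcongr
          exact hmid s n hn d hd hφ hd1 z hz hz1))
      have b4 := b2.ht_le
      have b5 : F.μ j (F.M.ht (f (x * F.M.ofE z)) - F.M.ht (f x)) ≤ C₉ * (C₁ * w) :=
        (le_abs_self _).trans ((hμ _ _).trans (by gcongr))
      have b6 : 0 ≤ C₉ * (C₁ * w) := by positivity
      have b7 : 0 ≤ C₂ * (C₀ + 1) := by positivity
      have b8 : 0 ≤ c * (s + Real.log n) := le_trans (by positivity) hℓ1
      rw [max_eq_left (by linarith)] at b1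
      have t1 := (b1.mono (a' := C₂ * (C₀ + 1) + C₉ * (C₁ * w)) (by linarith) le_rfl).trans b2
        (by linarith)
      have t2 := t1.trans b3.symm (by
        simp only [map_sub] at b4 b5 hΔ ⊢
        rcases le_total 0 (F.μ j (F.M.ht (f (x * F.M.ofE z * F.M.ofE d))) -
          F.μ j (F.M.ht (f (x * F.M.ofE z)))) with h | h
        · rw [max_eq_right h]; linarith
        · rw [max_eq_left h]; linarith)
      refine t2.mono le_rfl ?_
      have c1 : C₂ * n ≤ C₂ * (n * s) := by gcongr; nlinarith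
      have c2 : s + Real.log n ≤ 2 * (n * s) := by nlinarith
      have c3 : K * (C₃ * (s + Real.log n)) ≤ K * (C₃ * (2 * (n * s))) := by gcongr
      have c4 : K * 1 ≤ K * (n * s) := by gcongr; linarith
      have c5 : 0 ≤ C₁ * (n * s) := by positivity
      have c6 : A * (n * s) = C₁ * (n * s) + 2 * (C₂ * (n * s)) + K * (C₃ * (2 * (n * s))) +
          K * (n * s) := by rw [hA]; ring
      rw [c6, hℓ]
      linarith
  have hcov := hVC (fun i => F.mup ((s : ℝ) • F.φL v) i + C₁ * w)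
    (fun i => if i = j then C₂ * (C₀ + 1) + C₉ * (C₁ * w) else B * (A * (n * s))) _ j hN2
  have h1 := hcount f q hf x (f x) Set.univ 0 F.R.zero_mem _ _ hcov _ (fun z hz => hz.1) hmem
  rw [(F.isLN_bi _ _).lnm_one, ENNReal.ofReal_le_ofReal_iff (by positivity)] at h1
  have h2 := (hvol Set.univ (F.mup ((s : ℝ) • F.φL v))).1
  have h3 := hlip (fun i => F.mup ((s : ℝ) • F.φL v) i + C₁ * w) (F.mup ((s : ℝ) • F.φL v))
    (C₁ * w) (by positivity) fun _ => le_rfl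
  have h4 : F.mup ((s : ℝ) • F.φL v) j = s := by
    simp only [mup, map_smul, hv, smul_eq_mul, mul_one]
    exact max_eq_left (by linarith)
  have h5 := v3_le_exp hp2 hL
  simp only [if_true, h4] at h1
  have h6 := h2.trans (mul_le_mul_of_nonneg_left h1 (by linarith))
  rw [← mul_assoc] at h6
  have h7 := h6.trans (mul_le_mul_of_nonneg_right h5 (Real.exp_pos _).le)
  rw [← Real.exp_add, Real.exp_le_exp, Real.log_mul (by linarith) (by linarith),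
    Real.log_mul (by linarith) (by linarith)] at h7
  have h8 : Real.log A ≤ A := (Real.log_le_sub_one_of_pos (by linarith)).trans (by linarith)
  have h9 : F.N.lvol F.X Set.univ (F.mup ((s : ℝ) • F.φL v)) =
    F.lvol (F.mup ((s : ℝ) • F.φL v)) := rfl
  obtain ⟨W, hW⟩ : ∃ W, W = ε * s + Real.log s + Real.log n + C₀ := ⟨_, rfl⟩
  have hW1 : 1 ≤ W := by linarith
  have k1 : 2 * (C₇ * C₆) * Real.log n ≤ 2 * (C₇ * C₆) * W := by gcongr; linarith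
  have k2 : (C₈ + C₉) * C₁ * w ≤ (C₈ + C₉) * C₁ * W := by gcongr; linarith
  have k3 : C₂ * (C₀ + 1) ≤ C₂ * (2 * W) := by gcongr; linarith
  have k4 : C₅ * (Real.log n + Real.log s) ≤ C₅ * W := by gcongr; linarith
  have k5 : C₅ * Real.log A ≤ C₅ * A * W := by
    have : C₅ * Real.log A ≤ C₅ * A := by gcongr
    nlinarith
  have k6 : 0 ≤ C₁ * w := by positivity
  have k7 : 0 ≤ C₄ * (K * (C₃ + 1)) * W := by positivity
  have k8 : 0 ≤ C₅ * A * W := by positivity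
  have k9 : 0 ≤ C₂ * W := by positivity
  have k10 : c * W = C₄ * (K * (C₃ + 1)) * W + 2 * (C₇ * C₆) * W + (C₈ + C₉) * C₁ * W +
      3 * (C₂ * W) + C₅ * W + 2 * (C₅ * A * W) := by rw [hc]; ring
  rw [← hW, k10]
  linarith

theorem nr_one (K : ℝ) (hK : 1 ≤ K) (j : F.J) : ∃ ε₀ : ℝ, 0 < ε₀ ∧ ∀ C₀ : ℝ, 0 ≤ C₀ →
    ∃ C : ℝ, 0 ≤ C ∧ ∀ f q, F.QI K f q → ∀ ε : ℝ, 0 ≤ ε → ε ≤ ε₀ →
    (∀ x g, ‖F.M.ht (f (x * g)) - F.M.ht (f x) - F.M.ht g‖ ≤ ε * F.M.len g + C₀) →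
    ∀ (x : F.G) (n : ℝ), 2 ≤ n → ∀ d ∈ F.D, F.M.φ d = 0 → F.dn n d ≤ 1 →
      -(C * Real.log n) ≤ F.μ j (F.M.ht (f (x * F.M.ofE d)) - F.M.ht (f x)) := by
  obtain ⟨ε₀, c, hε₀, hc, h⟩ := F.nr_core K hK j
  refine ⟨min ε₀ (1 / (4 * c)), by positivity, fun C₀ hC₀ => ?_⟩
  obtain ⟨M, hM⟩ : ∃ M, M = 4 + 2 * c + 4 * (c * C₀) + 4 * (c * (4 * c)) := ⟨_, rfl⟩
  have hp1 : 0 ≤ c * C₀ := by positivity
  have hp2 : 0 ≤ c * (4 * c) := by positivity
  have hM0 : 4 ≤ M := by rw [hM]; linarith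
  refine ⟨c * (M + 3), by positivity, fun f q hf ε hε hε' hU x n hn d hd hφ hd1 => ?_⟩
  have hL := v3_log hn
  by_contra hlt
  push Not at hlt
  obtain ⟨s, hs⟩ : ∃ s : ℕ, s = ⌈M * Real.log n⌉₊ := ⟨_, rfl⟩
  have hs1 : M * Real.log n ≤ s := by rw [hs]; exact Nat.le_ceil _
  have hs2 : (s : ℝ) < M * Real.log n + 1 := by
    rw [hs]; exact Nat.ceil_lt_add_one (by positivity)
  have hs3 : (2 : ℝ) ≤ s := by nlinarith
  have h1 := h f q hf ε C₀ hε (hε'.trans (min_le_left _ _)) hC₀ hU x n hn d hd hφ hd1 s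
    (by exact_mod_cast hs3) (by
      have : c * (s + Real.log n) ≤ c * ((M + 3) * Real.log n) := by gcongr; linarith
      linarith)
  have h2 : c * ε ≤ 1 / 4 := by
    have := hε'.trans (min_le_right _ _)
    rw [le_div_iff₀ (by positivity)] at this
    linarith
  have h3 : Real.log s ≤ s / (4 * c) + 4 * c := by
    have a1 := Real.log_le_sub_one_of_pos (show 0 < s / (4 * c) by positivity)
    have a2 := Real.log_le_sub_one_of_pos (show 0 < 4 * c by positivity)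
    rw [Real.log_div (by linarith) (by linarith)] at a1
    linarith
  have h4 : c * Real.log s ≤ s / 4 + c * (4 * c) := by
    have : c * Real.log s ≤ c * (s / (4 * c) + 4 * c) := by gcongr
    have e : c * (s / (4 * c) + 4 * c) = s / 4 + c * (4 * c) := by field_simp
    linarith
  have h5 : c * ε * s ≤ 1 / 4 * s := by gcongr
  rw [hM] at hs1
  nlinarith

/-- Fix `j`, directions `v` with `μ j (φL v) = -1` and `v'` with `μ j (φL v') = 1`; let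
`Δ₀ = ht (f (x d)) - ht (f x)`, `s = ⌈C₇ log n⌉`, `T = ⌈M n⌉`.
(a) For `z ∈ R` with `bx (mup (s • φL v')) z ≤ 1`: `(f x)⁻¹ f (x z) ∈ PC (mup (s • φL v') + C (ε s +
log s + C₀))` (`fac_R`; each root move by going along `v'`, as in `cl_move` of `R182/CL` with
`Φ t = t • φL v'`, the hypothesis gives `E = ε C s + C₀`).
(b) For any `y`, `(f y)⁻¹ f (y d)` is in `PC h (C n²)` with `h j = max 0 (μ j (ht f (y d) - ht f y)) + C`,
`h i = C n²` otherwise: go along `y lin v [0, T]`, across along a geodesic of length `≤ ε' T`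
(`len_conj_D`, `dn_scale`), back along `y d lin v [0, T]`; on the lines `μ j`-heights relative to the
starting point of the line are `≤ -t + ε C t + C`.
(c) `x → x d → x z d → x z`: the middle step `d⁻¹ z d` has length `≤ C (s + log n)` (`conj_ofE`,
`norm_Ad_le`, `norm_le_dn`, `len_R_norm`; `φ d = 0`).  If `μ j Δ₀ < -C' (s + log n)` all `μ j`-heights
along this path relative to `f x` are `≤ C (ε s + C₀ + 1)`.  Then `VC2` and `count` (`𝒯` = the box,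
`vol_bI`) give `s ≤ C (ε s + log n + C₀ + 1)`, false for `ε` small and `C₇` large.
So `μ j Δ₀ ≥ -C log n` for all `j`; `norm_le_of_mu'`. -/
theorem NR (K : ℝ) : ∃ ε : ℝ, 0 < ε ∧ ∀ C₀ : ℝ, ∃ C : ℝ, 0 ≤ C ∧ ∀ f q, F.QI K f q →
    (∀ x g, ‖F.M.ht (f (x * g)) - F.M.ht (f x) - F.M.ht g‖ ≤ ε * F.M.len g + C₀) →
    ∀ (x : F.G) (n : ℝ), 2 ≤ n → ∀ d ∈ F.D, F.M.φ d = 0 → F.dn n d ≤ 1 →
      ‖F.M.ht (f (x * F.M.ofE d)) - F.M.ht (f x)‖ ≤ C * Real.log n := by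
  by_cases hK : 1 ≤ K
  swap
  · exact ⟨1, one_pos, fun _ => ⟨0, le_rfl, fun f q hf => absurd hf.one_le hK⟩⟩
  choose ε hε h using F.nr_one K hK
  obtain ⟨B, hB⟩ := Finite.exists_le fun j => (ε j)⁻¹
  obtain ⟨C₁, hC₁, hn⟩ := F.norm_le_of_mu'
  have hB1 : 0 < max B 1 := lt_max_of_lt_right one_pos
  refine ⟨(max B 1)⁻¹, by positivity, fun C₀ => ?_⟩
  choose C hC h using fun j => h j (max C₀ 0) (le_max_right _ _)
  obtain ⟨C', hC'⟩ := Finite.exists_le C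
  refine ⟨C₁ * max C' 0, by positivity, fun f q hf hU x n h2 d hd hφ hd1 => ?_⟩
  have hL := v3_log h2
  rw [mul_assoc]
  refine hn _ _ (by positivity) fun j => le_trans ?_ (h j f q hf (max B 1)⁻¹ (by positivity)
    (inv_le_of_inv_le₀ (hε j) ((hB j).trans (le_max_left _ _)))
    (fun x g => (hU x g).trans (by gcongr; exact le_max_left _ _)) x n h2 d hd hφ hd1)
  have : C j * Real.log n ≤ max C' 0 * Real.log n := by
    gcongr; exact (hC' j).trans (le_max_left _ _)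
  linarith

/-- `PC_slab` and `NR` -/
theorem UN (K : ℝ) (Cf : ℝ → ℝ) (ε : ℝ) (hε : 0 < ε) : ∃ C : ℝ, 0 ≤ C ∧ ∀ f q, F.QI K f q →
    (∀ ε' : ℝ, 0 < ε' → ∀ x g,
      ‖F.M.ht (f (x * g)) - F.M.ht (f x) - F.M.ht g‖ ≤ ε' * F.M.len g + Cf ε') →
    ∀ (x g : F.G) (E n : ℝ), 2 ≤ n → g ∈ F.PC (fun _ => E) n → ‖F.M.ht g‖ ≤ E →
      ‖F.M.ht (f (x * g)) - F.M.ht (f x) - F.M.ht g‖ ≤ ε * E + C * Real.log n := by
  obtain ⟨ε₁, hε₁, hNR⟩ := F.NR K
  obtain ⟨C₁, hC₁, hNR⟩ := hNR (Cf ε₁)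
  obtain ⟨C, hC, hslab⟩ := F.PC_slab
  have hlC : 0 ≤ Real.log C := Real.log_nonneg hC
  refine ⟨ε + 4 * |Cf (ε / (2 * C))| + C₁ * (1 + 2 * Real.log C), by positivity,
    fun f q hf hU x g E n hn hg hE => ?_⟩
  have hL := v3_log hn
  obtain ⟨g₁, g₂, d, hd, hφ, hd1, l1, l2, rfl⟩ := hslab E n hn g hg hE
  have a1 := hU (ε / (2 * C)) (by positivity) x g₁
  have a2 := hNR f q hf (hU ε₁ hε₁) (x * g₁) (C * n) (by nlinarith) d hd hφ hd1
  have a3 := hU (ε / (2 * C)) (by positivity) (x * g₁ * F.M.ofE d) g₂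
  rw [Real.log_mul (by linarith) (by linarith)] at a2
  have e : F.M.ht (f (x * (g₁ * F.M.ofE d * g₂))) - F.M.ht (f x) - F.M.ht (g₁ * F.M.ofE d * g₂) =
      (F.M.ht (f (x * g₁)) - F.M.ht (f x) - F.M.ht g₁) +
      (F.M.ht (f (x * g₁ * F.M.ofE d)) - F.M.ht (f (x * g₁))) +
      (F.M.ht (f (x * g₁ * F.M.ofE d * g₂)) - F.M.ht (f (x * g₁ * F.M.ofE d)) - F.M.ht g₂) := by
    simp only [Model.ht_mul, Model.ht_ofE, hφ, ← mul_assoc]
    abel
  rw [e]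
  refine (norm_add₃_le).trans ?_
  have b1 : ε / (2 * C) * F.M.len g₁ ≤ ε / (2 * C) * (C * (E + Real.log n)) := by gcongr
  have b2 : ε / (2 * C) * F.M.len g₂ ≤ ε / (2 * C) * (C * (E + Real.log n)) := by gcongr
  have b3 : ε / (2 * C) * (C * (E + Real.log n)) = ε * (E + Real.log n) / 2 := by field_simp
  have b4 := le_abs_self (Cf (ε / (2 * C)))
  have b5 := abs_nonneg (Cf (ε / (2 * C)))
  have b6 : 0 ≤ C₁ * Real.log C := by positivity
  nlinarith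

end Frame

end Crest.Agent.R182
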