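import Crest.Agent.R182.LinNrm

/-! Row 182, task `R182/LinDirs`: the test directions exist. -/

set_option autoImplicit false

namespace Crest.Agent.R182

open scoped BigOperators
open MeasureTheory

theorem lindirs_mult {V : Type} [AddCommGroup V] [Module ℝ V] {α g : V →ₗ[ℝ] ℝ} (hg : g ≠ 0)
    (h : ∀ y, g y < 0 → α y ≤ 0) : ∃ c : ℝ, 0 ≤ c ∧ ∀ y, α y = c * g y := by
  obtain ⟨y₀, hy₀⟩ : ∃ y, g y ≠ 0 := by
    by_contra hc
    push Not at hc
    exact hg (LinearMap.ext hc)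
  obtain ⟨y₁, h1⟩ : ∃ y₁, g y₁ = -1 :=
    ⟨(-(g y₀)⁻¹) • y₀, by rw [map_smul, smul_eq_mul]; field_simp⟩
  have hker : ∀ y, g y = 0 → α y = 0 := by
    intro y hy
    by_contra hne
    have := h (y₁ + ((1 - α y₁) / α y) • y) (by rw [map_add, map_smul, hy, h1]; simp)
    rw [map_add, map_smul, smul_eq_mul, div_mul_cancel₀ _ hne] at this
    linarith
  refine ⟨-α y₁, by have := h y₁ (by rw [h1]; norm_num); linarith, fun y => ?_⟩
  have := hker (y + g y • y₁) (by rw [map_add, map_smul, h1]; simp)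
  rw [map_add, map_smul, smul_eq_mul] at this
  linarith

theorem lindirs_eq {V : Type} [AddCommGroup V] [Module ℝ V] {α α' g : V →ₗ[ℝ] ℝ}
    (h : ∀ y, g y ≤ 0 → max (α y) 0 = max (α' y) 0) {y₀ : V} (h0 : g y₀ < 0) (h1 : 0 < α y₀)
    (e : V) : α e = α' e := by
  have key : ∀ y, g y ≤ 0 → 0 < α y → α y = α' y := by
    intro y hy hp
    have := h y hy
    rw [max_eq_left hp.le] at this
    rcases le_total (α' y) 0 with h' | h'
    · rw [max_eq_right h'] at this; linarith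
    · rwa [max_eq_left h'] at this
  have hc : ∀ f : V →ₗ[ℝ] ℝ, Filter.Tendsto (fun ε : ℝ => f y₀ + ε * f e) (nhdsWithin 0 (Set.Ioi 0))
      (nhds (f y₀)) := by
    intro f
    have : Continuous fun ε : ℝ => f y₀ + ε * f e := by fun_prop
    simpa using (this.tendsto 0).mono_left (nhdsWithin_le_nhds (s := Set.Ioi 0))
  obtain ⟨ε, ⟨a1, a2⟩, a3⟩ := ((((hc g).eventually (gt_mem_nhds h0)).and
    ((hc α).eventually (lt_mem_nhds h1))).and self_mem_nhdsWithin).exists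
  have b1 := key (y₀ + ε • e) (by rw [map_add, map_smul]; exact a1.le)
    (by rw [map_add, map_smul]; exact a2)
  have b2 := key y₀ h0.le h1
  simp only [map_add, map_smul, smul_eq_mul, b2] at b1
  have : ε ≠ 0 := ne_of_gt a3
  exact mul_left_cancel₀ this (by linarith)

theorem lindirs_small {ι : Type} [Finite ι] (f : ι → ℝ) :
    ∃ c : ℝ, 0 < c ∧ ∀ i, 0 < f i → c ≤ f i := by
  classical
  have := Fintype.ofFinite ι
  rcases isEmpty_or_nonempty ι with h | h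
  · exact ⟨1, one_pos, fun i => isEmptyElim i⟩
  obtain ⟨i₀, -, hi₀⟩ := Finset.exists_min_image Finset.univ
    (fun i => if 0 < f i then f i else 1) Finset.univ_nonempty
  refine ⟨if 0 < f i₀ then f i₀ else 1, by split_ifs with h <;> [exact h; exact one_pos],
    fun i hi => ?_⟩
  have := hi₀ i (Finset.mem_univ _)
  rwa [if_pos hi] at this

theorem lindirs_big {ι : Type} [Finite ι] (f : ι → ℝ) : ∃ C : ℝ, ∀ i, f i ≤ C :=
  let ⟨C, hC⟩ := (Set.finite_range f).bddAbove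
  ⟨C, fun i => hC ⟨i, rfl⟩⟩

/-- unit vectors dual to the functionals -/
theorem lindirs_sharp {k : ℕ} {J : Type} (μ : J → (Fin k → ℝ) →ₗ[ℝ] ℝ) (hμ : ∀ j, μ j ≠ 0) :
    ∃ u : J → Fin k → ℝ, (∀ j, 0 < μ j (u j)) ∧ (∀ i j, μ i (u j) ≤ μ i (u i)) ∧
      ∀ i j, (¬∃ c : ℝ, 0 < c ∧ μ i = c • μ j) → μ i (u j) < μ i (u i) := by
  set A : J → EuclideanSpace ℝ (Fin k) := fun j => WithLp.toLp 2 fun r => μ j (Pi.single r 1)
    with hA
  have h1 : ∀ i (x : EuclideanSpace ℝ (Fin k)), μ i x.ofLp = inner ℝ (A i) x := by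
    intro i x
    rw [LinearMap.pi_apply_eq_sum_univ, PiLp.inner_apply]
    refine Finset.sum_congr rfl fun r _ => ?_
    have : (fun j => if r = j then (1 : ℝ) else 0) = Pi.single r 1 := by
      funext j; simp [Pi.single_apply, eq_comm]
    simp [hA, this]
  have h2 : ∀ j, 0 < ‖A j‖ := by
    intro j
    rw [norm_pos_iff]
    intro h0
    apply hμ j
    refine LinearMap.ext fun v => ?_
    have := h1 j (WithLp.toLp 2 v)
    rw [h0, inner_zero_left] at this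
    exact this
  have h3 : ∀ i j, μ i (‖A j‖⁻¹ • A j).ofLp = inner ℝ (A i) (A j) / ‖A j‖ := by
    intro i j
    rw [h1, inner_smul_right, div_eq_inv_mul]
  have h4 : ∀ i, μ i (‖A i‖⁻¹ • A i).ofLp = ‖A i‖ := by
    intro i
    rw [h3, real_inner_self_eq_norm_sq, sq, mul_div_assoc, div_self (h2 i).ne', mul_one]
  refine ⟨fun j => (‖A j‖⁻¹ • A j).ofLp, fun j => by rw [h4]; exact h2 j, fun i j => ?_,
    fun i j hij => ?_⟩
  · rw [h4, h3, div_le_iff₀ (h2 j)]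
    exact real_inner_le_norm _ _
  · rw [h4, h3, div_lt_iff₀ (h2 j)]
    refine lt_of_le_of_ne (real_inner_le_norm _ _) fun he => hij ?_
    rw [inner_eq_norm_mul_iff_real] at he
    refine ⟨‖A i‖ / ‖A j‖, div_pos (h2 i) (h2 j), LinearMap.ext fun v => ?_⟩
    have a1 := h1 i (WithLp.toLp 2 v)
    have a2 := h1 j (WithLp.toLp 2 v)
    have a3 := congrArg (fun x => inner ℝ x (WithLp.toLp 2 v : EuclideanSpace ℝ (Fin k))) he
    simp only [real_inner_smul_left] at a3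
    rw [← a1, ← a2] at a3
    rw [LinearMap.smul_apply, smul_eq_mul, div_mul_eq_mul_div, eq_div_iff (h2 j).ne']
    simpa [mul_comm] using a3

namespace Frame

variable (F : Frame)

/-- If no such `y, i` exist then, with `n` optimal for `mup (w y)` (`exists_opt`),
`nrm y = ∑ n (μ (w y))⁺ ≤ ∑ n (μ (w' y))⁺ ≤ nrm y`, so `(μ i w y)⁺ = (μ i w' y)⁺` on the half-space
`μ j ≤ 0`.  If `μ i ∘ w` is positive somewhere in the open half-space, `μ i ∘ w = μ i ∘ w'`.  The other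
`μ i ∘ w` are positive multiples of `μ j`.  For `e' = (w - w') e` the first kind vanish, the second kind
are positive multiples of one number, and `∑ n i μ i e' = 0`; so `e' = 0` by `μ_span`. -/
theorem exists_test (w w' : F.W) (h : w ≠ w') (j : F.J) : ∃ y : F.V, F.μ j y ≤ 0 ∧
    ∃ i, max (F.μ i (w'.1 y)) 0 < F.μ i (w.1 y) := by
  by_contra hc
  push Not at hc
  have heq : ∀ y, F.μ j y ≤ 0 → ∀ i, max (F.μ i (w.1 y)) 0 = max (F.μ i (w'.1 y)) 0 := by
    intro y hy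
    obtain ⟨n, n1, -, n3, n4⟩ := F.exists_opt (F.mup (w.1 y))
    have hle : ∀ i, max (F.μ i (w.1 y)) 0 ≤ max (F.μ i (w'.1 y)) 0 := fun i =>
      max_le (hc y hy i) (le_max_right _ _)
    have a1 : ∑ i, (n i : ℝ) * F.mup (w'.1 y) i ≤ ∑ i, (n i : ℝ) * F.mup (w.1 y) i := by
      rw [← n3]
      have e1 : F.lvol (F.mup (w.1 y)) = F.nrm y := F.nrm_W w y
      have e2 : F.lvol (F.mup (w'.1 y)) = F.nrm y := F.nrm_W w' y
      rw [e1, ← e2]
      exact n4 _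
    have a2 : ∀ i ∈ Finset.univ, (n i : ℝ) * F.mup (w.1 y) i ≤ (n i : ℝ) * F.mup (w'.1 y) i :=
      fun i _ => mul_le_mul_of_nonneg_left (hle i) (Nat.cast_nonneg _)
    have a3 := (Finset.sum_eq_sum_iff_of_le a2).1 (le_antisymm (Finset.sum_le_sum a2) a1)
    intro i
    have hn : (n i : ℝ) ≠ 0 := by have := n1 i; positivity
    exact mul_left_cancel₀ hn (a3 i (Finset.mem_univ _))
  apply h
  refine Subtype.ext (LinearEquiv.ext fun e => ?_)
  rw [← sub_eq_zero]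
  set e' := w.1 e - w'.1 e with he'
  set t := F.μ j (w.1.symm e') with ht
  have hcase : ∀ i, ∃ c : ℝ, 0 ≤ c ∧ F.μ i e' = c * t := by
    intro i
    by_cases hA : ∃ y₀, F.μ j y₀ < 0 ∧ 0 < F.μ i (w.1 y₀)
    · obtain ⟨y₀, b1, b2⟩ := hA
      have := lindirs_eq (α := F.μ i ∘ₗ w.1.toLinearMap) (α' := F.μ i ∘ₗ w'.1.toLinearMap)
        (g := F.μ j) (fun y hy => heq y hy i) b1 b2 e
      refine ⟨0, le_rfl, ?_⟩
      rw [he', map_sub, zero_mul, sub_eq_zero]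
      exact this
    · push Not at hA
      obtain ⟨c, c0, hc'⟩ := lindirs_mult (α := F.μ i ∘ₗ w.1.toLinearMap) (F.μ_ne j) hA
      refine ⟨c, c0, ?_⟩
      have := hc' (w.1.symm e')
      simpa using this
  obtain ⟨n, n1, n2, -, -⟩ := F.exists_opt 0
  have hs : ∑ i, (n i : ℝ) * (F.μ i e' * t) = 0 := by
    have := congrArg (fun f : F.V →ₗ[ℝ] ℝ => f e' * t) n2
    simpa [LinearMap.sum_apply, Finset.sum_mul, mul_assoc] using this
  have hnn : ∀ i ∈ Finset.univ, 0 ≤ (n i : ℝ) * (F.μ i e' * t) := by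
    intro i _
    obtain ⟨c, c0, hc'⟩ := hcase i
    rw [hc', mul_assoc]
    exact mul_nonneg (Nat.cast_nonneg _) (mul_nonneg c0 (mul_self_nonneg t))
  have hz := (Finset.sum_eq_zero_iff_of_nonneg hnn).1 hs
  refine F.μ_span e' fun i => ?_
  obtain ⟨c, -, hc'⟩ := hcase i
  have hn : (n i : ℝ) ≠ 0 := by have := n1 i; positivity
  have := (mul_eq_zero.1 (hz i (Finset.mem_univ _))).resolve_left hn
  rcases mul_eq_zero.1 this with h0 | h0
  · exact h0
  · rw [hc', h0, mul_zero]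

/-- `sp j`: a lift of `μ j^♯ / |μ j|` for the standard scalar product on `V` (Cauchy–Schwarz and its
equality case); `sign`: one vector for each of the finitely many realised sign patterns. -/
theorem exists_dirs : Nonempty F.Dirs := by
  classical
  obtain ⟨s, hs⟩ := F.exists_section
  obtain ⟨u, u1, u2, u3⟩ := lindirs_sharp F.μ F.μ_ne
  have hT : ∀ x : F.W × F.W × F.J, ∃ y : F.V, x.1 ≠ x.2.1 → F.μ x.2.2 y ≤ 0 ∧
      ∃ i, max (F.μ i (x.2.1.1 y)) 0 < F.μ i (x.1.1 y) := by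
    intro x
    by_cases hx : x.1 = x.2.1
    · exact ⟨0, fun h => (h hx).elim⟩
    · obtain ⟨y, hy⟩ := F.exists_test x.1 x.2.1 hx x.2.2
      exact ⟨y, fun _ => hy⟩
  choose T hT using hT
  have hS : ∀ x : F.W × F.J × Finset F.J, ∃ y : F.V,
      (∃ e : F.V, F.μ x.2.1 e ≤ 0 ∧ ∀ i, (0 < F.μ i (x.1.1 e) ↔ i ∈ x.2.2)) →
        F.μ x.2.1 y ≤ 0 ∧ ∀ i, (0 < F.μ i (x.1.1 y) ↔ i ∈ x.2.2) := by
    intro x
    by_cases hx : ∃ e : F.V, F.μ x.2.1 e ≤ 0 ∧ ∀ i, (0 < F.μ i (x.1.1 e) ↔ i ∈ x.2.2)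
    · obtain ⟨e, he⟩ := hx
      exact ⟨e, fun _ => he⟩
    · exact ⟨0, fun h => (hx h).elim⟩
  choose S hS using hS
  refine ⟨⟨(Finset.univ.image fun i => (Pi.single i 1 : F.L)) ∪
    (Finset.univ.image fun j => s (u j)) ∪ (Finset.univ.image fun x => s (T x)) ∪
    (Finset.univ.image fun x => s (S x)), fun i => by simp, fun j => s (u j), fun j => by simp,
    fun j => by rw [hs]; exact u1 j, fun i j => by rw [hs, hs]; exact u2 i j,
    fun i j hij => by rw [hs, hs]; exact u3 i j hij, fun w w' hw j => ?_, fun w j e he => ?_⟩⟩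
  · refine ⟨s (T (w, w', j)), by simp, ?_⟩
    rw [hs]
    exact hT (w, w', j) hw
  · refine ⟨s (S (w, j, Finset.univ.filter fun i => 0 < F.μ i (w.1 e))), by simp, ?_⟩
    rw [hs]
    obtain ⟨a1, a2⟩ := hS (w, j, Finset.univ.filter fun i => 0 < F.μ i (w.1 e))
      ⟨e, he, fun i => by simp⟩
    exact ⟨a1, fun i => by rw [a2]; simp⟩

theorem Dirs.exists_bounds (Δ : F.Dirs) : ∃ c C : ℝ, 0 < c ∧ c ≤ 1 ∧ 1 ≤ C ∧
    (∀ j, c ≤ F.μ j (F.φL (Δ.sp j)) ∧ F.μ j (F.φL (Δ.sp j)) ≤ C) ∧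
    (∀ i j, ¬F.Ray j i → F.μ i (F.φL (Δ.sp j)) + c ≤ F.μ i (F.φL (Δ.sp i))) ∧
    (∀ v ∈ Δ.VV, ‖v‖ ≤ C ∧ ∀ (w : F.W) j, |F.μ j (w.1 (F.φL v))| ≤ C ∧
      (0 < F.μ j (w.1 (F.φL v)) → c ≤ F.μ j (w.1 (F.φL v)))) ∧
    ∀ v ∈ Δ.VV, ∀ (w w' : F.W) i, max (F.μ i (w'.1 (F.φL v))) 0 < F.μ i (w.1 (F.φL v)) →
      max (F.μ i (w'.1 (F.φL v))) 0 + c ≤ F.μ i (w.1 (F.φL v)) := by
  obtain ⟨c1, p1, h1⟩ := lindirs_small fun j => F.μ j (F.φL (Δ.sp j))
  obtain ⟨c2, p2, h2⟩ := lindirs_small fun x : F.J × F.J =>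
    F.μ x.1 (F.φL (Δ.sp x.1)) - F.μ x.1 (F.φL (Δ.sp x.2))
  obtain ⟨c3, p3, h3⟩ := lindirs_small fun x : Δ.VV × F.W × F.J =>
    F.μ x.2.2 (x.2.1.1 (F.φL x.1))
  obtain ⟨c4, p4, h4⟩ := lindirs_small fun x : Δ.VV × F.W × F.W × F.J =>
    F.μ x.2.2.2 (x.2.1.1 (F.φL x.1)) - max (F.μ x.2.2.2 (x.2.2.1.1 (F.φL x.1))) 0
  obtain ⟨C1, k1⟩ := lindirs_big fun j => F.μ j (F.φL (Δ.sp j))
  obtain ⟨C2, k2⟩ := lindirs_big fun x : Δ.VV => ‖(x : F.L)‖
  obtain ⟨C3, k3⟩ := lindirs_big fun x : Δ.VV × F.W × F.J => |F.μ x.2.2 (x.2.1.1 (F.φL x.1))|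
  set c := min (min (min c1 c2) (min c3 c4)) 1 with hc
  set C := max (max (max C1 C2) C3) 1 with hC
  have a1 : c ≤ c1 := (min_le_left _ _).trans ((min_le_left _ _).trans (min_le_left _ _))
  have a2 : c ≤ c2 := (min_le_left _ _).trans ((min_le_left _ _).trans (min_le_right _ _))
  have a3 : c ≤ c3 := (min_le_left _ _).trans ((min_le_right _ _).trans (min_le_left _ _))
  have a4 : c ≤ c4 := (min_le_left _ _).trans ((min_le_right _ _).trans (min_le_right _ _))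
  have b1 : C1 ≤ C := (le_max_left _ _).trans ((le_max_left _ _).trans (le_max_left _ _))
  have b2 : C2 ≤ C := (le_max_right _ _).trans ((le_max_left _ _).trans (le_max_left _ _))
  have b3 : C3 ≤ C := (le_max_right _ _).trans (le_max_left _ _)
  refine ⟨c, C, lt_min (lt_min (lt_min p1 p2) (lt_min p3 p4)) one_pos, min_le_right _ _,
    le_max_right _ _, fun j => ⟨a1.trans (h1 j (Δ.sp_pos j)), (k1 j).trans b1⟩,
    fun i j hij => ?_, fun v hv => ⟨(k2 ⟨v, hv⟩).trans b2, fun w j =>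
      ⟨(k3 (⟨v, hv⟩, w, j)).trans b3, fun h => a3.trans (h3 (⟨v, hv⟩, w, j) h)⟩⟩,
    fun v hv w w' i h => ?_⟩
  · have := h2 (i, j) (sub_pos.2 (Δ.sp_lt i j hij))
    simp only at this
    linarith
  · have := h4 (⟨v, hv⟩, w, w', i) (sub_pos.2 h)
    simp only at this
    linarith

end Frame

end Crest.Agent.R182
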