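import Crest.Agent.R182.U2
import Crest.Agent.R182.BT
import Crest.Agent.R182.LinDirs

/-! Row 182, task `R182/UU`: Theorem U. -/

set_option autoImplicit false

namespace Crest.Agent.R182

open scoped BigOperators
open MeasureTheory

namespace Frame

variable (F : Frame)

/-- one step along a coordinate line -/
theorem uu_step (Δ : F.Dirs) (K : ℝ) : ∃ B : ℝ, 0 ≤ B ∧ ∀ f q, F.QI K f q → ∀ (z : F.G) (w : F.W)
    (s η : ℝ) (i : Fin F.m) (t : ℝ), |t| + 1 ≤ s → F.Good Δ.VV f z w s η →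
      ‖F.M.ht (f (z * F.lin (Pi.single i 1) t)) - F.M.ht (f z) -
        w.1 (F.M.ht (F.lin (Pi.single i 1) t))‖ ≤ η + B := by
  obtain ⟨Cq, hCq, hq⟩ := F.qi_lip
  obtain ⟨Cl, hCl, hl⟩ := F.len_lin
  obtain ⟨CW, hCW, hW⟩ := F.norm_W_le
  obtain ⟨Cφ, hCφ, hφ⟩ := gb_bound F.φL
  refine ⟨Cq * |K| * (Cl * 2 + 1) + CW * Cφ, by positivity, fun f q hf z w s η i t ht hG => ?_⟩
  have hK : |K| = K := abs_of_nonneg (by linarith [hf.one_le])
  have hn : ‖(Pi.single i 1 : F.L)‖ = 1 := by rw [Pi.norm_single, norm_one]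
  have h1 := hG _ (Δ.basis_mem i) ⌊t⌋ (by
    have := Int.floor_le t
    have := Int.lt_floor_add_one t
    have := le_abs_self t
    have := neg_abs_le t
    rw [abs_le]; constructor <;> linarith)
  have h2 := (hq K f q hf (z * F.lin (Pi.single i 1) ⌊t⌋) (F.lin (Pi.single i 1) (Int.fract t))).1
  rw [mul_assoc, ← F.lin_add, Int.floor_add_fract] at h2
  have hfr : |Int.fract t| ≤ 1 := by
    rw [abs_of_nonneg (Int.fract_nonneg t)]; exact (Int.fract_lt_one t).le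
  have h3 : F.M.len (F.lin (Pi.single i 1) (Int.fract t)) ≤ Cl * 2 := by
    refine (hl _ _).trans (mul_le_mul_of_nonneg_left ?_ hCl.le)
    rw [hn]; linarith
  have h4 : ‖Int.fract t • w.1 (F.φL (Pi.single i 1))‖ ≤ CW * Cφ := by
    rw [norm_smul, Real.norm_eq_abs]
    have a1 := hW w (F.φL (Pi.single i 1))
    have a2 := hφ (Pi.single i 1)
    rw [hn, mul_one] at a2
    have a3 : ‖w.1 (F.φL (Pi.single i 1))‖ ≤ CW * Cφ :=
      a1.trans (mul_le_mul_of_nonneg_left a2 (by linarith))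
    exact (mul_le_of_le_one_left (norm_nonneg _) hfr).trans a3
  have h5 : Cq * K * (F.M.len (F.lin (Pi.single i 1) (Int.fract t)) + 1) ≤
      Cq * |K| * (Cl * 2 + 1) := by
    rw [hK]
    have := hf.one_le
    gcongr
  have e : F.M.ht (f (z * F.lin (Pi.single i 1) t)) - F.M.ht (f z) -
      w.1 (F.M.ht (F.lin (Pi.single i 1) t)) =
      (F.M.ht (f (z * F.lin (Pi.single i 1) ⌊t⌋)) - F.M.ht (f z) -
        ((⌊t⌋ : ℤ) : ℝ) • w.1 (F.φL (Pi.single i 1))) +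
      (F.M.ht (f (z * F.lin (Pi.single i 1) t)) - F.M.ht (f (z * F.lin (Pi.single i 1) ⌊t⌋))) -
      Int.fract t • w.1 (F.φL (Pi.single i 1)) := by
    rw [F.ht_lin, map_smul]
    conv_lhs => rw [show t • w.1 (F.φL (Pi.single i 1)) =
      (((⌊t⌋ : ℤ) : ℝ) + Int.fract t) • w.1 (F.φL (Pi.single i 1)) by rw [Int.floor_add_fract]]
    rw [add_smul]
    abel
  rw [e]
  refine (norm_sub_le _ _).trans ((add_le_add (norm_add_le _ _) h4).trans ?_)
  linarith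

/-- a chain of coordinate lines through good points -/
theorem uu_chain (Δ : F.Dirs) (K : ℝ) : ∃ κ C B : ℝ, 0 < κ ∧ κ ≤ 1 ∧ 1 ≤ C ∧ 0 ≤ B ∧ ∀ f q,
    F.QI K f q → ∀ (w : F.W) (s η : ℝ), 0 ≤ η → C * (η + 1) ≤ s → ∀ (l : List (Fin F.m × ℝ))
      (z : F.G), (∀ p ∈ l, |p.2| + 1 ≤ κ * s) → F.Good Δ.VV f z w s η →
      (∀ i ≤ l.length, ∃ w', F.Good Δ.VV f
        (z * ((l.take i).map fun p => F.lin (Pi.single p.1 1) p.2).prod) w' s η) →
      F.Good Δ.VV f (z * (l.map fun p => F.lin (Pi.single p.1 1) p.2).prod) w s η ∧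
      ‖F.M.ht (f (z * (l.map fun p => F.lin (Pi.single p.1 1) p.2).prod)) - F.M.ht (f z) -
        w.1 (F.M.ht (l.map fun p => F.lin (Pi.single p.1 1) p.2).prod)‖ ≤ l.length * (η + B) := by
  obtain ⟨κ, C, hκ, hκ1, hC, h2⟩ := F.G2 Δ K
  obtain ⟨B, hB, hstep⟩ := F.uu_step Δ K
  refine ⟨κ, C, B, hκ, hκ1, hC, hB, fun f q hf w s η hη hs l => ?_⟩
  have hs0 : 0 ≤ s := le_trans (by positivity) hs
  induction l with
  | nil =>
    intro z _ hG _
    simpa [Model.ht_one] using hG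
  | cons p l ih =>
    intro z hl hG hall
    have hp := hl p List.mem_cons_self
    obtain ⟨w', hw'⟩ := hall 1 (by simp)
    simp only [List.take_succ_cons, List.take_zero, List.map_cons, List.map_nil, List.prod_cons,
      List.prod_nil, mul_one] at hw'
    obtain rfl : w = w' :=
      h2 f q hf z _ (Δ.basis_mem p.1) p.2 w w' s η hη hs (by linarith) hG hw'
    obtain ⟨a1, a2⟩ := ih (z * F.lin (Pi.single p.1 1) p.2)
      (fun p' hp' => hl p' (List.mem_cons_of_mem _ hp')) hw' (fun i hi => by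
        have := hall (i + 1) (by simpa using hi)
        simpa only [List.take_succ_cons, List.map_cons, List.prod_cons, mul_assoc] using this)
    have a3 := hstep f q hf z w s η p.1 p.2 (hp.trans (mul_le_of_le_one_left hs0 hκ1)) hG
    rw [List.map_cons, List.prod_cons, ← mul_assoc]
    refine ⟨a1, ?_⟩
    rw [Model.ht_mul, map_add, List.length_cons]
    push_cast
    have := norm_add_le_of_le a2 a3
    refine le_trans (le_of_eq ?_) (this.trans (le_of_eq (by ring)))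
    congr 1
    abel

theorem uu_scale {δ S₀ : ℝ} (hδ : 0 < δ) (hδ1 : δ ≤ 1) (hS₀ : 1 ≤ S₀) (T : ℝ) (hT : 0 ≤ T) :
    ∃ i : ℕ, T ≤ (1 + δ / 8) ^ i * S₀ ∧ (1 + δ / 8) ^ i * S₀ ≤ S₀ + 2 * T := by
  classical
  have hex : ∃ i : ℕ, T ≤ (1 + δ / 8) ^ i * S₀ := by
    obtain ⟨i, hi⟩ := pow_unbounded_of_one_lt T (show 1 < 1 + δ / 8 by linarith)
    exact ⟨i, hi.le.trans (le_mul_of_one_le_right (by positivity) hS₀)⟩
  refine ⟨Nat.find hex, Nat.find_spec hex, ?_⟩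
  rcases h : Nat.find hex with _ | i
  · simp only [pow_zero, one_mul]; linarith
  · have := Nat.find_min hex (show i < Nat.find hex by omega)
    push Not at this
    rw [pow_succ, mul_right_comm]
    have h0 : 0 ≤ (1 + δ / 8) ^ i * S₀ := by positivity
    nlinarith

/-- the support of the translated box -/
theorem uu_supp (Δ : F.Dirs) : ∃ C : ℝ, 1 ≤ C ∧ ∀ (S S' u a : ℝ), 0 ≤ S' → 0 ≤ a →
    (∀ j, Δ.hS S j + u ≤ Δ.hS S' j) → (∀ j, a + u ≤ Δ.hS S' j) → ∀ k : F.G,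
      C * (F.M.len k + 1) ≤ u → ∀ r ∈ F.R, F.bx (fun _ => a) r ≤ 1 → ∀ y ∈ F.R,
        F.bx (Δ.hS S) y ≤ 1 → ∃ y' ∈ F.R, F.bx (Δ.hS S') y' ≤ 1 ∧
          F.M.ofE r * k * F.M.ofE y * k⁻¹ = F.M.ofE y' := by
  obtain ⟨Cc, hCc, hc⟩ := F.conj_box_G
  obtain ⟨c₀, hc₀, hc₁, hsm⟩ := F.N.ln_prod_small
  have hlog : 0 ≤ -Real.log (c₀ / 4) := by
    have := Real.log_nonpos (x := c₀ / 4) (by positivity) (by linarith)
    linarith
  refine ⟨Cc + -Real.log (c₀ / 4), by linarith,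
    fun S S' u a hS' ha h1 h2 k hk r hr hbr y hy hby => ?_⟩
  have hlen := F.M.len_nonneg k
  have hu : Cc * (F.M.len k + 1) + -Real.log (c₀ / 4) ≤ u := by nlinarith
  have hu0 : 0 ≤ Cc * (F.M.len k + 1) := by positivity
  obtain ⟨y', hy', e, hb⟩ := hc (Δ.hS S') (F.adm_hS Δ hS') (fun j => by linarith [h2 j]) k y hy
  have b1 : F.bx (Δ.hS S') y ≤ Real.exp (-u) * F.bx (Δ.hS S) y :=
    F.N.bI_shift F.X Set.univ (by linarith) h1 hy
  have b2 : F.bx (Δ.hS S') r ≤ Real.exp (-u) * F.bx (fun _ => a) r :=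
    F.N.bI_shift F.X Set.univ (by linarith) h2 hr
  have e4 : Real.exp (Real.log (c₀ / 4)) = c₀ / 4 := Real.exp_log (by positivity)
  have b3 : F.bx (Δ.hS S') y' ≤ c₀ / 4 := by
    refine hb.trans ((mul_le_mul_of_nonneg_left
      (b1.trans (mul_le_of_le_one_right (Real.exp_pos _).le hby)) (Real.exp_pos _).le).trans ?_)
    rw [← Real.exp_add, ← e4, Real.exp_le_exp]
    linarith
  have b4 : F.bx (Δ.hS S') r ≤ c₀ / 4 := by
    refine (b2.trans (mul_le_of_le_one_right (Real.exp_pos _).le hbr)).trans ?_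
    rw [← e4, Real.exp_le_exp]
    linarith
  have b5 := hsm F.R _ (F.isLN_bx (Δ.hS S')) [r, y'] (by simp [hr, hy'])
    (by simp only [List.map_cons, List.map_nil, List.sum_cons, List.sum_nil]; linarith)
  simp only [List.map_cons, List.map_nil, List.sum_cons, List.sum_nil, NL.prod_cons, NL.prod_nil,
    NL.mul_zero'] at b5
  refine ⟨F.N.mul r y', (F.isLN_bx (Δ.hS S')).mul_mem hr hy', by linarith, ?_⟩
  rw [← F.ofE_mul_R hr, ← e]
  simp only [mul_assoc]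

theorem uu_ae (x k : F.G) (h : F.J → ℝ) {P : F.G → Prop} (hP : MeasurableSet {z | P z})
    (H : ∀ y ∈ F.R, F.bx h y ≤ 1 → P (x * F.M.ofE y * k)) :
    ∀ᵐ z ∂F.rt (F.lt x (F.uR h)) k, P z := by
  unfold rt lt
  rw [Measure.map_map (measurable_mul_const k) (measurable_const_mul x),
    ae_map_iff ((measurable_mul_const k).comp (measurable_const_mul x)).aemeasurable hP]
  filter_upwards [F.uR_ae h] with g hg
  exact H _ hg.1 hg.2

theorem uu_meas (x : F.G) (h : F.J → ℝ) :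
    MeasurableSet {z | ∃ y ∈ F.R, F.bx h y ≤ 1 ∧ z = x * F.M.ofE y} := by
  have e : {z | ∃ y ∈ F.R, F.bx h y ≤ 1 ∧ z = x * F.M.ofE y} =
      (fun z => F.M.toE (x⁻¹ * z)) ⁻¹' ((F.R : Set F.E) ∩ F.bx h ⁻¹' Set.Iic 1) := by
    ext z
    constructor
    · rintro ⟨y, h1, h2, rfl⟩
      simpa using ⟨h1, h2⟩
    · rintro ⟨h1, h2⟩
      exact ⟨_, h1, h2, by simp⟩
  rw [e]
  refine (IsClosed.preimage ?_ ?_).measurableSet
  · exact F.M.continuous_toE.comp (continuous_const_mul _)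
  · exact (F.isLN_bx h).continuousOn.preimage_isClosed_of_isClosed
      F.R.closed_of_finiteDimensional isClosed_Iic

theorem uu_arith {a A Cg Cs Cd Cf C1 C2 S ε' ρ θ δ : ℝ} (ha1 : 1 ≤ a) (hA0 : 0 ≤ A) (hCg : 1 ≤ Cg)
    (hCs : 1 ≤ Cs) (hCd : 1 ≤ Cd) (hCf : 1 ≤ Cf) (hC1 : 1 ≤ C1) (hC2 : 1 ≤ C2) (hS0 : 0 ≤ S)
    (hε' : 0 ≤ ε')
    (hSa : (Cg * (2 * A + 1) + Cs * (A + 1) + Cd + (Cf * Cd + 1) + (C1 + C2)) * a ≤ ρ * S)
    (he1 : (C1 + C2) * ε' ≤ ρ) (hρ : 8 * ρ ≤ θ * δ) :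
    Cg * (2 * (A * a) + 1) ≤ ρ * S ∧ Cs * (A * a + 1) ≤ ρ * S ∧ Cd * a ≤ ρ * S ∧
      Cf * (Cd * a) + 1 ≤ ρ * S ∧ C1 * (ε' * S + 1) ≤ θ * (δ * S) ∧
      C2 * (ε' * S + 1) ≤ θ * (δ * S) := by
  have hAa : 0 ≤ A * a := by positivity
  have hCda : 0 < Cd * a := by positivity
  have hCfa : 0 ≤ Cf * (Cd * a) := by positivity
  have p1 : Cg * (2 * (A * a) + 1) ≤ Cg * (2 * A + 1) * a := by
    rw [mul_assoc Cg]; gcongr; linarith
  have p2 : Cs * (A * a + 1) ≤ Cs * (A + 1) * a := by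
    rw [mul_assoc Cs]; gcongr; linarith
  have p3 : Cf * (Cd * a) + 1 ≤ (Cf * Cd + 1) * a := by linarith
  have p4 : C1 + C2 ≤ (C1 + C2) * a := le_mul_of_one_le_right (by linarith) ha1
  have n1 : 0 ≤ Cg * (2 * (A * a) + 1) := by positivity
  have n2 : 0 ≤ Cs * (A * a + 1) := by positivity
  have q5 : C1 + C2 ≤ ρ * S := by linarith
  have a1 : (C1 + C2) * ε' * S ≤ ρ * S := mul_le_mul_of_nonneg_right he1 hS0
  have a2 : 8 * ρ * S ≤ θ * δ * S := mul_le_mul_of_nonneg_right hρ hS0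
  have a3 : 0 ≤ C1 * (ε' * S + 1) := by positivity
  have a4 : 0 ≤ C2 * (ε' * S + 1) := by positivity
  refine ⟨by linarith, by linarith, by linarith, by linarith, by linarith, by linarith⟩

set_option maxHeartbeats 1000000 in
/-- **Theorem U.**  `exists_dirs`, `BT`, `U2` (with `δ ≤ c`, `c` from `Dirs.exists_bounds`); `w` = the label of a base point.  It suffices to show, for
`x' = x g`, `a = max (len g) 1`: the labels `w_x`, `w_{x'}` of `U2` agree and the estimate holds.  Take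
the least `i` with `S = S_i ≥ C a`.  `g = r d` (`decomp_len`), `d = lin (e_{i₁}) t₁ ⋯` (`fac_D`, standard
basis, `|t| ≤ C a ≤ κ θ δ S`), partial products `d_l` of length `≤ C a`.  Let
`ν' = lt x' (uR (hS ((1 + δ/4) S)))` and `ν₁ = rt ν' (ofE d)⁻¹`; it is `BInv (hS S)` (`binv_uR`, `binv_G`),
carried by `x r (d y d⁻¹)` with `bx (hS ((1 + δ/2) S)) ≤ 1` (`conj_box_G`, `ln_prod_small`), so `U2` at `x`
applies to `ν₁`, and `U2` at `x'` to `ν'`.  The translates `rt ν₁ d_l` are `BInv (δ S / 2)`, so `hBT`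
(scale `δ S`) makes all `x₁ d_l` good for most `x₁`; `G2`, `G1` identify the labels, `Good` (and
`qi_lip` for the fractional parts) gives `ht (f (x₁ d)) - ht (f x₁) ≈ w (ht g)`. -/
theorem thmU (K ε : ℝ) (hε : 0 < ε) : ∃ C : ℝ, 0 ≤ C ∧ ∀ f q, F.QI K f q → ∃ w : F.W, ∀ x g,
    ‖F.M.ht (f (x * g)) - F.M.ht (f x) - w.1 (F.M.ht g)‖ ≤ ε * F.M.len g + C := by
  obtain ⟨Δ⟩ := F.exists_dirs
  obtain ⟨θ, hθ, hθ1, hBT⟩ := F.BT Δ.VV K
  obtain ⟨δ₀, hδ₀, hU⟩ := F.U2 Δ hθ hBT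
  obtain ⟨c, Cb, hc, hc1, -, hsp, -⟩ := Δ.exists_bounds
  obtain ⟨δ, hδ, hδ0, hδc⟩ : ∃ δ : ℝ, 0 < δ ∧ δ ≤ δ₀ ∧ δ ≤ c :=
    ⟨min δ₀ c, lt_min hδ₀ hc, min_le_left _ _, min_le_right _ _⟩
  have hδ1 : δ ≤ 1 := hδc.trans hc1
  obtain ⟨C1, hC1, hG1⟩ := F.G1 Δ
  obtain ⟨κ, C2, B, hκ, hκ1, hC2, hB, hch⟩ := F.uu_chain Δ K
  obtain ⟨Cd, hCd, hdec⟩ := F.decomp_len
  obtain ⟨n₀, Cf, hCf, hfac⟩ := F.fac_D (fun i : Fin F.m => (Pi.single i 1 : F.L))
    (by simpa only [← Pi.basisFun_apply] using (Pi.basisFun ℝ (Fin F.m)).span_eq)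
  obtain ⟨Cl, hCl, hlin⟩ := F.len_lin
  obtain ⟨Cg, hCg, hbG⟩ := F.binv_G
  obtain ⟨Cu, hCu, hbU⟩ := F.binv_uR
  obtain ⟨Cs, hCs, hsupp⟩ := F.uu_supp Δ
  -- the constants
  obtain ⟨A, hA⟩ : ∃ A : ℝ, A = n₀ * (Cl * (1 + Cf * Cd)) := ⟨_, rfl⟩
  have hA0 : 0 ≤ A := by rw [hA]; positivity
  obtain ⟨ρ, hρ⟩ : ∃ ρ : ℝ, ρ = κ * (θ * δ) * c / 8 := ⟨_, rfl⟩
  have hρ0 : 0 < ρ := by rw [hρ]; positivity
  have hθδ : θ * δ ≤ δ := mul_le_of_le_one_left hδ.le hθ1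
  have hκθδ : κ * (θ * δ) ≤ θ * δ := mul_le_of_le_one_left (by positivity) hκ1
  have hρ1 : ρ ≤ δ * c / 8 := by rw [hρ]; gcongr; exact hκθδ.trans hθδ
  have hρ2 : 8 * ρ ≤ κ * (θ * δ) := by
    have : κ * (θ * δ) * c ≤ κ * (θ * δ) := mul_le_of_le_one_right (by positivity) hc1
    rw [hρ]; linarith
  obtain ⟨Λ₀, hΛ₀⟩ : ∃ Λ₀ : ℝ,
      Λ₀ = Cg * (2 * A + 1) + Cs * (A + 1) + Cd + (Cf * Cd + 1) + (C1 + C2) := ⟨_, rfl⟩
  have hΛ₀0 : 0 < Λ₀ := by rw [hΛ₀]; positivity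
  obtain ⟨ε', hε', he1, he2, he3⟩ : ∃ ε' : ℝ, 0 < ε' ∧ (C1 + C2) * ε' ≤ ρ ∧
      ((n₀ : ℝ) + 4) * ε' ≤ 1 ∧ ((n₀ : ℝ) + 2) * (2 * (Λ₀ / ρ)) * ε' ≤ ε := by
    refine ⟨min (min (ρ / (C1 + C2)) (1 / ((n₀ : ℝ) + 4))) (ε / (((n₀ : ℝ) + 2) * (2 * (Λ₀ / ρ)))),
      by positivity, ?_, ?_, ?_⟩
    · rw [← le_div_iff₀' (by positivity)]
      exact (min_le_left _ _).trans (min_le_left _ _)
    · rw [← le_div_iff₀' (by positivity)]
      exact (min_le_left _ _).trans (min_le_right _ _)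
    · rw [← le_div_iff₀' (by positivity)]
      exact min_le_right _ _
  obtain ⟨S₀, τ₁, CU, hS₀, hτ₁, hCU, hU'⟩ := hU δ hδ hδ0 ε' hε'
  obtain ⟨SB, τ₂, hτ₂, hB'⟩ := hBT ε' hε'
  obtain ⟨S₂, hS₂, hSB, hSτ⟩ : ∃ S₂ : ℝ, 0 ≤ S₂ ∧ SB ≤ δ * S₂ ∧
      -Real.log (min τ₁ τ₂ / Cu) ≤ ρ * S₂ := by
    refine ⟨|SB| / δ + |Real.log (min τ₁ τ₂ / Cu)| / ρ, by positivity, ?_, ?_⟩
    · rw [mul_add, mul_div_cancel₀ _ hδ.ne']
      have := le_abs_self SB
      have : 0 ≤ δ * (|Real.log (min τ₁ τ₂ / Cu)| / ρ) := by positivity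
      linarith
    · rw [mul_add, mul_div_cancel₀ _ hρ0.ne']
      have := neg_le_abs (Real.log (min τ₁ τ₂ / Cu))
      have : 0 ≤ ρ * (|SB| / δ) := by positivity
      linarith
  refine ⟨((n₀ : ℝ) + 2) * ε' * (S₀ + 2 * S₂) + ε + 2 * CU + n₀ * B, by positivity,
    fun f q hf => ?_⟩
  choose W hW using hU' f q hf
  suffices key : ∀ x g, W (x * g) = W x ∧
      ‖F.M.ht (f (x * g)) - F.M.ht (f x) - (W x).1 (F.M.ht g)‖ ≤ ε * F.M.len g +
        (((n₀ : ℝ) + 2) * ε' * (S₀ + 2 * S₂) + ε + 2 * CU + n₀ * B) by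
    refine ⟨W 1, fun x g => ?_⟩
    have := (key 1 x).1
    rw [one_mul] at this
    rw [← this]
    exact (key x g).2
  intro x g
  obtain ⟨a, ha1, hag, hga⟩ : ∃ a : ℝ, 1 ≤ a ∧ F.M.len g ≤ a ∧ a ≤ F.M.len g + 1 :=
    ⟨F.M.len g + 1, by linarith [F.M.len_nonneg g], by linarith, le_rfl⟩
  obtain ⟨i, hi1, hi2⟩ := uu_scale hδ hδ1 hS₀ (Λ₀ / ρ * a + S₂) (by positivity)
  have hWx := hW x i
  have hWx' := hW (x * g) i
  generalize (1 + δ / 8) ^ i * S₀ = S at hi1 hi2 hWx hWx'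
  have hΛa : 0 ≤ Λ₀ / ρ * a := by positivity
  have hS0 : 0 ≤ S := by linarith
  have hSa : Λ₀ * a ≤ ρ * S := by
    have : ρ * (Λ₀ / ρ * a) ≤ ρ * S := mul_le_mul_of_nonneg_left (by linarith) hρ0.le
    rwa [← mul_assoc, mul_div_cancel₀ _ hρ0.ne'] at this
  have hAa : 0 ≤ A * a := by positivity
  have hCda : 0 < Cd * a := by positivity
  have hCfa : 0 ≤ Cf * (Cd * a) := by positivity
  have hρS : 0 ≤ ρ * S := by positivity
  have hη : 0 ≤ ε' * S := by positivity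
  obtain ⟨q1, q2, q3, q4, q7, q8⟩ := uu_arith ha1 hA0 hCg hCs hCd hCf hC1 hC2 hS0 hε'.le
    (hΛ₀ ▸ hSa) he1 (hρ2.trans hκθδ)
  have hstep : ∀ (S₁ S₂ u : ℝ), 0 ≤ u → S₁ + u ≤ S₂ → ∀ j, Δ.hS S₁ j + u * c ≤ Δ.hS S₂ j := by
    intro S₁ S₂ u hu h j
    have a1 := (hsp j).1
    simp only [Dirs.hS]
    linarith only [mul_le_mul_of_nonneg_left a1 hu, mul_le_mul_of_nonneg_right h (hc.le.trans a1)]
  have hρc : ρ * S ≤ δ / 8 * S * c := by linarith only [mul_le_mul_of_nonneg_right hρ1 hS0]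
  have hstep' : ∀ (S₁ S₂ : ℝ), S₁ + δ / 8 * S ≤ S₂ → ∀ j, Δ.hS S₁ j + ρ * S ≤ Δ.hS S₂ j :=
    fun S₁ S₂ h j => by linarith only [hρc, hstep S₁ S₂ _ (by positivity) h j]
  have hS00 : ∀ j, Δ.hS 0 j = 0 := fun j => by simp [Dirs.hS]
  have hδS : 0 ≤ δ * S := by positivity
  -- the factorisation
  obtain ⟨r, hr, d, hd, hbr, hdd, rfl⟩ := hdec g a ha1 hag
  obtain ⟨l, hl, hlt, hld, -⟩ := hfac (Cd * a) hCda d hd hdd
  have hlen : ∀ n, F.M.len ((l.take n).map fun p => F.lin (Pi.single p.1 1) p.2).prod ≤ A * a := by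
    intro n
    refine (F.gl_len_prod (l.take n) _ (n := n₀) (B := Cl * (1 + Cf * Cd) * a)
      ((List.length_take_le' _ _).trans hl) (by positivity) fun p hp => ?_).trans
      (le_of_eq (by rw [hA]; ring))
    refine (hlin _ _).trans ?_
    rw [Pi.norm_single, norm_one, mul_one, mul_assoc]
    have := hlt p (List.mem_of_mem_take hp)
    exact mul_le_mul_of_nonneg_left (by linarith only [this, ha1]) hCl.le
  have hlend : F.M.len (F.M.ofE d) ≤ A * a := by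
    have := hlen l.length
    rwa [List.take_length, hld] at this
  -- the measures
  set ν' := F.lt (x * (F.M.ofE r * F.M.ofE d)) (F.uR (Δ.hS ((1 + δ / 4) * S))) with hν'
  have hτ : Cu * Real.exp (-(ρ * S)) ≤ min τ₁ τ₂ := by
    have a1 : ρ * S₂ ≤ ρ * S := mul_le_mul_of_nonneg_left (by linarith) hρ0.le
    have a2 : Real.exp (-(ρ * S)) ≤ min τ₁ τ₂ / Cu := by
      rw [← Real.exp_log (show 0 < min τ₁ τ₂ / Cu by positivity), Real.exp_le_exp]
      linarith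
    rwa [le_div_iff₀' (by linarith)] at a2
  have hb0 : F.BInv ν' (Δ.hS ((1 + δ / 8) * S)) (min τ₁ τ₂) :=
    (hbU _ _ _ (ρ * S) hρS (hstep' ((1 + δ / 8) * S) ((1 + δ / 4) * S)
      (by linarith only []))).mono (fun _ => le_rfl) hτ
  have hb1 : ∀ k, F.M.len k ≤ 2 * (A * a) → F.BInv (F.rt ν' k) (Δ.hS S) (min τ₁ τ₂) := by
    intro k hk
    refine hbG ν' _ _ (F.adm_hS Δ (by positivity)) (fun j => ?_) hb0 k _ fun j => ?_
    · have := hstep 0 ((1 + δ / 8) * S) 0 le_rfl (by linarith only [hS0, hδS]) j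
      rw [hS00] at this
      linarith
    · have a1 := hstep' S ((1 + δ / 8) * S) (by linarith) j
      have a2 : Cg * (F.M.len k + 1) ≤ Cg * (2 * (A * a) + 1) := by gcongr
      linarith
  set ν₁ := F.rt ν' (F.M.ofE d)⁻¹ with hν₁
  have m1 := hWx ν₁ inferInstance
    ((hb1 (F.M.ofE d)⁻¹ (by rw [Model.len_inv]; linarith only [hlend, hAa])).mono (fun _ => le_rfl) (min_le_left _ _))
    (F.uu_ae _ _ _ (F.uu_meas _ _) fun y hy hby => by
      obtain ⟨y', h1, h2, h3⟩ := hsupp ((1 + δ / 4) * S) ((1 + δ / 2) * S) (ρ * S) (Cd * a)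
        (by positivity) hCda.le (hstep' _ _ (by linarith only [hδS])) (fun j => by
          have a1 := hstep' (δ / 8 * S) ((1 + δ / 2) * S) (by linarith) j
          have a2 := hstep' 0 (δ / 8 * S) (by linarith) j
          rw [hS00] at a2
          linarith) (F.M.ofE d) (le_trans (by gcongr) q2) r hr hbr y hy hby
      exact ⟨y', h1, h2, by rw [← h3]; simp only [mul_assoc]⟩)
  have m2 := hWx' ν' inferInstance
    ((by simpa using hb1 1 (by simpa using hAa) : F.BInv ν' (Δ.hS S) (min τ₁ τ₂)).mono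
      (fun _ => le_rfl) (min_le_left _ _))
    (by
      have := F.uu_ae (x * (F.M.ofE r * F.M.ofE d)) 1 (Δ.hS ((1 + δ / 4) * S))
        (F.uu_meas (x * (F.M.ofE r * F.M.ofE d)) (Δ.hS ((1 + δ / 2) * S))) fun y hy hby =>
        ⟨y, hy, (F.N.bI_mono F.X Set.univ
          (fun j => by linarith [hstep' ((1 + δ / 4) * S) ((1 + δ / 2) * S) (by linarith) j])
          hy).trans hby, mul_one _⟩
      rwa [F.rt_one] at this)
  have e2 : F.rt ν₁ (F.M.ofE d) = ν' := by rw [hν₁, F.rt_rt, inv_mul_cancel, F.rt_one]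
  rw [← e2, ← F.real_le_rt] at m2
  have m3 : ∀ n ∈ Finset.range (n₀ + 1), ν₁.real {z | z * ((l.take n).map
      fun p => F.lin (Pi.single p.1 1) p.2).prod ∈
        {z | ¬∃ w, F.Good Δ.VV f z w (θ * (δ * S)) (ε' * (δ * S))}} ≤ ε' := by
    intro n _
    rw [F.real_le_rt, hν₁, F.rt_rt]
    refine hB' f q hf (δ * S) (hSB.trans (by gcongr; linarith)) _ inferInstance
      ((hb1 _ ?_).mono (fun j => ?_) (min_le_right _ _))
    · have := F.M.len_mul_le (F.M.ofE d)⁻¹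
        ((l.take n).map fun p => F.lin (Pi.single p.1 1) p.2).prod
      rw [Model.len_inv] at this
      linarith [hlen n]
    · have a1 := hstep 0 S S hS0 (by linarith) j
      rw [hS00] at a1
      linarith only [a1, hδS, mul_le_mul_of_nonneg_right hδc hS0]
  have m4 := (measureReal_biUnion_finset_le _ _).trans (Finset.sum_le_card_nsmul _ _ _ m3)
  have m5 := (measureReal_union_le _ _).trans
    (add_le_add ((measureReal_union_le _ _).trans (add_le_add m1 m2)) m4)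
  obtain ⟨z, hz, -⟩ := exists_not_mem_of_real_lt ν₁ (lt_of_le_of_lt m5 (by
    rw [Finset.card_range, nsmul_eq_mul]
    push_cast
    linarith only [he2, hε'])) (p := fun _ => True) (Filter.Eventually.of_forall fun _ => trivial)
  simp only [Set.mem_union, Set.mem_ofPred_eq, Set.mem_iUnion, not_or, not_not, not_exists,
    Finset.mem_range, not_forall] at hz
  obtain ⟨⟨⟨z1, z2⟩, z3, z4⟩, z5⟩ := hz
  obtain ⟨c1, c2⟩ := hch f q hf (W x) (θ * (δ * S)) (ε' * S) hη q8 l z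
    (fun p hp => by
      have a1 := hlt p hp
      have a2 : 8 * ρ * S ≤ κ * (θ * δ) * S := mul_le_mul_of_nonneg_right hρ2 hS0
      linarith only [a1, a2, q4, hρS]) z1
    (fun n hn => by
      obtain ⟨w, hw⟩ := z5 n (by omega)
      exact ⟨w, hw.mono le_rfl (by linarith only [mul_le_mul_of_nonneg_right hδ1 hη])⟩)
  rw [hld] at c1 c2
  refine ⟨hG1 f _ _ _ _ _ hη q7 z3 c1, ?_⟩
  have e3 : F.M.ht (F.M.ofE r * F.M.ofE d) = F.M.ht (F.M.ofE d) := by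
    rw [Model.ht_mul, Model.ht_ofE, F.φ_R hr, zero_add]
  have t1 := norm_sub_le_of_le (norm_add_le_of_le c2 z2) z4
  have t2 : (l.length : ℝ) * (ε' * S + B) ≤ n₀ * (ε' * S + B) := by gcongr
  have t3 : ((n₀ : ℝ) + 2) * ε' * S ≤ ((n₀ : ℝ) + 2) * ε' * (S₀ + 2 * (Λ₀ / ρ * a + S₂)) := by
    gcongr
  have t4 : ((n₀ : ℝ) + 2) * (2 * (Λ₀ / ρ)) * ε' * a ≤
      ε * (F.M.len (F.M.ofE r * F.M.ofE d) + 1) :=
    mul_le_mul he3 hga (by linarith) hε.le
  rw [e3]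
  refine le_trans (le_of_eq ?_) (t1.trans (by linarith only [t2, t3, t4]))
  congr 1
  abel

end Frame

end Crest.Agent.R182
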