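import Crest.Agent.R182.EWord
import Crest.Agent.R182.UU
import Crest.Agent.R182.NR

/-! Row 182, task `R182/ERed`: the finite-index subgroup acting trivially on heights. -/

set_option autoImplicit false

namespace Crest.Agent.R182

open scoped BigOperators
open MeasureTheory Crest.GroupTheory Crest.Geometry

variable {H : Type*} [Group H]

namespace Frame

variable (F : Frame)

/-- the estimate of `thmU` -/
def eredEst (f : F.G → F.G) (w : F.W) (ε C : ℝ) : Prop :=
  ∀ x g, ‖F.M.ht (f (x * g)) - F.M.ht (f x) - w.1 (F.M.ht g)‖ ≤ ε * F.M.len g + C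

theorem ered_mono {f : F.G → F.G} {w : F.W} {ε ε' C : ℝ} (h : F.eredEst f w ε C) (hε : ε ≤ ε') :
    F.eredEst f w ε' C := fun x g =>
  (h x g).trans (by have := F.M.len_nonneg g; nlinarith)

theorem ered_uniq : ∃ ε₀ : ℝ, 0 < ε₀ ∧ ∀ (f : F.G → F.G) (w w' : F.W) (C C' : ℝ),
    F.eredEst f w ε₀ C → F.eredEst f w' ε₀ C' → w = w' := by
  obtain ⟨c, hc, hsep⟩ := F.W_sep
  obtain ⟨Cl, hCl, hl⟩ := F.len_lin
  refine ⟨c / (4 * Cl), by positivity, fun f w w' C C' h h' => ?_⟩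
  by_contra hne
  obtain ⟨i, hi⟩ := hsep w w' hne
  set t : ℝ := 2 + 2 * (|C| + |C'|) / c with ht
  have ht0 : 0 ≤ t := by positivity
  have h1 := h 1 (F.lin (Pi.single i 1) t)
  have h2 := h' 1 (F.lin (Pi.single i 1) t)
  have h3 := hl (Pi.single i 1) t
  rw [Pi.norm_single, norm_one, mul_one, abs_of_nonneg ht0] at h3
  rw [F.ht_lin, map_smul] at h1 h2
  have h4 : t * c ≤ ‖t • w.1 (F.φL (Pi.single i 1)) - t • w'.1 (F.φL (Pi.single i 1))‖ := by
    rw [← smul_sub, norm_smul, Real.norm_of_nonneg ht0]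
    exact mul_le_mul_of_nonneg_left hi ht0
  have h5 := norm_sub_le_norm_sub_add_norm_sub (t • w.1 (F.φL (Pi.single i 1)))
    (F.M.ht (f (1 * F.lin (Pi.single i 1) t)) - F.M.ht (f 1)) (t • w'.1 (F.φL (Pi.single i 1)))
  rw [norm_sub_rev (t • w.1 (F.φL (Pi.single i 1)))
    (F.M.ht (f (1 * F.lin (Pi.single i 1) t)) - F.M.ht (f 1))] at h5
  have h6 : c / (4 * Cl) * F.M.len (F.lin (Pi.single i 1) t) ≤ c / 4 * (1 + t) := by
    calc _ ≤ c / (4 * Cl) * (Cl * (1 + t)) := mul_le_mul_of_nonneg_left h3 (by positivity)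
      _ = c / 4 * (1 + t) := by field_simp
  have h7 : t * c = 2 * c + 2 * (|C| + |C'|) := by rw [ht]; field_simp
  have := le_abs_self C
  have := le_abs_self C'
  have := abs_nonneg C
  have := abs_nonneg C'
  have h8 : c / 4 * (1 + t) = c / 4 + t * c / 4 := by ring
  linarith

theorem ered_strong (K : ℝ) : ∃ Cf : ℝ → ℝ, ∀ f q, F.QI K f q →
    ∃ w : F.W, ∀ ε : ℝ, 0 < ε → F.eredEst f w ε (Cf ε) := by
  obtain ⟨ε₀, hε₀, hu⟩ := F.ered_uniq
  have key : ∀ ε : ℝ, ∃ C : ℝ, 0 < ε → ∀ f q, F.QI K f q →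
      ∃ w : F.W, F.eredEst f w (min ε ε₀) C := by
    intro ε
    by_cases hε : 0 < ε
    · obtain ⟨C, -, hC⟩ := F.thmU K (min ε ε₀) (lt_min hε hε₀)
      exact ⟨C, fun _ => hC⟩
    · exact ⟨0, fun h => absurd h hε⟩
  choose Cf hCf using key
  refine ⟨Cf, fun f q hq => ?_⟩
  obtain ⟨w, hw⟩ := hCf ε₀ hε₀ f q hq
  refine ⟨w, fun ε hε => ?_⟩
  obtain ⟨w', hw'⟩ := hCf ε hε f q hq
  have : w' = w := hu f w' w _ _ (F.ered_mono hw' (min_le_right _ _))
    (F.ered_mono hw (min_le_right _ _))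
  exact F.ered_mono (this ▸ hw') (min_le_left _ _)

/-- `f_h x = α (h * β x)` (`exists_beta`).  Uniqueness: if `w, w'` both satisfy the estimate of `thmU`
for one map, with `ε, ε' ≤ ε₀` (and any constants), then `w = w'` (test on `g = lin e_i t`, `t → ∞`,
`W_sep`, `len_lin`).  So `w h` := the label for `ε₀` works for all `ε > 0` (constant
`Cf ε = C (min ε ε₀)`).  `f_h ∘ f_{h'}` is at bounded distance from `f_{h h'}`, so `w (h h') = w h * w h'`
(`norm_W_le`, uniqueness with a smaller `ε₀`).  `H' = ker w` has finite index as `W` is finite.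
For `h ∈ H'` apply the estimate and `UN` at `x = α g`, `x g' = α (g s)`; `f_h (α g)` is at bounded
distance from `α (h g)`; `log n ≥ log 2` absorbs constants. -/
theorem exists_subgroup {T : Finset H} {α : H → F.G} {K : ℝ} (hα : F.HQI T α K) :
    ∃ H' : Subgroup H, H'.FiniteIndex ∧ F.PropA T α H' ∧ F.PropB α H' := by
  obtain ⟨K', β, hKK, hqi, hβ, hβα⟩ := F.exists_beta hα
  obtain ⟨ε₀, hε₀, hu⟩ := F.ered_uniq
  obtain ⟨Cf, hCf⟩ := F.ered_strong K'
  choose w hw using fun h : H => hCf _ _ (hqi h)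
  obtain ⟨Ci, hCi, hinc⟩ := F.norm_inc_le hα
  obtain ⟨CW, hCW, hW⟩ := F.norm_W_le
  have hK1 := hα.one_le
  have hK' : 1 ≤ K' := hK1.trans hKK
  -- `f_h (α g)` is close to `α (h g)`
  have A0 : ∀ h g : H, ‖F.M.ht (α (h * β (α g))) - F.M.ht (α (h * g))‖ ≤ Ci * (K' + 1) := by
    intro h g
    have h1 := hinc (h * g) (g⁻¹ * β (α g))
    have h2 : h * g * (g⁻¹ * β (α g)) = h * β (α g) := by group
    rw [inc, h2] at h1
    exact h1.trans (mul_le_mul_of_nonneg_left (by linarith [hβα g]) hCi.le)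
  have hmul : ∀ a b : H, w (a * b) = w a * w b := by
    intro a b
    set ε₁ : ℝ := ε₀ / (K' + CW) with hε₁
    have hε₁0 : 0 < ε₁ := by positivity
    refine hu (fun x => α (a * b * β x)) _ _ _
      (ε₁ * K' + Cf ε₁ + CW * Cf ε₁ + 2 * (Ci * (K' + 1))) (hw (a * b) ε₀ hε₀) fun x g => ?_
    set y := α (b * β x) with hy
    set y' := α (b * β (x * g)) with hy'
    have h1 := hw a ε₁ hε₁0 y (y⁻¹ * y')
    simp only [mul_inv_cancel_left] at h1
    have h2 := hw b ε₁ hε₁0 x g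
    simp only [← hy, ← hy'] at h2
    have h3 : F.M.len (y⁻¹ * y') ≤ K' * F.M.len g + K' := by
      have := (hqi b).lf x (x * g)
      rw [F.M.dd_mul_right] at this
      exact this
    have h4 := A0 a (b * β x)
    have h5 := A0 a (b * β (x * g))
    rw [← mul_assoc, ← hy] at h4
    rw [← mul_assoc, ← hy'] at h5
    have h6 := hW (w a) (F.M.ht y' - F.M.ht y - (w b).1 (F.M.ht g))
    have h7 : F.M.ht (α (a * b * β (x * g))) - F.M.ht (α (a * b * β x)) -
        (w a * w b).1 (F.M.ht g) =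
        (F.M.ht (α (a * β y')) - F.M.ht (α (a * β y)) - (w a).1 (F.M.ht (y⁻¹ * y'))) +
        (w a).1 (F.M.ht y' - F.M.ht y - (w b).1 (F.M.ht g)) -
        (F.M.ht (α (a * β y')) - F.M.ht (α (a * b * β (x * g)))) +
        (F.M.ht (α (a * β y)) - F.M.ht (α (a * b * β x))) := by
      simp only [Model.ht_mul, Model.ht_inv, map_add, map_neg, map_sub, Subgroup.coe_mul,
        LinearEquiv.mul_apply]
      abel
    have h8 : CW * ‖F.M.ht y' - F.M.ht y - (w b).1 (F.M.ht g)‖ ≤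
        CW * (ε₁ * F.M.len g + Cf ε₁) := mul_le_mul_of_nonneg_left h2 (by linarith)
    have h9 : ε₁ * F.M.len (y⁻¹ * y') ≤ ε₁ * (K' * F.M.len g + K') :=
      mul_le_mul_of_nonneg_left h3 hε₁0.le
    have h10 : ε₀ = ε₁ * (K' + CW) := by rw [hε₁]; field_simp
    show ‖F.M.ht (α (a * b * β (x * g))) - F.M.ht (α (a * b * β x)) -
        (w a * w b).1 (F.M.ht g)‖ ≤ _
    rw [h7]
    refine (norm_add_le _ _).trans ?_
    refine (add_le_add_left (norm_sub_le _ _) _).trans ?_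
    refine (add_le_add_left (add_le_add_left (norm_add_le _ _) _) _).trans ?_
    rw [h10]
    nlinarith
  let wh : H →* F.W := MonoidHom.mk' w hmul
  have hker : ∀ h ∈ wh.ker, ∀ ε : ℝ, 0 < ε → ∀ x g,
      ‖F.M.ht (α (h * β (x * g))) - F.M.ht (α (h * β x)) - F.M.ht g‖ ≤
        ε * F.M.len g + Cf ε := by
    intro h hh ε hε x g
    have h1 : w h = 1 := hh
    have := hw h ε hε x g
    rw [h1] at this
    exact this
  have hdec : ∀ h g s : H, F.inc α (h * g) s - F.inc α g s =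
      (F.M.ht (α (h * β (α g * ((α g)⁻¹ * α (g * s))))) - F.M.ht (α (h * β (α g))) -
        F.M.ht ((α g)⁻¹ * α (g * s))) -
      (F.M.ht (α (h * β (α (g * s)))) - F.M.ht (α (h * (g * s)))) +
      (F.M.ht (α (h * β (α g))) - F.M.ht (α (h * g))) := by
    intro h g s
    simp only [inc, mul_inv_cancel_left, Model.ht_mul, Model.ht_inv, mul_assoc]
    abel
  refine ⟨wh.ker, inferInstance, fun ε hε => ?_, fun ε hε => ?_⟩
  · refine ⟨ε + Cf (ε / K) + 2 * (Ci * (K' + 1)), fun h hh g s => ?_⟩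
    have h1 := hker h hh (ε / K) (by positivity) (α g) ((α g)⁻¹ * α (g * s))
    have h2 : F.M.len ((α g)⁻¹ * α (g * s)) ≤ K * wl T s + K := hα.up g s
    have h3 : ε / K * F.M.len ((α g)⁻¹ * α (g * s)) ≤ ε * wl T s + ε := by
      calc _ ≤ ε / K * (K * wl T s + K) := mul_le_mul_of_nonneg_left h2 (by positivity)
        _ = _ := by field_simp
    rw [hdec]
    refine (norm_add_le _ _).trans ?_
    refine (add_le_add_left (norm_sub_le _ _) _).trans ?_
    linarith [A0 h g, A0 h (g * s)]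
  · obtain ⟨C, hC0, hC⟩ := F.UN K' Cf ε hε
    refine ⟨C + 2 * (Ci * (K' + 1)) / Real.log 2, fun h hh g s E n hn hPC hE => ?_⟩
    have h1 := hC _ _ (hqi h) (hker h hh) (α g) ((α g)⁻¹ * α (g * s)) E n hn hPC
      (by rw [Model.ht_mul, Model.ht_inv, neg_add_eq_sub]; exact hE)
    have hl2 : 0 < Real.log 2 := Real.log_pos one_lt_two
    have hl : Real.log 2 ≤ Real.log n := Real.log_le_log two_pos hn
    have h3 : 2 * (Ci * (K' + 1)) ≤ 2 * (Ci * (K' + 1)) / Real.log 2 * Real.log n := by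
      calc _ = 2 * (Ci * (K' + 1)) / Real.log 2 * Real.log 2 := by field_simp
        _ ≤ _ := mul_le_mul_of_nonneg_left hl (by positivity)
    rw [hdec]
    refine (norm_add_le _ _).trans ?_
    refine (add_le_add_left (norm_sub_le _ _) _).trans ?_
    linarith [A0 h g, A0 h (g * s)]

end Frame

end Crest.Agent.R182
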