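import Crest.Agent.R182.EWord
import Crest.Agent.R182.Dens
import Crest.Agent.R182.GeoFol

/-! Row 182, task `R182/EReiter`: amenability of `H`. -/

set_option autoImplicit false
set_option maxHeartbeats 400000

namespace Crest.Agent.R182

open scoped BigOperators ENNReal NNReal
open MeasureTheory Crest.GroupTheory Crest.Geometry

variable {H : Type*} [Group H]

namespace Frame

variable (F : Frame)

theorem reit_ball (x : F.G) (r : ℝ) :
    F.M.μG {y | F.M.dd x y ≤ r} = F.M.μG {g | F.M.len g ≤ r} :=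
  measure_preimage_mul F.M.μG x⁻¹ {g | F.M.len g ≤ r}

theorem reit_mball (x : F.G) (r : ℝ) : MeasurableSet {y | F.M.dd x y ≤ r} :=
  measurableSet_le (Measurable.comp (g := fun p : F.G × F.G => F.M.dd p.1 p.2)
    (f := fun y => (x, y)) F.M.measurable_dd (measurable_const.prodMk measurable_id)) measurable_const

theorem reit_fin {T : Finset H} {α : H → F.G} {K : ℝ} (hα : F.HQI T α K) :
    ∃ N : ℕ, ∀ x, ∃ s : Finset H, s.card ≤ N ∧ ∀ h, F.M.dd (α h) x ≤ 1 → h ∈ s := by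
  classical
  have hfin := finite_ball hα.gen (3 * K)
  refine ⟨hfin.toFinset.card, fun x => ?_⟩
  by_cases hx : ∃ h₀, F.M.dd (α h₀) x ≤ 1
  · obtain ⟨h₀, h0⟩ := hx
    refine ⟨hfin.toFinset.image fun s => h₀ * s, Finset.card_image_le, fun h hh => ?_⟩
    refine Finset.mem_image.2 ⟨h₀⁻¹ * h, hfin.mem_toFinset.2 ?_, mul_inv_cancel_left _ _⟩
    have h1 := hα.low h₀ (h₀⁻¹ * h)
    rw [mul_inv_cancel_left] at h1
    have h2 := F.M.dd_triangle (α h₀) x (α h)
    rw [F.M.dd_comm] at hh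
    have hK := hα.one_le
    have h3 : K * F.M.dd (α h₀) (α h) ≤ K * 2 :=
      mul_le_mul_of_nonneg_left (by linarith) (by linarith)
    change wl T (h₀⁻¹ * h) ≤ 3 * K
    linarith
  · exact ⟨∅, Nat.zero_le _, fun h hh => absurd ⟨h, hh⟩ hx⟩

theorem reit_avg {T : Finset H} {α : H → F.G} {K : ℝ} (hα : F.HQI T α K) :
    ∃ D : ℝ≥0, 1 ≤ D ∧ (∀ (u : H → ℝ≥0∞) (v : F.G → ℝ≥0∞), Measurable v →
      (∀ h x, F.M.dd (α h) x ≤ 1 → u h ≤ v x) → ∑' h, u h ≤ D * ∫⁻ x, v x ∂F.M.μG) ∧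
      ∀ (u : F.G → ℝ≥0∞) (w : H → ℝ≥0∞), (∀ h x, F.M.dd (α h) x ≤ K → u x ≤ w h) →
        ∫⁻ x, u x ∂F.M.μG ≤ D * ∑' h, w h := by
  have : Countable H := countable_of_gen hα.gen
  obtain ⟨N, hN⟩ := F.reit_fin hα
  obtain ⟨c, hc⟩ : ∃ c, c = F.M.μG {g | F.M.len g ≤ 1} := ⟨_, rfl⟩
  obtain ⟨b, hb⟩ : ∃ b, b = F.M.μG {g | F.M.len g ≤ K} := ⟨_, rfl⟩
  have hc0 : c ≠ 0 := by
    rw [hc]
    exact (Measure.measure_pos_of_mem_nhds F.M.μG
      (Filter.mem_of_superset F.M.Q_mem_nhds fun g hg => F.M.len_le_one hg)).ne'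
  have hct : c ≠ ⊤ := hc ▸ (F.M.isCompact_ball 1).measure_lt_top.ne
  have hbt : b ≠ ⊤ := hb ▸ (F.M.isCompact_ball _).measure_lt_top.ne
  have hcb : c⁻¹ * N ≠ ⊤ := ENNReal.mul_ne_top (ENNReal.inv_ne_top.2 hc0) (ENNReal.natCast_ne_top N)
  refine ⟨(c⁻¹ * N).toNNReal + b.toNNReal + 1, le_add_self, fun u v hv h => ?_, fun u w h => ?_⟩
  · have key : c * ∑' h, u h ≤ N * ∫⁻ x, v x ∂F.M.μG := by
      calc c * ∑' h, u h = ∑' h, c * u h := ENNReal.tsum_mul_left.symm
        _ ≤ ∑' h, ∫⁻ x, {x | F.M.dd (α h) x ≤ 1}.indicator v x ∂F.M.μG := by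
            refine ENNReal.tsum_le_tsum fun g => ?_
            rw [hc, ← F.reit_ball (α g) 1, mul_comm, ← lintegral_indicator_const (F.reit_mball _ _)]
            exact lintegral_mono fun x => Set.indicator_le_indicator' fun hx => h g x hx
        _ = ∫⁻ x, ∑' h, {x | F.M.dd (α h) x ≤ 1}.indicator v x ∂F.M.μG :=
            (lintegral_tsum fun g => (hv.indicator (F.reit_mball _ _)).aemeasurable).symm
        _ ≤ ∫⁻ x, N * v x ∂F.M.μG := by
            refine lintegral_mono fun x => ?_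
            obtain ⟨s, hs, hs'⟩ := hN x
            rw [tsum_eq_sum (s := s) fun g hg => Set.indicator_of_notMem
              (show x ∉ {x | F.M.dd (α g) x ≤ 1} from fun hx => hg (hs' g hx)) _]
            refine (Finset.sum_le_card_nsmul s _ (v x) fun g _ => Set.indicator_le_self _ _ x).trans ?_
            rw [nsmul_eq_mul]
            exact mul_le_mul_left (Nat.cast_le.2 hs) _
        _ = N * ∫⁻ x, v x ∂F.M.μG := lintegral_const_mul _ hv
    calc ∑' h, u h = c⁻¹ * (c * ∑' h, u h) := by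
          rw [← mul_assoc, ENNReal.inv_mul_cancel hc0 hct, one_mul]
      _ ≤ c⁻¹ * (N * ∫⁻ x, v x ∂F.M.μG) := mul_le_mul_right key _
      _ ≤ _ := by
          rw [← mul_assoc]
          refine mul_le_mul_left ?_ _
          rw [ENNReal.coe_add, ENNReal.coe_add, ENNReal.coe_toNNReal hcb]
          exact le_self_add.trans le_self_add
  · calc ∫⁻ x, u x ∂F.M.μG
        ≤ ∫⁻ x, ∑' h, {x | F.M.dd (α h) x ≤ K}.indicator (fun _ => w h) x ∂F.M.μG := by
          refine lintegral_mono fun x => ?_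
          obtain ⟨g, hg⟩ := hα.dense x
          rw [F.M.dd_comm] at hg
          refine le_trans ?_ (ENNReal.le_tsum g)
          rw [Set.indicator_of_mem (show x ∈ {x | F.M.dd (α g) x ≤ K} from hg)]
          exact h g x hg
      _ = ∑' h, ∫⁻ x, {x | F.M.dd (α h) x ≤ K}.indicator (fun _ => w h) x ∂F.M.μG :=
          lintegral_tsum fun g => (measurable_const.indicator (F.reit_mball _ _)).aemeasurable
      _ = ∑' h, b * w h := by
          refine tsum_congr fun g => ?_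
          rw [lintegral_indicator_const (F.reit_mball _ _), F.reit_ball, ← hb, mul_comm]
      _ = b * ∑' h, w h := ENNReal.tsum_mul_left
      _ ≤ _ := by
          refine mul_le_mul_left ?_ _
          rw [ENNReal.coe_add, ENNReal.coe_add, ENNReal.coe_toNNReal hbt]
          exact le_add_self.trans le_self_add

theorem reit_ofReal_le {a b c : ℝ} (hb : 0 ≤ b) (hc : 0 ≤ c) (h : a ≤ b + c) :
    ENNReal.ofReal a ≤ ENNReal.ofReal b + ENNReal.ofReal c := by
  rw [← ENNReal.ofReal_add hb hc]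
  exact ENNReal.ofReal_le_ofReal h

/-- `ν` from `exists_folner`, `Θ₁, Θ₂, Ξ` from `dens`; `ω₀ h = Θ₂ (α h)`.  With `c = μG Q`, averaging over
`x ∈ α h · Q`: `ω₀ h ≤ c⁻¹ ∫_{α h Q} (Θ₁ + Ξ)`, `|ω₀ (h s) - ω₀ h| ≤ 2 c⁻¹ ∫_{α h Q} Ξ`, and every `x` lies
in at most `C` sets `α h Q` (`ncard_le_of_cov` or `finite_ball`), so `ω₀` is summable and
`∑ |ω₀ (h s) - ω₀ h| ≤ C τ'`.  The balls `B_h = {dd (α h) x ≤ K}` cover `G` (countably many), have the
same finite measure `c'`, and `Θ₁ ≤ ω₀ h + Ξ` on `B_h`; so `1 ≤ c' ∑ ω₀ + C τ'`.  Normalise. -/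
theorem reiter {T : Finset H} {α : H → F.G} {K : ℝ} (hα : F.HQI T α K) : Reiter T := by
  intro ε hε
  obtain ⟨D, hD, hup, hlow⟩ := F.reit_avg hα
  have hD' : (1 : ℝ) ≤ D := by exact_mod_cast hD
  have hK := hα.one_le
  obtain ⟨t, ht⟩ : ∃ t : ℝ, t = min (1 / 2) (ε / (4 * (D : ℝ) ^ 2)) := ⟨_, rfl⟩
  have ht0 : 0 < t := by rw [ht]; positivity
  have ht1 : t ≤ 1 / 2 := ht ▸ min_le_left _ _
  have ht2 : 4 * (D : ℝ) ^ 2 * t ≤ ε := by
    have : t ≤ ε / (4 * (D : ℝ) ^ 2) := ht ▸ min_le_right _ _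
    rwa [le_div_iff₀ (by positivity), mul_comm] at this
  obtain ⟨ρ, τ, hτ, hdens⟩ := F.dens (1 + 2 * K) t ht0
  obtain ⟨C, -, hfol⟩ := F.exists_folner τ hτ
  obtain ⟨ν, hν, -, hinv⟩ := hfol (max 1 ρ) (le_max_left _ _)
  obtain ⟨Θ₁, Θ₂, Ξ, m1, m2, mΞ, p1, p2, pΞ, i1, iΞ, e1, eΞ, -, hnear⟩ :=
    hdens ν hν (hinv.mono (le_max_right _ _) le_rfl)
  have mθ₁ : Measurable fun x => ENNReal.ofReal (Θ₁ x) := m1.ennreal_ofReal
  have mξ : Measurable fun x => ENNReal.ofReal (Ξ x) := mΞ.ennreal_ofReal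
  have I1 : ∫⁻ x, ENNReal.ofReal (Θ₁ x) ∂F.M.μG = 1 := by
    rw [← ofReal_integral_eq_lintegral_ofReal i1 (Filter.Eventually.of_forall p1), e1,
      ENNReal.ofReal_one]
  have Iξ : ∫⁻ x, ENNReal.ofReal (Ξ x) ∂F.M.μG ≤ ENNReal.ofReal t := by
    rw [← ofReal_integral_eq_lintegral_ofReal iΞ (Filter.Eventually.of_forall pΞ)]
    exact ENNReal.ofReal_le_ofReal eΞ
  obtain ⟨Z, hZ⟩ : ∃ Z, Z = ∑' h, ENNReal.ofReal (Θ₂ (α h)) := ⟨_, rfl⟩
  have hZ1 : Z ≤ D * (1 + ENNReal.ofReal t) := by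
    rw [hZ]
    refine (hup _ (fun x => ENNReal.ofReal (Θ₁ x) + ENNReal.ofReal (Ξ x)) (mθ₁.add mξ)
      fun h x hx => reit_ofReal_le (p1 x) (pΞ x) ?_).trans ?_
    · rw [F.M.dd_comm] at hx
      linarith [(abs_le.1 (hnear x (α h) (by linarith))).2]
    · rw [lintegral_add_left mθ₁, I1]
      exact mul_le_mul_right (add_le_add le_rfl Iξ) _
  have hZt : Z ≠ ⊤ := ne_top_of_le_ne_top (by finiteness) hZ1
  have hZ2 : 1 ≤ D * Z + ENNReal.ofReal t := by
    rw [← I1]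
    refine le_trans (lintegral_mono fun x =>
      (le_tsub_add (b := ENNReal.ofReal (Θ₁ x)) (a := ENNReal.ofReal (Ξ x)))) ?_
    rw [lintegral_add_right _ mξ, hZ]
    refine add_le_add (hlow _ _ fun h x hx => ?_) Iξ
    rw [tsub_le_iff_right]
    rw [F.M.dd_comm] at hx
    exact reit_ofReal_le (p2 _) (pΞ x) (by linarith [(abs_le.1 (hnear x (α h) (by linarith))).1])
  have hz2 : 1 ≤ 2 * D * Z.toReal := by
    have := ENNReal.toReal_mono (by finiteness) hZ2
    rw [ENNReal.toReal_add (by finiteness) (by finiteness), ENNReal.toReal_mul,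
      ENNReal.toReal_ofReal ht0.le, ENNReal.coe_toReal, ENNReal.toReal_one] at this
    nlinarith
  have hz0 : 0 < Z.toReal := by
    by_contra h
    have : Z.toReal = 0 := le_antisymm (not_lt.1 h) ENNReal.toReal_nonneg
    rw [this] at hz2
    norm_num at hz2
  refine ⟨fun h => Θ₂ (α h) / Z.toReal, fun h => div_nonneg (p2 _) hz0.le, ?_, fun s hs => ?_⟩
  · have h1 := ENNReal.hasSum_toReal (f := fun h => ENNReal.ofReal (Θ₂ (α h))) (hZ ▸ hZt)
    rw [← ENNReal.tsum_toReal_eq fun _ => ENNReal.ofReal_ne_top, ← hZ] at h1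
    simp only [ENNReal.toReal_ofReal (p2 _)] at h1
    have h2 := h1.div_const Z.toReal
    rwa [div_self hz0.ne'] at h2
  · have h1 : ∑' h, ENNReal.ofReal |Θ₂ (α (h * s)) - Θ₂ (α h)| ≤ D * (2 * ENNReal.ofReal t) := by
      refine (hup _ (fun x => 2 * ENNReal.ofReal (Ξ x)) (mξ.const_mul _) fun h x hx => ?_).trans ?_
      · rw [two_mul]
        refine reit_ofReal_le (pΞ x) (pΞ x) ?_
        rw [F.M.dd_comm] at hx
        have h2 := F.M.dd_triangle x (α h) (α (h * s))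
        have h3 := hα.up h s
        have h4 : K * wl T s ≤ K * 1 :=
          mul_le_mul_of_nonneg_left (wl_le_one (Or.inl hs)) (by linarith)
        have h5 := abs_le.1 (hnear x (α h) (by linarith))
        have h6 := abs_le.1 (hnear x (α (h * s)) (by linarith))
        rw [abs_le]
        constructor <;> linarith [h5.1, h5.2, h6.1, h6.2]
      · rw [lintegral_const_mul _ mξ]
        exact mul_le_mul_right (mul_le_mul_right Iξ _) _
    have h2 := ENNReal.toReal_mono (by finiteness) h1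
    rw [ENNReal.tsum_toReal_eq fun _ => ENNReal.ofReal_ne_top, ENNReal.toReal_mul, ENNReal.toReal_mul,
      ENNReal.toReal_ofReal ht0.le, ENNReal.coe_toReal, ENNReal.toReal_ofNat] at h2
    simp only [ENNReal.toReal_ofReal (abs_nonneg _)] at h2
    simp only [← sub_div, abs_div, abs_of_pos hz0]
    rw [tsum_div_const, div_le_iff₀ hz0]
    have h3 : (D : ℝ) * (2 * t) ≤ D * (2 * t) * (2 * D * Z.toReal) :=
      le_mul_of_one_le_right (by positivity) hz2
    have h4 := mul_le_mul_of_nonneg_right ht2 hz0.le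
    nlinarith

end Frame

end Crest.Agent.R182
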