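import Crest.Agent.R182.EWord
import Crest.Agent.R182.GeoVC
import Crest.Agent.R182.LinNrm

/-! Row 182, task `R182/ESlab`: growth in slabs. -/

set_option autoImplicit false

namespace Crest.Agent.R182

open scoped BigOperators
open MeasureTheory Crest.GroupTheory Crest.Geometry

variable {H : Type*} [Group H]

theorem esl_step {T : Finset H} {l : List H} (hl : ∀ x ∈ l, x ∈ T ∨ x⁻¹ ∈ T) (i : ℕ) :
    ∃ s, wl T s ≤ 1 ∧ (l.take (i + 1)).prod = (l.take i).prod * s := by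
  rcases lt_or_ge i l.length with hi | hi
  · exact ⟨l[i], wl_le_one (hl _ (List.getElem_mem hi)), List.prod_take_succ l i hi⟩
  · refine ⟨1, by simp, ?_⟩
    rw [List.take_of_length_le hi, List.take_of_length_le (by omega), mul_one]

namespace Frame

variable (F : Frame)

theorem esl_mem {T : Finset H} {α : H → F.G} {K : ℝ} (hα : F.HQI T α K) {ψ : H → F.V}
    (hB : F.PsiB α ψ) : ∃ a : ℝ, 0 < a ∧ ∀ (M : ℝ) (n : ℕ), 0 ≤ M → 2 ≤ n → ∀ h,
      SlabPath T ψ M n h →
        (α 1)⁻¹ * α h ∈ F.PC (fun _ => a * (M + 1 + Real.log (n * (2 * K)))) (n * (2 * K)) := by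
  obtain ⟨C₁, hC₁, hchain⟩ := F.PC_chain
  obtain ⟨C₂, hC₂, hmu⟩ := F.norm_mu_le
  obtain ⟨C₃, hψ⟩ := hB (1 / (2 * (C₂ + 1))) (by positivity)
  have hK := hα.one_le
  have hC₃ : 0 ≤ max C₃ 0 := le_max_right _ _
  refine ⟨2 * (C₂ + 1) * (1 + max C₃ 0) + 2 * (C₁ * (2 * K)), by positivity, ?_⟩
  rintro M n hM hn h ⟨l, hlen, hl, rfl, hb⟩
  have hn' : (2 : ℝ) ≤ n := by exact_mod_cast hn
  have h2 : (2 : ℝ) ≤ n * (2 * K) := by nlinarith
  have hL : 0 ≤ Real.log (n * (2 * K)) := Real.log_nonneg (by linarith)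
  obtain ⟨b₀, hb₀, hmax⟩ := (Finset.range (n + 1)).exists_max_image
    (fun b => ‖F.inc α 1 (l.take b).prod‖) ⟨0, by simp⟩
  set E := ‖F.inc α 1 (l.take b₀).prod‖ with hE
  have hE0 : 0 ≤ E := norm_nonneg _
  have hPC : ∀ b ≤ n, (α 1)⁻¹ * α (l.take b).prod ∈
      F.PC (fun _ => (C₂ + 1) * E + C₁ * (2 * K)) (n * (2 * K)) := by
    intro b hbn
    have h1 := hchain (fun i => α (l.take i).prod) b (2 * K) (fun _ => (C₂ + 1) * E) (by linarith)
      (fun i _ => by
        obtain ⟨s, hs, e⟩ := esl_step hl i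
        have h3 := hα.up (l.take i).prod s
        rw [e]
        nlinarith)
      (fun i hi j => by
        have h3 := hmax i (Finset.mem_range.2 (by omega))
        have h4 := hmu j (F.inc α 1 (l.take i).prod)
        have h5 : F.M.ht (α (l.take i).prod) - F.M.ht (α (l.take 0).prod) =
            F.inc α 1 (l.take i).prod := by simp [inc]
        rw [h5]
        have h6 := le_abs_self (F.μ j (F.inc α 1 (l.take i).prod))
        nlinarith)
    simp only [List.take_zero, List.prod_nil] at h1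
    refine F.PC_mono (fun _ => le_rfl) ?_ h1
    exact mul_le_mul_of_nonneg_right (by exact_mod_cast hbn) (by linarith)
  have hcK : 0 ≤ C₁ * (2 * K) := by positivity
  have h3 := hψ 1 (l.take b₀).prod _ _ h2
    (by rw [one_mul]; exact hPC b₀ (by have := Finset.mem_range.1 hb₀; omega))
    (by rw [← hE]; nlinarith)
  have h4 : E ≤ M + ‖ψ (l.take b₀).prod - F.inc α 1 (l.take b₀).prod‖ := by
    have h5 := norm_sub_le (ψ (l.take b₀).prod)
      (ψ (l.take b₀).prod - F.inc α 1 (l.take b₀).prod)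
    rw [sub_sub_cancel] at h5
    linarith [hb b₀]
  have h5 : C₃ * Real.log (n * (2 * K)) ≤ max C₃ 0 * Real.log (n * (2 * K)) :=
    mul_le_mul_of_nonneg_right (le_max_left _ _) hL
  have h6 : 1 / (2 * (C₂ + 1)) * ((C₂ + 1) * E + C₁ * (2 * K)) =
      E / 2 + C₁ * (2 * K) / (2 * (C₂ + 1)) := by
    field_simp
  have h7 : (C₂ + 1) * E ≤ 2 * (C₂ + 1) * (M + max C₃ 0 * Real.log (n * (2 * K))) +
      C₁ * (2 * K) := by
    have h8 : E ≤ 2 * (M + max C₃ 0 * Real.log (n * (2 * K))) +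
        2 * (C₁ * (2 * K) / (2 * (C₂ + 1))) := by linarith
    have h9 := mul_le_mul_of_nonneg_left h8 (by linarith : 0 ≤ C₂ + 1)
    have h10 : (C₂ + 1) * (2 * (C₁ * (2 * K) / (2 * (C₂ + 1)))) = C₁ * (2 * K) := by
      field_simp
    nlinarith
  have h8 := hPC n le_rfl
  rw [List.take_of_length_le hlen] at h8
  refine F.PC_mono (fun _ => ?_) le_rfl h8
  generalize Real.log (n * (2 * K)) = L at *
  generalize max C₃ 0 = c at *
  generalize C₁ * (2 * K) = k at *
  have h9 : M + c * L ≤ (1 + c) * (M + 1 + L) := by nlinarith [mul_nonneg hC₃ hM]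
  have h10 := mul_le_mul_of_nonneg_left h9 (by linarith : 0 ≤ 2 * (C₂ + 1))
  nlinarith [mul_nonneg hcK hM, mul_nonneg hcK hL]

/-- For a slab path with prefixes `h_b` let `E = max_b ‖inc α 1 h_b‖`.  `PC_chain` (points `α h_b`,
steps `≤ 2 K`): `(α 1)⁻¹ α h_b ∈ PC (C (E + 1)) (2 K n)`.  `PsiB` gives
`E ≤ M + ε C (E + 1) + C log (2 K n)`, so `E ≤ 2 M + C log n`.  `VC1`, `lvol_le_add`, `lvol_zero`,
`ncard_le_of_cov`. -/
theorem slab_growth {T : Finset H} {α : H → F.G} {K : ℝ} (hα : F.HQI T α K) {ψ : H → F.V}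
    (hB : F.PsiB α ψ) : SlabGrowth T ψ := by
  obtain ⟨a, ha, hmem⟩ := F.esl_mem hα hB
  obtain ⟨C₄, hC₄, hVC⟩ := F.VC1
  obtain ⟨C₅, hC₅, hlv⟩ := F.lvol_le_add
  obtain ⟨C₆, hC₆, hcard⟩ := F.ncard_le_of_cov hα C₄
  have hK := hα.one_le
  refine ⟨2 * C₆ + C₅ * a * (4 * K + 3) + C₄ * (4 * K + 1), by positivity, fun M n hM hn => ?_⟩
  have hn' : (2 : ℝ) ≤ n := by exact_mod_cast hn
  have h2 : (2 : ℝ) ≤ n * (2 * K) := by nlinarith
  have hL0 : 0 ≤ Real.log (n * (2 * K)) := Real.log_nonneg (by linarith)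
  have hL : 1 / 2 ≤ Real.log n :=
    le_trans (by linarith [Real.log_two_gt_d9]) (Real.log_le_log (by norm_num) hn')
  have hL1 : Real.log (n * (2 * K)) ≤ (4 * K + 1) * Real.log n := by
    rw [Real.log_mul (by linarith) (by linarith)]
    have := Real.log_le_sub_one_of_pos (by linarith : 0 < 2 * K)
    nlinarith
  refine (hcard (α 1) _ _ _ (hVC (fun _ => a * (M + 1 + Real.log (n * (2 * K)))) _ h2)
    fun g hg => hmem M n hM hn g hg).trans ?_
  have h3 := hlv (fun _ => a * (M + 1 + Real.log (n * (2 * K)))) 0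
    (a * (M + 1 + Real.log (n * (2 * K)))) (by positivity) (fun _ => by simp)
  rw [F.lvol_zero, zero_add] at h3
  have h4 : C₆ ≤ Real.exp C₆ := by linarith [Real.add_one_le_exp C₆]
  refine (mul_le_mul_of_nonneg_right h4 (Real.exp_pos _).le).trans ?_
  rw [← Real.exp_add]
  refine Real.exp_le_exp.2 ?_
  generalize F.lvol _ = v at *
  generalize Real.log (n * (2 * K)) = L' at *
  generalize Real.log n = L at *
  have h5 : M + 1 + L' ≤ (4 * K + 3) * (M + L) := by nlinarith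
  have h6 := mul_le_mul_of_nonneg_left h5 (by positivity : 0 ≤ C₅ * a)
  have h7 : L' ≤ (4 * K + 1) * (M + L) := by nlinarith
  have h8 := mul_le_mul_of_nonneg_left h7 (by linarith : 0 ≤ C₄)
  nlinarith

end Frame

end Crest.Agent.R182
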