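import Crest.Agent.R182.Frame
import Crest.Agent.R182.BoxVol

/-! Row 182, task `R182/ExFrame`: every model has a frame.

`E = ⊕ E_λ`, `E_λ` = span of the basis vectors `e_i` with `wt i = λ` `= {x | ∀ v, τ v x = e^{λ v} x}`;
`[E_λ, E_λ'] ≤ E_{λ+λ'}` by `τ_br`.  A `τ`-invariant subspace is the sum of its weight components
(characters `v ↦ e^{λ v}` are linearly independent, or use polynomials in one generic `τ v`).
Let `𝔯` be the subalgebra generated by the `E_λ`, `λ ≠ 0` (it is `idl` of the letters `e_i`,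
`wt i ≠ 0`); it is an ideal of `E` (Jacobi, `[E_0, E_λ] ≤ E_λ`).
* `X`: among the `e_i` with `wt i ≠ 0` choose a subfamily whose classes form a basis of
  `𝔯 / [𝔯,𝔯]` (they span it); by nilpotency the `X j` generate `𝔯` (`𝔯 = idl X + 𝔯^{(i)}` for all
  `i`, `𝔯^{(i)}` the lower central series of `𝔯`, contained in `lcs i`).  `ξ`: coordinates, extended to `E`.
* `a`: among the `e_i` with `wt i = 0` choose a subfamily whose classes form a basis of
  `E / (lcs 1 + 𝔯)`; `π` = coordinates; `φ` kills `lcs 1` and `𝔯` (`φ_τ`), so it factors as `φL ∘ π`.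
  `𝔯 + idl a = ⊤` by nilpotency.
* `ξ_D`: `ξ i (τ v x) = e^{μ i v} ξ i x` on `𝔯` (check on monomials), and `idl a` is fixed by `τ`.
* `br_a`: `[a i, X j] ∈ 𝔯` has weight `μ j`; write it as a combination of monomials and take the
  weight component.
* `μ_span`: every non-zero `wt i` is a sum of `μ j`'s.  `sum_μ`: extend a monomial basis of `𝔯` by
  `τ`-fixed vectors to a basis of `E`; `det (τ v) = exp (∑ wt i v) = 1` (`NL.map_mon`, `sz_eq_sum`). -/

set_option autoImplicit false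

namespace Crest.Agent.R182

open scoped BigOperators

/-- choice of a basis modulo a subspace from a finite family, with coordinates -/
theorem xf_basis_mod {E : Type} [AddCommGroup E] [Module ℝ E] (K : Submodule ℝ E) {ι : Type}
    [Finite ι] (Y : ι → E) :
    ∃ (p : ℕ) (s : Fin p → ι) (ξ : Fin p → E →ₗ[ℝ] ℝ),
      (∀ i j, ξ i (Y (s j)) = if i = j then 1 else 0) ∧ (∀ i, ∀ x ∈ K, ξ i x = 0) ∧
      ∀ t, Y t - ∑ i, ξ i (Y t) • Y (s i) ∈ K := by
  classical
  obtain ⟨κ, a, ha, hsp, hli⟩ := exists_linearIndependent' ℝ (fun t => K.mkQ (Y t))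
  have : Finite κ := Finite.of_injective a ha
  obtain ⟨p, ⟨e⟩⟩ := Finite.exists_equiv_fin κ
  let s : Fin p → ι := fun i => a (e.symm i)
  let w : Fin p → E ⧸ K := fun i => K.mkQ (Y (s i))
  have hw : LinearIndependent ℝ w := hli.comp e.symm e.symm.injective
  have hsp' : Submodule.span ℝ (Set.range w) =
      Submodule.span ℝ (Set.range fun t => K.mkQ (Y t)) := by
    rw [← hsp]
    congr 1
    exact e.symm.surjective.range_comp ((fun t => K.mkQ (Y t)) ∘ a)
  obtain ⟨g, hg⟩ := hw.repr.exists_extend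
  have hg' : ∀ x : Submodule.span ℝ (Set.range w), g x = hw.repr x := fun x =>
    LinearMap.congr_fun hg x
  refine ⟨p, s, fun i => Finsupp.lapply i ∘ₗ g ∘ₗ K.mkQ, fun i j => ?_, fun i x hx => ?_,
    fun t => ?_⟩
  · have h1 := hg' ⟨w j, Submodule.subset_span (Set.mem_range_self j)⟩
    rw [hw.repr_eq_single j _ rfl] at h1
    change g (w j) i = _
    rw [h1, Finsupp.single_apply]
    simp only [eq_comm]
  · change g (K.mkQ x) i = 0
    rw [Submodule.mkQ_apply, (Submodule.Quotient.mk_eq_zero K).2 hx, map_zero, Finsupp.zero_apply]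
  · rw [← Submodule.Quotient.mk_eq_zero, ← Submodule.mkQ_apply, map_sub, map_sum, sub_eq_zero]
    have hm : K.mkQ (Y t) ∈ Submodule.span ℝ (Set.range w) := by
      rw [hsp']
      exact Submodule.subset_span (Set.mem_range_self t)
    have h1 := hw.linearCombination_repr ⟨_, hm⟩
    rw [← hg', Finsupp.linearCombination_apply, Finsupp.sum_fintype _ _ (by simp)] at h1
    refine h1.symm.trans (Finset.sum_congr rfl fun i _ => ?_)
    rw [map_smul]
    rfl

namespace NL

variable {E : Type} [AddCommGroup E] [Module ℝ E] (N : NL E)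

/-- a subalgebra which spans modulo the derived algebra is everything -/
theorem xf_eq_top {S : Submodule ℝ E} (hS : ∀ x ∈ S, ∀ y ∈ S, N.br x y ∈ S)
    (h : ⊤ ≤ S ⊔ N.lcs 1) : S = ⊤ := by
  have key : ∀ n, N.lcs n ≤ (S ⊓ N.lcs n) ⊔ N.lcs (n + 1) := by
    intro n
    induction n with
    | zero => simpa [lcs] using h
    | succ n ih =>
      refine Submodule.span_le.2 ?_
      rintro _ ⟨t, u, hu, rfl⟩
      obtain ⟨s, hs, t', ht', rfl⟩ := Submodule.mem_sup.1 (h (Submodule.mem_top (x := t)))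
      obtain ⟨s', hs', u', hu', rfl⟩ := Submodule.mem_sup.1 (ih hu)
      have e : N.br (s + t') (s' + u') = N.br s s' + (N.br t' s' + N.br (s + t') u') := by
        simp only [map_add, LinearMap.add_apply]
        abel
      rw [SetLike.mem_coe, e]
      refine Submodule.add_mem_sup ⟨hS _ hs _ hs'.1, N.br_mem_lcs_succ _ hs'.2⟩
        (Submodule.add_mem _ ?_ (N.br_mem_lcs_succ _ hu'))
      have := N.br_mem_lcs ht' hs'.2
      rwa [show 1 + n + 1 = n + 1 + 1 by omega] at this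
  have key2 : ∀ n, ⊤ ≤ S ⊔ N.lcs n := by
    intro n
    induction n with
    | zero => exact le_sup_right
    | succ n ih =>
      refine ih.trans (sup_le le_sup_left ((key n).trans (sup_le_sup inf_le_left le_rfl)))
  have := key2 N.m
  rw [N.lcs_eq_bot, sup_bot_eq] at this
  exact top_le_iff.1 this

/-- the derived algebra of a subspace -/
def xfDer (T : Submodule ℝ E) : Submodule ℝ E :=
  Submodule.span ℝ {z | ∃ x ∈ T, ∃ y ∈ T, z = N.br x y}

theorem xf_br_mem_der {T : Submodule ℝ E} {x y : E} (hx : x ∈ T) (hy : y ∈ T) :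
    N.br x y ∈ N.xfDer T :=
  Submodule.subset_span ⟨x, hx, y, hy, rfl⟩

theorem xf_le_of_der {S T : Submodule ℝ E} (hS : ∀ x ∈ S, ∀ y ∈ S, N.br x y ∈ S)
    (hT : ∀ x ∈ T, ∀ y ∈ T, N.br x y ∈ T) (hST : S ≤ T) (h : T ≤ S ⊔ N.xfDer T) : T ≤ S := by
  have h1 : N.xfDer T ≤ ((N.sub T hT).lcs 1).map T.subtype := by
    refine Submodule.span_le.2 ?_
    rintro _ ⟨x, hx, y, hy, rfl⟩
    exact ⟨_, (N.sub T hT).br_mem_lcs_succ (i := 0) ⟨x, hx⟩ (y := ⟨y, hy⟩) Submodule.mem_top, rfl⟩
  have h2 := (N.sub T hT).xf_eq_top (S := S.comap T.subtype)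
    (fun x hx y hy => hS _ hx _ hy) (by
      intro x _
      obtain ⟨s, hs, z, hz, e⟩ := Submodule.mem_sup.1 (h x.2)
      obtain ⟨z', hz', rfl⟩ := h1 hz
      exact Submodule.mem_sup.2 ⟨⟨s, hST hs⟩, hs, z', hz', Subtype.ext e⟩)
  intro x hx
  have : (⟨x, hx⟩ : T) ∈ S.comap T.subtype := by rw [h2]; trivial
  exact this

theorem xf_idl_sub {ι : Type} (X : ι → E) :
    ∀ x ∈ N.idl X Set.univ, ∀ y ∈ N.idl X Set.univ, N.br x y ∈ N.idl X Set.univ :=
  fun _ hx _ hy => N.br_mem_idl X hx hy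

theorem xf_mon_mem {ι : Type} (X : ι → E) (l : List ι) : N.mon X l ∈ N.idl X Set.univ := by
  cases l with
  | nil => exact Submodule.zero_mem _
  | cons j l => exact N.mon_mem X ⟨j, List.mem_cons_self, trivial⟩

/-- a subspace containing all non-empty monomials contains the generated subalgebra -/
theorem xf_idl_le {ι : Type} (X : ι → E) {S : Submodule ℝ E}
    (h : ∀ l : List ι, l ≠ [] → N.mon X l ∈ S) : N.idl X Set.univ ≤ S := by
  refine Submodule.span_le.2 ?_
  rintro _ ⟨l, ⟨j, hj, -⟩, rfl⟩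
  exact h l (List.ne_nil_of_mem hj)

theorem xf_deriv {ι : Type} (X : ι → E) {x : E} (hx : ∀ j, N.br x (X j) ∈ N.idl X Set.univ) :
    ∀ y ∈ N.idl X Set.univ, N.br x y ∈ N.idl X Set.univ := by
  refine fun y hy => N.xf_idl_le X (S := (N.idl X Set.univ).comap (N.br x)) (fun l hl => ?_) hy
  induction l with
  | nil => exact absurd rfl hl
  | cons i l ih =>
    by_cases h : l = []
    · subst h
      exact hx i
    · rw [N.mon_cons X i h, Submodule.mem_comap, N.br_jacobi]
      exact Submodule.add_mem _ (N.br_mem_idl X (hx i) (N.xf_mon_mem X l))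
        (N.br_mem_idl X (N.letter_mem X trivial) (ih h))

end NL

namespace Model

variable {d k : ℕ} (M : Model d k)

/-- weight spaces -/
def xfW (lam : (Fin k → ℝ) →ₗ[ℝ] ℝ) : Submodule ℝ (Fin d → ℝ) where
  carrier := {x | ∀ v, M.τ v x = Real.exp (lam v) • x}
  zero_mem' v := by simp
  add_mem' {x y} hx hy v := by rw [map_add, hx v, hy v, smul_add]
  smul_mem' c x hx v := by rw [map_smul, hx v, smul_comm]

theorem xf_mem_W {lam : (Fin k → ℝ) →ₗ[ℝ] ℝ} {x : Fin d → ℝ} :
    x ∈ M.xfW lam ↔ ∀ i, M.wt i ≠ lam → x i = 0 := by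
  constructor
  · intro h i hi
    obtain ⟨v, hv⟩ := DFunLike.ne_iff.1 hi
    have := congrFun (h v) i
    rw [τ_apply, Pi.smul_apply, smul_eq_mul] at this
    rcases mul_eq_mul_right_iff.1 this with h1 | h1
    · exact absurd (Real.exp_injective h1) hv
    · exact h1
  · intro h v
    ext i
    rw [τ_apply, Pi.smul_apply, smul_eq_mul]
    by_cases hi : M.wt i = lam
    · rw [hi]
    · rw [h i hi, mul_zero, mul_zero]

theorem xf_single_mem (i : Fin d) : (Pi.single i 1 : Fin d → ℝ) ∈ M.xfW (M.wt i) :=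
  M.xf_mem_W.2 fun j hj => Pi.single_eq_of_ne (fun e => hj (by rw [e])) _

theorem xf_br_W {lam lam' : (Fin k → ℝ) →ₗ[ℝ] ℝ} {x y : Fin d → ℝ} (hx : x ∈ M.xfW lam)
    (hy : y ∈ M.xfW lam') : M.nl.br x y ∈ M.xfW (lam + lam') := by
  intro v
  rw [M.τ_br', hx v, hy v, LinearMap.add_apply, Real.exp_add]
  simp only [map_smul, LinearMap.smul_apply, smul_smul, mul_comm]

theorem xf_mon_W {ι : Type} (X : ι → Fin d → ℝ) (μ : ι → (Fin k → ℝ) →ₗ[ℝ] ℝ)
    (hX : ∀ j, X j ∈ M.xfW (μ j)) (l : List ι) : M.nl.mon X l ∈ M.xfW (l.map μ).sum := by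
  induction l with
  | nil => exact Submodule.zero_mem _
  | cons i l ih =>
    by_cases h : l = []
    · subst h
      simpa [NL.mon] using hX i
    · rw [M.nl.mon_cons X i h, List.map_cons, List.sum_cons]
      exact M.xf_br_W (hX i) ih

open Classical in
/-- projection onto a weight space -/
noncomputable def xfP (lam : (Fin k → ℝ) →ₗ[ℝ] ℝ) : (Fin d → ℝ) →ₗ[ℝ] (Fin d → ℝ) where
  toFun x := fun i => if M.wt i = lam then x i else 0
  map_add' x y := by ext i; by_cases h : M.wt i = lam <;> simp [h]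
  map_smul' c x := by ext i; by_cases h : M.wt i = lam <;> simp [h]

theorem xf_P_self {lam : (Fin k → ℝ) →ₗ[ℝ] ℝ} {x : Fin d → ℝ} (hx : x ∈ M.xfW lam) :
    M.xfP lam x = x := by
  ext i
  by_cases h : M.wt i = lam
  · simp [xfP, h]
  · simp [xfP, h, M.xf_mem_W.1 hx i h]

theorem xf_P_ne {lam lam' : (Fin k → ℝ) →ₗ[ℝ] ℝ} {x : Fin d → ℝ} (hx : x ∈ M.xfW lam)
    (h : lam ≠ lam') : M.xfP lam' x = 0 := by
  ext i
  by_cases h' : M.wt i = lam'
  · simp [xfP, h', M.xf_mem_W.1 hx i (by rw [h']; exact h.symm)]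
  · simp [xfP, h']

theorem xf_le_of_single {S : Submodule ℝ (Fin d → ℝ)} {x : Fin d → ℝ}
    (h : ∀ i, x i ≠ 0 → (Pi.single i 1 : Fin d → ℝ) ∈ S) : x ∈ S := by
  rw [pi_eq_sum_univ' x]
  refine Submodule.sum_mem _ fun i _ => ?_
  by_cases hi : x i = 0
  · rw [hi, zero_smul]
    exact Submodule.zero_mem _
  · exact Submodule.smul_mem _ _ (h i hi)

/-- the letters of non-zero weight -/
def xfY : {i : Fin d // M.wt i ≠ 0} → Fin d → ℝ := fun i => Pi.single i.1 1

/-- the letters of weight zero -/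
def xfZ : {i : Fin d // M.wt i = 0} → Fin d → ℝ := fun i => Pi.single i.1 1

/-- the exponential radical -/
def xfR : Submodule ℝ (Fin d → ℝ) := M.nl.idl M.xfY Set.univ

theorem xf_single_R {i : Fin d} (hi : M.wt i ≠ 0) : (Pi.single i 1 : Fin d → ℝ) ∈ M.xfR :=
  M.nl.letter_mem M.xfY (j := ⟨i, hi⟩) trivial

theorem xf_W_le_R {lam : (Fin k → ℝ) →ₗ[ℝ] ℝ} (h : lam ≠ 0) : M.xfW lam ≤ M.xfR := by
  intro x hx
  refine xf_le_of_single fun i hi => M.xf_single_R fun e => hi ?_
  exact M.xf_mem_W.1 hx i (by rw [e]; exact h.symm)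

theorem xf_R_ideal (x : Fin d → ℝ) : ∀ y ∈ M.xfR, M.nl.br x y ∈ M.xfR := by
  intro y hy
  refine xf_le_of_single (S := M.xfR.comap (M.nl.br.flip y)) (x := x) fun i _ => ?_
  change M.nl.br (Pi.single i 1) y ∈ M.xfR
  by_cases hi : M.wt i = 0
  · refine M.nl.xf_deriv M.xfY (fun j => ?_) y hy
    have := M.xf_br_W (M.xf_single_mem i) (M.xf_single_mem j.1)
    rw [hi, zero_add] at this
    exact M.xf_W_le_R j.2 this
  · exact M.nl.br_mem_idl M.xfY (M.xf_single_R hi) hy

theorem xf_φ_R {x : Fin d → ℝ} (hx : x ∈ M.xfR) : M.φ x = 0 := by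
  refine M.nl.idl_le M.xfY (S := LinearMap.ker M.φ) (fun x _ y _ => M.φ_br x y) (fun j => ?_) hx
  obtain ⟨v, hv⟩ := DFunLike.ne_iff.1 j.2
  have h1 := M.φ_τ' v (M.xfY j)
  rw [show M.τ v (M.xfY j) = _ from M.xf_single_mem j.1 v, map_smul] at h1
  have h2 : (Real.exp (M.wt j.1 v) - 1) • M.φ (M.xfY j) = 0 := by
    rw [sub_smul, one_smul, sub_eq_zero]
    exact h1
  refine (smul_eq_zero.1 h2).resolve_left fun e => hv ?_
  rw [sub_eq_zero, Real.exp_eq_one_iff] at e
  exact e

theorem xf_τ_sub (v : Fin k → ℝ) (x : Fin d → ℝ) : M.τ v x - x ∈ M.xfR := by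
  refine xf_le_of_single fun i hi => M.xf_single_R fun e => hi ?_
  simp [τ_apply, e]

/-- the diagonal derivation -/
def xfD (v : Fin k → ℝ) : (Fin d → ℝ) →ₗ[ℝ] (Fin d → ℝ) where
  toFun x := fun i => M.wt i v * x i
  map_add' x y := by ext i; simp [mul_add]
  map_smul' c x := by ext i; simp [mul_left_comm]

theorem xf_D_W (v : Fin k → ℝ) {lam : (Fin k → ℝ) →ₗ[ℝ] ℝ} {x : Fin d → ℝ} (hx : x ∈ M.xfW lam) :
    M.xfD v x = lam v • x := by
  ext i
  change M.wt i v * x i = lam v * x i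
  by_cases h : M.wt i = lam
  · rw [h]
  · rw [M.xf_mem_W.1 hx i h, mul_zero, mul_zero]

theorem xf_D_R (v : Fin k → ℝ) (x : Fin d → ℝ) : M.xfD v x ∈ M.xfR := by
  refine xf_le_of_single fun i hi => M.xf_single_R fun e => hi ?_
  change M.wt i v * x i = 0
  rw [e, LinearMap.zero_apply, zero_mul]

theorem xf_trace (v : Fin k → ℝ) : LinearMap.trace ℝ _ (M.xfD v) = 0 := by
  rw [LinearMap.trace_eq_matrix_trace ℝ (Pi.basisFun ℝ (Fin d)), Matrix.trace]
  have := LinearMap.congr_fun M.sum_wt v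
  rw [LinearMap.sum_apply, LinearMap.zero_apply] at this
  rw [← this]
  refine Finset.sum_congr rfl fun i _ => ?_
  simp [xfD]

/-- the weights of a basis of weight vectors of the radical add up to zero -/
theorem xf_sum_basis {r : ℕ} (b : Fin r → Fin d → ℝ) (lam : Fin r → (Fin k → ℝ) →ₗ[ℝ] ℝ)
    (hb : ∀ a, b a ∈ M.xfW (lam a)) (hli : LinearIndependent ℝ b)
    (hsp : Submodule.span ℝ (Set.range b) = M.xfR) (v : Fin k → ℝ) : ∑ a, lam a v = 0 := by
  have hm : ∀ x, M.xfD v x ∈ Submodule.span ℝ (Set.range b) := fun x => by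
    rw [hsp]; exact M.xf_D_R v x
  have h1 := LinearMap.trace_restrict_eq_of_forall_mem _ (M.xfD v) hm
  rw [M.xf_trace, LinearMap.trace_eq_matrix_trace ℝ (Module.Basis.span hli), Matrix.trace] at h1
  rw [← h1]
  refine Finset.sum_congr rfl fun a _ => ?_
  have h2 : (M.xfD v).restrict (fun x _ => hm x) (Module.Basis.span hli a) =
      lam a v • Module.Basis.span hli a := by
    apply Subtype.ext
    rw [LinearMap.coe_restrict_apply, Submodule.coe_smul, Module.Basis.coe_span_apply]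
    exact M.xf_D_W v (hb a)
  rw [Matrix.diag_apply, LinearMap.toMatrix_apply, h2, map_smul, Module.Basis.repr_self]
  simp

end Model

theorem xf_sum_apply {k : ℕ} {ι : Type} (μ : ι → (Fin k → ℝ) →ₗ[ℝ] ℝ) (v : Fin k → ℝ)
    (l : List ι) : (l.map μ).sum v = sz (fun j => μ j v) l := by
  induction l with
  | nil => simp
  | cons i l ih => rw [List.map_cons, List.sum_cons, LinearMap.add_apply, ih, ba_sz_cons]

/-- there is a frame with `F.d = d`, `F.k = k`, `F.M = M` (stated without casts) -/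
theorem exists_frame {d k : ℕ} (M : Model d k) (Φ : (d k : ℕ) → Model d k → Prop) (h : Φ d k M) :
    ∃ F : Frame, Φ F.d F.k F.M := by
  classical
  obtain ⟨p, s, ξ, hξ1, hξ2, hξ3⟩ := xf_basis_mod (M.nl.xfDer M.xfR) M.xfY
  obtain ⟨m, s', η, hη1, hη2, hη3⟩ := xf_basis_mod (M.nl.lcs 1 ⊔ M.xfR) M.xfZ
  set X : Fin p → Fin d → ℝ := fun j => M.xfY (s j) with hXdef
  set a : Fin m → Fin d → ℝ := fun j => M.xfZ (s' j) with hadef
  set μ : Fin p → (Fin k → ℝ) →ₗ[ℝ] ℝ := fun j => M.wt (s j).1 with hμdef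
  have hXW : ∀ j, X j ∈ M.xfW (μ j) := fun j => M.xf_single_mem _
  have haW : ∀ j, a j ∈ M.xfW 0 := fun j => by
    have := M.xf_single_mem (s' j).1
    rwa [(s' j).2] at this
  have hXR : ∀ j, X j ∈ M.xfR := fun j => M.xf_single_R (s j).2
  have hRsub : ∀ x ∈ M.xfR, ∀ y ∈ M.xfR, M.nl.br x y ∈ M.xfR := fun x _ => M.xf_R_ideal x
  have hle : M.nl.idl X Set.univ ≤ M.xfR := M.nl.idl_le X hRsub hXR
  have hR : M.nl.idl X Set.univ = M.xfR := by
    refine le_antisymm hle (M.nl.xf_le_of_der (M.nl.xf_idl_sub X) hRsub hle ?_)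
    refine M.nl.xf_idl_le M.xfY fun l hl => ?_
    match l, hl with
    | [t], _ =>
      refine Submodule.mem_sup.2 ⟨∑ i, ξ i (M.xfY t) • X i, Submodule.sum_mem _ fun i _ =>
        Submodule.smul_mem _ (ξ i (M.xfY t)) (M.nl.letter_mem X (j := i) trivial), _, hξ3 t, ?_⟩
      exact add_sub_cancel _ _
    | t :: u :: l, _ =>
      exact Submodule.mem_sup_right
        (M.nl.xf_br_mem_der (M.xf_single_R t.2) (M.nl.xf_mon_mem M.xfY (u :: l)))
  have hmon : ∀ i (l : List (Fin p)), 2 ≤ l.length → ξ i (M.nl.mon X l) = 0 := by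
    intro i l hl
    match l, hl with
    | t :: u :: l, _ =>
      exact hξ2 i _ (M.nl.xf_br_mem_der (hXR t) (hle (M.nl.xf_mon_mem X (u :: l))))
  have hdec : ∀ x : Fin d → ℝ,
      x - Fintype.linearCombination ℝ a (LinearMap.pi η x) ∈ M.nl.lcs 1 ⊔ M.xfR := by
    intro x
    refine Model.xf_le_of_single (S := (M.nl.lcs 1 ⊔ M.xfR).comap
      (LinearMap.id - Fintype.linearCombination ℝ a ∘ₗ LinearMap.pi η)) (x := x) fun i _ => ?_
    change Pi.single i 1 - Fintype.linearCombination ℝ a (LinearMap.pi η (Pi.single i 1)) ∈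
      M.nl.lcs 1 ⊔ M.xfR
    by_cases hi : M.wt i = 0
    · exact hη3 ⟨i, hi⟩
    · have h1 : (Pi.single i 1 : Fin d → ℝ) ∈ M.nl.lcs 1 ⊔ M.xfR :=
        Submodule.mem_sup_right (M.xf_single_R hi)
      have h2 : LinearMap.pi η (Pi.single i 1) = 0 := funext fun j => hη2 j _ h1
      rw [h2, map_zero, sub_zero]
      exact h1
  have hπK : ∀ x ∈ M.nl.lcs 1 ⊔ M.xfR, LinearMap.pi η x = 0 := fun x hx =>
    funext fun j => hη2 j _ hx
  refine ⟨
    { d := d, k := k, m := m, p := p, M := M, a := a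
      a_fix := fun i v => by simpa using haW i v
      π := LinearMap.pi η
      π_a := fun i => funext fun j => by
        rw [LinearMap.pi_apply, hη1, Pi.single_apply]
      π_br := fun x y => hπK _ (Submodule.mem_sup_left
        (M.nl.br_mem_lcs_succ (i := 0) x Submodule.mem_top))
      π_τ := fun v x => by
        rw [← sub_eq_zero, ← map_sub]
        exact hπK _ (Submodule.mem_sup_right (M.xf_τ_sub v x))
      φL := M.φ ∘ₗ Fintype.linearCombination ℝ a
      φ_eq := fun x => by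
        have h1 : M.nl.lcs 1 ⊔ M.xfR ≤ LinearMap.ker M.φ :=
          sup_le (fun _ hx => M.φ_lcs hx) fun _ hx => M.xf_φ_R hx
        have := h1 (hdec x)
        rwa [LinearMap.mem_ker, map_sub, sub_eq_zero] at this
      X := X
      μ := μ
      μ_ne := fun j => (s j).2
      τ_X := fun j v => hXW j v
      π_X := fun j => hπK _ (Submodule.mem_sup_right (hXR j))
      ξ := ξ
      ξ_X := hξ1
      ξ_mon := hmon
      ξ_D := ?_
      sup_eq := ?_
      br_a := ?_
      μ_span := ?_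
      sum_μ := ?_ }, h⟩
  · intro i x hxa hxX
    have h1 : x ∈ M.xfW 0 := M.nl.idl_le a (S := M.xfW 0)
      (fun x hx y hy => by simpa using M.xf_br_W hx hy) haW hxa
    rw [← M.xf_P_self h1]
    refine M.nl.xf_idl_le X (S := LinearMap.ker (ξ i ∘ₗ M.xfP 0)) (fun l hl => ?_) hxX
    change ξ i (M.xfP 0 (M.nl.mon X l)) = 0
    have h2 := M.xf_mon_W X μ hXW l
    by_cases h3 : (l.map μ).sum = 0
    · rw [h3] at h2
      rw [M.xf_P_self h2]
      match l, hl with
      | [t], _ => exact absurd (by simpa using h3) (s t).2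
      | t :: u :: l, _ => exact hmon i _ (by simp)
    · rw [M.xf_P_ne h2 h3, map_zero]
  · rw [hR]
    refine M.nl.xf_eq_top (fun x hx y hy => ?_) fun x _ => ?_
    · obtain ⟨x1, hx1, x2, hx2, rfl⟩ := Submodule.mem_sup.1 hx
      obtain ⟨y1, hy1, y2, hy2, rfl⟩ := Submodule.mem_sup.1 hy
      have e : M.nl.br (x1 + x2) (y1 + y2) =
          (M.nl.br (x1 + x2) y1 - M.nl.br y2 x1) + M.nl.br x2 y2 := by
        rw [M.nl.br_anti y2 x1]
        simp only [map_add, LinearMap.add_apply]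
        abel
      rw [e]
      exact Submodule.add_mem_sup (Submodule.sub_mem _ (M.xf_R_ideal _ _ hy1)
        (M.xf_R_ideal _ _ hx1)) (M.nl.br_mem_idl a hx2 hy2)
    · have h1 : Fintype.linearCombination ℝ a (LinearMap.pi η x) ∈ M.nl.idl a Set.univ := by
        rw [Fintype.linearCombination_apply]
        exact Submodule.sum_mem _ fun i _ =>
          Submodule.smul_mem _ _ (M.nl.letter_mem a (j := i) trivial)
      obtain ⟨y, hy, z, hz, e⟩ := Submodule.mem_sup.1 (hdec x)
      refine Submodule.mem_sup.2 ⟨_, Submodule.add_mem_sup hz h1, y, hy, ?_⟩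
      rw [add_right_comm, add_comm z y, e, sub_add_cancel]
  · intro i j
    have h1 : M.nl.br (a i) (X j) ∈ M.xfW (μ j) := by simpa using M.xf_br_W (haW i) (hXW j)
    have h2 : M.nl.br (a i) (X j) ∈ M.nl.idl X Set.univ := by
      rw [hR]; exact M.xf_R_ideal _ _ (hXR j)
    rw [← M.xf_P_self h1]
    refine Submodule.mem_comap.1 (M.nl.xf_idl_le X (fun l hl => ?_) h2)
    rw [Submodule.mem_comap]
    have h3 := M.xf_mon_W X μ hXW l
    by_cases h4 : (l.map μ).sum = μ j
    · rw [h4] at h3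
      rw [M.xf_P_self h3]
      exact Submodule.subset_span ⟨l, hl, h4, rfl⟩
    · rw [M.xf_P_ne h3 h4]
      exact Submodule.zero_mem _
  · intro v hv
    refine M.wt_span v fun i => ?_
    by_contra hi
    have hi' : M.wt i ≠ 0 := fun e => hi (by rw [e, LinearMap.zero_apply])
    have h1 : M.nl.idl X Set.univ ≤ LinearMap.ker (M.xfD v) := by
      refine M.nl.xf_idl_le X fun l _ => ?_
      rw [LinearMap.mem_ker, M.xf_D_W v (M.xf_mon_W X μ hXW l), xf_sum_apply]
      have : (fun j => μ j v) = fun _ => 0 := funext hv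
      rw [this, sz_const, mul_zero, zero_smul]
    rw [hR] at h1
    have h2 := congrFun (h1 (M.xf_single_R hi')) i
    exact hi (by simpa [Model.xfD] using h2)
  · rintro n ⟨r, ls, -, hli, hsp, hn⟩
    refine LinearMap.ext fun v => ?_
    have h1 := M.xf_sum_basis _ (fun b => ((ls b).map μ).sum) (fun b => M.xf_mon_W X μ hXW _) hli
      (hsp.trans hR) v
    simp only [xf_sum_apply, sz_eq_sum] at h1
    rw [Finset.sum_comm] at h1
    rw [LinearMap.sum_apply, LinearMap.zero_apply, ← h1]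
    refine Finset.sum_congr rfl fun j _ => ?_
    rw [LinearMap.smul_apply, smul_eq_mul, hn j, Nat.cast_sum, Finset.sum_mul]

end Crest.Agent.R182
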