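import Crest.Prelude.Def_Polycyclic
import Crest.Prelude.Def_QuasiIsometry
import Crest.Agent.R182.ModelAPI
import Crest.Agent.R182.BEngel
import Crest.Agent.R182.BSwan
import Crest.Agent.R182.BTW
import Crest.Agent.R182.BFinal

/-!
Row 182, part B: every finitely generated virtually polycyclic group is quasi-isometric to a model
group.  The proof is in the files `R182/B*.lean` (namespace `Crest.Agent.R182.B`):
`exists_good` (finite-index poly-`ℤ` subgroup, Engel-by-`ℤ^k`; Malcev), `exists_urep` (Swan),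
`exists_TW` (real hull, semisimple splitting, nilshadow), `exists_adapted` / `exists_model`
(moduli), `Adapted.qi` (Švarc–Milnor).
-/

set_option autoImplicit false

namespace Crest.Agent.R182

open Crest.GroupTheory Crest.Geometry

theorem exists_model {P : Type*} [Group P] (S : Finset P)
    (hS : Subgroup.closure (S : Set P) = ⊤) (hP : IsVirtuallyPolycyclic P) :
    ∃ (d k : ℕ) (M : Model d k) (F : P → M.G),
      IsQuasiIsometry (wordDist (S : Set P)) (wordDist M.Q) F := by
  obtain ⟨Γ, hΓ, hPZ, k, π, hπ, hE⟩ := B.exists_good hP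
  obtain ⟨S₁, hS₁⟩ := Group.fg_def.1 ((Group.fg_iff_subgroup_fg Γ).2 (B.pc_fg hPZ.pc))
  obtain ⟨d, ⟨T⟩⟩ := B.exists_TW π hπ (B.exists_urep hPZ.top π hπ hE)
  obtain ⟨T', wt, hA⟩ := T.exists_adapted
  obtain ⟨k', M, hnl, hτ⟩ := hA.exists_model
  obtain ⟨f, hf⟩ := B.qi_finiteIndex S hS Γ S₁ hS₁
  exact ⟨d, k', M, _, B.qi_comp (fun _ _ => Nat.cast_nonneg _) M.dd_triangle hf
    (hA.qi M hnl hτ S₁ hS₁)⟩

end Crest.Agent.R182
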