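import Crest.Agent.R182.Defs2
import Crest.Agent.R182.GeoFol

/-! Row 182, task `R182/FL2`: from invariance along a basis to constancy on a box. -/

set_option autoImplicit false

namespace Crest.Agent.R182

open scoped BigOperators
open MeasureTheory

namespace Frame

variable (F : Frame)

/-- disagreement pseudo-metric -/
noncomputable def fl2D (μ : Measure F.G) (A : Set F.G) (y y' : F.G) : ℝ :=
  μ.real {z | ¬(z * y ∈ A ↔ z * y' ∈ A)}

theorem fl2D_self (μ : Measure F.G) (A : Set F.G) (y : F.G) : F.fl2D μ A y y = 0 := by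
  simp [fl2D]

theorem fl2D_comm (μ : Measure F.G) (A : Set F.G) (y y' : F.G) :
    F.fl2D μ A y y' = F.fl2D μ A y' y := by
  simp only [fl2D, iff_comm]

theorem fl2D_tri (μ : Measure F.G) [IsFiniteMeasure μ] (A : Set F.G) (y y' y'' : F.G) :
    F.fl2D μ A y y'' ≤ F.fl2D μ A y y' + F.fl2D μ A y' y'' := by
  refine le_trans (measureReal_mono ?_) (measureReal_union_le _ _)
  intro z hz
  simp only [Set.mem_ofPred_eq, Set.mem_union] at hz ⊢
  tauto

/-- one step -/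
theorem fl2_step {μ μ' : Measure F.G} [IsProbabilityMeasure μ] [IsFiniteMeasure μ'] (A : Set F.G)
    {C : ℝ} (hC : 0 ≤ C) {y : F.G} (hy : F.rt μ y ≤ ENNReal.ofReal C • μ') (s : F.G) {η : ℝ}
    (hs : μ'.real {x | ¬(x ∈ A ↔ x * s ∈ A)} ≤ η) : F.fl2D μ A y (y * s) ≤ C * η := by
  have h1 := F.real_le_rt μ y {x | ¬(x ∈ A ↔ x * s ∈ A)}
  have h2 := real_le_of_le_smul hC hy {x | ¬(x ∈ A ↔ x * s ∈ A)}
  have h3 : F.fl2D μ A y (y * s) = μ.real {x | x * y ∈ {x | ¬(x ∈ A ↔ x * s ∈ A)}} := by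
    simp only [fl2D, Set.mem_ofPred_eq, mul_assoc]
  rw [h3, h1]
  exact h2.trans (mul_le_mul_of_nonneg_left hs hC)

/-- a segment in the positive direction -/
theorem fl2_line {μ μ' : Measure F.G} [IsProbabilityMeasure μ] [IsFiniteMeasure μ'] (A : Set F.G)
    {C t η₁ η₂ : ℝ} (hC : 0 ≤ C) (ht : 0 < t) (h1 : 0 ≤ η₁) (v : F.L)
    (hη₁ : μ'.real {x | ¬(x ∈ A ↔ x * F.lin v t ∈ A)} ≤ η₁)
    (hη₂ : ∀ s, |s| ≤ t → μ'.real {x | ¬(x ∈ A ↔ x * F.lin v s ∈ A)} ≤ η₂)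
    (y : F.G) {s : ℝ} (hs : 0 ≤ s)
    (hy : ∀ u, 0 ≤ u → u ≤ s → F.rt μ (y * F.lin v u) ≤ ENNReal.ofReal C • μ') :
    F.fl2D μ A y (y * F.lin v s) ≤ C * (η₁ * (s / t) + η₂) := by
  have key : ∀ n : ℕ, n * t ≤ s → F.fl2D μ A y (y * F.lin v (n * t)) ≤ n * (C * η₁) := by
    intro n
    induction n with
    | zero => intro _; simp [F.fl2D_self]
    | succ n ih =>
      intro hn
      push_cast at hn ⊢
      have hn' : n * t ≤ s := by nlinarith
      have h3 := F.fl2_step A hC (hy (n * t) (by positivity) hn') (F.lin v t) hη₁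
      have h4 := F.fl2D_tri μ A y (y * F.lin v (n * t)) (y * F.lin v (n * t) * F.lin v t)
      rw [add_mul, one_mul, F.lin_add, ← mul_assoc]
      have h5 := ih hn'
      linarith
  have hst : 0 ≤ s / t := by positivity
  have hn1 : (⌊s / t⌋₊ : ℝ) ≤ s / t := Nat.floor_le hst
  have hn2 : s / t < ⌊s / t⌋₊ + 1 := Nat.lt_floor_add_one _
  generalize ⌊s / t⌋₊ = n at hn1 hn2
  have hn3 : n * t ≤ s := (le_div_iff₀ ht).1 hn1
  have hn4 : s < (n + 1) * t := (div_lt_iff₀ ht).1 hn2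
  have h3 := F.fl2_step A hC (hy (n * t) (by positivity) hn3) (F.lin v (s - n * t))
    (hη₂ _ (abs_le.2 ⟨by linarith, by linarith⟩))
  rw [mul_assoc, ← F.lin_add, add_sub_cancel] at h3
  have h4 := F.fl2D_tri μ A y (y * F.lin v (n * t)) (y * F.lin v s)
  have h5 := key n hn3
  have h6 : n * (C * η₁) ≤ s / t * (C * η₁) := mul_le_mul_of_nonneg_right hn1 (by positivity)
  calc _ ≤ s / t * (C * η₁) + C * η₂ := by linarith
    _ = _ := by ring

/-- a segment in any direction -/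
theorem fl2_line' {μ μ' : Measure F.G} [IsProbabilityMeasure μ] [IsFiniteMeasure μ'] (A : Set F.G)
    {C t η₁ η₂ : ℝ} (hC : 0 ≤ C) (ht : 0 < t) (h1 : 0 ≤ η₁) (v : F.L)
    (hη₁ : μ'.real {x | ¬(x ∈ A ↔ x * F.lin v t ∈ A)} ≤ η₁)
    (hη₂ : ∀ s, |s| ≤ t → μ'.real {x | ¬(x ∈ A ↔ x * F.lin v s ∈ A)} ≤ η₂)
    (y : F.G) {s T : ℝ} (hs : |s| ≤ T)
    (hy : ∀ u, |u| ≤ T → F.rt μ (y * F.lin v u) ≤ ENNReal.ofReal C • μ') :
    F.fl2D μ A y (y * F.lin v s) ≤ C * (η₁ * (T / t) + η₂) := by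
  have hs' := abs_le.1 hs
  rcases le_total 0 s with h | h
  · refine (F.fl2_line A hC ht h1 v hη₁ hη₂ y h fun u hu hu' =>
      hy u (abs_le.2 ⟨by linarith, by linarith⟩)).trans ?_
    gcongr
    exact hs'.2
  · have h2 := F.fl2_line A hC ht h1 v hη₁ hη₂ (y * F.lin v s) (s := -s) (by linarith)
      fun u hu hu' => by
        rw [mul_assoc, ← F.lin_add]
        exact hy _ (abs_le.2 ⟨by linarith, by linarith⟩)
    rw [mul_assoc, ← F.lin_add, add_neg_cancel, F.lin_zero, mul_one, F.fl2D_comm] at h2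
    refine h2.trans ?_
    gcongr
    linarith

/-- a broken line -/
theorem fl2_list {μ : Measure F.G} [IsFiniteMeasure μ] (A : Set F.G) {α : Type} (f : α → F.G)
    {ε : ℝ} (l : List α)
    (h : ∀ (i : ℕ) (hi : i < l.length), F.fl2D μ A ((l.take i).map f).prod
      (((l.take i).map f).prod * f l[i]) ≤ ε) :
    F.fl2D μ A 1 (l.map f).prod ≤ l.length * ε := by
  have key : ∀ i : ℕ, i ≤ l.length → F.fl2D μ A 1 ((l.take i).map f).prod ≤ i * ε := by
    intro i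
    induction i with
    | zero => intro _; simp [F.fl2D_self]
    | succ i ih =>
      intro hi
      have h1 := F.fl2D_tri μ A 1 ((l.take i).map f).prod (((l.take i).map f).prod * f l[i])
      have h2 := h i hi
      have h3 := ih (Nat.le_of_succ_le hi)
      rw [List.take_add_one, List.getElem?_eq_getElem hi, Option.toList_some, List.map_append,
        List.prod_append]
      simp only [List.map_cons, List.map_nil, List.prod_cons, List.prod_nil, mul_one]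
      push_cast
      linarith
  simpa using key l.length le_rfl

/-- change of variables `d' = d g` -/
theorem fl2_change (ν la la' : Measure F.G) [IsProbabilityMeasure ν] [IsProbabilityMeasure la]
    [IsProbabilityMeasure la'] {A : Set F.G} (hA : MeasurableSet A) {C ε : ℝ} (hC : 0 ≤ C)
    (h : ∀ᵐ d ∂la, F.lt d⁻¹ la ≤ ENNReal.ofReal C • la')
    (h' : ∀ᵐ g ∂la', F.fl2D (F.conv ν la) A 1 g ≤ ε) :
    ((ν.prod la).prod la).real {p | p.1.1 * p.1.2 ∈ A ∧ p.1.1 * p.2 ∉ A} ≤ C * ε := by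
  have m1 : Measurable fun p : (F.G × F.G) × F.G => p.1.1 * p.1.2 := by fun_prop
  have hB : MeasurableSet {p : (F.G × F.G) × F.G | p.1.1 * p.1.2 ∈ A ∧ p.1.1 * p.2 ∉ A} :=
    (m1 hA).inter ((by fun_prop : Measurable fun p : (F.G × F.G) × F.G => p.1.1 * p.2) hA.compl)
  have hB' : MeasurableSet {p : (F.G × F.G) × F.G | p.1.1 * p.1.2 ∈ A ∧ p.1.1 * p.1.2 * p.2 ∉ A} :=
    (m1 hA).inter ((m1.mul measurable_snd) hA.compl)
  have h1 : ((ν.prod la).prod la').real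
      {p : (F.G × F.G) × F.G | p.1.1 * p.1.2 ∈ A ∧ p.1.1 * p.1.2 * p.2 ∉ A} ≤ ε := by
    refine prod_real_le _ _ hB' ?_
    filter_upwards [h'] with g hg
    refine le_trans ?_ hg
    refine le_trans ?_ (real_preimage_le_map (ν.prod la) measurable_mul _)
    refine measureReal_mono fun p hp => ?_
    simp only [Set.mem_ofPred_eq, Set.mem_preimage, mul_one] at hp ⊢
    tauto
  refine le_trans ?_ (mul_le_mul_of_nonneg_left h1 hC)
  have h2 : ((ν.prod la).prod la) {p | p.1.1 * p.1.2 ∈ A ∧ p.1.1 * p.2 ∉ A} ≤ ENNReal.ofReal C *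
      ((ν.prod la).prod la') {p | p.1.1 * p.1.2 ∈ A ∧ p.1.1 * p.1.2 * p.2 ∉ A} := by
    rw [Measure.prod_apply hB, Measure.prod_apply hB',
      ← lintegral_const_mul' _ _ ENNReal.ofReal_ne_top]
    refine lintegral_mono_ae ?_
    filter_upwards [Measure.quasiMeasurePreserving_snd.ae h] with p hp
    have h3 := Measure.le_iff'.1 hp (Prod.mk p ⁻¹'
      {p : (F.G × F.G) × F.G | p.1.1 * p.1.2 ∈ A ∧ p.1.1 * p.1.2 * p.2 ∉ A})
    rw [lt, Measure.map_apply (measurable_const_mul _) (measurable_prodMk_left hB'),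
      Measure.smul_apply, smul_eq_mul] at h3
    refine le_trans (le_of_eq ?_) h3
    congr 1
    ext g
    simp [mul_assoc]
  have h3 := ENNReal.toReal_mono (ENNReal.mul_ne_top ENNReal.ofReal_ne_top (measure_ne_top _ _)) h2
  rwa [ENNReal.toReal_mul, ENNReal.toReal_ofReal hC] at h3

/-- Change variables `(d, d') ↦ (d, g = (-d) • d')` (`hm_map_mul`): the law of `(d, g)` is at most `C`
times `uD R c ⊗ uD R c'`, `c' = C c`.  (Equivalently: for fixed `d`, the law of `g` is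
`lt (ofE (-d)) (uD R c) ≤ C • uD R c'`, `IsLN.map_unif_le`.)  For fixed `g` use `fac_D` at scale
`c'^{1/m} R` (`dn_scale'`), cut each line into `≤ C R / t` steps `± t` and one step of size `≤ t`; all
intermediate points `y` have `dn R y ≤ c₁'` (the constant of `uD_translate_le_uD2`), so
`P (x d y ∈ A xor x d y s ∈ A) ≤ C η_i` (`conv_le`, `rt_conv`); a step `-t` from `y` is a step `t` from
`y lin (-t)`. -/
theorem fl_prop (b : Module.Basis (Fin F.m) ℝ F.L) : ∃ c₁ : ℝ, 0 < c₁ ∧ c₁ ≤ 1 ∧ ∀ c : ℝ, 0 < c →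
    c ≤ c₁ → ∃ C : ℝ, 0 < C ∧ ∀ (ν : Measure F.G), IsProbabilityMeasure ν → ∀ A : Set F.G,
      MeasurableSet A → ∀ R t η₁ η₂ : ℝ, 0 < t → t ≤ c₁ * R → 0 ≤ η₁ → 0 ≤ η₂ →
      (∀ i, (F.conv ν (F.uD2 R)).real {x | ¬(x ∈ A ↔ x * F.lin (b i) t ∈ A)} ≤ η₁) →
      (∀ i s, |s| ≤ t → (F.conv ν (F.uD2 R)).real {x | ¬(x ∈ A ↔ x * F.lin (b i) s ∈ A)} ≤ η₂) →
      ((ν.prod (F.uD R c)).prod (F.uD R c)).real
        {p | p.1.1 * p.1.2 ∈ A ∧ p.1.1 * p.2 ∉ A} ≤ C * (η₁ * (R / t) + η₂) := by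
  obtain ⟨n₀, C₀, hC₀, hfac⟩ := F.fac_D b b.span_eq
  obtain ⟨c', hc'0, hc'1, hT⟩ := F.uD_translate_le_uD2
  obtain ⟨cs, hcs, -, hs⟩ := F.N.ln_prod_small
  obtain ⟨Ch, hCh, hhat⟩ := F.dn_hat
  obtain ⟨B, hB0, hB⟩ : ∃ B : ℝ, 0 ≤ B ∧ ∀ i, ‖b i‖ ≤ B :=
    ⟨∑ i, ‖b i‖, Finset.sum_nonneg fun _ _ => norm_nonneg _, fun i =>
      Finset.single_le_sum (f := fun i => ‖b i‖) (fun _ _ => norm_nonneg _) (Finset.mem_univ i)⟩
  have hK : 1 ≤ C₀ + Ch * C₀ * B := le_add_of_le_of_nonneg hC₀ (by positivity)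
  have hm0 : 0 < min cs (c' / 2) := lt_min hcs (by linarith)
  have hm1 := min_le_left cs (c' / 2)
  have hm2 := min_le_right cs (c' / 2)
  generalize min cs (c' / 2) = m at hm0 hm1 hm2
  obtain ⟨κ, hκ⟩ : ∃ κ, κ = m / (C₀ + Ch * C₀ * B) := ⟨_, rfl⟩
  have hκ0 : 0 < κ := by rw [hκ]; positivity
  have hκm : κ * (C₀ + Ch * C₀ * B) = m := by rw [hκ]; field_simp
  have hκ1 : κ ≤ 1 := by nlinarith
  have hp0 : 0 < κ ^ F.N.m := by positivity
  obtain ⟨c₂, h20, h21, hS⟩ := F.fol_small (κ ^ F.N.m) hp0 (pow_le_one₀ hκ0.le hκ1)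
  refine ⟨min c₂ c', lt_min h20 hc'0, (min_le_right _ _).trans hc'1, fun c hc hcc => ?_⟩
  have hc2 : c ≤ c₂ := hcc.trans (min_le_left _ _)
  obtain ⟨C₁, hC₁, hS⟩ := hS c hc hc2
  obtain ⟨C₂, hC₂, hT⟩ := hT c hc (hcc.trans (min_le_right _ _))
  refine ⟨C₁ * ((n₀ + 1) * (C₂ * C₀)), by positivity,
    fun ν _ A hA R t η₁ η₂ ht htR h1 h2 hη₁ hη₂ => ?_⟩
  have hR : 0 < R := (mul_pos_iff_of_pos_left (lt_min h20 hc'0)).1 (ht.trans_le htR)
  have := F.isProb_uD R hc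
  have := F.isProb_uD R hp0
  have hp := F.isLN_dn R
  have hκR : 0 < κ * R := by positivity
  have hκR' : κ * R ≤ R := mul_le_of_le_one_left hR.le hκ1
  rw [mul_assoc C₁]
  refine F.fl2_change ν _ (F.uD R (κ ^ F.N.m)) hA hC₁.le ?_ ?_
  · filter_upwards [F.uD_ae R hc] with d hd
    have h3 := hS R (-F.M.toE d) (F.D.neg_mem hd.1) 0 F.D.zero_mem
      (by rw [hp.neg hd.1]; exact hd.2.trans hc2) (by rw [hp.zero]; exact h20.le)
    rwa [F.M.ofE_zero, F.rt_one, ← F.ofE_inv_D hd.1, F.M.ofE_toE] at h3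
  · filter_upwards [F.uD_ae R hp0] with g hg
    have h3 : F.dn (κ * R) (F.M.toE g) ≤ 1 := by
      refine (F.dn_scale' hκR hκR' hg.1).trans ?_
      calc (R / (κ * R)) ^ F.N.m * F.dn R (F.M.toE g) ≤ (R / (κ * R)) ^ F.N.m * κ ^ F.N.m := by
            gcongr
            exact hg.2
        _ = 1 := by
            rw [← mul_pow, show R / (κ * R) * κ = 1 by field_simp, one_pow]
    obtain ⟨l, hl, hl1, hl2, hl3⟩ := hfac (κ * R) hκR _ hg.1 h3
    rw [F.M.ofE_toE] at hl2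
    rw [← hl2]
    refine (F.fl2_list A _ l (ε := C₂ * (η₁ * (C₀ * (κ * R) / t) + η₂)) fun i hi => ?_).trans ?_
    · obtain ⟨z, hz, hz1, hz2⟩ := hl3 i
      rw [hz2]
      refine F.fl2_line' A hC₂.le ht h1 _ (hη₁ _) (hη₂ _) _ (hl1 _ (List.getElem_mem hi))
        fun u hu => ?_
      have hu' := F.D.smul_mem u (F.hat_mem (b l[i].1))
      rw [F.rt_conv, lin, F.ofE_mul_D _ hu']
      refine F.conv_le ?_
      have h4 : F.dn R z ≤ κ * C₀ := by
        refine (F.dn_scale hκR hκR' hz).trans ?_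
        rw [mul_div_cancel_right₀ _ hR.ne']
        gcongr
      have h5 : F.dn R (u • F.hat (b l[i].1)) ≤ κ * (Ch * C₀ * B) := by
        refine (hhat R hR _ u).trans ?_
        calc Ch * |u| * ‖b l[i].1‖ / R ≤ Ch * (C₀ * (κ * R)) * B / R := by
              gcongr
              exact hB _
          _ = _ := by field_simp
      have h6 := hs F.D _ hp [z, u • F.hat (b l[i].1)] (by simp [hz, hu']) (by simp; nlinarith)
      simp only [List.map_cons, List.map_nil, List.sum_cons, List.sum_nil, NL.prod_cons,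
        NL.prod_nil, NL.mul_zero'] at h6
      have h7 := hT R 0 F.D.zero_mem _ (hp.mul_mem hz hu') (by rw [hp.zero]; exact hc'0.le)
        (by nlinarith)
      rwa [F.M.ofE_zero, F.fol_lt_one] at h7
    · have h4 : (l.length : ℝ) ≤ n₀ + 1 := by exact_mod_cast hl.trans (Nat.le_succ _)
      have h5 : η₁ * (C₀ * (κ * R) / t) + η₂ ≤ C₀ * (η₁ * (R / t) + η₂) := by
        calc η₁ * (C₀ * (κ * R) / t) + η₂ ≤ η₁ * (C₀ * R / t) + C₀ * η₂ := by
              gcongr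
              exact le_mul_of_one_le_left h2 hC₀
          _ = _ := by ring
      calc l.length * (C₂ * (η₁ * (C₀ * (κ * R) / t) + η₂))
          ≤ (n₀ + 1) * (C₂ * (C₀ * (η₁ * (R / t) + η₂))) := by gcongr
        _ = _ := by ring

end Frame

end Crest.Agent.R182
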