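import Crest.Agent.R182.Mono
import Crest.Agent.R182.GeoFol

/-! Row 182, task `R182/FL3`: monotonicity for the smoothed measure. -/

set_option autoImplicit false

namespace Crest.Agent.R182

open scoped BigOperators
open MeasureTheory

namespace Frame

variable (F : Frame)

theorem fl3_scale {r b : ℝ} (hr : 0 < r) (hb : 1 ≤ b) :
    F.uD r 1 ≤ ENNReal.ofReal ((b ^ F.N.m) ^ Module.finrank ℝ F.D) • F.uD (b * r) 1 := by
  have hrB : r ≤ b * r := le_mul_of_one_le_left hr.le hb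
  have h := fol_dom ((F.isLN_dn r).div one_pos le_rfl) ((F.isLN_dn (b * r)).div one_pos le_rfl)
    F.D.zero_mem F.D.zero_mem (fun z hz hz' => by
      rw [F.N.zero_mul', F.N.mul_zero', div_one]
      rw [div_one] at hz'
      refine (F.dn_scale hr hrB hz).trans (mul_le_one₀ ?_ ((F.isLN_dn r).nonneg hz) hz')
      rw [div_le_one (hr.trans_le hrB)]
      exact hrB) (K := b ^ F.N.m) (by positivity) fun z hz => by
      have h2 := F.dn_scale' hr hrB hz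
      rw [mul_div_cancel_right₀ _ hr.ne'] at h2
      rwa [div_one, div_one]
  simp only [NL.zero_mul', NL.mul_zero', Measure.map_id'] at h
  exact F.fol_map_le h

theorem fl3_real_le {ν la la' : Measure F.G} [IsProbabilityMeasure ν] [IsProbabilityMeasure la]
    [IsProbabilityMeasure la'] {C : ℝ} (hC : 0 ≤ C) {g : F.G}
    (h : F.rt la g ≤ ENNReal.ofReal C • la') (A : Set F.G) :
    (F.conv ν la).real {x | x * g ∈ A} ≤ C * (F.conv ν la').real A := by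
  rw [F.real_le_rt, F.rt_conv]
  exact real_le_of_le_smul hC (F.conv_le h) A

/-- `ν₂ = conv ν (uD2 R)`, `n = ⌊R⌋`.  `ν' = conv ν (uD (B R) 1)` with `B` from `uD2_translate_le`
(for the translates by `lin v (-s)`, `s ≤ n`) satisfies `BInv (A n)` (`binv_conv`), and its translates
by `lin v s` are dominated by `ν'' = conv ν (uD (B' R) 1)`: (`uD_translate_le` at scale `B R`,
`rt_conv`, `conv_le`).  For each `s < n - t`, `ν₂ {x ∈ Down, x lin t ∈ Up} ≤ C ν' {x lin s ∈ Down,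
x lin (s + t) ∈ Up}`; average over `s` and use `mono_bits`. -/
theorem fl_mono (K : ℝ) (v : F.L) : ∃ A B r₀ : ℝ, 1 ≤ A ∧ 1 ≤ B ∧ ∀ B' : ℝ, B ≤ B' → ∀ η : ℝ,
    0 < η → ∃ ε : ℝ, 0 < ε ∧ ∀ r₁ : ℝ, ∃ R₀ τ : ℝ, 0 < τ ∧ ∀ f q, F.QI K f q → ∀ R S : ℝ, R₀ ≤ R →
      A * R ≤ S → ∀ ν : Measure F.G, IsProbabilityMeasure ν → F.BInv ν (fun _ => S) τ →
      ∀ (r : ℝ) (𝒢 : F.W → Set F.G), r₀ ≤ r → r ≤ r₁ → F.Lab f r ε 𝒢 →
        (F.conv ν (F.uD (B' * R) 1)).real (⋃ w, 𝒢 w)ᶜ ≤ ε →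
        ∀ (j : F.J) (t : ℕ), (t : ℝ) ≤ R / 4 → (F.conv ν (F.uD2 R)).real
          {x | x ∈ F.Down 𝒢 j v ∧ x * F.lin v t ∈ F.Up 𝒢 j v} ≤ η := by
  obtain ⟨Cd, hCd, hdn⟩ := F.dn_hat
  obtain ⟨B₁, C₁, hB₁, hC₁, h₁⟩ := F.uD2_translate_le (Cd * ‖v‖)
  obtain ⟨B₂, hB₂, h₂⟩ := F.uD_translate_le (Cd * ‖v‖)
  obtain ⟨C₂, hC₂, h₂⟩ := h₂ 1 one_pos le_rfl
  obtain ⟨C₄, hC₄, h₄⟩ := F.binv_conv 1
  obtain ⟨A, r₀, hA, hm⟩ := F.mono_bits K v
  have hA₀ : 0 ≤ Cd * ‖v‖ := by positivity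
  have hdn' : ∀ r t : ℝ, 0 < r → |t| ≤ r → F.dn r (t • F.hat v) ≤ Cd * ‖v‖ := by
    intro r t hr ht
    refine (hdn r hr v t).trans ?_
    rw [div_le_iff₀ hr]
    nlinarith
  have hB : 1 ≤ B₂ * B₁ := one_le_mul_of_one_le_of_one_le hB₂ hB₁
  have hCB : 0 ≤ C₄ * B₁ := by positivity
  refine ⟨A + C₄ * B₁, B₂ * B₁, max r₀ 0, by linarith, hB, fun B' hB' η hη => ?_⟩
  obtain ⟨ε₀, hε₀, hm⟩ := hm (η / (2 * C₁)) (by positivity)
  have hb : 1 ≤ B' / (B₂ * B₁) := by rwa [le_div_iff₀ (by linarith), one_mul]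
  obtain ⟨C₃, hC₃⟩ : ∃ C₃ : ℝ, C₃ = ((B' / (B₂ * B₁)) ^ F.N.m) ^ Module.finrank ℝ F.D := ⟨_, rfl⟩
  have hC₃0 : 0 < C₃ := by
    rw [hC₃]
    positivity
  refine ⟨min ε₀ (ε₀ / (C₂ * C₃)), by positivity, fun r₁ => ?_⟩
  obtain ⟨n₀, τ, hτ, hm⟩ := hm r₁
  refine ⟨max n₀ 1, τ, hτ, fun f q hq R S hR hS ν hν hbi r 𝒢 hr hr₁ hlab hbad j t ht => ?_⟩
  have hR1 : 1 ≤ R := (le_max_right _ _).trans hR
  have hR0 : 0 < R := by linarith
  have hRB : R ≤ B₁ * R := le_mul_of_one_le_left hR0.le hB₁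
  have hnR : (⌊R⌋₊ : ℝ) ≤ R := Nat.floor_le hR0.le
  have hn1 : 1 ≤ ⌊R⌋₊ := Nat.le_floor (by simpa using hR1)
  have hRn : R < ⌊R⌋₊ + 1 := Nat.lt_floor_add_one R
  have hn0 : n₀ ≤ ⌊R⌋₊ := Nat.le_floor ((le_max_left _ _).trans hR)
  generalize ⌊R⌋₊ = n at hnR hn1 hRn hn0
  have hn1' : (1 : ℝ) ≤ n := by exact_mod_cast hn1
  have i1 := F.isProb_uD (B₁ * R) one_pos
  have i2 := F.isProb_uD (B' * R) one_pos
  have hdom : ∀ s : ℝ, |s| ≤ R → F.rt (F.uD (B₁ * R) 1) (F.lin v s) ≤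
      ENNReal.ofReal (C₂ * C₃) • F.uD (B' * R) 1 := by
    intro s hs
    have h3 := h₂ (B₁ * R) (by linarith) 0 F.D.zero_mem _ (F.D.smul_mem s (F.hat_mem v))
      (by rw [(F.isLN_dn _).zero]; exact hA₀) (hdn' _ s (by linarith) (hs.trans hRB))
    rw [Model.ofE_zero, F.fol_lt_one] at h3
    have h5 := F.fl3_scale (r := B₂ * (B₁ * R)) (by positivity) hb
    rw [← hC₃, show B' / (B₂ * B₁) * (B₂ * (B₁ * R)) = B' * R by field_simp] at h5
    rw [ENNReal.ofReal_mul hC₂.le, mul_smul]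
    exact h3.trans (fol_smul_mono _ h5)
  have key := hm f q hq n hn0 (F.conv ν (F.uD (B₁ * R) 1)) inferInstance
    (h₄ ν _ S (A * n) (B₁ * R) τ (by linarith) (by positivity) (by nlinarith)
      (F.uD_ae _ one_pos) hbi) r 𝒢 ((le_max_left _ _).trans hr) hr₁
    ⟨hlab.1, fun w w' z z' hz hz' hd => ⟨(hlab.2 w w' z z' hz hz' hd).1,
      (hlab.2 w w' z z' hz hz' hd).2.trans
        (mul_le_mul_of_nonneg_right (min_le_left _ _) ((le_max_right _ _).trans hr))⟩⟩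
    (fun s hs => by
      have hs' : (s : ℝ) ≤ n := by exact_mod_cast hs.le
      refine (F.fl3_real_le (by positivity) (hdom s (by rw [Nat.abs_cast]; linarith))
        (⋃ w, 𝒢 w)ᶜ).trans ?_
      rw [← le_div_iff₀' (by positivity)]
      exact hbad.trans (min_le_right _ _)) j t
  have hone : ∀ s ∈ Finset.range (n - t), (F.conv ν (F.uD2 R)).real
      {x | x ∈ F.Down 𝒢 j v ∧ x * F.lin v t ∈ F.Up 𝒢 j v} ≤ C₁ * (F.conv ν (F.uD (B₁ * R) 1)).real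
        {x | x * F.lin v s ∈ F.Down 𝒢 j v ∧ x * F.lin v ((s + t : ℕ) : ℝ) ∈ F.Up 𝒢 j v} := by
    intro s hs
    have hs' : (s : ℝ) ≤ n := by exact_mod_cast (Finset.mem_range.1 hs).le.trans (Nat.sub_le _ _)
    refine le_trans (le_of_eq ?_) (F.fl3_real_le hC₁.le (g := F.lin v (-s))
      (h₁ R hR0 _ (F.D.smul_mem _ (F.hat_mem v))
        (hdn' R _ hR0 (by rw [abs_neg, Nat.abs_cast]; linarith))) _)
    congr 1
    ext x
    simp only [Set.mem_setOf_eq, mul_assoc, ← F.lin_add, Nat.cast_add, neg_add_cancel, lin_zero,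
      mul_one, neg_add_cancel_left]
  have h6 := Finset.sum_le_sum hone
  rw [Finset.sum_const, Finset.card_range, nsmul_eq_mul, ← Finset.mul_sum] at h6
  have h7 := h6.trans (mul_le_mul_of_nonneg_left key hC₁.le)
  have htn : t ≤ n := by
    have : (t : ℝ) ≤ n := by linarith
    exact_mod_cast this
  rw [Nat.cast_sub htn, show C₁ * (η / (2 * C₁) * n) = η * (n / 2) by field_simp] at h7
  by_contra hc
  rw [not_le] at hc
  have h8 : (n : ℝ) / 2 ≤ n - t := by linarith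
  have h9 := mul_le_mul_of_nonneg_right h8 (hη.le.trans hc.le)
  nlinarith

end Frame

end Crest.Agent.R182
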