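import Crest.Agent.R182.Defs2
import Crest.Agent.R182.GeoFol
import Crest.Agent.R182.LinNrm

/-! Row 182, task `R182/FL`: auxiliary lemmas. -/

set_option autoImplicit false

namespace Crest.Agent.R182

open scoped BigOperators
open MeasureTheory

theorem fla_lb {ι : Type} [Finite ι] (f : ι → ℝ) (hf : ∀ i, 0 < f i) :
    ∃ c : ℝ, 0 < c ∧ c ≤ 1 ∧ ∀ i, c ≤ f i := by
  obtain ⟨B, hB⟩ := Finite.exists_le fun i => (f i)⁻¹
  refine ⟨(max B 1)⁻¹, by positivity, inv_le_one_of_one_le₀ (le_max_right _ _), fun i => ?_⟩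
  exact inv_le_of_inv_le₀ (hf i) ((hB i).trans (le_max_left _ _))

theorem fla_ub {ι : Type} [Finite ι] (f : ι → ℝ) : ∃ C : ℝ, 1 ≤ C ∧ ∀ i, f i ≤ C := by
  obtain ⟨B, hB⟩ := Finite.exists_le f
  exact ⟨max B 1, le_max_right _ _, fun i => (hB i).trans (le_max_left _ _)⟩

namespace Frame

variable (F : Frame)

/-- small balls are dominated by large ones -/
theorem fla_dom {B c : ℝ} (hB : 1 ≤ B) (hc : 0 < c) (hc1 : c ≤ 1) : ∃ C : ℝ, 0 < C ∧ ∀ r : ℝ,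
    0 < r → F.uD r c ≤ ENNReal.ofReal C • F.uD (B * r) 1 := by
  have hK : 0 < B ^ F.N.m / c := by positivity
  refine ⟨(B ^ F.N.m / c) ^ Module.finrank ℝ F.D, by positivity, fun r hr => ?_⟩
  have hrr : r ≤ B * r := le_mul_of_one_le_left hr.le hB
  have h := fol_dom ((F.isLN_dn r).div hc hc1) ((F.isLN_dn (B * r)).div one_pos le_rfl)
    F.D.zero_mem F.D.zero_mem ?_ hK ?_
  · simp only [NL.zero_mul', NL.mul_zero', Measure.map_id'] at h
    exact F.fol_map_le h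
  · intro z hz hz1
    rw [NL.zero_mul', NL.mul_zero', div_one]
    have h1 := F.dn_scale hr hrr hz
    have h2 : r / (B * r) ≤ 1 := (div_le_one (hr.trans_le hrr)).2 hrr
    have h3 := (F.isLN_dn r).nonneg hz
    have h4 : F.dn r z ≤ c := (div_le_one hc).1 hz1
    have h5 : r / (B * r) * F.dn r z ≤ 1 * F.dn r z := mul_le_mul_of_nonneg_right h2 h3
    linarith
  · intro z hz
    have h1 := F.dn_scale' hr hrr hz
    rw [mul_div_assoc, div_self hr.ne', mul_one] at h1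
    rw [div_one, div_mul_eq_mul_div]
    exact div_le_div_of_nonneg_right h1 hc.le

theorem fla_dom2 : ∃ B₀ : ℝ, 1 ≤ B₀ ∧ ∀ B : ℝ, B₀ ≤ B → ∃ C : ℝ, 0 < C ∧ ∀ r : ℝ, 0 < r →
    F.uD2 r ≤ ENNReal.ofReal C • F.uD (B * r) 1 := by
  obtain ⟨B₀, C₀, hB₀, hC₀, h⟩ := F.uD2_translate_le 0
  refine ⟨B₀, hB₀, fun B hB => ?_⟩
  have hB0 : 0 < B₀ := by linarith
  obtain ⟨C, hC, h'⟩ := F.fla_dom (B := B / B₀) ((one_le_div hB0).2 hB) one_pos le_rfl
  refine ⟨C₀ * C, by positivity, fun r hr => ?_⟩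
  have h1 := h r hr 0 F.D.zero_mem (F.isLN_dn r).zero.le
  rw [Model.ofE_zero, F.rt_one] at h1
  have h2 := h' (B₀ * r) (by positivity)
  rw [show B / B₀ * (B₀ * r) = B * r by field_simp] at h2
  refine h1.trans ((fol_smul_mono _ h2).trans (le_of_eq ?_))
  rw [smul_smul, ENNReal.ofReal_mul hC₀.le]

variable {F}

theorem Lab.fla_mono {f : F.G → F.G} {r ε ε' : ℝ} {𝒢 : F.W → Set F.G} (h : F.Lab f r ε 𝒢)
    (hr : 0 ≤ r) (hε : ε ≤ ε') : F.Lab f r ε' 𝒢 :=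
  ⟨h.1, fun w w' z z' hz hz' hd => ⟨(h.2 w w' z z' hz hz' hd).1,
    (h.2 w w' z z' hz hz' hd).2.trans (mul_le_mul_of_nonneg_right hε hr)⟩⟩

theorem Lab.fla_disj {f : F.G → F.G} {r ε : ℝ} {𝒢 : F.W → Set F.G} (h : F.Lab f r ε 𝒢)
    (hr : 0 ≤ r) (w w' : F.W) (z : F.G) (hz : z ∈ 𝒢 w) (hz' : z ∈ 𝒢 w') : w = w' :=
  (h.2 w w' z z hz hz' (by rw [F.M.dd_self]; exact hr)).1

theorem fla_meas_up {𝒢 : F.W → Set F.G} (h : ∀ w, MeasurableSet (𝒢 w)) (j : F.J) (v : F.L) :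
    MeasurableSet (F.Up 𝒢 j v) := by
  have : F.Up 𝒢 j v = ⋃ w, 𝒢 w ∩ {_x | 0 < F.μ j (w.1 (F.φL v))} := by
    ext x
    simp [Up]
  rw [this]
  exact MeasurableSet.iUnion fun w => (h w).inter (MeasurableSet.const _)

/-- small steps -/
theorem fla_small (ν : Measure F.G) [IsProbabilityMeasure ν] {f : F.G → F.G} {r ε : ℝ}
    {𝒢 : F.W → Set F.G} (hL : F.Lab f r ε 𝒢) (j : F.J) {v : F.L} (hv : F.Gen v) {t η ρ : ℝ}
    (hU : ν.real (⋃ w, 𝒢 w)ᶜ ≤ η) (hinv : ∀ s, |s| ≤ t → F.RInv ν (F.lin v s) ρ)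
    (hmono : ∀ n : ℕ, (n : ℝ) ≤ t →
      ν.real {x | x ∈ F.Down 𝒢 j v ∧ x * F.lin v n ∈ F.Up 𝒢 j v} ≤ η)
    (hr : ∀ s, |s| ≤ 1 → F.M.len (F.lin v s) ≤ r) (s : ℝ) (hs : |s| ≤ t) :
    ν.real {x | ¬(x ∈ F.Up 𝒢 j v ↔ x * F.lin v s ∈ F.Up 𝒢 j v)} ≤ 6 * η + 4 * ρ := by
  set A := F.Up 𝒢 j v with hA
  have hAm : MeasurableSet A := fla_meas_up hL.1 j v
  have hρ : 0 ≤ ρ := (hinv s hs).nonneg
  -- integer steps
  have h1 : ∀ n : ℕ, (n : ℝ) ≤ t →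
      ν.real {x | ¬(x ∈ A ↔ x * F.lin v n ∈ A)} ≤ 4 * η + ρ := by
    intro n hn
    set B : Set F.G := {x | x * F.lin v n ∈ A} with hB
    have hBm : MeasurableSet B := (measurable_mul_const _) hAm
    have a1 : ν.real (B \ A) ≤ 2 * η := by
      have : B \ A ⊆ (⋃ w, 𝒢 w)ᶜ ∪ {x | x ∈ F.Down 𝒢 j v ∧ x * F.lin v n ∈ A} := by
        rintro x ⟨hxB, hxA⟩
        by_cases hx : x ∈ ⋃ w, 𝒢 w
        · obtain ⟨w, hw⟩ := Set.mem_iUnion.1 hx
          refine Or.inr ⟨⟨w, hw, ?_⟩, hxB⟩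
          rcases lt_or_gt_of_ne (hv w j) with h | h
          · exact h
          · exact absurd ⟨w, hw, h⟩ hxA
        · exact Or.inl hx
      have h2 := (measureReal_mono (μ := ν) this).trans (measureReal_union_le _ _)
      linarith [hmono n hn]
    have a2 : ν.real A ≤ ν.real B + ρ := by
      have := hinv n (by rwa [Nat.abs_cast]) A hAm
      rwa [← F.real_le_rt] at this
    have a3 := measureReal_inter_add_sdiff (μ := ν) (s := A) hBm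
    have a4 := measureReal_inter_add_sdiff (μ := ν) (s := B) hAm
    rw [Set.inter_comm] at a4
    have a5 : {x | ¬(x ∈ A ↔ x * F.lin v n ∈ A)} ⊆ (A \ B) ∪ (B \ A) := by
      intro x hx
      simp only [Set.mem_ofPred_eq, Set.mem_union, Set.mem_diff, hB] at hx ⊢
      tauto
    have a6 := (measureReal_mono (μ := ν) a5).trans (measureReal_union_le _ _)
    linarith
  -- nonnegative real steps
  have h2 : ∀ s : ℝ, 0 ≤ s → s ≤ t →
      ν.real {x | ¬(x ∈ A ↔ x * F.lin v s ∈ A)} ≤ 6 * η + 3 * ρ := by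
    intro s hs0 hst
    have hn1 : (⌊s⌋₊ : ℝ) ≤ s := Nat.floor_le hs0
    have hn2 : s < ⌊s⌋₊ + 1 := Nat.lt_floor_add_one s
    have hd : ∀ x : F.G, F.M.dd (x * F.lin v ⌊s⌋₊) (x * F.lin v s) ≤ r := by
      intro x
      rw [F.M.dd_mul_mul, ← F.lin_neg, ← F.lin_add]
      exact hr _ (abs_le.2 ⟨by linarith, by linarith⟩)
    have b1 : {x | ¬(x ∈ A ↔ x * F.lin v s ∈ A)} ⊆
        ({x | ¬(x ∈ A ↔ x * F.lin v ⌊s⌋₊ ∈ A)} ∪ {x | x * F.lin v ⌊s⌋₊ ∈ (⋃ w, 𝒢 w)ᶜ}) ∪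
          {x | x * F.lin v s ∈ (⋃ w, 𝒢 w)ᶜ} := by
      intro x hx
      by_contra hcon
      simp only [Set.mem_union, Set.mem_ofPred_eq, not_or, not_not, Set.mem_compl_iff,
        Set.mem_iUnion] at hcon hx
      obtain ⟨⟨c1, w, hw⟩, w', hw'⟩ := hcon
      apply hx
      rw [c1]
      constructor
      · rintro ⟨w'', h3, h4⟩
        obtain rfl := (hL.2 w'' w' _ _ h3 hw' (hd x)).1
        exact ⟨_, hw', h4⟩
      · rintro ⟨w'', h3, h4⟩
        obtain rfl := (hL.2 w w'' _ _ hw h3 (hd x)).1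
        exact ⟨_, hw, h4⟩
    have b2 := (measureReal_mono (μ := ν) b1).trans ((measureReal_union_le _ _).trans
      (add_le_add_left (measureReal_union_le _ _) _))
    have b3 := (hinv ⌊s⌋₊ (by rw [Nat.abs_cast]; linarith)).real_le (⋃ w, 𝒢 w)ᶜ
    have b4 := (hinv s (by rwa [abs_of_nonneg hs0])).real_le (⋃ w, 𝒢 w)ᶜ
    have b5 := h1 ⌊s⌋₊ (by linarith)
    linarith
  rcases le_total 0 s with h0 | h0
  · have := h2 s h0 ((le_abs_self s).trans hs)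
    linarith
  · have c1 := h2 (-s) (by linarith) ((neg_le_abs s).trans hs)
    have c2 := (hinv s hs).real_le {x | ¬(x ∈ A ↔ x * F.lin v (-s) ∈ A)}
    have c3 : {x | ¬(x ∈ A ↔ x * F.lin v s ∈ A)} =
        {x | x * F.lin v s ∈ {x | ¬(x ∈ A ↔ x * F.lin v (-s) ∈ A)}} := by
      ext x
      simp only [Set.mem_ofPred_eq, F.lin_neg, mul_inv_cancel_right]
      tauto
    rw [c3]
    linarith

end Frame

end Crest.Agent.R182
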