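import Crest.Agent.R182.GeoLen

/-! Row 182, task `R182/GeoAd`: conjugation of boxes and transport of invariance. -/

set_option autoImplicit false

namespace Crest.Agent.R182

open scoped BigOperators
open MeasureTheory

/-- `f` is exponentially bounded with respect to `L` -/
def gAEb {ι : Type} (L f : ι → ℝ) : Prop := ∃ C : ℝ, 1 ≤ C ∧ ∀ i, f i ≤ Real.exp (C * L i)

section Eb

variable {ι : Type} {L f g : ι → ℝ}

theorem gAEb.const (hL : ∀ i, 1 ≤ L i) (c : ℝ) : gAEb L fun _ => c := by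
  refine ⟨|c| + 1, by linarith [abs_nonneg c], fun i => ?_⟩
  have h1 := Real.add_one_le_exp ((|c| + 1) * L i)
  have h2 : (|c| + 1) * 1 ≤ (|c| + 1) * L i := mul_le_mul_of_nonneg_left (hL i) (by positivity)
  linarith [le_abs_self c]

theorem gAEb.mul (hf : gAEb L f) (hg : gAEb L g) (hg0 : ∀ i, 0 ≤ g i) :
    gAEb L fun i => f i * g i := by
  obtain ⟨C, hC, hf⟩ := hf
  obtain ⟨C', hC', hg⟩ := hg
  refine ⟨C + C', by linarith, fun i => ?_⟩
  rw [add_mul, Real.exp_add]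
  exact mul_le_mul (hf i) (hg i) (hg0 i) (Real.exp_pos _).le

theorem gAEb.one_add (hL : ∀ i, 1 ≤ L i) (hf : gAEb L f) : gAEb L fun i => 1 + f i := by
  obtain ⟨C, hC, hf⟩ := hf
  refine ⟨C + 1, by linarith, fun i => ?_⟩
  rw [add_mul, Real.exp_add, one_mul]
  have h1 := Real.add_one_le_exp (L i)
  have h2 : 1 ≤ Real.exp (C * L i) := Real.one_le_exp (by have := hL i; positivity)
  nlinarith [hf i, hL i]

theorem gAEb.pow (hL : ∀ i, 1 ≤ L i) (hf : gAEb L f) (hf0 : ∀ i, 0 ≤ f i) (e : ℕ) :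
    gAEb L fun i => f i ^ e := by
  induction e with
  | zero => simpa using gAEb.const hL 1
  | succ e ih => simpa only [pow_succ] using ih.mul hf hf0

theorem gAEb.exp (hL : ∀ i, 1 ≤ L i) (c : ℝ) : gAEb L fun i => Real.exp (c * L i) :=
  ⟨|c| + 1, by linarith [abs_nonneg c], fun i => Real.exp_le_exp.2
    (mul_le_mul_of_nonneg_right (by linarith [le_abs_self c]) (by linarith [hL i]))⟩

theorem gAEb.mono (hf : gAEb L f) (h : ∀ i, g i ≤ f i) : gAEb L g := by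
  obtain ⟨C, hC, hf⟩ := hf
  exact ⟨C, hC, fun i => (h i).trans (hf i)⟩

theorem gA_log {x : ℝ} (hx : 0 ≤ x) : 1 ≤ 2 * Real.log (2 + x) := by
  have h1 : Real.log 2 ≤ Real.log (2 + x) := Real.log_le_log (by norm_num) (by linarith)
  linarith [Real.log_two_gt_d9]

end Eb

namespace Frame

variable (F : Frame)

theorem gA_span (j : F.J) {x : F.E} (hx : x ∈ Submodule.span ℝ
    {x | ∃ l : List F.J, l ≠ [] ∧ (l.map F.μ).sum = F.μ j ∧ x = F.N.mon F.X l}) :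
    x ∈ F.R ∧ ∃ C : ℝ, 0 ≤ C ∧ ∀ h, F.Adm h → F.bx h x ≤ C * Real.exp (-h j) := by
  induction hx using Submodule.span_induction with
  | mem x hx =>
    obtain ⟨l, hl, hμ, rfl⟩ := hx
    have hl' : ∃ i ∈ l, i ∈ (Set.univ : Set F.J) := by
      obtain ⟨i, hi⟩ := List.exists_mem_of_ne_nil l hl
      exact ⟨i, hi, trivial⟩
    refine ⟨F.N.mon_mem F.X hl', 2 ^ F.N.m, by positivity, fun h hh => ?_⟩
    refine (F.N.bI_mon F.X h hl').trans ?_
    gcongr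
    exact hh j l hl hμ
  | zero => exact ⟨F.R.zero_mem, 0, le_rfl, fun h _ => by rw [(F.isLN_bx h).zero, zero_mul]⟩
  | add x y _ _ hx hy =>
    obtain ⟨hx, C, hC, h1⟩ := hx
    obtain ⟨hy, C', hC', h2⟩ := hy
    refine ⟨F.R.add_mem hx hy, C + C', by positivity, fun h hh => ?_⟩
    have := (F.isLN_bx h).add_le x hx y hy
    linarith [h1 h hh, h2 h hh]
  | smul c x _ hx =>
    obtain ⟨hx, C, hC, h1⟩ := hx
    refine ⟨F.R.smul_mem c hx, |c| * C, by positivity, fun h hh => ?_⟩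
    rw [(F.isLN_bx h).smul c x hx, mul_assoc]
    exact mul_le_mul_of_nonneg_left (h1 h hh) (abs_nonneg c)

theorem gA_bx_nonneg (h : F.J → ℝ) (x : F.E) : 0 ≤ F.bx h x := F.N.bI_nonneg F.X _ h x

theorem gA_br_a : ∃ C : ℝ, 0 ≤ C ∧ ∀ h, F.Adm h → ∀ i, ∀ y ∈ F.R,
    F.bx h (F.N.br (F.a i) y) ≤ C * F.bx h y := by
  choose C hC0 hC using fun q : Fin F.m × F.J => (F.gA_span q.2 (F.br_a q.1 q.2)).2
  obtain ⟨C₁, hC₁, H⟩ := F.N.bI_deriv F.X
  have hA : 0 ≤ ∑ q, C q := Finset.sum_nonneg fun q _ => hC0 q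
  refine ⟨C₁ * ∑ q, C q, by positivity, fun h hh i y hy => ?_⟩
  refine (H h (F.a i) _ hA (fun j => ⟨F.R_br _ (F.X_mem j), ?_⟩) y hy).2
  refine (hC (i, j) h hh).trans (mul_le_mul_of_nonneg_right ?_ (Real.exp_pos _).le)
  exact Finset.single_le_sum (fun q _ => hC0 q) (Finset.mem_univ (i, j))

theorem gA_br_mon : ∃ K : ℝ, 1 ≤ K ∧ ∀ h, F.Adm h → ∀ l : List (Fin F.m), ∀ y ∈ F.R,
    F.bx h (F.N.br (F.N.mon F.a l) y) ≤ K ^ l.length * F.bx h y := by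
  obtain ⟨C, hC, H⟩ := F.gA_br_a
  refine ⟨2 * C + 1, by linarith, fun h hh l => ?_⟩
  induction l with
  | nil =>
    intro y _
    simp only [NL.mon, map_zero, LinearMap.zero_apply, List.length_nil, pow_zero, one_mul]
    rw [(F.isLN_bx h).zero]
    exact F.gA_bx_nonneg h y
  | cons i l ih =>
    intro y hy
    have h0 := F.gA_bx_nonneg h y
    by_cases hl : l = []
    · subst hl
      simp only [NL.mon, List.length_cons, List.length_nil, zero_add, pow_one]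
      nlinarith [H h hh i y hy]
    rw [F.N.mon_cons F.a i hl, F.N.ba_br_br, sub_eq_add_neg, List.length_cons, pow_succ]
    have m1 := F.R_br (F.N.mon F.a l) hy
    have m2 := F.R_br (F.a i) hy
    have a1 := (F.isLN_bx h).add_le _ (F.R_br (F.a i) m1) _
      (F.R.neg_mem (F.R_br (F.N.mon F.a l) m2))
    rw [(F.isLN_bx h).neg (F.R_br (F.N.mon F.a l) m2)] at a1
    have a2 := H h hh i _ m1
    have a3 := mul_le_mul_of_nonneg_left (ih y hy) hC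
    have hK : 0 ≤ (2 * C + 1) ^ l.length := by positivity
    have a4 := ih _ m2
    have a5 := mul_le_mul_of_nonneg_left (H h hh i y hy) hK
    have a6 := mul_nonneg hK h0
    nlinarith

theorem gA_br_D : ∃ C : ℝ, 1 ≤ C ∧ ∀ h, F.Adm h → ∀ d ∈ F.D, ∀ y ∈ F.R,
    F.bx h (F.N.br d y) ≤ C * ‖d‖ * F.bx h y := by
  obtain ⟨K, hK, H⟩ := F.gA_br_mon
  obtain ⟨C₀, hC₀, H₀⟩ := F.N.bI_zero_norm F.a
  refine ⟨K ^ F.N.m * C₀, one_le_mul_of_one_le_of_one_le (one_le_pow₀ hK) hC₀,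
    fun h hh d hd y hy => ?_⟩
  have h0 := F.gA_bx_nonneg h y
  have hA : 0 ≤ K ^ F.N.m * F.bx h y := by positivity
  have h1 := (F.N.le_bI F.a F.R (F.bx h) (F.isLN_bx h).add_le (F.isLN_bx h).smul
    (F.N.br.flip y) (P := Set.univ) 0 hA (fun l _ hl => ⟨F.R_br _ hy, by
      have e : sz (0 : Fin F.m → ℝ) l = 0 := by
        have := sz_const (ι := Fin F.m) 0 l
        rwa [mul_zero] at this
      rw [e, neg_zero, Real.exp_zero, mul_one, LinearMap.flip_apply]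
      exact (H h hh l y hy).trans
        (mul_le_mul_of_nonneg_right (pow_le_pow_right₀ hK hl) h0)⟩) hd).2
  rw [LinearMap.flip_apply] at h1
  have h2 := mul_le_mul_of_nonneg_left (H₀ Set.univ d hd).2 hA
  have h3 : (1 : ℝ) ≤ 2 ^ F.N.m := one_le_pow₀ (by norm_num)
  have h4 := F.gA_bx_nonneg h (F.N.br d y)
  nlinarith

theorem gA_len (g : F.G) : 1 ≤ F.M.len g + 1 := by linarith [F.M.len_nonneg g]

theorem gA_toE : gAEb (fun g : F.G => F.M.len g + 1) fun g => ‖F.M.toE g‖ := by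
  obtain ⟨C, -, H⟩ := F.M.norm_toE_le
  exact (gAEb.exp F.gA_len C).mono H

/-- For admissible `h`, `bx h [a i, X j] ≤ C exp (-h j)` (`br_a`: fix finite combinations; `bI_mon`),
so `bx h [a i, y] ≤ C bx h y` (`bI_deriv`); hence `bx h [d, y] ≤ C ‖d‖ bx h y` for `d ∈ D` (`D` is spanned
by finitely many monomials in the `a i`, `ad (mon l)` is a signed sum of products; or `le_bI`-type
argument); `ln_Ad`; finally `bi_τ`. -/
theorem conj_box : ∃ (C : ℝ) (e : ℕ), 1 ≤ C ∧ ∀ h, F.Adm h → ∀ d ∈ F.D, ∀ y ∈ F.R, ∃ y' ∈ F.R,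
    F.M.ofE d * F.M.ofE y * (F.M.ofE d)⁻¹ = F.M.ofE y' ∧
      F.bx (h + F.mu (F.M.φ d)) y' ≤ C * (1 + ‖d‖) ^ e * F.bx h y := by
  obtain ⟨C, hC, H⟩ := F.gA_br_D
  refine ⟨C ^ F.N.m, F.N.m, one_le_pow₀ hC, fun h hh d hd y hy => ?_⟩
  have hτ : F.M.τ (F.M.φ d) y ∈ F.R := F.τ_I Set.univ _ hy
  refine ⟨F.N.Ad d (F.M.τ (F.M.φ d) y), F.N.Ad_mem (fun z hz => F.R_br d hz) hτ,
    F.M.conj_ofE _ (F.φ_R hy), ?_⟩
  have h1 := F.N.ln_Ad F.R (F.bx (h + F.mu (F.M.φ d))) (F.isLN_bx _).add_le (F.isLN_bx _).smul d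
    (A := C * ‖d‖) (by positivity)
    (fun z hz => ⟨F.R_br d hz, H _ (hh.add_mu _) d hd z hz⟩) hτ
  refine h1.trans (mul_le_mul ?_ (F.bi_τ Set.univ h _ hy) (F.gA_bx_nonneg _ _) (by positivity))
  rw [← mul_pow]
  refine pow_le_pow_left₀ (by positivity) ?_ _
  linarith

/-- conjugation of the ideals by `R` (`bI_br`, `ln_Ad`) -/
theorem conj_bi (P : Set F.J) (h : F.J → ℝ) {g y : F.E} (hg : g ∈ F.R) (hy : y ∈ F.I P) :
    F.N.Ad g y ∈ F.I P ∧ F.bi P h (F.N.Ad g y) ≤ (1 + F.bx h g) ^ F.N.m * F.bi P h y := by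
  exact ⟨F.N.Ad_mem (fun z hz => F.I_br_R P hg hz) hy,
    F.N.ln_Ad (F.I P) (F.bi P h) (F.isLN_bi P h).add_le (F.isLN_bi P h).smul g (F.gA_bx_nonneg h g)
      (fun z hz => ⟨F.I_br_R P hg hz, F.N.bI_br F.X P h hg hz⟩) hy⟩

/-- crude bound for conjugation by an arbitrary element (`conj_ofE`, `norm_toE_le`, `norm_τ_le`) -/
theorem conj_norm : ∃ C : ℝ, 1 ≤ C ∧ ∀ (g : F.G) (y : F.E), F.M.φ y = 0 → ∃ y', F.M.φ y' = 0 ∧
    g * F.M.ofE y * g⁻¹ = F.M.ofE y' ∧ ‖y'‖ ≤ Real.exp (C * (F.M.len g + 1)) * ‖y‖ ∧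
      (y ∈ F.R → y' ∈ F.R) ∧ ∀ u, y ∈ F.I (F.Pos u) → y' ∈ F.I (F.Pos u) := by
  obtain ⟨C₁, e, hC₁, H₁⟩ := F.N.norm_Ad_le
  obtain ⟨C₂, hC₂, H₂⟩ := F.M.norm_τ_le
  obtain ⟨C₃, hC₃, H₃⟩ := F.M.norm_ht_le
  obtain ⟨C, hC, H⟩ := ((gAEb.const F.gA_len C₁).mul ((F.gA_toE.one_add F.gA_len).pow F.gA_len
    (fun g => by positivity) e) fun g => by positivity).mul (gAEb.exp F.gA_len (C₂ * C₃))
      fun g => (Real.exp_pos _).le
  refine ⟨C, hC, fun g y hy => ⟨F.N.Ad (F.M.toE g) (F.M.τ (F.M.ht g) y), ?_,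
    F.M.conj_ofE g hy, ?_, fun hR => ?_, fun u hu => ?_⟩⟩
  · rw [← F.M.ht_ofE, ← F.M.conj_ofE g hy]
    simp [hy]
  · refine (H₁ _ _).trans (le_trans ?_ (mul_le_mul_of_nonneg_right (H g) (norm_nonneg y)))
    rw [mul_assoc (C₁ * _)]
    refine mul_le_mul_of_nonneg_left ((H₂ _ _).trans ?_) (by positivity)
    refine mul_le_mul_of_nonneg_right (Real.exp_le_exp.2 ?_) (norm_nonneg y)
    have := mul_le_mul_of_nonneg_left (H₃ g) hC₂.le
    have := mul_pos hC₂ hC₃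
    nlinarith
  · exact F.N.Ad_mem (fun z hz => F.R_br _ hz) (F.τ_I Set.univ _ hR)
  · exact F.N.Ad_mem (fun z hz => F.I_br u _ hz) (F.τ_I _ _ hu)

/-- Conjugation by an arbitrary element, for admissible `h ≥ 0`: `g = r d` (`exists_decomp_norm`,
`norm_toE_le`), `conj_box` for `d`, `conj_bi` for `r` (with `bx h r ≤ C ‖r‖` as `h ≥ 0`). -/
theorem conj_box_G : ∃ C : ℝ, 1 ≤ C ∧ ∀ h, F.Adm h → (∀ j, 0 ≤ h j) → ∀ g : F.G, ∀ y ∈ F.R,
    ∃ y' ∈ F.R, g * F.M.ofE y * g⁻¹ = F.M.ofE y' ∧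
      F.bx h y' ≤ Real.exp (C * (F.M.len g + 1)) * F.bx h y := by
  obtain ⟨C₁, e₁, hC₁, H₁⟩ := F.conj_box
  obtain ⟨C₂, e₂, hC₂, H₂⟩ := F.exists_decomp_norm
  obtain ⟨C₃, hC₃, H₃⟩ := F.M.norm_ht_le
  obtain ⟨C₄, hC₄, H₄⟩ := F.norm_mu_le
  obtain ⟨C₅, hC₅, H₅⟩ := F.bi_le_norm
  have hL := F.gA_len
  have e1 := (((gAEb.const hL C₅).mul ((gAEb.const hL C₂).mul ((F.gA_toE.one_add hL).pow hL
    (fun g => by positivity) e₂) fun g => by positivity) fun g => by positivity).one_add hL).pow hL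
      (fun g => by positivity) F.N.m
  have e2 := (gAEb.const hL C₁).mul ((((gAEb.const hL C₂).mul F.gA_toE
    fun g => by positivity).one_add hL).pow hL (fun g => by positivity) e₁) fun g => by positivity
  obtain ⟨C, hC, H⟩ := e1.mul ((gAEb.exp hL (F.N.m * (C₄ * C₃))).mul e2 fun g => by positivity)
    fun g => by positivity
  refine ⟨C, hC, fun h hh h0 g y hy => ?_⟩
  obtain ⟨r, hr, d, hd, hg, hrn, hdn⟩ := H₂ g
  obtain ⟨y₁, hy₁, e₁', b₁⟩ := H₁ h hh d hd y hy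
  have hφ : F.M.φ d = F.M.ht g := by
    rw [hg]
    simp [F.φ_R hr]
  have hlen := F.M.len_nonneg g
  have b₂ : F.bx h y₁ ≤ Real.exp (F.N.m * (C₄ * C₃ * (F.M.len g + 1))) *
      F.bx (h + F.mu (F.M.φ d)) y₁ := by
    refine F.N.bI_shift' F.X Set.univ (by positivity) (fun j => ?_) hy₁
    have a1 := (le_abs_self _).trans (H₄ j (F.M.φ d))
    have a2 := mul_le_mul_of_nonneg_left (H₃ g) hC₄.le
    have a3 := mul_pos hC₄ hC₃
    rw [hφ] at a1 ⊢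
    simp only [Pi.add_apply, mu]
    nlinarith
  obtain ⟨m₃, b₃⟩ := F.conj_bi Set.univ h hr hy₁
  have b₄ : F.bx h r ≤ C₅ * (C₂ * (1 + ‖F.M.toE g‖) ^ e₂) := by
    have := H₅ Set.univ h 0 h0 (fun j _ => h0 j) r hr
    rw [neg_zero, Real.exp_zero, mul_one] at this
    exact this.trans (by gcongr)
  refine ⟨F.N.Ad r y₁, m₃, ?_, ?_⟩
  · rw [← F.conj_R hr hy₁, ← e₁', hg]
    group
  · have hy0 := F.gA_bx_nonneg h y
    have hr0 := F.gA_bx_nonneg h r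
    refine le_trans ?_ (mul_le_mul_of_nonneg_right (H g) hy0)
    refine b₃.trans ?_
    rw [mul_assoc, mul_assoc (Real.exp _), mul_assoc (F.N.m : ℝ)]
    refine mul_le_mul (by gcongr) (b₂.trans ?_) (F.gA_bx_nonneg _ _) (by positivity)
    refine mul_le_mul_of_nonneg_left (b₁.trans ?_) (Real.exp_pos _).le
    gcongr

/-- `x k y = x (k y k⁻¹) k` -/
theorem rinv_rt {ν : Measure F.G} {k y : F.G} {τ : ℝ} (h : F.RInv ν (k * y * k⁻¹) τ) :
    F.RInv (F.rt ν k) y τ := by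
  have h1 : Near (F.rt ν k) (F.rt (F.rt ν (k * y * k⁻¹)) k) τ :=
    Near.map h (measurable_mul_const k)
  unfold RInv
  rw [F.rt_rt] at h1 ⊢
  rwa [inv_mul_cancel_right] at h1

theorem gA_binv {ν : Measure F.G} {h h' : F.J → ℝ} {τ : ℝ} {g : F.G} (hb : F.BInv ν h τ)
    {h₀ : F.J → ℝ} {c : ℝ} (hc : 0 ≤ c) (hh : ∀ j, h' j + c ≤ h₀ j)
    (H : ∀ y ∈ F.R, ∃ y' ∈ F.R, g * F.M.ofE y * g⁻¹ = F.M.ofE y' ∧
      F.bx h y' ≤ Real.exp c * F.bx h₀ y) : F.BInv (F.rt ν g) h' τ := by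
  intro y hy hy1
  obtain ⟨y', hy', e, b⟩ := H y hy
  refine F.rinv_rt ?_
  rw [e]
  refine hb y' hy' (b.trans ?_)
  have h1 : F.bx h₀ y ≤ Real.exp (-c) * F.bx h' y := F.N.bI_shift F.X Set.univ hc hh hy
  calc Real.exp c * F.bx h₀ y ≤ Real.exp c * (Real.exp (-c) * 1) := by
        gcongr
        exact h1.trans (by gcongr)
    _ = 1 := by rw [mul_one, ← Real.exp_add, add_neg_cancel, Real.exp_zero]

theorem binv_D : ∃ C : ℝ, 1 ≤ C ∧ ∀ ν h τ, F.Adm h → F.BInv ν h τ → ∀ d ∈ F.D, ∀ h' : F.J → ℝ,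
    (∀ j, h' j + C * Real.log (2 + ‖d‖) ≤ h j - F.μ j (F.M.φ d)) →
      F.BInv (F.rt ν (F.M.ofE d)) h' τ := by
  obtain ⟨C₁, e, hC₁, H₁⟩ := F.conj_box
  have hL : ∀ d : F.E, 1 ≤ 2 * Real.log (2 + ‖d‖) := fun d => gA_log (norm_nonneg d)
  have e1 : gAEb (fun d : F.E => 2 * Real.log (2 + ‖d‖)) fun d => 1 + ‖d‖ := by
    refine (gAEb.exp hL (1 / 2)).mono fun d => ?_
    rw [← mul_assoc, one_div_mul_cancel two_ne_zero, one_mul, Real.exp_log (by positivity)]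
    linarith
  obtain ⟨C, hC, H⟩ := (gAEb.const hL C₁).mul (e1.pow hL (fun d => by positivity) e)
    fun d => by positivity
  refine ⟨C * 2, by linarith, fun ν h τ hh hb d hd h' hh' => ?_⟩
  refine F.gA_binv hb (h₀ := h - F.mu (F.M.φ d)) (c := C * 2 * Real.log (2 + ‖d‖))
    (by have := hL d; nlinarith) hh' fun y hy => ?_
  obtain ⟨y', hy', e', b⟩ := H₁ _ (hh.sub_mu (F.M.φ d)) d hd y hy
  rw [sub_add_cancel] at b
  refine ⟨y', hy', e', b.trans (mul_le_mul_of_nonneg_right ?_ (F.gA_bx_nonneg _ _))⟩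
  rw [mul_assoc C]
  exact H d

theorem binv_lin (v : F.L) : ∃ C : ℝ, 1 ≤ C ∧ ∀ ν h τ, F.Adm h → F.BInv ν h τ → ∀ t : ℝ,
    ∀ h' : F.J → ℝ, (∀ j, h' j + C * Real.log (2 + |t|) ≤ h j - t * F.μ j (F.φL v)) →
      F.BInv (F.rt ν (F.lin v t)) h' τ := by
  obtain ⟨C, hC, H⟩ := F.binv_D
  have hv := norm_nonneg (F.hat v)
  refine ⟨C * (1 + 2 * ‖F.hat v‖), one_le_mul_of_one_le_of_one_le hC (by linarith),
    fun ν h τ hh hb t h' hh' => ?_⟩
  refine H ν h τ hh hb _ (F.D.smul_mem t (F.hat_mem v)) h' fun j => ?_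
  have ht := abs_nonneg t
  have h1 : Real.log (2 + ‖t • F.hat v‖) ≤ (1 + 2 * ‖F.hat v‖) * Real.log (2 + |t|) := by
    rw [norm_smul, Real.norm_eq_abs]
    have a1 : Real.log (2 + |t| * ‖F.hat v‖) ≤ Real.log ((2 + |t|) * (1 + ‖F.hat v‖)) :=
      Real.log_le_log (by positivity) (by nlinarith)
    rw [Real.log_mul (by positivity) (by positivity)] at a1
    have a2 := Real.log_le_sub_one_of_pos (by positivity : 0 < 1 + ‖F.hat v‖)
    have a3 := mul_le_mul_of_nonneg_left (gA_log ht) hv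
    nlinarith
  have h2 := mul_le_mul_of_nonneg_left h1 (by linarith : 0 ≤ C)
  have h3 := hh' j
  rw [map_smul, F.φ_hat, map_smul, smul_eq_mul]
  nlinarith

theorem binv_R : ∃ C : ℝ, 1 ≤ C ∧ ∀ ν h τ, F.BInv ν h τ → ∀ a : ℝ, 0 ≤ a → ∀ g ∈ F.R,
    F.bx (fun j => h j + a) g ≤ 1 → ∀ h' : F.J → ℝ, (∀ j, h' j + C * (a + 1) ≤ h j) →
      F.BInv (F.rt ν (F.M.ofE g)) h' τ := by
  have hL : ∀ a : {a : ℝ // 0 ≤ a}, 1 ≤ a.1 + 1 := fun a => by linarith [a.2]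
  obtain ⟨C, hC, H⟩ := ((gAEb.exp hL F.N.m).one_add hL).pow hL (fun a => by positivity) F.N.m
  refine ⟨C, hC, fun ν h τ hb a ha g hg hg1 h' hh' => ?_⟩
  refine F.gA_binv hb (h₀ := h) (c := C * (a + 1)) (by positivity) hh' fun y hy => ?_
  obtain ⟨m₁, b₁⟩ := F.conj_bi Set.univ h hg hy
  refine ⟨_, m₁, F.conj_R hg hy, b₁.trans (mul_le_mul_of_nonneg_right
    (le_trans ?_ (H ⟨a, ha⟩)) (F.gA_bx_nonneg _ _))⟩
  have h1 : F.bx h g ≤ Real.exp (F.N.m * a) * F.bx (fun j => h j + a) g :=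
    F.N.bI_shift' F.X Set.univ ha (fun j => le_rfl) hg
  have h2 : F.bx h g ≤ Real.exp (F.N.m * (a + 1)) := by
    calc F.bx h g ≤ Real.exp (F.N.m * a) * 1 := h1.trans (by gcongr)
      _ ≤ _ := by rw [mul_one]; gcongr; linarith
  have h3 := F.gA_bx_nonneg h g
  exact pow_le_pow_left₀ (by linarith) (by linarith) _

theorem binv_G : ∃ C : ℝ, 1 ≤ C ∧ ∀ ν h τ, F.Adm h → (∀ j, 0 ≤ h j) → F.BInv ν h τ → ∀ g : F.G,
    ∀ h' : F.J → ℝ, (∀ j, h' j + C * (F.M.len g + 1) ≤ h j) → F.BInv (F.rt ν g) h' τ := by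
  obtain ⟨C, hC, H⟩ := F.conj_box_G
  refine ⟨C, hC, fun ν h τ hh h0 hb g h' hh' => ?_⟩
  exact F.gA_binv hb (h₀ := h) (c := C * (F.M.len g + 1))
    (by have := F.M.len_nonneg g; positivity) hh' (H h hh h0 g)

theorem gA_lt_uR (x : F.G) (h : F.J → ℝ) :
    F.lt x (F.uR h) = (unif F.R (F.bx h)).map fun z => x * F.M.ofE z :=
  Measure.map_map (measurable_const_mul x) F.M.measurable_ofE

theorem gA_meas (x : F.G) : Measurable fun z : F.E => x * F.M.ofE z :=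
  (measurable_const_mul x).comp F.M.measurable_ofE

/-- `unif_near`, `bI_shift` -/
theorem binv_uR : ∃ C : ℝ, 1 ≤ C ∧ ∀ (x : F.G) (h h' : F.J → ℝ) (c : ℝ), 0 ≤ c →
    (∀ j, h' j + c ≤ h j) → F.BInv (F.lt x (F.uR h)) h' (C * Real.exp (-c)) := by
  obtain ⟨C, hC, H⟩ := F.N.unif_near
  refine ⟨C + 1, by linarith, fun x h h' c hc hh y hy hy1 => ?_⟩
  have h1 : F.bx h y ≤ Real.exp (-c) := by
    calc F.bx h y ≤ Real.exp (-c) * F.bx h' y := F.N.bI_shift F.X Set.univ hc hh hy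
      _ ≤ Real.exp (-c) * 1 := by gcongr
      _ = _ := mul_one _
  have h2 : Real.exp (-c) ≤ 1 := Real.exp_le_one_iff.2 (by linarith)
  have h3 := ((H F.R (F.bx h) (F.isLN_bx h) y hy (h1.trans h2)).1).map (F.gA_meas x)
  have hm : Measurable fun z : F.E => F.N.mul z y :=
    (F.N.api_cont_mul continuous_id continuous_const).measurable
  unfold RInv rt
  rw [F.gA_lt_uR, Measure.map_map (measurable_mul_const _) (F.gA_meas x)]
  rw [Measure.map_map (F.gA_meas x) hm] at h3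
  have h4 : (unif F.R (F.bx h)).map ((fun z => x * F.M.ofE z) ∘ fun z => F.N.mul z y) =
      (unif F.R (F.bx h)).map ((fun g => g * F.M.ofE y) ∘ fun z => x * F.M.ofE z) := by
    refine Measure.map_congr ?_
    filter_upwards [(F.isLN_bx h).unif_ae] with z hz
    simp only [Function.comp]
    rw [mul_assoc, F.ofE_mul_R hz.1]
  rw [h4] at h3
  refine h3.mono ?_
  have := Real.exp_pos (-c)
  nlinarith

/-- left invariance of the uniform measure on a box -/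
theorem near_lt_uR : ∃ C : ℝ, 1 ≤ C ∧ ∀ (x : F.G) (h : F.J → ℝ), ∀ y ∈ F.R, F.bx h y ≤ 1 →
    Near (F.lt x (F.uR h)) (F.lt (x * F.M.ofE y) (F.uR h)) (C * F.bx h y) := by
  obtain ⟨C, hC, H⟩ := F.N.unif_near
  refine ⟨C + 1, by linarith, fun x h y hy hy1 => ?_⟩
  have h3 := ((H F.R (F.bx h) (F.isLN_bx h) y hy hy1).2).map (F.gA_meas x)
  have hm : Measurable fun z : F.E => F.N.mul y z :=
    (F.N.api_cont_mul continuous_const continuous_id).measurable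
  rw [Measure.map_map (F.gA_meas x) hm] at h3
  rw [F.gA_lt_uR, F.gA_lt_uR]
  have h4 : ((fun z => x * F.M.ofE z) ∘ fun z => F.N.mul y z) =
      fun z => x * F.M.ofE y * F.M.ofE z := by
    funext z
    simp only [Function.comp]
    rw [mul_assoc, F.ofE_mul_R hy]
  rw [h4] at h3
  refine h3.mono ?_
  have := F.gA_bx_nonneg h y
  nlinarith

theorem binv_of_ginv : ∃ C : ℝ, 1 ≤ C ∧ ∀ ν ρ τ S, 0 ≤ S → C * (S + 1) ≤ ρ → F.GInv ν ρ τ →
    F.BInv ν (fun _ => S) τ := by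
  obtain ⟨C, hC, H⟩ := F.len_R
  exact ⟨C, hC, fun ν ρ τ S hS hρ hg y hy hy1 => hg _ ((H S hS y hy hy1).trans hρ)⟩

end Frame

end Crest.Agent.R182
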