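import Crest.Agent.R182.CL
import Crest.Agent.R182.GeoAd

/-! Row 182, task `R182/MT1`: the coarse derivative does not shrink the invariant norm. -/

set_option autoImplicit false

namespace Crest.Agent.R182

open scoped BigOperators
open MeasureTheory

namespace Frame

variable (F : Frame)

theorem mt1_a1 {a η : ℝ} {M₀ : ℕ} (hη : 0 < η) (h : a / η ≤ M₀) : a ≤ ((M₀ + 1 : ℕ) : ℝ) * η := by
  rw [div_le_iff₀ hη] at h
  push_cast; linarith

theorem mt1_a2 {c M m r : ℝ} (hc : 0 < c * M) (hm : 1 ≤ m) (h : r < (m + 1) * (c * M)) :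
    r ≤ 2 * c * (M * m) := by nlinarith

theorem mt1_a3 {a n x : ℝ} (hx : 0 ≤ x) (h1 : 1 ≤ n) (h : a ≤ n) : 1 + a * x ≤ (1 + x) * n := by
  nlinarith [mul_le_mul_of_nonneg_right h hx]

theorem mt1_a4 {C ε r c η n : ℝ} (hC : 0 < C) (hε : 0 < ε) (hn : 0 < n) (h1 : r ≤ 2 * c * n)
    (h2 : ε * (8 * c * C) ≤ η) : C * (ε * r) ≤ η / 4 * n := by
  nlinarith [mul_le_mul_of_nonneg_left h1 (mul_pos hC hε).le, mul_le_mul_of_nonneg_right h2 hn.le]

theorem mt1_a5 {a η m n : ℝ} (hη : 0 < η) (h : 4 * a / η ≤ m) (h1 : m ≤ n) : a ≤ η / 4 * n := by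
  rw [div_le_iff₀ hη] at h
  nlinarith [mul_le_mul_of_nonneg_right h1 hη.le]

theorem mt1_a6 {C b η m M : ℝ} (hm : 1 ≤ m) (h : 4 * (C * b) ≤ M * η) :
    C * (m * b) ≤ η / 4 * (M * m) := by
  nlinarith [mul_le_mul_of_nonneg_right h (show (0 : ℝ) ≤ m by linarith)]

/-- the deterministic part: interpolation along a line -/
theorem mt1_line {K A Cl Cq : ℝ} (hCl : 0 < Cl) (hCq : 0 < Cq) (hK : 1 ≤ K) {f : F.G → F.G} {v : F.L}
    (hl : ∀ t, F.M.len (F.lin v t) ≤ Cl * (1 + |t| * ‖v‖))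
    (hq : ∀ x g, ‖F.pr (f (x * g)) - F.pr (f x)‖ ≤ Cq * K * (F.M.len g + 1))
    {B : F.G → F.L →ₗ[ℝ] F.L} {𝒢 : Set F.G} (hB : ∀ z v, ‖B z v‖ ≤ A * ‖v‖) {r ε : ℝ}
    (hP : F.Pair (fun z => F.pr (f z)) r ε B 𝒢) {M m : ℕ} (hM : 1 ≤ M) (hm : 1 ≤ m)
    (hr : Cl * (1 + ‖v‖) * (M * m) ≤ r) {z : F.G}
    (hz : ∀ i ≤ M, z * F.lin v ((i * m : ℕ) : ℝ) ∈ 𝒢) {t : ℕ} (ht : t ≤ M * m) :
    ‖F.pr (f (z * F.lin v t)) - F.pr (f z) - (t : ℝ) • B z v‖ ≤
      ε * r + Cq * K * (Cl + 1) + m * (‖v‖ * (Cq * K * Cl + |A|)) := by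
  have hv := norm_nonneg v
  set i := t / m with hi
  set s := t % m with hs
  have e : t = i * m + s := by rw [hi, hs, Nat.div_add_mod']
  have hsm : (s : ℝ) ≤ m := by exact_mod_cast (Nat.mod_lt t hm).le
  have hs0 : (0 : ℝ) ≤ s := Nat.cast_nonneg _
  have hiM : i ≤ M := Nat.div_le_of_le_mul (by rwa [mul_comm])
  have hz0 : z ∈ 𝒢 := by simpa using hz 0 (Nat.zero_le _)
  have him : ((i * m : ℕ) : ℝ) ≤ M * m := by exact_mod_cast Nat.mul_le_mul_right m hiM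
  have h1n : (1 : ℝ) ≤ M * m := by exact_mod_cast Nat.mul_pos hM hm
  have hlen : F.M.dd z (z * F.lin v ((i * m : ℕ) : ℝ)) ≤ r := by
    rw [F.M.dd_mul_right]
    refine (hl _).trans (le_trans ?_ hr)
    rw [abs_of_nonneg (Nat.cast_nonneg _), mul_assoc]
    exact mul_le_mul_of_nonneg_left (mt1_a3 hv h1n him) hCl.le
  have b1 := hP.2 z hz0 _ (hz i hiM) hlen
  simp only [pr_mul, pr_lin, add_sub_cancel_left, map_smul] at b1
  have b2 := hq (z * F.lin v ((i * m : ℕ) : ℝ)) (F.lin v s)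
  rw [mul_assoc, ← lin_add, ← Nat.cast_add, ← e] at b2
  have b3 : ‖(s : ℝ) • B z v‖ ≤ m * (|A| * ‖v‖) := by
    rw [norm_smul, Real.norm_eq_abs, abs_of_nonneg hs0]
    exact mul_le_mul hsm ((hB z v).trans (mul_le_mul_of_nonneg_right (le_abs_self A) hv))
      (norm_nonneg _) (Nat.cast_nonneg _)
  have b4 : F.M.len (F.lin v s) ≤ Cl * (1 + m * ‖v‖) := by
    refine (hl _).trans (mul_le_mul_of_nonneg_left ?_ hCl.le)
    rw [abs_of_nonneg hs0]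
    nlinarith [mul_le_mul_of_nonneg_right hsm hv]
  have b5 : Cq * K * (F.M.len (F.lin v s) + 1) ≤ Cq * K * (Cl * (1 + m * ‖v‖) + 1) :=
    mul_le_mul_of_nonneg_left (by linarith) (by positivity)
  have e2 : F.pr (f (z * F.lin v t)) - F.pr (f z) - (t : ℝ) • B z v =
      (F.pr (f (z * F.lin v t)) - F.pr (f (z * F.lin v ((i * m : ℕ) : ℝ)))) +
        (F.pr (f (z * F.lin v ((i * m : ℕ) : ℝ))) - F.pr (f z) - ((i * m : ℕ) : ℝ) • B z v) -
          (s : ℝ) • B z v := by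
    have : (t : ℝ) = ((i * m : ℕ) : ℝ) + s := by rw [← Nat.cast_add, ← e]
    rw [show (t : ℝ) • B z v = ((i * m : ℕ) : ℝ) • B z v + (s : ℝ) • B z v by rw [← add_smul, ← this]]
    abel
  rw [e2]
  refine (norm_sub_le _ _).trans ((add_le_add (norm_add_le _ _) b3).trans ?_)
  linarith

/-- one direction -/
theorem mt1_one (K A : ℝ) (v : F.L) (η δ : ℝ) (hη : 0 < η) (hδ : 0 < δ) :
    ∃ ε' r₀ : ℝ, 0 < ε' ∧ ∀ r : ℝ, r₀ ≤ r → ∃ ρ τ : ℝ, 0 < τ ∧ ∀ f q, F.QI K f q →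
      ∀ ν : Measure F.G, IsProbabilityMeasure ν → F.GInv ν ρ τ →
      ∀ (B : F.G → F.L →ₗ[ℝ] F.L) (𝒢 : Set F.G), (∀ z v, ‖B z v‖ ≤ A * ‖v‖) →
        F.Pair (fun z => F.pr (f z)) r ε' B 𝒢 → ν.real 𝒢ᶜ ≤ ε' →
        ν.real {z | F.nrm (F.φL (B z v)) < F.nrm (F.φL v) - η} ≤ δ := by
  obtain ⟨A₀, hA₀, hCL⟩ := F.CL K v
  obtain ⟨n₀, τ₀, hτ₀, hCL⟩ := hCL (η / 4) (δ / 2) (by positivity) (by positivity)
  obtain ⟨Cl, hCl, hl⟩ := F.len_lin
  obtain ⟨Cq, hCq, hq⟩ := F.qi_lip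
  obtain ⟨Cφ, hCφ, hφ⟩ := gb_bound F.φL
  obtain ⟨Cμ, hCμ, hμ⟩ := F.norm_mu_le
  obtain ⟨Cv, hCv, hlv⟩ := F.lvol_le_add
  obtain ⟨Cb, hCb, hb⟩ := F.binv_of_ginv
  have hv := norm_nonneg v
  set C₁ := Cv * (Cμ * Cφ) with hC₁
  have hC₁0 : 0 < C₁ := by positivity
  set c := Cl * (1 + ‖v‖) with hc
  have hc0 : 0 < c := by positivity
  obtain ⟨M₀, hM₀⟩ := exists_nat_ge (4 * (C₁ * (‖v‖ * (Cq * K * Cl + |A|))) / η)
  obtain ⟨m₁, hm₁⟩ := exists_nat_ge (4 * (C₁ * (Cq * K * (Cl + 1))) / η)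
  set M := M₀ + 1 with hMdef
  have hM : 1 ≤ M := Nat.le_add_left _ _
  have hMR : (1 : ℝ) ≤ M := by exact_mod_cast hM
  have hMb : 4 * (C₁ * (‖v‖ * (Cq * K * Cl + |A|))) ≤ M * η := mt1_a1 hη hM₀
  refine ⟨min (η / (8 * c * C₁)) (δ / (4 * (M + 1))), c * M * ((m₁ + n₀ + 1 : ℕ) : ℝ), by positivity,
    fun r hr => ?_⟩
  set m := ⌊r / (c * M)⌋₊ with hm
  have hcM : 0 < c * M := by positivity
  have hmm : m₁ + n₀ + 1 ≤ m := Nat.le_floor (by rw [le_div_iff₀ hcM]; linarith)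
  have hr0 : 0 ≤ r := le_trans (by positivity) hr
  have hm1 : 1 ≤ m := by omega
  have hm1R : (1 : ℝ) ≤ m := by exact_mod_cast hm1
  have hrl : c * (M * m) ≤ r := by
    have := Nat.floor_le (div_nonneg hr0 hcM.le)
    rw [← hm, le_div_iff₀ hcM] at this
    linarith
  have hru : r ≤ 2 * c * (M * m) := by
    have := Nat.lt_floor_add_one (r / (c * M))
    rw [← hm, div_lt_iff₀ hcM] at this
    exact mt1_a2 hcM hm1R this
  have hmn : m ≤ M * m := Nat.le_mul_of_pos_left m hM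
  have hnR : ((M * m : ℕ) : ℝ) = M * m := Nat.cast_mul _ _
  have hn0 : (0 : ℝ) < M * m := by positivity
  refine ⟨max r (Cb * (A₀ * (M * m : ℕ) + 1)), min τ₀ (δ / (4 * (M + 1))), by positivity,
    fun f q H ν hν hG B 𝒢 hB hP h𝒢 => ?_⟩
  have hK := H.one_le
  have p1 := hCL f q H (M * m) (by omega) ν hν
    ((hb ν _ _ _ (by positivity) (le_max_right _ _) hG).mono (fun _ => le_rfl) (min_le_left _ _))
  have p2 : ∀ i ∈ Finset.range (M + 1),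
      ν.real {z | z * F.lin v ((i * m : ℕ) : ℝ) ∈ 𝒢ᶜ} ≤ δ / (2 * (M + 1)) := by
    intro i hi
    have hiM : i ≤ M := Nat.lt_succ_iff.1 (Finset.mem_range.1 hi)
    have him : ((i * m : ℕ) : ℝ) ≤ M * m := by exact_mod_cast Nat.mul_le_mul_right m hiM
    have h1n : (1 : ℝ) ≤ M * m := one_le_mul_of_one_le_of_one_le hMR hm1R
    have hlen : F.M.len (F.lin v ((i * m : ℕ) : ℝ)) ≤ r := by
      refine (hl _ _).trans (le_trans ?_ hrl)
      rw [abs_of_nonneg (Nat.cast_nonneg _), hc, mul_assoc]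
      exact mul_le_mul_of_nonneg_left (mt1_a3 hv h1n him) hCl.le
    have a1 := (hG _ (hlen.trans (le_max_left _ _))).real_le 𝒢ᶜ
    have a2 := min_le_right τ₀ (δ / (4 * (M + 1)))
    have a3 := min_le_right (η / (8 * c * C₁)) (δ / (4 * (M + 1)))
    have a4 : δ / (2 * (M + 1)) = δ / (4 * (M + 1)) + δ / (4 * (M + 1)) := by field_simp; ring
    linarith
  have hsub : {z | F.nrm (F.φL (B z v)) < F.nrm (F.φL v) - η} ⊆
      {x | ¬F.Big f v (M * m) (η / 4 * (M * m : ℕ)) x} ∪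
        ⋃ i ∈ Finset.range (M + 1), {z | z * F.lin v ((i * m : ℕ) : ℝ) ∈ 𝒢ᶜ} := by
    intro z hz
    by_contra hn
    simp only [Set.mem_union, Set.mem_ofPred_eq, Set.mem_iUnion, Set.mem_compl_iff, not_or, not_not,
      not_exists, Finset.mem_range] at hn hz
    obtain ⟨hBig, hin⟩ := hn
    set ε := min (η / (8 * c * C₁)) (δ / (4 * (M + 1))) with hε
    have hε0 : 0 < ε := by positivity
    set E := ε * r + Cq * K * (Cl + 1) + m * (‖v‖ * (Cq * K * Cl + |A|)) with hE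
    have hE0 : 0 ≤ E := by positivity
    have d1 := hBig (fun j => F.mup (((M * m : ℕ) : ℝ) • F.φL (B z v)) j + Cμ * Cφ * E) (fun t ht j => by
      have e1 := F.mt1_line hCl hCq hK (hl v) (fun x g => (hq K f q H x g).2) hB hP hM hm1 hrl
        (fun i hi => hin i (Nat.lt_succ_of_le hi)) ht
      have e2 := (le_abs_self _).trans (hμ j (F.φL (F.pr (f (z * F.lin v t)) - F.pr (f z) - (t : ℝ) • B z v)))
      have e3 := mul_le_mul_of_nonneg_left ((hφ _).trans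
        (mul_le_mul_of_nonneg_left e1 (by linarith))) hCμ.le
      have e4 : (t : ℝ) * F.μ j (F.φL (B z v)) ≤ F.mup (((M * m : ℕ) : ℝ) • F.φL (B z v)) j := by
        simp only [mup, map_smul, smul_eq_mul]
        have htn : (t : ℝ) ≤ ((M * m : ℕ) : ℝ) := by exact_mod_cast ht
        rcases le_total 0 (F.μ j (F.φL (B z v))) with h0 | h0
        · exact le_max_of_le_left (mul_le_mul_of_nonneg_right htn h0)
        · exact le_max_of_le_right (mul_nonpos_of_nonneg_of_nonpos (Nat.cast_nonneg _) h0)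
      simp only [map_sub, map_smul, smul_eq_mul] at e2 e3
      rw [ht_eq, ht_eq, map_sub]
      linarith)
    have d2 := hlv (fun j => F.mup (((M * m : ℕ) : ℝ) • F.φL (B z v)) j + Cμ * Cφ * E)
      (F.mup (((M * m : ℕ) : ℝ) • F.φL (B z v))) (Cμ * Cφ * E) (by positivity) fun j => le_rfl
    have d3 : F.lvol (F.mup (((M * m : ℕ) : ℝ) • F.φL (B z v))) = M * m * F.nrm (F.φL (B z v)) := by
      have := F.nrm_smul ((M * m : ℕ) : ℝ) (F.φL (B z v))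
      rw [abs_of_nonneg (Nat.cast_nonneg _)] at this
      rw [← hnR]; exact this
    rw [d3] at d2
    rw [hnR] at d1
    have t1 : C₁ * (ε * r) ≤ η / 4 * (M * m) := by
      have a1 : ε ≤ η / (8 * c * C₁) := min_le_left _ _
      rw [le_div_iff₀ (by positivity)] at a1
      exact mt1_a4 hC₁0 hε0 hn0 hru a1
    have t2 : C₁ * (Cq * K * (Cl + 1)) ≤ η / 4 * (M * m) := by
      exact mt1_a5 hη hm₁ (by exact_mod_cast (show m₁ ≤ M * m by omega))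
    have t3 : C₁ * (m * (‖v‖ * (Cq * K * Cl + |A|))) ≤ η / 4 * (M * m) := mt1_a6 hm1R hMb
    have t4 : Cv * (Cμ * Cφ * E) = C₁ * (ε * r) + C₁ * (Cq * K * (Cl + 1)) +
        C₁ * (m * (‖v‖ * (Cq * K * Cl + |A|))) := by rw [hE, hC₁]; ring
    have t5 := mul_lt_mul_of_pos_left hz hn0
    rw [hnR] at d2
    linarith
  refine (measureReal_mono hsub (measure_ne_top _ _)).trans ((measureReal_union_le _ _).trans ?_)
  have p3 := (measureReal_biUnion_finset_le (μ := ν) (Finset.range (M + 1)) _).trans (Finset.sum_le_sum p2)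
  rw [Finset.sum_const, Finset.card_range, nsmul_eq_mul] at p3
  have p4 : ((M + 1 : ℕ) : ℝ) * (δ / (2 * (M + 1))) = δ / 2 := by push_cast; field_simp
  linarith

/-- For `v ∈ 𝒱` let `n = ⌊c r⌋` so that `len (lin v t) ≤ r` for `t ≤ n`.  For most `z`: `Big f v n`,
`z ∈ 𝒢` and `z lin (i ⌈η' n⌉) ∈ 𝒢` for the `≤ 1/η' + 1` values of `i` (union bound, `GInv`).  Then
`ht (f (z lin t)) - ht (f z)` is within `C (ε' r + η' n)` of `t φL (B z v)` on `[0, n]` (interpolate with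
`qi_lip` and the bound `A`), so `h = mup (n • φL (B z v)) + C (…)` dominates; `lvol_le_add`,
`nrm_smul`; `binv_of_ginv`. -/
theorem mt_lower (K A : ℝ) (𝒱 : Finset F.L) (η δ : ℝ) (hη : 0 < η) (hδ : 0 < δ) :
    ∃ ε' r₀ : ℝ, 0 < ε' ∧ ∀ r : ℝ, r₀ ≤ r → ∃ ρ τ : ℝ, 0 < τ ∧ ∀ f q, F.QI K f q →
      ∀ ν : Measure F.G, IsProbabilityMeasure ν → F.GInv ν ρ τ →
      ∀ (B : F.G → F.L →ₗ[ℝ] F.L) (𝒢 : Set F.G), (∀ z v, ‖B z v‖ ≤ A * ‖v‖) →
        F.Pair (fun z => F.pr (f z)) r ε' B 𝒢 → ν.real 𝒢ᶜ ≤ ε' →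
        ν.real {z | ∃ v ∈ 𝒱, F.nrm (F.φL (B z v)) < F.nrm (F.φL v) - η} ≤ δ := by
  classical
  induction 𝒱 using Finset.induction_on generalizing δ with
  | empty => exact ⟨1, 0, one_pos, fun r _ => ⟨0, 1, one_pos, fun _ _ _ _ _ _ _ _ _ _ _ => by simpa using hδ.le⟩⟩
  | insert v 𝒱 _ ih =>
    obtain ⟨ε₁, r₁, hε₁, h₁⟩ := F.mt1_one K A v η (δ / 2) hη (by positivity)
    obtain ⟨ε₂, r₂, hε₂, h₂⟩ := ih (δ / 2) (by positivity)
    refine ⟨min ε₁ ε₂, max 0 (max r₁ r₂), lt_min hε₁ hε₂, fun r hr => ?_⟩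
    have hr0 : 0 ≤ r := (le_max_left _ _).trans hr
    obtain ⟨ρ₁, τ₁, hτ₁, h₁⟩ := h₁ r ((le_max_left _ _).trans ((le_max_right _ _).trans hr))
    obtain ⟨ρ₂, τ₂, hτ₂, h₂⟩ := h₂ r ((le_max_right _ _).trans ((le_max_right _ _).trans hr))
    refine ⟨max ρ₁ ρ₂, min τ₁ τ₂, lt_min hτ₁ hτ₂, fun f q H ν hν hG B 𝒢 hB hP h𝒢 => ?_⟩
    have hmono : ∀ ε, min ε₁ ε₂ ≤ ε → F.Pair (fun z => F.pr (f z)) r ε B 𝒢 := fun ε hε =>
      ⟨hP.1, fun z hz z' hz' hd => (hP.2 z hz z' hz' hd).trans (mul_le_mul_of_nonneg_right hε hr0)⟩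
    have p1 := h₁ f q H ν hν (hG.mono (le_max_left _ _) (min_le_left _ _)) B 𝒢 hB
      (hmono _ (min_le_left _ _)) (h𝒢.trans (min_le_left _ _))
    have p2 := h₂ f q H ν hν (hG.mono (le_max_right _ _) (min_le_right _ _)) B 𝒢 hB
      (hmono _ (min_le_right _ _)) (h𝒢.trans (min_le_right _ _))
    have hsub : {z | ∃ w ∈ insert v 𝒱, F.nrm (F.φL (B z w)) < F.nrm (F.φL w) - η} ⊆
        {z | F.nrm (F.φL (B z v)) < F.nrm (F.φL v) - η} ∪
          {z | ∃ w ∈ 𝒱, F.nrm (F.φL (B z w)) < F.nrm (F.φL w) - η} := by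
      rintro z ⟨w, hw, h⟩
      rcases Finset.mem_insert.1 hw with rfl | hw
      · exact Or.inl h
      · exact Or.inr ⟨w, hw, h⟩
    refine (measureReal_mono hsub (measure_ne_top _ _)).trans ((measureReal_union_le _ _).trans ?_)
    linarith

end Frame

end Crest.Agent.R182
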