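import Crest.Agent.R182.Dens

/-! Row 182, task `R182/Push`: a Følner measure comparable with the image of a Følner measure. -/

set_option autoImplicit false
set_option maxHeartbeats 400000

namespace Crest.Agent.R182

open scoped BigOperators ENNReal NNReal
open MeasureTheory

namespace Frame

variable (F : Frame)

theorem push_ball (x : F.G) (r : ℝ) :
    F.M.μG {y | F.M.dd x y ≤ r} = F.M.μG {g | F.M.len g ≤ r} :=
  measure_preimage_mul F.M.μG x⁻¹ {g | F.M.len g ≤ r}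

theorem push_mdd {X : Type} [MeasurableSpace X] {f g : X → F.G} (hf : Measurable f)
    (hg : Measurable g) (r : ℝ) : MeasurableSet {x | F.M.dd (f x) (g x) ≤ r} :=
  measurableSet_le (Measurable.comp (g := fun p : F.G × F.G => F.M.dd p.1 p.2)
    (f := fun x => (f x, g x)) F.M.measurable_dd (hf.prodMk hg)) measurable_const

theorem push_mball (x : F.G) (r : ℝ) : MeasurableSet {y | F.M.dd x y ≤ r} :=
  F.push_mdd (f := fun _ => x) (g := fun y => y) measurable_const measurable_id r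

/-- averaging along a relation with large rows and small columns -/
theorem push_avg (K : ℝ) : ∃ D : ℝ≥0, 1 ≤ D ∧ ∀ (S : Set F.G) (Rel : Set (F.G × F.G))
    (u v : F.G → ℝ≥0∞), MeasurableSet S → MeasurableSet Rel → Measurable v →
    (∀ z ∈ S, F.M.μG {g | F.M.len g ≤ 1} ≤ F.M.μG {x | (z, x) ∈ Rel}) →
    (∀ x, ∃ y, ∀ z, (z, x) ∈ Rel → F.M.dd y z ≤ 3 * K) →
    (∀ z x, (z, x) ∈ Rel → u z ≤ v x) →
      ∫⁻ z in S, u z ∂F.M.μG ≤ D * ∫⁻ x, v x ∂F.M.μG := by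
  obtain ⟨c, hc⟩ : ∃ c, c = F.M.μG {g | F.M.len g ≤ 1} := ⟨_, rfl⟩
  obtain ⟨b, hb⟩ : ∃ b, b = F.M.μG {g | F.M.len g ≤ 3 * K} := ⟨_, rfl⟩
  have hc0 : c ≠ 0 := by
    rw [hc]
    exact (Measure.measure_pos_of_mem_nhds F.M.μG
      (Filter.mem_of_superset F.M.Q_mem_nhds fun g hg => F.M.len_le_one hg)).ne'
  have hct : c ≠ ⊤ := hc ▸ (F.M.isCompact_ball 1).measure_lt_top.ne
  have hbt : b ≠ ⊤ := hb ▸ (F.M.isCompact_ball _).measure_lt_top.ne
  have hcb : c⁻¹ * b ≠ ⊤ := ENNReal.mul_ne_top (ENNReal.inv_ne_top.2 hc0) hbt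
  refine ⟨(c⁻¹ * b).toNNReal + 1, le_add_self, fun S Rel u v hS hRel hv h1 h2 h3 => ?_⟩
  have hm : Measurable (Rel.indicator fun p : F.G × F.G => v p.2) :=
    (hv.comp measurable_snd).indicator hRel
  have key : c * ∫⁻ z in S, u z ∂F.M.μG ≤ b * ∫⁻ x, v x ∂F.M.μG := by
    calc c * ∫⁻ z in S, u z ∂F.M.μG = ∫⁻ z in S, c * u z ∂F.M.μG :=
          (lintegral_const_mul' _ _ hct).symm
      _ ≤ ∫⁻ z in S, ∫⁻ x, Rel.indicator (fun p : F.G × F.G => v p.2) (z, x) ∂F.M.μG ∂F.M.μG := by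
          refine setLIntegral_mono' hS fun z hz => ?_
          have hmz : MeasurableSet {x | (z, x) ∈ Rel} := measurable_prodMk_left hRel
          calc c * u z ≤ u z * F.M.μG {x | (z, x) ∈ Rel} := by
                rw [mul_comm, hc]; exact mul_le_mul_right (h1 z hz) _
            _ = ∫⁻ x, {x | (z, x) ∈ Rel}.indicator (fun _ => u z) x ∂F.M.μG :=
                (lintegral_indicator_const hmz _).symm
            _ ≤ _ := by
                refine lintegral_mono fun x => ?_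
                by_cases hx : (z, x) ∈ Rel
                · rw [Set.indicator_of_mem hx,
                    Set.indicator_of_mem (show x ∈ {x | (z, x) ∈ Rel} from hx)]
                  exact h3 z x hx
                · rw [Set.indicator_of_notMem (show x ∉ {x | (z, x) ∈ Rel} from hx)]
                  exact zero_le
      _ ≤ ∫⁻ z, ∫⁻ x, Rel.indicator (fun p : F.G × F.G => v p.2) (z, x) ∂F.M.μG ∂F.M.μG :=
          setLIntegral_le_lintegral _ _
      _ = ∫⁻ x, ∫⁻ z, Rel.indicator (fun p : F.G × F.G => v p.2) (z, x) ∂F.M.μG ∂F.M.μG :=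
          lintegral_lintegral_swap hm.aemeasurable
      _ ≤ ∫⁻ x, b * v x ∂F.M.μG := by
          refine lintegral_mono fun x => ?_
          obtain ⟨y, hy⟩ := h2 x
          calc ∫⁻ z, Rel.indicator (fun p : F.G × F.G => v p.2) (z, x) ∂F.M.μG
              ≤ ∫⁻ z, {z | F.M.dd y z ≤ 3 * K}.indicator (fun _ => v x) z ∂F.M.μG := by
                refine lintegral_mono fun z => ?_
                by_cases hz : (z, x) ∈ Rel
                · rw [Set.indicator_of_mem hz,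
                    Set.indicator_of_mem (show z ∈ {z | F.M.dd y z ≤ 3 * K} from hy z hz)]
                · rw [Set.indicator_of_notMem hz]
                  exact zero_le
            _ = b * v x := by
                rw [lintegral_indicator_const (F.push_mball y _), F.push_ball, ← hb, mul_comm]
      _ = b * ∫⁻ x, v x ∂F.M.μG := lintegral_const_mul' _ _ hbt
  calc ∫⁻ z in S, u z ∂F.M.μG = c⁻¹ * (c * ∫⁻ z in S, u z ∂F.M.μG) := by
        rw [← mul_assoc, ENNReal.inv_mul_cancel hc0 hct, one_mul]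
    _ ≤ c⁻¹ * (b * ∫⁻ x, v x ∂F.M.μG) := mul_le_mul_right key _
    _ ≤ _ := by
        rw [← mul_assoc]
        refine mul_le_mul_left ?_ _
        rw [ENNReal.coe_add, ENNReal.coe_toNNReal hcb]
        exact le_self_add

theorem push_ofReal_le {a b c : ℝ} (hb : 0 ≤ b) (hc : 0 ≤ c) (h : a ≤ b + c) :
    ENNReal.ofReal a ≤ ENNReal.ofReal b + ENNReal.ofReal c := by
  rw [← ENNReal.ofReal_add hb hc]
  exact ENNReal.ofReal_le_ofReal h

/-- `Θ = Θ₂ ∘ q`, `Z = ∫ Θ dμ`, `ν' = Z⁻¹ Θ μ`.  Averaging the last property of `dens` over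
`x ∈ q ζ · Q`, and using `μ {ζ | dd (q ζ) x ≤ 1} ≤ C` (a ball around `f x`): `Z ≤ C (1 + τ'')` and
`∫ |Θ (ζ g) - Θ ζ| dμ ≤ C τ''` for `len g ≤ ρ'`.  For `x` in the bad set (first replace it by a
measurable superset or note that `{z | ∀ ζ ∈ A', ζ ∉ f z · U}` is measurable for an open symmetric
`U ⊆ Q`), `f x · U ⊆ A'ᶜ` and `Θ₁ x ≤ Θ ζ + Ξ x` for `ζ ∈ f x · U`; average over `ζ` and use
`μ {x | dd (f x) ζ ≤ 1} ≤ C`.  `A' = ∅` gives `Z ≥ c`. -/
theorem push (K : ℝ) : ∃ C : ℝ, 1 ≤ C ∧ ∀ ρ' τ' : ℝ, 0 < τ' → ∃ ρ τ : ℝ, 0 < τ ∧ ∀ f q,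
    F.QI K f q → ∀ ν : Measure F.G, IsProbabilityMeasure ν → F.GInv ν ρ τ →
      ∃ ν' : Measure F.G, IsProbabilityMeasure ν' ∧ F.GInv ν' ρ' τ' ∧
        ∀ A', MeasurableSet A' →
          ν.real {z | ∀ ζ ∈ A', 1 < F.M.dd (f z) ζ} ≤ C * ν'.real A'ᶜ + τ' := by
  obtain ⟨D, hD, havg⟩ := F.push_avg K
  have hD' : (1 : ℝ) ≤ D := by exact_mod_cast hD
  refine ⟨2 * (D : ℝ) ^ 2, by nlinarith, fun ρ' τ' hτ' => ?_⟩
  obtain ⟨t, ht⟩ : ∃ t : ℝ, t = min (1 / 2) (τ' / (4 * (D : ℝ) ^ 2)) := ⟨_, rfl⟩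
  have ht0 : 0 < t := by rw [ht]; positivity
  have ht1 : t ≤ 1 / 2 := ht ▸ min_le_left _ _
  have ht2 : 4 * (D : ℝ) ^ 2 * t ≤ τ' := by
    have : t ≤ τ' / (4 * (D : ℝ) ^ 2) := ht ▸ min_le_right _ _
    rwa [le_div_iff₀ (by positivity), mul_comm] at this
  obtain ⟨ρ, τ, hτ, hdens⟩ := F.dens (1 + 3 * K + K * |ρ'|) t ht0
  refine ⟨ρ, τ, hτ, fun f q hqi ν hν hinv => ?_⟩
  obtain ⟨Θ₁, Θ₂, Ξ, m1, m2, mΞ, p1, p2, pΞ, i1, iΞ, e1, eΞ, hle, hnear⟩ := hdens ν hν hinv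
  have hK := hqi.one_le
  have hKρ : 0 ≤ K * |ρ'| := by positivity
  -- `ℝ≥0∞`-valued versions
  let θ₁ : F.G → ℝ≥0∞ := fun x => ENNReal.ofReal (Θ₁ x)
  let ξ : F.G → ℝ≥0∞ := fun x => ENNReal.ofReal (Ξ x)
  let θ : F.G → ℝ≥0∞ := fun ζ => ENNReal.ofReal (Θ₂ (q ζ))
  have mθ₁ : Measurable θ₁ := m1.ennreal_ofReal
  have mξ : Measurable ξ := mΞ.ennreal_ofReal
  have mθ : Measurable θ := (m2.comp hqi.mq).ennreal_ofReal
  have I1 : ∫⁻ x, θ₁ x ∂F.M.μG = 1 := by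
    rw [← ofReal_integral_eq_lintegral_ofReal i1 (Filter.Eventually.of_forall p1), e1,
      ENNReal.ofReal_one]
  have Iξ : ∫⁻ x, ξ x ∂F.M.μG ≤ ENNReal.ofReal t := by
    rw [← ofReal_integral_eq_lintegral_ofReal iΞ (Filter.Eventually.of_forall pΞ)]
    exact ENNReal.ofReal_le_ofReal eΞ
  have up : ∀ x ζ, F.M.dd x (q ζ) ≤ 1 + 3 * K + K * |ρ'| → θ ζ ≤ θ₁ x + ξ x := fun x ζ h =>
    push_ofReal_le (p1 x) (pΞ x) (by linarith [(abs_le.1 (hnear x _ h)).2])
  have lo : ∀ x ζ, F.M.dd x (q ζ) ≤ 1 + 3 * K + K * |ρ'| → θ₁ x ≤ θ ζ + ξ x := fun x ζ h =>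
    push_ofReal_le (p2 _) (pΞ x) (by linarith [(abs_le.1 (hnear x _ h)).1])
  -- averaging over `x ∈ q ζ · Q`
  have avq : ∀ u v : F.G → ℝ≥0∞, Measurable v → (∀ ζ x, F.M.dd (q ζ) x ≤ 1 → u ζ ≤ v x) →
      ∫⁻ ζ, u ζ ∂F.M.μG ≤ D * ∫⁻ x, v x ∂F.M.μG := by
    intro u v hv h
    have := havg Set.univ {p | F.M.dd (q p.1) p.2 ≤ 1} u v MeasurableSet.univ
      (F.push_mdd (f := fun p : F.G × F.G => q p.1) (g := fun p => p.2) (hqi.mq.comp measurable_fst)
        measurable_snd 1) hv (fun ζ _ => (F.push_ball (q ζ) 1).ge)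
      (fun x => ⟨f x, fun ζ hζ => by
        have h1 : F.M.dd (q ζ) x ≤ 1 := hζ
        have h2 := F.M.dd_triangle (f x) (f (q ζ)) ζ
        have h3 := hqi.lf x (q ζ)
        have h4 := hqi.fq ζ
        rw [F.M.dd_comm] at h1
        nlinarith⟩) h
    rwa [Measure.restrict_univ] at this
  obtain ⟨Z, hZ⟩ : ∃ Z, Z = ∫⁻ ζ, θ ζ ∂F.M.μG := ⟨_, rfl⟩
  have hZ1 : Z ≤ D * (1 + ENNReal.ofReal t) := by
    rw [hZ]
    refine (avq θ (fun x => θ₁ x + ξ x) (mθ₁.add mξ) fun ζ x h => up x ζ ?_).trans ?_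
    · rw [F.M.dd_comm]; linarith
    · rw [lintegral_add_left mθ₁, I1]
      exact mul_le_mul_right (add_le_add le_rfl Iξ) _
  have hZt : Z ≠ ⊤ := ne_top_of_le_ne_top (by finiteness) hZ1
  have hfin : ∀ A : Set F.G, ∫⁻ ζ in A, θ ζ ∂F.M.μG ≠ ⊤ := fun A =>
    ne_top_of_le_ne_top hZt (hZ ▸ setLIntegral_le_lintegral _ _)
  -- translates
  have htr : ∀ g, F.M.len g ≤ ρ' → ∀ A, MeasurableSet A →
      ∫⁻ ζ in A, θ ζ ∂F.M.μG ≤
        ∫⁻ ζ in (fun x => x * g) ⁻¹' A, θ ζ ∂F.M.μG + D * (2 * ENNReal.ofReal t) := by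
    intro g hg A hA
    have h1 : ∫⁻ ζ, (θ (ζ * g) - θ ζ) ∂F.M.μG ≤ D * (2 * ENNReal.ofReal t) := by
      refine (avq (fun ζ => θ (ζ * g) - θ ζ) (fun x => 2 * ξ x) (mξ.const_mul _)
        fun ζ x h => ?_).trans ?_
      · rw [F.M.dd_comm] at h
        have h2 := F.M.dd_triangle x (q ζ) (q (ζ * g))
        have h3 := hqi.lq ζ (ζ * g)
        rw [F.M.dd_mul_right] at h3
        have h4 : K * F.M.len g ≤ K * |ρ'| :=
          mul_le_mul_of_nonneg_left (hg.trans (le_abs_self _)) (by linarith)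
        rw [tsub_le_iff_left, two_mul, ← add_assoc]
        exact (up x (ζ * g) (by linarith)).trans (add_le_add (lo x ζ (by linarith)) le_rfl)
      · rw [lintegral_const_mul _ mξ]
        exact mul_le_mul_right (mul_le_mul_right Iξ _) _
    have h2 : ∫⁻ ζ in A, θ ζ ∂F.M.μG = ∫⁻ ζ in (fun x => x * g) ⁻¹' A, θ (ζ * g) ∂F.M.μG :=
      ((measurePreserving_mul_right F.M.μG g).setLIntegral_comp_preimage hA mθ).symm
    rw [h2]
    calc ∫⁻ ζ in (fun x => x * g) ⁻¹' A, θ (ζ * g) ∂F.M.μG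
        ≤ ∫⁻ ζ in (fun x => x * g) ⁻¹' A, (θ ζ + (θ (ζ * g) - θ ζ)) ∂F.M.μG :=
          lintegral_mono fun ζ => le_add_tsub
      _ = _ := lintegral_add_left mθ _
      _ ≤ _ := add_le_add le_rfl ((setLIntegral_le_lintegral _ _).trans h1)
  -- the bad sets
  have hbad : ∀ A', MeasurableSet A' → ∃ S : Set F.G, MeasurableSet S ∧
      {z | ∀ ζ ∈ A', 1 < F.M.dd (f z) ζ} ⊆ S ∧
      ∫⁻ z in S, θ₁ z ∂F.M.μG ≤ D * ∫⁻ ζ in A'ᶜ, θ ζ ∂F.M.μG + ENNReal.ofReal t := by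
    intro A' hA'
    have hR : MeasurableSet {p : F.G × F.G | F.M.dd (f p.1) p.2 ≤ 1} :=
      F.push_mdd (f := fun p : F.G × F.G => f p.1) (g := fun p => p.2) (hqi.mf.comp measurable_fst)
        measurable_snd 1
    have hR' : MeasurableSet ({p : F.G × F.G | F.M.dd (f p.1) p.2 ≤ 1} ∩ Prod.snd ⁻¹' A'ᶜ) :=
      hR.inter (measurable_snd hA'.compl)
    have hS : MeasurableSet {z | F.M.μG {g | F.M.len g ≤ 1} ≤ F.M.μG {ζ | (z, ζ) ∈
        {p : F.G × F.G | F.M.dd (f p.1) p.2 ≤ 1} ∩ Prod.snd ⁻¹' A'ᶜ}} :=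
      measurableSet_le measurable_const (measurable_measure_prodMk_left hR')
    refine ⟨_, hS, fun z hz => ?_, ?_⟩
    · refine (F.push_ball (f z) 1).ge.trans (measure_mono fun ζ hζ => ⟨hζ, fun hζ' => ?_⟩)
      exact absurd (hz ζ hζ') (not_lt.2 hζ)
    have hdd : ∀ z ζ, F.M.dd (f z) ζ ≤ 1 → F.M.dd (q ζ) z ≤ 3 * K := by
      intro z ζ h1
      have h2 := F.M.dd_triangle (q ζ) (q (f z)) z
      have h3 := hqi.lq ζ (f z)
      have h4 := hqi.qf z
      rw [F.M.dd_comm] at h1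
      nlinarith
    have h1 := havg _ _ (fun z => θ₁ z - ξ z) (A'ᶜ.indicator θ) hS hR' (mθ.indicator hA'.compl)
      (fun z hz => hz) (fun ζ => ⟨q ζ, fun z hz => hdd z ζ hz.1⟩) fun z ζ hz => by
        rw [Set.indicator_of_mem (show ζ ∈ A'ᶜ from hz.2), tsub_le_iff_right]
        refine lo z ζ ?_
        have := hdd z ζ hz.1
        rw [F.M.dd_comm] at this
        linarith
    rw [lintegral_indicator hA'.compl] at h1
    refine le_trans (lintegral_mono fun z => (le_tsub_add (b := θ₁ z) (a := ξ z))) ?_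
    rw [lintegral_add_right _ mξ]
    exact add_le_add h1 ((setLIntegral_le_lintegral _ _).trans Iξ)
  -- real versions
  have hz1 : Z.toReal ≤ 2 * D := by
    have := ENNReal.toReal_mono (by finiteness) hZ1
    rw [ENNReal.toReal_mul, ENNReal.toReal_add (by finiteness) (by finiteness),
      ENNReal.toReal_ofReal ht0.le, ENNReal.coe_toReal, ENNReal.toReal_one] at this
    nlinarith
  have hz2 : 1 ≤ 2 * D * Z.toReal := by
    obtain ⟨S, -, h1, h2⟩ := hbad ∅ MeasurableSet.empty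
    have hS : S = Set.univ := Set.eq_univ_of_forall fun z => h1 fun ζ hζ => absurd hζ (Set.notMem_empty _)
    rw [hS, Set.compl_empty, Measure.restrict_univ, I1, ← hZ] at h2
    have := ENNReal.toReal_mono (by finiteness) h2
    rw [ENNReal.toReal_add (by finiteness) (by finiteness), ENNReal.toReal_mul,
      ENNReal.toReal_ofReal ht0.le, ENNReal.coe_toReal, ENNReal.toReal_one] at this
    nlinarith
  have hz0 : 0 < Z.toReal := by
    by_contra h
    have : Z.toReal = 0 := le_antisymm (not_lt.1 h) ENNReal.toReal_nonneg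
    rw [this] at hz2
    norm_num at hz2
  have hZ0 : Z ≠ 0 := by
    rintro rfl
    simp at hz0
  have hν' : ∀ A, MeasurableSet A → (Z⁻¹ • F.M.μG.withDensity θ).real A =
      (∫⁻ ζ in A, θ ζ ∂F.M.μG).toReal / Z.toReal := by
    intro A hA
    rw [measureReal_def, Measure.smul_apply, withDensity_apply _ hA, smul_eq_mul, ENNReal.toReal_mul,
      ENNReal.toReal_inv, div_eq_inv_mul]
  refine ⟨Z⁻¹ • F.M.μG.withDensity θ, ⟨?_⟩, fun g hg A hA => ?_, fun A' hA' => ?_⟩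
  · rw [Measure.smul_apply, withDensity_apply _ MeasurableSet.univ, Measure.restrict_univ, ← hZ,
      smul_eq_mul, ENNReal.inv_mul_cancel hZ0 hZt]
  · have hm : Measurable fun x : F.G => x * g := measurable_mul_const g
    unfold rt
    rw [map_measureReal_apply hm hA, hν' _ hA, hν' _ (hm hA), div_le_iff₀ hz0, add_mul,
      div_mul_cancel₀ _ hz0.ne']
    have hf := hfin ((fun x => x * g) ⁻¹' A)
    have := ENNReal.toReal_mono (by finiteness) (htr g hg A hA)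
    rw [ENNReal.toReal_add hf (by finiteness), ENNReal.toReal_mul, ENNReal.toReal_mul,
      ENNReal.toReal_ofReal ht0.le, ENNReal.coe_toReal, ENNReal.toReal_ofNat] at this
    have h2 : (D : ℝ) * (2 * t) ≤ D * (2 * t) * (2 * D * Z.toReal) :=
      le_mul_of_one_le_right (by positivity) hz2
    have h3 := mul_le_mul_of_nonneg_right ht2 hz0.le
    nlinarith
  · obtain ⟨S, hS, h1, h2⟩ := hbad A' hA'
    have hf := hfin A'ᶜ
    have h3 := ENNReal.toReal_mono (by finiteness) h2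
    rw [ENNReal.toReal_add (by finiteness) (by finiteness), ENNReal.toReal_mul,
      ENNReal.toReal_ofReal ht0.le, ENNReal.coe_toReal] at h3
    have h4 := hle S hS
    rw [integral_eq_lintegral_of_nonneg_ae (Filter.Eventually.of_forall p1)
      m1.aestronglyMeasurable] at h4
    have h5 : ν.real {z | ∀ ζ ∈ A', 1 < F.M.dd (f z) ζ} ≤ ν.real S := measureReal_mono h1
    rw [hν' _ hA'.compl]
    obtain ⟨I, hI⟩ : ∃ I, I = (∫⁻ ζ in A'ᶜ, θ ζ ∂F.M.μG).toReal := ⟨_, rfl⟩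
    have hI0 : 0 ≤ I := hI ▸ ENNReal.toReal_nonneg
    rw [← hI] at h3 ⊢
    have h6 : (D : ℝ) * I ≤ 2 * (D : ℝ) ^ 2 * (I / Z.toReal) := by
      rw [← mul_div_assoc, le_div_iff₀ hz0]
      have := mul_le_mul_of_nonneg_left hz1 (mul_nonneg (zero_le_one.trans hD') hI0)
      nlinarith
    have h7 : t ≤ (D : ℝ) ^ 2 * t := le_mul_of_one_le_left ht0.le (one_le_pow₀ hD')
    have h8 : ν.real S ≤ D * I + t + t := h4.trans (add_le_add h3 le_rfl)
    linarith

end Frame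

end Crest.Agent.R182
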