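import Crest.Agent.R182.CD
import Crest.Agent.R182.MT1
import Crest.Agent.R182.Push

/-! Row 182, task `R182/MT`: labels at some scale. -/

set_option autoImplicit false

namespace Crest.Agent.R182

open scoped BigOperators
open MeasureTheory

namespace Frame

variable (F : Frame)

private theorem mt_fin (N : ℕ) (ρ τ : ℕ → ℝ) (hτ : ∀ a, 0 < τ a) :
    ∃ ρ₀ τ₀ : ℝ, 0 < τ₀ ∧ ∀ a < N, ρ a ≤ ρ₀ ∧ τ₀ ≤ τ a := by
  induction N with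
  | zero => exact ⟨0, 1, one_pos, fun a ha => absurd ha (Nat.not_lt_zero a)⟩
  | succ N ih =>
    obtain ⟨ρ₀, τ₀, h0, h⟩ := ih
    refine ⟨max ρ₀ (ρ N), min τ₀ (τ N), lt_min h0 (hτ N), fun a ha => ?_⟩
    rcases (Nat.le_of_lt_succ ha).eq_or_lt with rfl | ha
    · exact ⟨le_max_right _ _, min_le_right _ _⟩
    · exact ⟨(h a ha).1.trans (le_max_left _ _), (min_le_left _ _).trans (h a ha).2⟩

private theorem mt_index {N : ℕ} {p q : ℕ → Prop} (hp : 3 * {a | a < N ∧ ¬p a}.ncard < N)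
    (hq : 3 * {a | a < N ∧ ¬q a}.ncard < N) : ∃ a < N, p a ∧ q a := by
  by_contra hn
  have hfin : ∀ r : ℕ → Prop, {a | a < N ∧ ¬r a}.Finite := fun r =>
    (Set.finite_lt_nat N).subset fun a ha => ha.1
  have h1 : (Finset.range N : Set ℕ) ⊆ {a | a < N ∧ ¬p a} ∪ {a | a < N ∧ ¬q a} := by
    intro a ha
    have ha' : a < N := Finset.mem_range.1 ha
    by_cases h : p a
    · exact Or.inr ⟨ha', fun h' => hn ⟨a, ha', h, h'⟩⟩
    · exact Or.inl ⟨ha', h⟩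
  have h2 := (Set.ncard_le_ncard h1 ((hfin p).union (hfin q))).trans (Set.ncard_union_le _ _)
  rw [Set.ncard_coe_finset, Finset.card_range] at h2
  omega

private theorem mt_basis {m k : ℕ} (T : (Fin m → ℝ) →ₗ[ℝ] (Fin k → ℝ)) {c : ℝ}
    (h : ∀ i, ‖T (Pi.single i 1)‖ ≤ c) (v : Fin m → ℝ) : ‖T v‖ ≤ m * c * ‖v‖ := by
  have e : v = ∑ i, v i • (Pi.single i 1 : Fin m → ℝ) := by
    ext j; simp [Finset.sum_apply, Pi.single_apply]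
  conv_lhs => rw [e, map_sum]
  refine (norm_sum_le _ _).trans ((Finset.sum_le_sum (g := fun _ => c * ‖v‖) fun i _ => ?_).trans ?_)
  · rw [map_smul, norm_smul, mul_comm]
    exact mul_le_mul (h i) (norm_le_pi_norm v i) (norm_nonneg _) ((norm_nonneg _).trans (h i))
  · simp [mul_assoc]

private theorem mt_pr {Cp : ℝ} (hCp : ∀ g, ‖F.pr g‖ ≤ Cp * F.M.len g) (x y : F.G) :
    ‖F.pr y - F.pr x‖ ≤ Cp * F.M.dd x y := by
  have := hCp (x⁻¹ * y)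
  rwa [pr_mul, pr_inv, neg_add_eq_sub] at this

private theorem mt_lab {f : F.G → F.G} {B : F.G → F.L →ₗ[ℝ] F.L} {𝒢 : Set F.G}
    {A r ε ε' εc ε₃ Cφ Cp cW : ℝ} (hr : 0 ≤ r) (hεc : 0 < εc) (hεc' : εc ≤ ε') (hε1 : ε' ≤ 1)
    (hφ0 : 0 < Cφ) (hφ : ∀ v, ‖F.φL v‖ ≤ Cφ * ‖v‖) (hp0 : 0 < Cp)
    (hCp : ∀ g, ‖F.pr g‖ ≤ Cp * F.M.len g) (hε₃ : 0 < ε₃)
    (hW : ∀ w w' : F.W, w ≠ w' →
      ∃ i, cW ≤ ‖w.1 (F.φL (Pi.single i 1)) - w'.1 (F.φL (Pi.single i 1))‖)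
    (h1 : 2 * ε₃ + Cφ * ε' < cW) (h2 : Cφ * ε' + F.m * ε₃ * Cp ≤ ε)
    (hB : F.Field B A (r / εc) εc) (hP : F.Pair (fun z => F.pr (f z)) r ε' B 𝒢) :
    F.Lab f r ε fun w => {z | z ∈ 𝒢 ∧ ∀ i,
      ‖F.φL (B z (Pi.single i 1)) - w.1 (F.φL (Pi.single i 1))‖ ≤ ε₃} := by
  refine ⟨fun w => hP.1.inter ?_, fun w w' z z' hz hz' hd => ⟨?_, ?_⟩⟩
  · change MeasurableSet {z : F.G | ∀ i,
      ‖F.φL (B z (Pi.single i 1)) - w.1 (F.φL (Pi.single i 1))‖ ≤ ε₃}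
    rw [Set.ofPred_forall]
    refine MeasurableSet.iInter fun i => measurableSet_le ?_ measurable_const
    exact ((F.φL.continuous_of_finiteDimensional.measurable.comp (hB.meas _)).sub_const _).norm
  · by_contra hne
    obtain ⟨i, hi⟩ := hW w w' hne
    have h3 := hB.slow z (z⁻¹ * z') (Pi.single i 1)
      (hd.trans (le_div_self hr hεc (hεc'.trans hε1)))
    rw [mul_inv_cancel_left, Pi.norm_single, norm_one, mul_one] at h3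
    have h4 := (hφ _).trans (mul_le_mul_of_nonneg_left (h3.trans hεc') hφ0.le)
    have e : w.1 (F.φL (Pi.single i 1)) - w'.1 (F.φL (Pi.single i 1)) =
        (F.φL (B z' (Pi.single i 1)) - w'.1 (F.φL (Pi.single i 1))) -
          (F.φL (B z (Pi.single i 1)) - w.1 (F.φL (Pi.single i 1))) -
          F.φL (B z' (Pi.single i 1) - B z (Pi.single i 1)) := by
      rw [map_sub]; abel
    rw [e] at hi
    have h5 := hi.trans ((norm_sub_le _ _).trans (add_le_add (norm_sub_le _ _) h4))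
    linarith [hz.2 i, hz'.2 i]
  · have h3 := (hφ _).trans (mul_le_mul_of_nonneg_left (hP.2 z hz.1 z' hz'.1 hd) hφ0.le)
    have h4 := mt_basis (F.φL ∘ₗ B z - (w.1 : F.V →ₗ[ℝ] F.V) ∘ₗ F.φL) hz.2 (F.pr z' - F.pr z)
    have h5 : ‖F.pr z' - F.pr z‖ ≤ Cp * r :=
      (F.mt_pr hCp z z').trans (mul_le_mul_of_nonneg_left hd hp0.le)
    have h6 := h4.trans (mul_le_mul_of_nonneg_left h5 (by positivity))
    have e : F.M.ht (f z') - F.M.ht (f z) - w.1 (F.M.ht z' - F.M.ht z) =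
        F.φL (F.pr (f z') - F.pr (f z) - B z (F.pr z' - F.pr z)) +
          (F.φL ∘ₗ B z - (w.1 : F.V →ₗ[ℝ] F.V) ∘ₗ F.φL) (F.pr z' - F.pr z) := by
      simp only [ht_eq, map_sub, LinearMap.sub_apply, LinearMap.comp_apply, LinearEquiv.coe_coe]
      abel
    rw [e]
    refine (norm_add_le _ _).trans ((add_le_add h3 h6).trans ?_)
    calc _ = (Cφ * ε' + F.m * ε₃ * Cp) * r := by ring
      _ ≤ _ := mul_le_mul_of_nonneg_right h2 hr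

private theorem mt_inv {f q : F.G → F.G} {K : ℝ} (h : F.QI K f q) {B B' : F.G → F.L →ₗ[ℝ] F.L}
    {𝒢 𝒢' : Set F.G} {A r ε' Cp t : ℝ} (hp0 : 0 < Cp) (hCp : ∀ g, ‖F.pr g‖ ≤ Cp * F.M.len g)
    (hA : 0 ≤ A) (hB' : ∀ z v, ‖B' z v‖ ≤ A * ‖v‖)
    (hP : F.Pair (fun z => F.pr (f z)) r ε' B 𝒢) (hP' : F.Pair (fun z => F.pr (q z)) r ε' B' 𝒢')
    {v : F.L} (hlen : K * F.M.len (F.lin v t) + K + 2 ≤ r) {z ζ ζ' : F.G} (hz : z ∈ 𝒢)
    (hz' : z * F.lin v t ∈ 𝒢) (hζ : ζ ∈ 𝒢') (hζ' : ζ' ∈ 𝒢') (hd : F.M.dd (f z) ζ ≤ 1)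
    (hd' : F.M.dd (f (z * F.lin v t)) ζ' ≤ 1) :
    ‖t • (B' ζ (B z v) - v)‖ ≤ 6 * K * Cp + 2 * A * Cp + (1 + A) * ε' * r := by
  have hK := h.one_le
  have hl0 := F.M.len_nonneg (F.lin v t)
  have h1 := hP.2 z hz _ hz' (by rw [F.M.dd_mul_right]; nlinarith)
  have h2 := hP'.2 ζ hζ ζ' hζ' (by
    have a1 := F.M.dd_triangle ζ (f z) ζ'
    have a2 := F.M.dd_triangle (f z) (f (z * F.lin v t)) ζ'
    have a3 := h.lf z (z * F.lin v t)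
    rw [F.M.dd_mul_right] at a3
    rw [F.M.dd_comm ζ (f z)] at a1
    linarith)
  have h3 : ∀ x y, F.M.dd (f x) y ≤ 1 → ‖F.pr (q y) - F.pr x‖ ≤ 3 * K * Cp ∧
      ‖F.pr y - F.pr (f x)‖ ≤ Cp := by
    intro x y hxy
    refine ⟨(F.mt_pr hCp _ _).trans ?_, (F.mt_pr hCp _ _).trans (mul_le_of_le_one_right hp0.le hxy)⟩
    have a1 := F.M.dd_triangle x (q (f x)) (q y)
    have a2 := h.qf x
    have a3 := h.lq (f x) y
    rw [F.M.dd_comm] at a2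
    have a4 : K * F.M.dd (f x) y ≤ K := mul_le_of_le_one_right (by linarith) hxy
    rw [mul_comm (3 * K)]
    exact mul_le_mul_of_nonneg_left (by linarith) hp0.le
  obtain ⟨h4, h5⟩ := h3 _ _ hd
  obtain ⟨h6, h7⟩ := h3 _ _ hd'
  simp only [pr_mul, pr_lin, add_sub_cancel_left] at h1 h6
  have h8 : ‖F.pr ζ' - F.pr ζ - B z (t • v)‖ ≤ 2 * Cp + ε' * r := by
    have e : F.pr ζ' - F.pr ζ - B z (t • v) =
        (F.pr (f (z * F.lin v t)) - F.pr (f z) - B z (t • v)) +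
          (F.pr ζ' - F.pr (f (z * F.lin v t))) - (F.pr ζ - F.pr (f z)) := by abel
    rw [e]
    refine (norm_sub_le _ _).trans ((add_le_add (norm_add_le _ _) le_rfl).trans ?_)
    linarith
  have h9 := (hB' ζ _).trans (mul_le_mul_of_nonneg_left h8 hA)
  have e : t • (B' ζ (B z v) - v) =
      (F.pr (q ζ') - (F.pr z + t • v)) - (F.pr (q ζ) - F.pr z) -
        (F.pr (q ζ') - F.pr (q ζ) - B' ζ (F.pr ζ' - F.pr ζ)) -
        B' ζ (F.pr ζ' - F.pr ζ - B z (t • v)) := by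
    simp only [map_sub, map_smul, smul_sub]
    abel
  rw [e]
  refine (norm_sub_le _ _).trans ((add_le_add ((norm_sub_le _ _).trans
    (add_le_add (norm_sub_le _ _) le_rfl)) le_rfl).trans ?_)
  linarith

/-- Order of constants: `A` (`cd` with `K' = C K`, `qi_lip`), `ε₃ ≪ ε` also small against `W_sep`,
`near_W A ε₃` gives `η, 𝒱`; `mt_lower`; `cd_pair`; `cd`; `push`.  Apply `cd` to `pr ∘ f, ν` and to
`pr ∘ q, ν'`; there is a common good index, `r = rs a`; get `B, 𝒢` and `B', 𝒢'`.  Let `A'` be the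
measurable set of `ζ ∈ 𝒢'` where the conclusion of `mt_lower` holds for `B' ζ`.  For most `z`: the
conclusion of `mt_lower` for `B z`; `z ∈ 𝒢`, `z lin v n ∈ 𝒢` for `v ∈ 𝒱` (`n = ⌊c r⌋`), and `f z`,
`f (z lin v n)` are within `1` of points `ζ`, `ζ_v ∈ A'` with `dd ζ ζ_v ≤ r`.  Then
`n v ≈ pr (q ζ_v) - pr (q ζ) ≈ B' ζ (pr ζ_v - pr ζ) ≈ n B' ζ (B z v)`, so `near_W` applies.
`𝒢 w = {z ∈ 𝒢 | ∀ i, ‖φL (B z e_i) - w (φL e_i)‖ ≤ ε₃}` is measurable; `Field.slow` and `W_sep` give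
`w = w'`. -/
theorem MT (K ε r₀ : ℝ) (hε : 0 < ε) : ∃ r₁ ρ τ : ℝ, 0 < τ ∧ ∀ f q, F.QI K f q →
    ∀ ν : Measure F.G, IsProbabilityMeasure ν → F.GInv ν ρ τ →
      ∃ r : ℝ, r₀ ≤ r ∧ r ≤ r₁ ∧ ∃ 𝒢, F.Lab f r ε 𝒢 ∧ ν.real (⋃ w, 𝒢 w)ᶜ ≤ ε := by
  classical
  by_cases hK : 1 ≤ K
  swap
  · exact ⟨0, 0, 1, one_pos, fun f q h => absurd h.one_le hK⟩
  obtain ⟨C₁, -, hC₁⟩ := F.qi_lip
  obtain ⟨A, hA, hcd⟩ := F.cd (C₁ * K)
  obtain ⟨Cφ, hφ0, hφ⟩ := (LinearMap.toContinuousLinearMap F.φL).bound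
  replace hφ : ∀ v, ‖F.φL v‖ ≤ Cφ * ‖v‖ := hφ
  obtain ⟨Cp, hp0, hCp⟩ := F.norm_pr_le
  obtain ⟨Cl, hl0, hCl⟩ := F.len_lin
  obtain ⟨cW, hW0, hW⟩ := F.W_sep
  obtain ⟨ε₃, hε₃, hε₃W, hε₃ε⟩ : ∃ ε₃ : ℝ, 0 < ε₃ ∧ ε₃ ≤ cW / 4 ∧ F.m * ε₃ * Cp ≤ ε / 2 := by
    refine ⟨min (cW / 4) (ε / (2 * (F.m * Cp + 1))), by positivity, min_le_left _ _, ?_⟩
    have h1 := min_le_right (cW / 4) (ε / (2 * (F.m * Cp + 1)))
    have h2 : 0 < min (cW / 4) (ε / (2 * (F.m * Cp + 1))) := by positivity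
    rw [le_div_iff₀ (by positivity)] at h1
    linarith
  obtain ⟨η, 𝒱, hη, hnear⟩ := F.near_W A ε₃ hε₃
  obtain ⟨C₂, hC₂, hpush⟩ := F.push K
  obtain ⟨s, hs, hsε⟩ : ∃ s : ℝ, 0 < s ∧ (𝒱.card + 1) * (3 + 2 * C₂) * s = ε :=
    ⟨ε / ((𝒱.card + 1) * (3 + 2 * C₂)), by positivity, mul_div_cancel₀ _ (by positivity)⟩
  obtain ⟨ε₁, r₁, hε₁, hmt⟩ := F.mt_lower K A 𝒱 η s hη hs
  obtain ⟨c, hc, hcv⟩ : ∃ c : ℝ, 0 < c ∧ ∀ v ∈ 𝒱, K * Cl * (c * ‖v‖) ≤ 1 / 2 := by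
    have h0 : 0 ≤ ∑ v ∈ 𝒱, ‖v‖ := Finset.sum_nonneg fun _ _ => norm_nonneg _
    refine ⟨1 / (2 * (K * Cl) * (∑ v ∈ 𝒱, ‖v‖ + 1)), by positivity, fun v hv => ?_⟩
    have h1 : ‖v‖ ≤ ∑ v ∈ 𝒱, ‖v‖ := Finset.single_le_sum (f := fun v => ‖v‖) (fun _ _ => norm_nonneg _) hv
    calc _ ≤ K * Cl * (1 / (2 * (K * Cl) * (∑ v ∈ 𝒱, ‖v‖ + 1)) * (∑ v ∈ 𝒱, ‖v‖ + 1)) := by
          gcongr; linarith
      _ = _ := by field_simp
  obtain ⟨ε', hε', e1, e2, e3, e4, e5, e6⟩ : ∃ ε' : ℝ, 0 < ε' ∧ ε' ≤ 1 ∧ ε' ≤ s ∧ ε' ≤ ε₁ ∧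
      Cφ * ε' ≤ ε / 2 ∧ Cφ * ε' ≤ cW / 4 ∧ (1 + A) * ε' ≤ η * c / 2 := by
    refine ⟨min (min (min 1 s) ε₁) (min (min (ε / 2 / Cφ) (cW / 4 / Cφ)) (η * c / 2 / (1 + A))),
      by positivity, ?_, ?_, ?_, ?_, ?_, ?_⟩
    · exact (min_le_left _ _).trans ((min_le_left _ _).trans (min_le_left _ _))
    · exact (min_le_left _ _).trans ((min_le_left _ _).trans (min_le_right _ _))
    · exact (min_le_left _ _).trans (min_le_right _ _)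
    · exact (le_div_iff₀' hφ0).1
        ((min_le_right _ _).trans ((min_le_left _ _).trans (min_le_left _ _)))
    · exact (le_div_iff₀' hφ0).1
        ((min_le_right _ _).trans ((min_le_left _ _).trans (min_le_right _ _)))
    · exact (le_div_iff₀' (by positivity)).1 ((min_le_right _ _).trans (min_le_right _ _))
  obtain ⟨εc, hεc, hεc', hpair⟩ := F.cd_pair (C₁ * K) A ε' hε'
  obtain ⟨N, rs, ρc, τc, hN, hτc, hrs, hcd⟩ := hcd εc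
    (max (max (max r₀ 1) r₁) (max (2 * (K * Cl + K + 2))
      (2 * (6 * K * Cp + 2 * A * Cp) / (η * c)))) hεc
  simp only [max_le_iff] at hrs
  choose ρm τm hτm hmt using fun a => hmt (rs a) (hrs a).1.2
  obtain ⟨ρ₀, τ₀, hτ₀, hfin⟩ := mt_fin N (fun a => max (max (ρm a) (rs a)) ρc)
    (fun a => min (min (τm a) s) τc) fun a => lt_min (lt_min (hτm a) hs) hτc
  simp only [max_le_iff, le_min_iff] at hfin
  obtain ⟨ρ, τ, hτ, hpush⟩ := hpush ρ₀ τ₀ hτ₀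
  refine ⟨ρ₀, max ρ ρ₀, min τ τ₀, lt_min hτ hτ₀, fun f q h ν hν hinv => ?_⟩
  obtain ⟨ν', hν', hinv', hpush⟩ :=
    hpush f q h ν hν (hinv.mono (le_max_left _ _) (min_le_left _ _))
  replace hinv : F.GInv ν ρ₀ τ₀ := hinv.mono (le_max_right _ _) (min_le_right _ _)
  have hlip : ∀ f q, F.QI K f q → F.Lip (C₁ * K) fun z => F.pr (f z) := fun f q h =>
    ⟨F.continuous_pr.measurable.comp h.mf, fun x g => (hC₁ K f q h x g).2⟩
  obtain ⟨a, ha, ⟨B, hB, hB2⟩, B', hB', hB2'⟩ := mt_index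
    (hcd _ (hlip f q h) ν hν (hinv.mono (hfin 0 hN).1.2 (hfin 0 hN).2.2))
    (hcd _ (hlip q f h.symm) ν' hν' (hinv'.mono (hfin 0 hN).1.2 (hfin 0 hN).2.2))
  obtain ⟨⟨⟨r1, r2⟩, -⟩, r4, r5⟩ := hrs a
  obtain ⟨⟨⟨f1, f2⟩, -⟩, ⟨f3, f4⟩, -⟩ := hfin a ha
  specialize hmt a
  generalize (rs a : ℝ) = r at *
  have hr : 0 < r := by linarith
  obtain ⟨𝒢, hP, h𝒢⟩ := hpair r r2 _ (hlip f q h) ν hν B ⟨hB, hB2⟩
  obtain ⟨𝒢', hP', h𝒢'⟩ := hpair r r2 _ (hlip q f h.symm) ν' hν' B' ⟨hB', hB2'⟩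
  have hmono : ∀ {u : F.G → F.L} {B : F.G → F.L →ₗ[ℝ] F.L} {𝒢 : Set F.G}, F.Pair u r ε' B 𝒢 →
      F.Pair u r ε₁ B 𝒢 := fun h => ⟨h.1, fun z hz z' hz' hd =>
        (h.2 z hz z' hz' hd).trans (mul_le_mul_of_nonneg_right e3 hr.le)⟩
  have hm := hmt f q h ν hν (hinv.mono f1 f3) B 𝒢 hB.bound (hmono hP) (h𝒢.trans e3)
  have hm' := hmt q f h.symm ν' hν' (hinv'.mono f1 f3) B' 𝒢' hB'.bound (hmono hP') (h𝒢'.trans e3)
  set S := {z | ∃ v ∈ 𝒱, F.nrm (F.φL (B z v)) < F.nrm (F.φL v) - η} with hS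
  set S' := {z | ∃ v ∈ 𝒱, F.nrm (F.φL (B' z v)) < F.nrm (F.φL v) - η} with hS'
  have hpu := hpush (𝒢' ∩ (toMeasurable ν' S')ᶜ)
    (hP'.1.inter (measurableSet_toMeasurable _ _).compl)
  set P := {z | ∀ ζ ∈ 𝒢' ∩ (toMeasurable ν' S')ᶜ, 1 < F.M.dd (f z) ζ} with hPdef
  have hA' : ν'.real (𝒢' ∩ (toMeasurable ν' S')ᶜ)ᶜ ≤ 2 * s := by
    rw [Set.compl_inter, compl_compl]
    refine (measureReal_union_le _ _).trans ?_
    have : ν'.real (toMeasurable ν' S') = ν'.real S' := by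
      simp [measureReal_def, measure_toMeasurable]
    linarith
  have hbad : ν.real (𝒢ᶜ ∪ P) ≤ (2 + 2 * C₂) * s := by
    refine (measureReal_union_le _ _).trans ?_
    have := mul_le_mul_of_nonneg_left hA' (by linarith : 0 ≤ C₂)
    linarith
  have hlen : ∀ v ∈ 𝒱, K * F.M.len (F.lin v (c * r)) + K + 2 ≤ r := by
    intro v hv
    have h1 := mul_le_mul_of_nonneg_left (hCl v (c * r)) (by linarith : 0 ≤ K)
    rw [abs_of_pos (mul_pos hc hr)] at h1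
    have h2 := mul_le_mul_of_nonneg_right (hcv v hv) hr.le
    nlinarith
  refine ⟨r, r1, f2, _, F.mt_lab hr.le hεc hεc' e1 hφ0 hφ hp0 hCp hε₃ hW (by linarith)
    (by linarith) hB hP, ?_⟩
  have hsub : (⋃ w : F.W, {z | z ∈ 𝒢 ∧ ∀ i,
      ‖F.φL (B z (Pi.single i 1)) - w.1 (F.φL (Pi.single i 1))‖ ≤ ε₃})ᶜ ⊆
      S ∪ (𝒢ᶜ ∪ P) ∪ ⋃ v ∈ 𝒱, {z | z * F.lin v (c * r) ∈ 𝒢ᶜ ∪ P} := by
    rw [Set.compl_subset_comm]
    intro z hz
    simp only [Set.mem_compl_iff, Set.mem_union, Set.mem_iUnion, Set.mem_ofPred_eq, not_or,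
      not_exists, not_not, hS, hPdef, not_forall, not_lt, not_and] at hz
    obtain ⟨⟨h1, h2, ζ, hζ, h3⟩, h4⟩ := hz
    have h5 : ζ ∉ S' := fun h => hζ.2 (subset_toMeasurable _ _ h)
    simp only [hS', Set.mem_ofPred_eq, not_exists, not_and, not_lt] at h5
    obtain ⟨w, hw⟩ := hnear (B z) (B' ζ) (hB.bound z) (hB'.bound ζ) h1 h5 fun v hv => by
      obtain ⟨h6, ζ', hζ', h7⟩ := h4 v hv
      have h8 := F.mt_inv h hp0 hCp (by linarith) hB'.bound hP hP' (hlen v hv) h2 h6 hζ.1 hζ'.1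
        h3 h7
      rw [norm_smul, Real.norm_of_nonneg (mul_pos hc hr).le] at h8
      rw [div_le_iff₀ (mul_pos hη hc)] at r5
      have h9 := mul_le_mul_of_nonneg_right e6 hr.le
      refine le_of_mul_le_mul_left ?_ (mul_pos hc hr)
      linarith
    refine Set.mem_iUnion.2 ⟨w, h2, fun i => ?_⟩
    have := hw (Pi.single i 1)
    rwa [Pi.norm_single, norm_one, mul_one] at this
  refine (measureReal_mono hsub).trans ((measureReal_union_le _ _).trans ?_)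
  have h1 := measureReal_union_le (μ := ν) S (𝒢ᶜ ∪ P)
  have h2 := (measureReal_biUnion_finset_le (μ := ν) 𝒱
    fun v => {z | z * F.lin v (c * r) ∈ 𝒢ᶜ ∪ P}).trans
    (Finset.sum_le_card_nsmul _ _ ((3 + 2 * C₂) * s) fun v hv => by
      have h3 := F.M.len_nonneg (F.lin v (c * r))
      have h4 := hlen v hv
      have := (hinv (F.lin v (c * r)) (by nlinarith)).real_le (𝒢ᶜ ∪ P)
      linarith)
  rw [nsmul_eq_mul] at h2
  linarith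

end Frame

end Crest.Agent.R182
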