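import Crest.Agent.R182.FL1
import Crest.Agent.R182.FL2
import Crest.Agent.R182.FL3
import Crest.Agent.R182.MT
import Crest.Agent.R182.FLAux

/-! Row 182, task `R182/FL`: labels are nearly constant on a fibre. -/

set_option autoImplicit false

namespace Crest.Agent.R182

open scoped BigOperators
open MeasureTheory

namespace Frame

variable (F : Frame)

/-- For each pair `w ≠ w'` fix `j, b, Wp` from `exists_sep_basis`; `𝒱₀` = all the `b i`; `𝒱, c, C` from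
`fl_step`; `c₁` = minimum of the constants of `fl_prop`.  For `v = b i`, `Up 𝒢 j v = ⋃_{w ∈ Wp} 𝒢 w`
does not depend on `i`.  Choose `κ ≪ ε`, `η ≪ κ²`, then `ε'` from `fl_mono` for all `v ∈ 𝒱`
(with a common `B'` that also dominates the translates of `uD2 R` and `uD R c₁`); apply `MT` (`ε'`) to
`conv ν (uD (B' R) 1)`, which is `GInv` by `ginv_conv` for `R` large.  Step `t = ⌊κ R⌋`: `fl_step` gives
`η₁ = C (η + κ²)`.  Small steps: for an integer `0 ≤ s ≤ t`, `ν₂ {x ∉ Up, x lin s ∈ Up} ≤ 2 η` and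
`ν₂ {x ∈ Up, x lin s ∉ Up} ≤ 2 η + C κ` (`rinv_uD2`, `rinv_conv`); for real `s ≥ 0` compare `lin s` with
`lin ⌊s⌋` (`Lab`: same label if both are labelled, `r ≥ r₀` large); for `s < 0` shift (`RInv.real_le`). -/
theorem FL (K : ℝ) : ∃ c₁ A : ℝ, 0 < c₁ ∧ c₁ ≤ 1 ∧ 1 ≤ A ∧ ∀ ε r₀ : ℝ, 0 < ε →
    ∃ r₁ R₀ τ : ℝ, 0 < τ ∧ ∀ f q, F.QI K f q → ∀ R S : ℝ, R₀ ≤ R → A * R ≤ S →
      ∀ ν : Measure F.G, IsProbabilityMeasure ν → F.BInv ν (fun _ => S) τ →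
      ∃ (r : ℝ) (𝒢 : F.W → Set F.G), r₀ ≤ r ∧ r ≤ r₁ ∧ F.Lab f r ε 𝒢 ∧
        (F.conv ν (F.uD R c₁)).real (⋃ w, 𝒢 w)ᶜ ≤ ε ∧
        ∀ w w', w ≠ w' → ((ν.prod (F.uD R c₁)).prod (F.uD R c₁)).real
          {p | p.1.1 * p.1.2 ∈ 𝒢 w ∧ p.1.1 * p.2 ∈ 𝒢 w'} ≤ ε := by
  classical
  choose j b Wp hw hw' hb using
    fun p : {p : F.W × F.W // p.1 ≠ p.2} => F.exists_sep_basis p.1.1 p.1.2 p.2
  haveI := Fintype.ofFinite {p : F.W × F.W // p.1 ≠ p.2}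
  obtain ⟨𝒱, c, Cs, hc, -, hCs, h𝒱₀, hgen, hstep⟩ := F.fl_step
    (Finset.univ.image fun x : {p : F.W × F.W // p.1 ≠ p.2} × Fin F.m => b x.1 x.2) (by
      intro v hv
      obtain ⟨x, -, rfl⟩ := Finset.mem_image.1 hv
      exact (hb x.1 x.2).1)
  have hbV : ∀ p i, b p i ∈ 𝒱 := fun p i =>
    h𝒱₀ (Finset.mem_image.2 ⟨(p, i), Finset.mem_univ _, rfl⟩)
  choose c₁p hc₁p _hc₁p1 hprop using fun p => F.fl_prop (b p)
  obtain ⟨c₁, hc₁, hc₁1, hc₁le⟩ := fla_lb c₁p hc₁p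
  choose Cp hCp hprop' using fun p => hprop p c₁ hc₁ (hc₁le p)
  obtain ⟨CP, hCP1, hCP⟩ := fla_ub Cp
  choose Av Bv r0v _hAv _hBv hmono using fun v : 𝒱 => F.fl_mono K v
  obtain ⟨As, hAs1, hAs⟩ := fla_ub Av
  obtain ⟨Bs, -, hBs⟩ := fla_ub Bv
  obtain ⟨r0s, hr0s1, hr0s⟩ := fla_ub r0v
  obtain ⟨B₀, hB₀, hdom2⟩ := F.fla_dom2
  obtain ⟨B', hB'1, hB'0, hB's⟩ : ∃ B' : ℝ, 1 ≤ B' ∧ B₀ ≤ B' ∧ Bs ≤ B' :=
    ⟨max B₀ Bs, hB₀.trans (le_max_left _ _), le_max_left _ _, le_max_right _ _⟩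
  obtain ⟨C₂, hC₂, hdom2'⟩ := hdom2 B' hB'0
  obtain ⟨C₁, hC₁, hdom1⟩ := F.fla_dom hB'1 hc₁ hc₁1
  obtain ⟨Cg, hCg, hginv⟩ := F.ginv_conv
  obtain ⟨M, hM1, hM⟩ := fla_ub fun v : 𝒱 => ‖(v : F.L)‖
  obtain ⟨Cr, hCr, hrinv⟩ := F.rinv_uD2
  obtain ⟨Ch, hCh, hdn⟩ := F.dn_hat
  obtain ⟨Cl, hCl, hlen⟩ := F.len_lin
  have hCgB : 0 ≤ Cg * B' := by positivity
  refine ⟨c₁, As + Cg * B', hc₁, hc₁1, by linarith, fun ε r₀ hε => ?_⟩
  obtain ⟨κ, hκ0, hκc, hκc₁, hκ4, hκh, hκε⟩ : ∃ κ : ℝ, 0 < κ ∧ κ ≤ c ∧ κ ≤ c₁ ∧ κ ≤ 1 / 4 ∧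
      Ch * M * κ ≤ 1 ∧ CP * (4 * Cs + 6 + 4 * (Cr * (Ch * M))) * κ ≤ ε := by
    have h1 : 0 < Ch * M := by positivity
    have h2 : 0 < CP * (4 * Cs + 6 + 4 * (Cr * (Ch * M))) := by positivity
    obtain ⟨κ, h0, -, h⟩ := fla_lb
      ![c, c₁, 1 / 4, 1 / (Ch * M), ε / (CP * (4 * Cs + 6 + 4 * (Cr * (Ch * M))))] (by
        intro i
        fin_cases i <;> simp only [Matrix.cons_val_zero', Matrix.cons_val_succ'] <;> positivity)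
    refine ⟨κ, h0, h 0, h 1, h 2, ?_, ?_⟩
    · exact (le_div_iff₀' h1).1 (h 3)
    · exact (le_div_iff₀' h2).1 (h 4)
  choose εv hεv hmono' using fun v : 𝒱 =>
    hmono v B' ((hBs v).trans hB's) (κ ^ 2) (by positivity)
  obtain ⟨εs, hεs, -, hεsle⟩ := fla_lb εv hεv
  obtain ⟨ε', hε'0, hε's, hε'ε, hε'1, hε'2⟩ : ∃ ε' : ℝ, 0 < ε' ∧ ε' ≤ εs ∧ ε' ≤ ε ∧
      C₁ * ε' ≤ ε ∧ C₂ * ε' ≤ κ ^ 2 := by
    obtain ⟨e, h0, -, h⟩ := fla_lb ![εs, ε, ε / C₁, κ ^ 2 / C₂] (by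
        intro i
        fin_cases i <;> simp only [Matrix.cons_val_zero', Matrix.cons_val_succ'] <;> positivity)
    exact ⟨e, h0, h 0, h 1, (le_div_iff₀' hC₁).1 (h 2), (le_div_iff₀' hC₂).1 (h 3)⟩
  obtain ⟨r₁, ρ, τM, hτM, hMT⟩ := F.MT K ε' (max (max r₀ r0s) (Cl * (1 + M))) hε'0
  choose R0v τv hτv hmono'' using fun v : 𝒱 => hmono' v r₁
  obtain ⟨R0s, hR0s1, hR0s⟩ := fla_ub R0v
  obtain ⟨τs, hτs, -, hτsle⟩ := fla_lb τv hτv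
  obtain ⟨R₀, -, hR₀⟩ := fla_ub ![R0s, Cg * max ρ 1, 2 * (Cg * max ρ 1) / τM, 1 / κ]
  refine ⟨r₁, R₀, min τs (τM / 2), by positivity, fun f q hQI R S hR hS ν hν hB => ?_⟩
  have hR1 : R0s ≤ R := (hR₀ 0).trans hR
  have hR2 : Cg * max ρ 1 ≤ R := (hR₀ 1).trans hR
  have hR3 : 2 * (Cg * max ρ 1) / τM ≤ R := (hR₀ 2).trans hR
  have hR4 : 1 / κ ≤ R := (hR₀ 3).trans hR
  have hR0 : 0 < R := by linarith
  have hRB : R ≤ B' * R := le_mul_of_one_le_left hR0.le hB'1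
  haveI := F.isProb_uD (B' * R) one_pos
  haveI := F.isProb_uD R hc₁
  -- labels
  have hG : F.GInv (F.conv ν (F.uD (B' * R) 1)) ρ τM := by
    refine (hginv ν S (B' * R) (max ρ 1) _ (le_max_right _ _) (hR2.trans hRB) ?_ hB).mono
      (le_max_left _ _) ?_
    · have : 0 ≤ As * R := by positivity
      calc Cg * (B' * R) = Cg * B' * R := by ring
        _ ≤ (As + Cg * B') * R := by linarith [add_mul As (Cg * B') R]
        _ ≤ S := hS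
    · have h1 : Cg * max ρ 1 / (B' * R) ≤ τM / 2 := by
        rw [div_le_iff₀ (hR0.trans_le hRB)]
        rw [div_le_iff₀ hτM] at hR3
        have := mul_le_mul_of_nonneg_right hRB hτM.le
        linarith
      linarith [min_le_right τs (τM / 2)]
  obtain ⟨r, hr0, hr1, 𝒢, hL, hU⟩ := hMT f q hQI _ inferInstance hG
  have hr₀ : r₀ ≤ r := (le_max_left _ _).trans ((le_max_left _ _).trans hr0)
  have hrs : r0s ≤ r := (le_max_right _ _).trans ((le_max_left _ _).trans hr0)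
  have hrl : Cl * (1 + M) ≤ r := (le_max_right _ _).trans hr0
  have hrp : 0 ≤ r := by linarith
  refine ⟨r, 𝒢, hr₀, hr1, hL.fla_mono hrp hε'ε, ?_, fun w w' hww => ?_⟩
  · refine (real_le_of_le_smul hC₁.le (F.conv_le (hdom1 R hR0)) _).trans ?_
    exact (mul_le_mul_of_nonneg_left hU hC₁.le).trans hε'1
  have hU2 : (F.conv ν (F.uD2 R)).real (⋃ w, 𝒢 w)ᶜ ≤ κ ^ 2 := by
    refine (real_le_of_le_smul hC₂.le (F.conv_le (hdom2' R hR0)) _).trans ?_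
    exact (mul_le_mul_of_nonneg_left hU hC₂.le).trans hε'2
  -- the step
  have hκR : 1 ≤ κ * R := (div_le_iff₀' hκ0).1 hR4
  obtain ⟨t, ht1, htle, htge⟩ : ∃ t : ℕ, (1 : ℝ) ≤ t ∧ (t : ℝ) ≤ κ * R ∧ κ * R ≤ 2 * t := by
    have h1 : (1 : ℝ) ≤ ⌊κ * R⌋₊ := by exact_mod_cast Nat.le_floor (by exact_mod_cast hκR)
    have h2 := Nat.lt_floor_add_one (κ * R)
    exact ⟨⌊κ * R⌋₊, h1, Nat.floor_le (by linarith), by linarith⟩
  have ht0 : (0 : ℝ) < t := by linarith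
  have hmon : ∀ v ∈ 𝒱, ∀ (i : F.J) (n : ℕ), (n : ℝ) ≤ t → (F.conv ν (F.uD2 R)).real
      {x | x ∈ F.Down 𝒢 i v ∧ x * F.lin v n ∈ F.Up 𝒢 i v} ≤ κ ^ 2 := by
    intro v hv i n hn
    refine hmono'' ⟨v, hv⟩ f q hQI R S ((hR0s _).trans hR1) (le_trans ?_ hS) ν hν
      (hB.mono (fun _ => le_rfl) ((min_le_left _ _).trans (hτsle _))) r 𝒢 ((hr0s _).trans hrs) hr1
      (hL.fla_mono hrp (hε's.trans (hεsle _))) (hU.trans (hε's.trans (hεsle _))) i n ?_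
    · exact mul_le_mul_of_nonneg_right (by linarith [hAs ⟨v, hv⟩]) hR0.le
    · have := mul_le_mul_of_nonneg_right hκ4 hR0.le
      linarith
  have hbig := hstep ν hν 𝒢 hL.1 (hL.fla_disj hrp) R t (κ ^ 2) hR0 ht0.le
    (htle.trans (mul_le_mul_of_nonneg_right hκc hR0.le)) hU2
    (fun v hv i => hmon v hv i t le_rfl)
  have hsmall : ∀ v ∈ 𝒱, ∀ (i : F.J) (s : ℝ), |s| ≤ t → (F.conv ν (F.uD2 R)).real
      {x | ¬(x ∈ F.Up 𝒢 i v ↔ x * F.lin v s ∈ F.Up 𝒢 i v)} ≤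
        6 * κ ^ 2 + 4 * (Cr * (Ch * M * κ)) := by
    intro v hv i
    have hvM : ‖v‖ ≤ M := hM ⟨v, hv⟩
    refine fla_small _ hL i (hgen v hv) hU2 (fun s hs => ?_) (hmon v hv i) (fun s hs => ?_)
    · have h1 : F.dn R (s • F.hat v) ≤ Ch * M * κ := by
        refine (hdn R hR0 v s).trans ?_
        rw [div_le_iff₀ hR0]
        calc Ch * |s| * ‖v‖ ≤ Ch * (κ * R) * M := by
              gcongr
              exact hs.trans htle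
          _ = Ch * M * κ * R := by ring
      refine F.rinv_conv ν _ ((hrinv R _ (F.D.smul_mem s (F.hat_mem v)) (h1.trans hκh)).mono ?_)
      exact mul_le_mul_of_nonneg_left h1 (by linarith)
    · refine (hlen v s).trans (le_trans ?_ hrl)
      have : |s| * ‖v‖ ≤ 1 * M := by gcongr
      gcongr
      linarith
  set p : {p : F.W × F.W // p.1 ≠ p.2} := ⟨(w, w'), hww⟩ with hp
  set A : Set F.G := {x | ∃ w'' ∈ Wp p, x ∈ 𝒢 w''} with hA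
  have hAU : ∀ i, F.Up 𝒢 (j p) (b p i) = A := by
    intro i
    ext x
    simp only [Up, hA, Set.mem_ofPred_eq, (hb p i).2]
    exact ⟨fun ⟨a, h1, h2⟩ => ⟨a, h2, h1⟩, fun ⟨a, h1, h2⟩ => ⟨a, h2, h1⟩⟩
  have hAm : MeasurableSet A := by
    have : A = ⋃ w'' ∈ Wp p, 𝒢 w'' := by
      ext x
      simp [hA]
    rw [this]
    exact MeasurableSet.biUnion (Set.toFinite _).countable fun w'' _ => hL.1 w''
  have hfin := hprop' p ν hν A hAm R t (Cs * (κ ^ 2 + (t / R) ^ 2))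
    (6 * κ ^ 2 + 4 * (Cr * (Ch * M * κ))) ht0
    (htle.trans (mul_le_mul_of_nonneg_right (hκc₁.trans (hc₁le p)) hR0.le)) (by positivity)
    (by positivity) (fun i => by rw [← hAU i]; exact hbig _ (hbV p i) _)
    (fun i s hs => by rw [← hAU i]; exact hsmall _ (hbV p i) _ s hs)
  have hsub : {x : (F.G × F.G) × F.G | x.1.1 * x.1.2 ∈ 𝒢 w ∧ x.1.1 * x.2 ∈ 𝒢 w'} ⊆
      {x | x.1.1 * x.1.2 ∈ A ∧ x.1.1 * x.2 ∉ A} := by
    rintro x ⟨h1, h2⟩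
    refine ⟨⟨w, hw p, h1⟩, ?_⟩
    rintro ⟨w'', h3, h4⟩
    obtain rfl := hL.fla_disj hrp w' w'' _ h2 h4
    exact hw' p h3
  refine (measureReal_mono hsub).trans (hfin.trans (le_trans ?_ hκε))
  have e1 : (t : ℝ) / R ≤ κ := (div_le_iff₀ hR0).2 htle
  have e2 : κ * (R / t) ≤ 2 := by
    rw [← mul_div_assoc, div_le_iff₀ ht0]
    exact htge
  have e3 : Cs * (κ ^ 2 + (t / R) ^ 2) * (R / t) ≤ 4 * Cs * κ := by
    calc Cs * (κ ^ 2 + (t / R) ^ 2) * (R / t) ≤ Cs * (κ ^ 2 + κ ^ 2) * (R / t) := by gcongr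
      _ = 2 * Cs * κ * (κ * (R / t)) := by ring
      _ ≤ 2 * Cs * κ * 2 := by gcongr
      _ = 4 * Cs * κ := by ring
  have e4 : κ ^ 2 ≤ κ := by nlinarith
  calc Cp p * (Cs * (κ ^ 2 + (t / R) ^ 2) * (R / t) + (6 * κ ^ 2 + 4 * (Cr * (Ch * M * κ))))
      ≤ CP * (4 * Cs * κ + (6 * κ + 4 * (Cr * (Ch * M * κ)))) := by
        gcongr
        exact hCP p
    _ = CP * (4 * Cs + 6 + 4 * (Cr * (Ch * M))) * κ := by ring

end Frame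

end Crest.Agent.R182
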