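import Crest.Agent.R182.LinNrm

/-! Row 182, task `R182/LinLA`: the linear algebra behind the exclusion of foldings. -/

set_option autoImplicit false

namespace Crest.Agent.R182

open scoped BigOperators
open MeasureTheory

section aux

open Metric Filter Topology
open scoped RealInnerProductSpace

theorem la_ae_ne {X : Type} [NormedAddCommGroup X] [NormedSpace ℝ X] [FiniteDimensional ℝ X]
    [MeasurableSpace X] [BorelSpace X] (ν : Measure X) [ν.IsAddHaarMeasure] {l : X →ₗ[ℝ] ℝ}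
    (hl : l ≠ 0) : ∀ᵐ v ∂ν, l v ≠ 0 := by
  have := Measure.addHaar_submodule ν (LinearMap.ker l) (mt LinearMap.ker_eq_top.1 hl)
  rw [ae_iff]
  simp only [not_not]
  exact this

theorem la_sign {X K : Type} [TopologicalSpace X] [Finite K] {f : K → X → ℝ}
    (hf : ∀ k, Continuous (f k)) {v₀ : X} (h : ∀ k, f k v₀ ≠ 0) :
    ∀ᶠ v in 𝓝 v₀, ∀ k, f k v ≠ 0 ∧ (0 < f k v ↔ 0 < f k v₀) := by
  refine eventually_all.2 fun k => ?_
  rcases (h k).lt_or_gt with h0 | h0
  · filter_upwards [(hf k).continuousAt.eventually_lt continuousAt_const h0] with v hv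
    exact ⟨hv.ne, iff_of_false hv.not_gt h0.not_gt⟩
  · filter_upwards [continuousAt_const.eventually_lt (hf k).continuousAt h0] with v hv
    exact ⟨hv.ne', iff_of_true hv h0⟩

variable {E : Type} [NormedAddCommGroup E] [InnerProductSpace ℝ E] [FiniteDimensional ℝ E]
  [MeasurableSpace E] [BorelSpace E]

/-- `∫_B 1[⟪x,v⟫ > 0] ⟪y,v⟫ dv` -/
noncomputable def laI (R : ℝ) (x y : E) : ℝ :=
  ∫ v in ball (0 : E) R, if 0 < ⟪x, v⟫ then ⟪y, v⟫ else 0

theorem la_int (R : ℝ) (x y : E) :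
    IntegrableOn (fun v => if 0 < ⟪x, v⟫ then ⟪y, v⟫ else 0) (ball (0 : E) R) := by
  have h1 : IntegrableOn (fun v => ⟪y, v⟫) (ball (0 : E) R) :=
    ((continuous_const.inner continuous_id).continuousOn.integrableOn_compact
      (isCompact_closedBall 0 R)).mono_set ball_subset_closedBall
  exact Integrable.indicator h1 (s := {v | 0 < ⟪x, v⟫})
    (isOpen_lt continuous_const (continuous_const.inner continuous_id)).measurableSet

theorem laI_iso (R : ℝ) (T : E ≃ₗᵢ[ℝ] E) (x y : E) : laI R (T x) (T y) = laI R x y := by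
  have := T.measurePreserving.setIntegral_preimage_emb T.toHomeomorph.measurableEmbedding
    (fun v => if 0 < ⟪T x, v⟫ then ⟪T y, v⟫ else 0) (ball 0 R)
  rw [laI, ← this, T.preimage_ball, map_zero]
  simp only [T.inner_map_map, laI]

theorem laI_add (R : ℝ) (x y y' : E) : laI R x (y + y') = laI R x y + laI R x y' := by
  rw [laI, laI, laI, ← integral_add (la_int R x y) (la_int R x y')]
  congr 1
  funext v
  split_ifs
  · exact inner_add_left _ _ _
  · rw [add_zero]

theorem laI_smul (R : ℝ) (x y : E) (a : ℝ) : laI R x (a • y) = a * laI R x y := by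
  rw [laI, laI, ← integral_const_mul]
  congr 1
  funext v
  split_ifs
  · exact real_inner_smul_left _ _ _
  · rw [mul_zero]

theorem laI_orth (R : ℝ) {x y : E} (h : ⟪y, x⟫ = 0) : laI R x y = 0 := by
  have h1 := laI_iso R (ℝ ∙ y)ᗮ.reflection x y
  rw [Submodule.reflection_mem_subspace_eq_self
      (Submodule.mem_orthogonal_singleton_iff_inner_right.2 h),
    Submodule.reflection_orthogonalComplement_singleton_eq_neg, ← neg_one_smul ℝ y,
    laI_smul] at h1
  linarith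

theorem laI_eq (R : ℝ) {x : E} (hx : x ≠ 0) (y : E) :
    laI R x y = ⟪x, y⟫ * (laI R x x / ‖x‖ ^ 2) := by
  have h0 : ‖x‖ ≠ 0 := norm_ne_zero_iff.2 hx
  have h1 : ⟪y - (⟪x, y⟫ / ‖x‖ ^ 2) • x, x⟫ = 0 := by
    rw [inner_sub_left, real_inner_smul_left, real_inner_self_eq_norm_sq, real_inner_comm]
    field_simp
    ring
  calc laI R x y = laI R x ((⟪x, y⟫ / ‖x‖ ^ 2) • x + (y - (⟪x, y⟫ / ‖x‖ ^ 2) • x)) := by
        rw [add_sub_cancel]
    _ = _ := by rw [laI_add, laI_smul, laI_orth R h1]; ring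

theorem laI_norm (R : ℝ) {x x' : E} (h : ‖x‖ = ‖x'‖) : laI R x x = laI R x' x' := by
  rw [← laI_iso R (ℝ ∙ (x - x'))ᗮ.reflection, Submodule.reflection_sub h]

theorem laI_pos {R : ℝ} (hR : 0 < R) {x : E} (hx : x ≠ 0) : 0 < laI R x x := by
  have h0 : 0 < ‖x‖ := norm_pos_iff.2 hx
  rw [laI, setIntegral_pos_iff_support_of_nonneg_ae
    (Eventually.of_forall fun v => by
      simp only [Pi.zero_apply]
      split_ifs with h
      · exact h.le
      · exact le_rfl) (la_int R x x)]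
  refine lt_of_lt_of_le (IsOpen.measure_pos volume (U := {v | 0 < ⟪x, v⟫} ∩ ball 0 R)
    ((isOpen_lt continuous_const (continuous_const.inner continuous_id)).inter isOpen_ball)
    ⟨(R / 2 / ‖x‖) • x, ?_, ?_⟩) (measure_mono (Set.inter_subset_inter_left _ fun v hv => ?_))
  · rw [Set.mem_ofPred_eq, real_inner_smul_right, real_inner_self_eq_norm_sq]
    positivity
  · rw [mem_ball_zero_iff, norm_smul, Real.norm_of_nonneg (by positivity),
      div_mul_cancel₀ _ h0.ne']
    linarith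
  · have hv' : 0 < ⟪x, v⟫ := hv
    rw [Function.mem_support, if_pos hv']
    exact hv'.ne'

theorem la_euclid {J W : Type} [Fintype J] [Fintype W] {x : J → W → E} {r : J → E}
    (hr : ∀ j, r j ≠ 0) (hx : ∀ j w, ‖x j w‖ = ‖r j‖) {m : J → ℝ} (hm : ∀ j, 0 < m j)
    (hs : ∀ w, ∑ j, m j • x j w = 0) (y : W → E)
    (h : ∀ v, (∀ w j, ⟪x j w, v⟫ ≠ 0) → ∀ j,
      ∑ w, (if 0 < ⟪x j w, v⟫ then ⟪y w, v⟫ else 0) ≤ 0)
    {v₀ : E} (hv : ∀ w j, ⟪x j w, v₀⟫ ≠ 0) (j : J) :
    ∑ w, (if 0 < ⟪x j w, v₀⟫ then ⟪y w, v₀⟫ else 0) = 0 := by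
  obtain ⟨R, hR⟩ := exists_gt ‖v₀‖
  have hR0 : 0 < R := (norm_nonneg _).trans_lt hR
  have hx0 : ∀ j w, x j w ≠ 0 := fun j w => by
    rw [← norm_ne_zero_iff, hx, norm_ne_zero_iff]; exact hr j
  let P : J → E → ℝ := fun j v => ∑ w, if 0 < ⟪x j w, v⟫ then ⟪y w, v⟫ else 0
  let c : J → ℝ := fun j => laI R (r j) (r j) / ‖r j‖ ^ 2
  have hc : ∀ j, 0 < c j := fun j =>
    div_pos (laI_pos hR0 (hr j)) (pow_pos (norm_pos_iff.2 (hr j)) 2)
  have hPi : ∀ j, IntegrableOn (P j) (ball 0 R) := fun j =>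
    integrable_finsetSum _ fun w _ => la_int R _ _
  have hP : ∀ j, ∫ v in ball 0 R, P j v = (∑ w, ⟪x j w, y w⟫) * c j := fun j => by
    rw [integral_finsetSum _ fun w _ => la_int R _ _, Finset.sum_mul]
    refine Finset.sum_congr rfl fun w _ => ?_
    have := laI_eq R (hx0 j w) (y w)
    rw [laI_norm R (hx j w), hx] at this
    exact this
  have hae : ∀ᵐ v : E, ∀ w j, ⟪x j w, v⟫ ≠ 0 :=
    ae_all_iff.2 fun w => ae_all_iff.2 fun j => la_ae_ne volume (l := innerₗ E (x j w)) fun h0 =>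
      hx0 j w (inner_self_eq_zero.1 (LinearMap.congr_fun h0 (x j w)))
  have hle : ∀ j, ∀ᵐ v ∂volume.restrict (ball (0 : E) R), P j v ≤ 0 := fun j =>
    ae_restrict_of_ae (hae.mono fun v hv => h v hv j)
  have h1 : ∑ j, m j / c j * ∫ v in ball 0 R, P j v = 0 := by
    calc _ = ∑ j, ∑ w, ⟪m j • x j w, y w⟫ := Finset.sum_congr rfl fun j _ => by
          rw [hP, mul_comm _ (c j), ← mul_assoc, div_mul_cancel₀ _ (hc j).ne', Finset.mul_sum]
          simp only [real_inner_smul_left]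
      _ = 0 := by
          rw [Finset.sum_comm]
          simp only [← sum_inner, hs, inner_zero_left, Finset.sum_const_zero]
  have h2 := (Finset.sum_eq_zero_iff_of_nonpos fun j _ => mul_nonpos_of_nonneg_of_nonpos
    (div_pos (hm j) (hc j)).le (integral_nonpos_of_ae (hle j))).1 h1 j (Finset.mem_univ j)
  have h3 : ∫ v in ball 0 R, -P j v = 0 := by
    rw [integral_neg, (mul_eq_zero.1 h2).resolve_left (div_pos (hm j) (hc j)).ne', neg_zero]
  have h4 := (integral_eq_zero_iff_of_nonneg_ae ((hle j).mono fun v hv => neg_nonneg.2 hv)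
    (hPi j).neg).1 h3
  have h5 := Measure.dense_of_ae ((ae_restrict_iff' measurableSet_ball).1 h4)
  by_contra hne
  have h6 : ContinuousAt (P j) v₀ := by
    refine ContinuousAt.congr (f := fun v => ∑ w, if 0 < ⟪x j w, v₀⟫ then ⟪y w, v⟫ else 0)
      (Continuous.continuousAt (continuous_finsetSum _ fun w _ => ?_)) ?_
    · split_ifs
      · exact continuous_const.inner continuous_id
      · exact continuous_const
    · filter_upwards [la_sign (f := fun w v => ⟪x j w, v⟫)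
        (fun w => continuous_const.inner continuous_id) fun w => hv w j] with v hv'
      exact Finset.sum_congr rfl fun w _ => if_congr (hv' w).2.symm rfl rfl
  obtain ⟨v, h7, h8, h9⟩ := h5.inter_nhds_nonempty
    ((h6.eventually_ne hne).and (isOpen_ball.mem_nhds (mem_ball_zero_iff.2 hR)))
  exact h8 (neg_eq_zero.1 (h7 h9))

theorem la_compact {X : Type} [NormedAddCommGroup X] [NormedSpace ℝ X] [FiniteDimensional ℝ X]
    {ι J : Type} [Fintype J] (p : ι → Prop) (l : ι → J → X →ₗ[ℝ] ℝ)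
    (h : ∀ x, (∀ i, p i → ∀ j, l i j x ≤ 0) → ∀ i, p i → ∀ j, l i j x = 0) (S₀ : Finset ι)
    (h₀ : ∀ i ∈ S₀, p i) : ∃ (S : Finset ι) (C : ℝ), 0 < C ∧ S₀ ⊆ S ∧ (∀ i ∈ S, p i) ∧
      ∀ (x : X) (η : ℝ), 0 ≤ η → (∀ i ∈ S, ∀ j, l i j x ≤ η) →
        ∀ i ∈ S, ∀ j, -(C * η) ≤ l i j x := by
  classical
  have hl : ∀ i j, Continuous (l i j) := fun i j => (l i j).continuous_of_finiteDimensional
  let Z : Submodule ℝ X := ⨅ i : {i // p i}, ⨅ j, LinearMap.ker (l i.1 j)
  have hZ : ∀ x, x ∈ Z ↔ ∀ i, p i → ∀ j, l i j x = 0 := fun x => by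
    simp only [Z, Submodule.mem_iInf, LinearMap.mem_ker, Subtype.forall]
  obtain ⟨Z', hZ'⟩ := Z.exists_isCompl
  have hK : IsCompact (sphere (0 : X) 1 ∩ Z') :=
    (isCompact_sphere 0 1).inter_right Z'.closed_of_finiteDimensional
  obtain ⟨T, hT⟩ := hK.elim_finite_subcover (fun i : {i // p i} => ⋃ j, {x | 0 < l i.1 j x})
    (fun i => isOpen_iUnion fun j => isOpen_lt continuous_const (hl _ _)) fun x hx => by
      by_contra hn
      simp only [Set.mem_iUnion, Set.mem_ofPred_eq, not_exists, not_lt, Subtype.forall] at hn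
      have h1 : x = 0 := (Submodule.disjoint_def.1 hZ'.disjoint) x ((hZ x).2 (h x hn)) hx.2
      have h2 := hx.1
      rw [h1] at h2
      simp at h2
  set S := S₀ ∪ T.image Subtype.val with hS
  have hSp : ∀ i ∈ S, p i := fun i hi => by
    rcases Finset.mem_union.1 hi with hi | hi
    · exact h₀ i hi
    · obtain ⟨i, -, rfl⟩ := Finset.mem_image.1 hi
      exact i.2
  obtain ⟨δ, hδ, hδ'⟩ := hK.exists_forall_le' (a := 0)
    (f := fun x => ∑ i ∈ S, ∑ j, max (l i j x) 0)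
    (Continuous.continuousOn (continuous_finsetSum _ fun i _ => continuous_finsetSum _ fun j _ =>
      (hl i j).max continuous_const)) fun x hx => by
      obtain ⟨i, hi, hx'⟩ := Set.mem_iUnion₂.1 (hT hx)
      obtain ⟨j, hj⟩ := Set.mem_iUnion.1 hx'
      refine Finset.sum_pos' (fun _ _ => Finset.sum_nonneg fun _ _ => le_max_right _ _)
        ⟨i.1, Finset.mem_union_right _ (Finset.mem_image_of_mem _ hi), ?_⟩
      exact Finset.sum_pos' (fun _ _ => le_max_right _ _)
        ⟨j, Finset.mem_univ j, lt_max_of_lt_left hj⟩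
  let M : ℝ := ∑ i ∈ S, ∑ j, ‖LinearMap.toContinuousLinearMap (l i j)‖
  have hM : ∀ i ∈ S, ∀ j, ‖LinearMap.toContinuousLinearMap (l i j)‖ ≤ M := fun i hi j =>
    (Finset.single_le_sum (f := fun j => ‖LinearMap.toContinuousLinearMap (l i j)‖)
      (fun _ _ => norm_nonneg _) (Finset.mem_univ j)).trans
      (Finset.single_le_sum (f := fun i => ∑ j, ‖LinearMap.toContinuousLinearMap (l i j)‖)
        (fun _ _ => Finset.sum_nonneg fun _ _ => norm_nonneg _) hi)
  have hM0 : 0 ≤ M := Finset.sum_nonneg fun _ _ => Finset.sum_nonneg fun _ _ => norm_nonneg _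
  refine ⟨S, M * (S.card * Fintype.card J / δ) + 1, by positivity, Finset.subset_union_left, hSp,
    fun x η hη hx i hi j => ?_⟩
  obtain ⟨z, hz, z', hz', rfl⟩ := Submodule.mem_sup.1
    (hZ'.sup_eq_top ▸ Submodule.mem_top : x ∈ Z ⊔ Z')
  have e : ∀ i ∈ S, ∀ j, l i j (z + z') = l i j z' := fun i hi j => by
    rw [map_add, (hZ z).1 hz i (hSp i hi), zero_add]
  have h1 : ‖z'‖ ≤ S.card * Fintype.card J / δ * η := by
    rcases eq_or_ne z' 0 with rfl | h0
    · rw [norm_zero]; positivity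
    have h2 : 0 < ‖z'‖ := norm_pos_iff.2 h0
    have h3 := hδ' (‖z'‖⁻¹ • z') ⟨by
      rw [mem_sphere_zero_iff_norm, norm_smul, norm_inv, norm_norm, inv_mul_cancel₀ h2.ne'],
      Z'.smul_mem _ hz'⟩
    have h4 : ∑ i ∈ S, ∑ j, max (l i j (‖z'‖⁻¹ • z')) 0 ≤ ∑ i ∈ S, ∑ j : J, ‖z'‖⁻¹ * η := by
      refine Finset.sum_le_sum fun i hi => Finset.sum_le_sum fun j _ => max_le ?_ (by positivity)
      rw [map_smul, smul_eq_mul, ← e i hi]
      exact mul_le_mul_of_nonneg_left (hx i hi j) (by positivity)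
    simp only [Finset.sum_const, Finset.card_univ, nsmul_eq_mul] at h4
    rw [div_mul_eq_mul_div, le_div_iff₀ hδ]
    calc ‖z'‖ * δ ≤ ‖z'‖ * (S.card * (Fintype.card J * (‖z'‖⁻¹ * η))) :=
          mul_le_mul_of_nonneg_left (h3.trans h4) h2.le
      _ = _ := by field_simp
  have h2 : |l i j z'| ≤ M * ‖z'‖ :=
    (LinearMap.toContinuousLinearMap (l i j)).le_of_opNorm_le (hM i hi j) z'
  have h3 := mul_le_mul_of_nonneg_left h1 hM0
  rw [e i hi]
  nlinarith [neg_abs_le (l i j z')]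

end aux

namespace Frame

variable (F : Frame)

theorem la_ne (w : F.W) (j : F.J) : (F.μ j ∘ₗ (w.1 : F.V →ₗ[ℝ] F.V)) ∘ₗ F.φL ≠ 0 := fun h =>
  F.μ_ne j (LinearMap.ext fun u => by
    obtain ⟨v, hv⟩ := F.φL_surj (w.1.symm u)
    have := LinearMap.congr_fun h v
    simpa [hv] using this)

open Classical in
/-- `P j v = ∑_{w : μ j (w φL v) > 0} n w v` -/
noncomputable def PP (n : F.W → F.L →ₗ[ℝ] ℝ) (j : F.J) (v : F.L) : ℝ :=
  ∑ w : F.W, if 0 < F.μ j (w.1 (F.φL v)) then n w v else 0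

/-- Let `⟨y, y'⟩ = ∑_w (w y) ⬝ (w y')` be a `W`-invariant scalar product on `V`, `B` its unit ball
(invariant under all its isometries, which have `|det| = 1`).  `z j = ∫_B 1[μ j y > 0] y dy` equals
`c j μ j^♯` with `c j > 0` (reflect in `y₀^⊥` for `y₀ ∈ ker μ j`).  With `s` a linear section of `φL`,
`∫_B PP n j (s y) dy = ∑_w n w (s (w⁻¹ (z j)))`, so `∑_j (m j / c j) ∫_B PP n j (s y) dy = 0` for a
positive relation `∑ m j μ j = 0`.  As `PP ≤ 0` a.e., `PP n j (s y) = 0` a.e., hence for all generic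
`y` (`PP n j ∘ s` is linear on each open chamber).  For `l ∈ ker φL`, `t ↦ PP n j (v + t l)` is affine
and `≤ 0`, hence constant; so `PP n j v = PP n j (s (φL v)) = 0`. -/
theorem LA_exact (n : F.W → F.L →ₗ[ℝ] ℝ) (h : ∀ v, F.Gen v → ∀ j, F.PP n j v ≤ 0) (v : F.L)
    (hv : F.Gen v) (j : F.J) : F.PP n j v = 0 := by
  classical
  obtain ⟨s, hs⟩ := F.exists_section
  obtain ⟨m, hm, hm0, -⟩ := F.exists_opt 0
  let t : F.W × Fin F.m → F.L := fun i =>
    Pi.single i.2 1 + s (i.1.1 (F.φL (Pi.single i.2 1)) - F.φL (Pi.single i.2 1))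
  have ht : ∀ i, F.φL (t i) = i.1.1 (F.φL (Pi.single i.2 1)) := fun i => by
    simp only [t, map_add, hs, add_sub_cancel]
  let T : EuclideanSpace ℝ (F.W × Fin F.m) → F.L := fun z => ∑ i, z i • t i
  have hT : ∀ (l : F.L →ₗ[ℝ] ℝ) z, inner ℝ (WithLp.toLp 2 fun i => l (t i)) z = l (T z) :=
    fun l z => by simp [T, PiLp.inner_apply]
  have hT' : ∀ v, ∃ z, T z = v := fun v => by
    refine ⟨WithLp.toLp 2 fun i => if i.1 = 1 then v i.2 else 0, ?_⟩
    simp only [T, Fintype.sum_prod_type, ite_smul, zero_smul]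
    rw [Finset.sum_comm]
    simp only [Finset.sum_ite_eq', Finset.mem_univ, if_true, t, OneMemClass.coe_one,
      LinearEquiv.coe_one, id, sub_self, map_zero, add_zero]
    exact (pi_eq_sum_univ' v).symm
  let x : F.J → F.W → EuclideanSpace ℝ (F.W × Fin F.m) := fun j w =>
    WithLp.toLp 2 fun i => F.μ j (w.1 (F.φL (t i)))
  have hx : ∀ j w z, inner ℝ (x j w) z = F.μ j (w.1 (F.φL (T z))) := fun j w z =>
    hT ((F.μ j ∘ₗ (w.1 : F.V →ₗ[ℝ] F.V)) ∘ₗ F.φL) z
  obtain ⟨z, rfl⟩ := hT' v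
  have := la_euclid (x := x) (r := fun j => x j 1) (m := fun j => m j)
    (fun j h0 => F.la_ne 1 j (LinearMap.ext fun v => by
      obtain ⟨z, rfl⟩ := hT' v
      have := hx j 1 z
      rw [h0, inner_zero_left] at this
      exact this.symm))
    (fun j w => by
      simp only [EuclideanSpace.norm_eq, x, ht, Fintype.sum_prod_type]
      congr 1
      exact Fintype.sum_equiv (Equiv.mulLeft w) _ _ fun _ => rfl)
    (fun j => Nat.cast_pos.2 (hm j))
    (fun w => by
      ext i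
      have := LinearMap.congr_fun hm0 (w.1 (F.φL (t i)))
      simpa [x] using this)
    (fun w => WithLp.toLp 2 fun i => n w (t i))
    (fun z hz j => by
      simp only [hx, hT] at hz ⊢
      exact h _ hz j)
    (v₀ := z) (fun w j => by rw [hx]; exact hv w j) j
  simp only [hx, hT] at this
  exact this

/-- Quantitative form by compactness: `n ↦ PP n j v` is linear; let `Z` be the common kernel over all
generic `v`, `Z'` a complement; on the unit sphere of `Z'` the open sets `{PP n j v > 0}` form a cover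
(`LA_exact`); take a finite subcover. -/
theorem LA (𝒱₀ : Finset F.L) (h₀ : ∀ v ∈ 𝒱₀, F.Gen v) : ∃ (𝒱 : Finset F.L) (C : ℝ), 0 < C ∧
    𝒱₀ ⊆ 𝒱 ∧ (∀ v ∈ 𝒱, F.Gen v) ∧ ∀ (n : F.W → F.L →ₗ[ℝ] ℝ) (η : ℝ), 0 ≤ η →
      (∀ v ∈ 𝒱, ∀ j, F.PP n j v ≤ η) → ∀ v ∈ 𝒱, ∀ j, -(C * η) ≤ F.PP n j v := by
  let l : F.L → F.J → (F.W → F.L →L[ℝ] ℝ) →ₗ[ℝ] ℝ := fun v j =>
    { toFun := fun x => F.PP (fun w => (x w : F.L →ₗ[ℝ] ℝ)) j v
      map_add' := fun x y => by
        simp only [PP, ← Finset.sum_add_distrib]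
        refine Finset.sum_congr rfl fun w _ => ?_
        split_ifs <;> simp
      map_smul' := fun a x => by
        simp only [PP, RingHom.id_apply, smul_eq_mul, Finset.mul_sum]
        refine Finset.sum_congr rfl fun w _ => ?_
        split_ifs <;> simp }
  obtain ⟨S, C, h1, h2, h3, h4⟩ := la_compact F.Gen l
    (fun x hx v hv j => F.LA_exact _ hx v hv j) 𝒱₀ h₀
  exact ⟨S, C, h1, h2, h3, fun n => h4 fun w => LinearMap.toContinuousLinearMap (n w)⟩

theorem la_exists_sep {w w' : F.W} (h : w ≠ w') :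
    ∃ j u, 0 < F.μ j (w.1 u) ∧ F.μ j (w'.1 u) < 0 := by
  by_contra hn
  simp only [not_exists, not_and, not_lt] at hn
  have key : ∀ j u, F.μ j ((w' * w⁻¹).1 u) = F.μ j u := fun j => by
    set g := w' * w⁻¹ with hg
    have h1 : ∀ u, 0 < F.μ j u → 0 ≤ F.μ j (g.1 u) := fun u hu =>
      hn j (w.1.symm u) (by rwa [LinearEquiv.apply_symm_apply])
    obtain ⟨u₀, hu₀⟩ : ∃ u₀, F.μ j u₀ = 1 :=
      LinearMap.surjective_of_ne_zero (F.μ_ne j) 1
    have h2 : ∀ u, F.μ j u = 0 → F.μ j (g.1 u) = 0 := fun u hu => by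
      by_contra h0
      have := h1 (u₀ - ((F.μ j (g.1 u₀) + 1) / F.μ j (g.1 u)) • u) (by simp [hu, hu₀])
      rw [map_sub, map_smul, map_sub, map_smul, smul_eq_mul, div_mul_cancel₀ _ h0] at this
      linarith
    have h3 : ∀ u, F.μ j (g.1 u) = F.μ j (g.1 u₀) * F.μ j u := fun u => by
      have := h2 (u - F.μ j u • u₀) (by simp [hu₀])
      rw [map_sub, map_smul, map_sub, map_smul, smul_eq_mul] at this
      linarith
    have h4 : ∀ k : ℕ, F.μ j ((g ^ k).1 u₀) = F.μ j (g.1 u₀) ^ k := fun k => by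
      induction k with
      | zero => simpa using hu₀
      | succ k ih =>
        rw [pow_succ', Subgroup.coe_mul, LinearEquiv.mul_apply, h3, ih, pow_succ']
    have h5 := h4 (Fintype.card F.W)
    rw [pow_card_eq_one, OneMemClass.coe_one, LinearEquiv.coe_one, id, hu₀, eq_comm,
      pow_eq_one_iff_of_nonneg (h1 u₀ (by rw [hu₀]; exact one_pos)) Fintype.card_ne_zero] at h5
    intro u
    rw [h3, h5, one_mul]
  refine h (mul_inv_eq_one.1 (Subtype.ext (LinearEquiv.ext fun u => ?_))).symm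
  exact sub_eq_zero.1 (F.μ_span _ fun j => by rw [map_sub, key]; exact sub_self _)

/-- Two labels are separated by a bit that is constant on a basis.  If for every `j` the functionals
`μ j ∘ w`, `μ j ∘ w'` were positively proportional they would be equal (same dual norm for `nrm`), so
`w = w'`.  Otherwise `{μ j w > 0 > μ j w'}` is a non-empty open cone; take a generic `v₀` in its
preimage and a basis in a small ball around `v₀`. -/
theorem exists_sep_basis (w w' : F.W) (h : w ≠ w') : ∃ (j : F.J)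
    (b : Module.Basis (Fin F.m) ℝ F.L) (Wp : Set F.W), w ∈ Wp ∧ w' ∉ Wp ∧
      ∀ i, F.Gen (b i) ∧ ∀ w'' : F.W, (0 < F.μ j (w''.1 (F.φL (b i))) ↔ w'' ∈ Wp) := by
  obtain ⟨j, u, h1, h2⟩ := F.la_exists_sep h
  obtain ⟨v, rfl⟩ := F.φL_surj u
  have hc : ∀ k : F.W × F.J, Continuous fun v => F.μ k.2 (k.1.1 (F.φL v)) := fun k =>
    ((F.μ k.2 ∘ₗ (k.1.1 : F.V →ₗ[ℝ] F.V)) ∘ₗ F.φL).continuous_of_finiteDimensional
  have hd : Dense {v | F.Gen v} := Measure.dense_of_ae (μ := volume)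
    (ae_all_iff.2 fun w => ae_all_iff.2 fun j => la_ae_ne volume (F.la_ne w j))
  obtain ⟨v₀, hv₀, h3, h4⟩ := hd.inter_nhds_nonempty
    ((continuousAt_const.eventually_lt (hc (w, j)).continuousAt h1).and
      ((hc (w', j)).continuousAt.eventually_lt continuousAt_const h2))
  have hU := la_sign hc (v₀ := v₀) fun k => hv₀ k.1 k.2
  have hsp := Submodule.eq_top_of_nonempty_interior' (Submodule.span ℝ _)
    ⟨v₀, mem_interior_iff_mem_nhds.2 (Filter.mem_of_superset hU Submodule.subset_span)⟩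
  let b := Module.Basis.ofSpan hsp.ge
  refine ⟨j, b.reindex (b.indexEquiv (Pi.basisFun ℝ (Fin F.m))),
    {w'' | 0 < F.μ j (w''.1 (F.φL v₀))}, h3, h4.not_gt, fun i => ?_⟩
  rw [Module.Basis.reindex_apply]
  have := Module.Basis.ofSpan_subset hsp.ge
    (Set.mem_range_self ((b.indexEquiv (Pi.basisFun ℝ (Fin F.m))).symm i))
  exact ⟨fun w'' j' => (this (w'', j')).1, fun w'' => (this (w'', j)).2⟩

end Frame

end Crest.Agent.R182
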