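import Crest.Agent.R182.Defs2
import Crest.Agent.R182.LinLA
import Crest.Agent.R182.LN2
import Crest.Agent.R182.GeoFol

/-! Row 182, task `R182/FL1`: switches are of second order. -/

set_option autoImplicit false

namespace Crest.Agent.R182

open scoped BigOperators
open MeasureTheory

namespace Frame

variable (F : Frame)

theorem fl1_meas (ν : Measure F.G) [IsProbabilityMeasure ν] {A : Set F.G} (hA : MeasurableSet A) :
    Measurable fun z : F.E => ν.real {x | x * F.M.ofE z ∈ A} :=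
  (measurable_measure_prodMk_right (μ := ν) (s := {q : F.G × F.E | q.1 * F.M.ofE q.2 ∈ A})
    ((measurable_fst.mul (F.M.measurable_ofE.comp measurable_snd)) hA)).ennreal_toReal

theorem fl1_conv (ν : Measure F.G) [IsProbabilityMeasure ν] (R : ℝ) {A : Set F.G}
    (hA : MeasurableSet A) {d : F.E} (hd : d ∈ F.D) :
    (F.conv ν (F.uD2 R)).real {x | x * F.M.ofE d ∈ A} =
      ∫ z, ν.real {x | x * F.M.ofE (F.N.mul z d) ∈ A} ∂unif2 F.N F.D (F.dn R) := by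
  have h1 : MeasurableSet {x : F.G | x * F.M.ofE d ∈ A} := measurable_mul_const _ hA
  rw [conv, map_measureReal_apply measurable_mul h1, near_prod_real_right ν _ (measurable_mul h1),
    uD2, gb_map]
  refine integral_congr_ae (Filter.Eventually.of_forall fun z => ?_)
  change ν.real {x | x * F.M.ofE z * F.M.ofE d ∈ A} = _
  simp only [mul_assoc, F.ofE_mul_D z hd]

theorem fl1_lin : ∃ C : ℝ, 0 < C ∧ ∀ (ν : Measure F.G) [IsProbabilityMeasure ν] (R : ℝ)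
    (A : Set F.G), MeasurableSet A → ∃ n : F.E →ₗ[ℝ] ℝ, ∀ y ∈ F.D, F.dn R y ≤ 1 →
      |(F.conv ν (F.uD2 R)).real {x | x * F.M.ofE y ∈ A} - (F.conv ν (F.uD2 R)).real A - n y| ≤
        C * F.dn R y ^ 2 := by
  obtain ⟨C, hC, h⟩ := F.N.unif2_linear
  refine ⟨C, hC, fun ν _ R A hA => ?_⟩
  obtain ⟨n, hn⟩ := h F.D _ (F.isLN_dn R) _ (F.fl1_meas ν hA) fun z => by
    rw [abs_of_nonneg measureReal_nonneg]
    exact measureReal_le_one
  refine ⟨n, fun y hy hy1 => ?_⟩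
  have h0 := F.fl1_conv ν R hA F.D.zero_mem
  simp only [Model.ofE_zero, mul_one, Set.ofPred_mem_eq, F.N.mul_zero'] at h0
  rw [F.fl1_conv ν R hA hy, h0]
  exact hn y hy hy1

open Classical in
theorem fl1_up (μ : Measure F.G) [IsProbabilityMeasure μ] {𝒢 : F.W → Set F.G}
    (hm : ∀ w, MeasurableSet (𝒢 w)) (hd : ∀ w w' z, z ∈ 𝒢 w → z ∈ 𝒢 w' → w = w') (j : F.J) (v : F.L)
    (g : F.G) : μ.real {x | x * g ∈ F.Up 𝒢 j v} =
      ∑ w : F.W, if 0 < F.μ j (w.1 (F.φL v)) then μ.real {x | x * g ∈ 𝒢 w} else 0 := by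
  rw [← Finset.sum_filter, ← measureReal_biUnion_finset]
  · congr 1
    ext x
    simp [Up, and_comm]
  · intro w _ w' _ hw
    exact Set.disjoint_left.2 fun x h h' => hw (hd w w' _ h h')
  · exact fun w _ => measurable_mul_const g (hm w)

theorem fl1_up_meas {𝒢 : F.W → Set F.G} (hm : ∀ w, MeasurableSet (𝒢 w)) (j : F.J) (v : F.L) :
    MeasurableSet (F.Up 𝒢 j v) := by
  have : F.Up 𝒢 j v = ⋃ w ∈ {w : F.W | 0 < F.μ j (w.1 (F.φL v))}, 𝒢 w := by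
    ext x
    simp [Up, and_comm]
  rw [this]
  exact MeasurableSet.biUnion (Set.to_countable _) fun w _ => hm w

/-- Take `𝒱` from `LA`.  `F_w d = ν {x | x * ofE d ∈ 𝒢 w}` is measurable with values in `[0,1]`;
`unif2_linear` gives `n w`, with `|δ_w - n w (t • hat v)| ≤ C (t / R)²`, where
`δ_w = ν₂ {x lin v t ∈ 𝒢 w} - ν₂ (𝒢 w)` (`dn_hat`).  By disjointness
`∑_{w up} δ_w = ν₂ {x lin ∈ Up} - ν₂ Up ≤ ν₂ {x ∉ Up, x lin ∈ Up} ≤ 2 η` (`v` is generic, so a labelled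
point is `Up` or `Down`).  Apply `LA` to `w ↦ t • (n w ∘ hat)`; then
`ν₂ {x ∈ Up, x lin ∉ Up} = ν₂ Up - ν₂ {x lin ∈ Up} + ν₂ {x ∉ Up, x lin ∈ Up}`. -/
theorem fl_step (𝒱₀ : Finset F.L) (h₀ : ∀ v ∈ 𝒱₀, F.Gen v) : ∃ (𝒱 : Finset F.L) (c C : ℝ),
    0 < c ∧ c ≤ 1 ∧ 0 < C ∧ 𝒱₀ ⊆ 𝒱 ∧ (∀ v ∈ 𝒱, F.Gen v) ∧ ∀ (ν : Measure F.G),
      IsProbabilityMeasure ν → ∀ (𝒢 : F.W → Set F.G), (∀ w, MeasurableSet (𝒢 w)) →
      (∀ w w' z, z ∈ 𝒢 w → z ∈ 𝒢 w' → w = w') → ∀ R t η : ℝ, 0 < R → 0 ≤ t → t ≤ c * R →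
      (F.conv ν (F.uD2 R)).real (⋃ w, 𝒢 w)ᶜ ≤ η →
      (∀ v ∈ 𝒱, ∀ j, (F.conv ν (F.uD2 R)).real
        {x | x ∈ F.Down 𝒢 j v ∧ x * F.lin v t ∈ F.Up 𝒢 j v} ≤ η) →
      ∀ v ∈ 𝒱, ∀ j, (F.conv ν (F.uD2 R)).real
        {x | ¬(x ∈ F.Up 𝒢 j v ↔ x * F.lin v t ∈ F.Up 𝒢 j v)} ≤ C * (η + (t / R) ^ 2) := by
  classical
  obtain ⟨𝒱, C₁, hC₁, hsub, hgen, hLA⟩ := F.LA 𝒱₀ h₀
  obtain ⟨C₂, hC₂, hlin⟩ := F.fl1_lin
  obtain ⟨C₃, hC₃, hhat⟩ := F.dn_hat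
  obtain ⟨M, hM0, hM⟩ : ∃ M : ℝ, 0 < M ∧ ∀ v ∈ 𝒱, ‖v‖ ≤ M :=
    ⟨1 + ∑ v ∈ 𝒱, ‖v‖, by positivity, fun v hv =>
      (Finset.single_le_sum (f := fun v : F.L => ‖v‖) (fun _ _ => norm_nonneg _) hv).trans
        (by linarith)⟩
  obtain ⟨K, hK⟩ : ∃ K : ℝ, K = Fintype.card F.W * (C₂ * (C₃ * M) ^ 2) := ⟨_, rfl⟩
  have hK0 : 0 ≤ K := by rw [hK]; positivity
  refine ⟨𝒱, min 1 (C₃ * M)⁻¹, (C₁ + 1) * (K + 4), by positivity, min_le_left _ _, by positivity,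
    hsub, hgen, fun ν _ 𝒢 hm hd R t η hR ht htc hη1 hη2 => ?_⟩
  set μ₂ := F.conv ν (F.uD2 R) with hμ₂
  have hη0 : 0 ≤ η := measureReal_nonneg.trans hη1
  choose n hn using fun w => hlin ν R (𝒢 w) (hm w)
  have hs0 : 0 ≤ t / R := by positivity
  have hs1 : C₃ * M * (t / R) ≤ 1 := by
    have h1 : t / R ≤ (C₃ * M)⁻¹ := by
      rw [div_le_iff₀ hR]
      exact htc.trans (mul_le_mul_of_nonneg_right (min_le_right _ _) hR.le)
    calc C₃ * M * (t / R) ≤ C₃ * M * (C₃ * M)⁻¹ := by gcongr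
      _ = 1 := mul_inv_cancel₀ (by positivity)
  have hyD : ∀ v, t • F.hat v ∈ F.D := fun v => F.D.smul_mem t (F.hat_mem v)
  have hdn : ∀ v ∈ 𝒱, F.dn R (t • F.hat v) ≤ C₃ * M * (t / R) := by
    intro v hv
    refine (hhat R hR v t).trans ?_
    rw [abs_of_nonneg ht]
    have := hM v hv
    calc C₃ * t * ‖v‖ / R ≤ C₃ * t * M / R := by gcongr
      _ = _ := by ring
  have happ : ∀ v ∈ 𝒱, ∀ j, |μ₂.real {x | x * F.lin v t ∈ F.Up 𝒢 j v} - μ₂.real (F.Up 𝒢 j v) -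
      F.PP (fun w => t • (n w ∘ₗ F.hat)) j v| ≤ K * (t / R) ^ 2 := by
    intro v hv j
    have e1 := F.fl1_up μ₂ hm hd j v 1
    simp only [mul_one, Set.ofPred_mem_eq] at e1
    rw [F.fl1_up μ₂ hm hd j v, e1, PP, ← Finset.sum_sub_distrib, ← Finset.sum_sub_distrib]
    refine (Finset.abs_sum_le_sum_abs _ _).trans ((Finset.sum_le_card_nsmul _ _
      (C₂ * (C₃ * M) ^ 2 * (t / R) ^ 2) fun w _ => ?_).trans (le_of_eq ?_))
    · split_ifs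
      · have h1 := hn w _ (hyD v) ((hdn v hv).trans hs1)
        have h2 : F.dn R (t • F.hat v) ^ 2 ≤ (C₃ * M * (t / R)) ^ 2 :=
          pow_le_pow_left₀ ((F.isLN_dn R).nonneg (hyD v)) (hdn v hv) 2
        rw [map_smul] at h1
        refine le_trans h1 ?_
        rw [mul_assoc, ← mul_pow]
        exact mul_le_mul_of_nonneg_left h2 hC₂.le
      · simp only [sub_zero, abs_zero]
        positivity
    · rw [hK, nsmul_eq_mul, Finset.card_univ]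
      ring
  have hnew : ∀ v ∈ 𝒱, ∀ j,
      μ₂.real ({x | x * F.lin v t ∈ F.Up 𝒢 j v} \ F.Up 𝒢 j v) ≤ 2 * η := by
    intro v hv j
    have h1 : {x | x * F.lin v t ∈ F.Up 𝒢 j v} \ F.Up 𝒢 j v ⊆
        {x | x ∈ F.Down 𝒢 j v ∧ x * F.lin v t ∈ F.Up 𝒢 j v} ∪ (⋃ w, 𝒢 w)ᶜ := by
      rintro x ⟨hx, hx'⟩
      by_cases h : x ∈ ⋃ w, 𝒢 w
      · obtain ⟨w, hw⟩ := Set.mem_iUnion.1 h
        refine Or.inl ⟨⟨w, hw, ?_⟩, hx⟩
        exact lt_of_le_of_ne (not_lt.1 fun h' => hx' ⟨w, hw, h'⟩) (hgen v hv w j)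
      · exact Or.inr h
    have h2 := (measureReal_mono (μ := μ₂) h1).trans (measureReal_union_le _ _)
    linarith [hη2 v hv j]
  have hPP := hLA (fun w => t • (n w ∘ₗ F.hat)) (2 * η + K * (t / R) ^ 2) (by positivity) (by
    intro v hv j
    have h1 := (abs_le.1 (happ v hv j)).1
    have h2 := hnew v hv j
    have h3 := measureReal_inter_add_sdiff (μ := μ₂) (s := {x | x * F.lin v t ∈ F.Up 𝒢 j v})
      (F.fl1_up_meas hm j v)
    have h4 := measureReal_mono (μ := μ₂)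
      (Set.inter_subset_right (s := {x | x * F.lin v t ∈ F.Up 𝒢 j v}) (t := F.Up 𝒢 j v))
    linarith)
  intro v hv j
  have h0 := hPP v hv j
  have h1 := (abs_le.1 (happ v hv j)).1
  have h2 := hnew v hv j
  have h3 := measureReal_inter_add_sdiff (μ := μ₂) (s := {x | x * F.lin v t ∈ F.Up 𝒢 j v})
    (F.fl1_up_meas hm j v)
  have h4 := measureReal_inter_add_sdiff (μ := μ₂) (s := F.Up 𝒢 j v)
    (t := {x | x * F.lin v t ∈ F.Up 𝒢 j v}) (measurable_mul_const _ (F.fl1_up_meas hm j v))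
  rw [Set.inter_comm] at h4
  have h5 : {x | ¬(x ∈ F.Up 𝒢 j v ↔ x * F.lin v t ∈ F.Up 𝒢 j v)} ⊆
      (F.Up 𝒢 j v \ {x | x * F.lin v t ∈ F.Up 𝒢 j v}) ∪
        ({x | x * F.lin v t ∈ F.Up 𝒢 j v} \ F.Up 𝒢 j v) := by
    intro x hx
    simp only [Set.mem_union, Set.mem_sdiff, Set.mem_ofPred_eq] at hx ⊢
    tauto
  have h6 := (measureReal_mono (μ := μ₂) h5).trans (measureReal_union_le _ _)
  have h7 : 0 ≤ (t / R) ^ 2 := by positivity
  nlinarith [mul_nonneg hC₁.le hη0, mul_nonneg hC₁.le h7, mul_nonneg hK0 hη0,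
    mul_nonneg (mul_nonneg hC₁.le hK0) hη0]

end Frame

end Crest.Agent.R182
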