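import Mathlib

/-! Row 182, task `R182/Near`: total-variation closeness of probability measures, Markov/Fubini. -/

set_option autoImplicit false

namespace Crest.Agent.R182

open MeasureTheory

variable {Ω Ω' : Type} [MeasurableSpace Ω] [MeasurableSpace Ω']

/-- closeness in total variation (for probability measures it is symmetric) -/
def Near (ν ν' : Measure Ω) (τ : ℝ) : Prop :=
  ∀ A, MeasurableSet A → ν.real A ≤ ν'.real A + τ

theorem near_prod_real_left (ν : Measure Ω) (la : Measure Ω') [IsProbabilityMeasure ν]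
    [IsProbabilityMeasure la] {B : Set (Ω × Ω')} (hB : MeasurableSet B) :
    (ν.prod la).real B = ∫ x, la.real {y | (x, y) ∈ B} ∂ν := by
  rw [measureReal_def, Measure.prod_apply hB,
    ← integral_toReal (measurable_measure_prodMk_left hB).aemeasurable
      (ae_of_all _ fun x => measure_lt_top _ _)]
  rfl

theorem near_prod_real_right (ν : Measure Ω) (la : Measure Ω') [IsProbabilityMeasure ν]
    [IsProbabilityMeasure la] {B : Set (Ω × Ω')} (hB : MeasurableSet B) :
    (ν.prod la).real B = ∫ y, ν.real {x | (x, y) ∈ B} ∂la := by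
  rw [measureReal_def, Measure.prod_apply_symm hB,
    ← integral_toReal (measurable_measure_prodMk_right hB).aemeasurable
      (ae_of_all _ fun x => measure_lt_top _ _)]
  rfl

theorem near_integrable_left (ν : Measure Ω) (la : Measure Ω') [IsProbabilityMeasure ν]
    [IsProbabilityMeasure la] {B : Set (Ω × Ω')} (hB : MeasurableSet B) :
    Integrable (fun x => la.real {y | (x, y) ∈ B}) ν :=
  Integrable.of_bound (measurable_measure_prodMk_left hB).ennreal_toReal.aestronglyMeasurable 1
    (ae_of_all _ fun x => by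
      rw [Real.norm_eq_abs, abs_of_nonneg measureReal_nonneg]; exact measureReal_le_one)

theorem near_integrable_right (ν : Measure Ω) (la : Measure Ω') [IsProbabilityMeasure ν]
    [IsProbabilityMeasure la] {B : Set (Ω × Ω')} (hB : MeasurableSet B) :
    Integrable (fun y => ν.real {x | (x, y) ∈ B}) la :=
  Integrable.of_bound (measurable_measure_prodMk_right hB).ennreal_toReal.aestronglyMeasurable 1
    (ae_of_all _ fun x => by
      rw [Real.norm_eq_abs, abs_of_nonneg measureReal_nonneg]; exact measureReal_le_one)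

theorem eval_integral_near {k : ℕ} {μ : Measure Ω} {F : Ω → Fin k → ℝ} (hF : Integrable F μ)
    (i : Fin k) : (∫ x, F x ∂μ) i = ∫ x, F x i ∂μ :=
  ((ContinuousLinearMap.proj (R := ℝ) (φ := fun _ : Fin k => ℝ) i).integral_comp_comm hF).symm

theorem near_tail_integrable (μ : Measure Ω) [IsProbabilityMeasure μ] (F : Ω → ℝ) (B : ℝ) :
    IntegrableOn (fun t => μ.real {a | t ≤ F a}) (Set.Ioc 0 B) := by
  have hanti : Antitone fun t => μ.real {a | t ≤ F a} := fun s t hst =>
    measureReal_mono (fun a ha => hst.trans ha) (measure_ne_top _ _)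
  refine Measure.integrableOn_of_bounded (M := 1) (by simp) hanti.measurable.aestronglyMeasurable
    (ae_of_all _ fun t => ?_)
  rw [Real.norm_eq_abs, abs_of_nonneg measureReal_nonneg]; exact measureReal_le_one

theorem near_integral_le {ν ν' : Measure Ω} {τ : ℝ} [IsProbabilityMeasure ν]
    [IsProbabilityMeasure ν'] (h : Near ν ν' τ)
    {F : Ω → ℝ} (hF : Measurable F) {B : ℝ} (h0 : ∀ x, 0 ≤ F x) (hB : ∀ x, F x ≤ B) :
    ∫ x, F x ∂ν ≤ ∫ x, F x ∂ν' + B * τ := by
  have hne : Nonempty Ω := nonempty_of_isProbabilityMeasure ν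
  have hB0 : 0 ≤ B := (h0 hne.some).trans (hB _)
  have hi : ∀ (μ : Measure Ω) [IsProbabilityMeasure μ], Integrable F μ := fun μ _ =>
    Integrable.of_bound hF.aestronglyMeasurable B (ae_of_all _ fun x => by
      rw [Real.norm_eq_abs, abs_of_nonneg (h0 x)]; exact hB x)
  rw [(hi ν).integral_eq_integral_Ioc_meas_le (ae_of_all _ h0) (ae_of_all _ hB),
    (hi ν').integral_eq_integral_Ioc_meas_le (ae_of_all _ h0) (ae_of_all _ hB)]
  have hc : IntegrableOn (fun _ : ℝ => τ) (Set.Ioc 0 B) := integrableOn_const (by simp)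
  have e : (∫ t in Set.Ioc 0 B, ν'.real {a | t ≤ F a}) + B * τ
      = ∫ t in Set.Ioc 0 B, (ν'.real {a | t ≤ F a} + τ) := by
    rw [integral_add (near_tail_integrable ν' F B) hc]
    simp [hB0]
  rw [e]
  refine integral_mono (near_tail_integrable ν F B) ((near_tail_integrable ν' F B).add hc)
    fun t => ?_
  exact h _ (measurableSet_le measurable_const hF)

namespace Near

variable {ν ν' ν'' : Measure Ω} {τ τ' : ℝ}

theorem refl (ν : Measure Ω) (hτ : 0 ≤ τ) : Near ν ν τ := by
  intro A _; linarith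

theorem nonneg (h : Near ν ν' τ) : 0 ≤ τ := by
  simpa using h ∅ MeasurableSet.empty

theorem mono (h : Near ν ν' τ) (hτ : τ ≤ τ') : Near ν ν' τ' := by
  intro A hA; have := h A hA; linarith

theorem trans (h : Near ν ν' τ) (h' : Near ν' ν'' τ') : Near ν ν'' (τ + τ') := by
  intro A hA; have := h A hA; have := h' A hA; linarith

/-- complements -/
theorem symm [IsProbabilityMeasure ν] [IsProbabilityMeasure ν'] (h : Near ν ν' τ) :
    Near ν' ν τ := by
  intro A hA
  have := h Aᶜ hA.compl
  rw [probReal_compl_eq_one_sub hA, probReal_compl_eq_one_sub hA] at this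
  linarith

/-- arbitrary sets (`toMeasurable`) -/
theorem le_all [IsFiniteMeasure ν] [IsFiniteMeasure ν'] (h : Near ν ν' τ) (A : Set Ω) :
    ν.real A ≤ ν'.real A + τ := by
  have h1 := h (toMeasurable ν' A) (measurableSet_toMeasurable _ _)
  have h2 : ν'.real (toMeasurable ν' A) = ν'.real A := by
    simp [measureReal_def, measure_toMeasurable]
  have h3 : ν.real A ≤ ν.real (toMeasurable ν' A) :=
    measureReal_mono (subset_toMeasurable _ _) (measure_ne_top _ _)
  linarith

theorem map (h : Near ν ν' τ) {T : Ω → Ω'} (hT : Measurable T) : Near (ν.map T) (ν'.map T) τ := by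
  intro A hA
  rw [map_measureReal_apply hT hA, map_measureReal_apply hT hA]
  exact h _ (hT hA)

/-- layer cake -/
theorem integral_sub [IsProbabilityMeasure ν] [IsProbabilityMeasure ν'] (h : Near ν ν' τ)
    {F : Ω → ℝ} (hF : Measurable F) {B : ℝ} (hB : ∀ x, |F x| ≤ B) :
    |∫ x, F x ∂ν - ∫ x, F x ∂ν'| ≤ 2 * B * τ := by
  have hτ := h.nonneg
  have hi : ∀ (μ : Measure Ω) [IsProbabilityMeasure μ], Integrable F μ := fun μ _ =>
    Integrable.of_bound hF.aestronglyMeasurable B (ae_of_all _ fun x => by simpa using hB x)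
  have hF' : Measurable fun x => F x + B := hF.add_const B
  have h0 : ∀ x, 0 ≤ F x + B := fun x => by have := (abs_le.1 (hB x)).1; linarith
  have h1 : ∀ x, F x + B ≤ 2 * B := fun x => by have := (abs_le.1 (hB x)).2; linarith
  have e : ∀ (μ : Measure Ω) [IsProbabilityMeasure μ], ∫ x, (F x + B) ∂μ = ∫ x, F x ∂μ + B := by
    intro μ _
    rw [integral_add (hi μ) (integrable_const B)]; simp
  have a1 := near_integral_le h hF' h0 h1
  have a2 := near_integral_le h.symm hF' h0 h1
  rw [e, e] at a1 a2
  rw [abs_le]; constructor <;> linarith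

theorem integral_le [IsProbabilityMeasure ν] [IsProbabilityMeasure ν'] (h : Near ν ν' τ)
    {F : Ω → ℝ} (hF : Measurable F) {B : ℝ} (h0 : ∀ x, 0 ≤ F x) (hB : ∀ x, F x ≤ B) :
    ∫ x, F x ∂ν ≤ ∫ x, F x ∂ν' + B * τ := by
  exact near_integral_le h hF h0 hB

/-- vector valued (sup norm on `Fin k → ℝ`) -/
theorem norm_integral_sub {k : ℕ} [IsProbabilityMeasure ν] [IsProbabilityMeasure ν']
    (h : Near ν ν' τ) {F : Ω → Fin k → ℝ} (hF : Measurable F) {B : ℝ} (hB0 : 0 ≤ B)
    (hB : ∀ x, ‖F x‖ ≤ B) : ‖∫ x, F x ∂ν - ∫ x, F x ∂ν'‖ ≤ 2 * B * τ := by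
  have hτ := h.nonneg
  have hi : ∀ (μ : Measure Ω) [IsProbabilityMeasure μ], Integrable F μ := fun μ _ =>
    Integrable.of_bound hF.aestronglyMeasurable B (ae_of_all _ hB)
  refine (pi_norm_le_iff_of_nonneg (by positivity)).2 fun i => ?_
  rw [Pi.sub_apply, eval_integral_near (hi ν), eval_integral_near (hi ν'), Real.norm_eq_abs]
  refine h.integral_sub ((measurable_pi_apply i).comp hF) fun x => ?_
  exact (norm_le_pi_norm (F x) i).trans (hB x)

/-- mixtures: `T (x, y)` and `T' (x, y)` have close laws for a.e. fixed `y` -/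
theorem of_prod_right {Ω'' : Type} [MeasurableSpace Ω''] (ν : Measure Ω) (la : Measure Ω')
    [IsProbabilityMeasure ν] [IsProbabilityMeasure la] {T T' : Ω × Ω' → Ω''} (hT : Measurable T)
    (hT' : Measurable T')
    (h : ∀ᵐ y ∂la, Near (ν.map fun x => T (x, y)) (ν.map fun x => T' (x, y)) τ) :
    Near ((ν.prod la).map T) ((ν.prod la).map T') τ := by
  intro A hA
  rw [map_measureReal_apply hT hA, map_measureReal_apply hT' hA, near_prod_real_right ν la (hT hA),
    near_prod_real_right ν la (hT' hA)]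
  have e : ∫ y, ν.real {x | (x, y) ∈ T' ⁻¹' A} ∂la + τ
      = ∫ y, (ν.real {x | (x, y) ∈ T' ⁻¹' A} + τ) ∂la := by
    rw [integral_add (near_integrable_right ν la (hT' hA)) (integrable_const τ)]; simp
  rw [e]
  refine integral_mono_ae (near_integrable_right ν la (hT hA))
    ((near_integrable_right ν la (hT' hA)).add (integrable_const τ)) ?_
  filter_upwards [h] with y hy
  have := hy A hA
  rw [map_measureReal_apply (f := fun x => T (x, y)) (hT.comp measurable_prodMk_right) hA,
    map_measureReal_apply (f := fun x => T' (x, y)) (hT'.comp measurable_prodMk_right) hA] at this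
  exact this

theorem of_prod_left {Ω'' : Type} [MeasurableSpace Ω''] (ν : Measure Ω) (la : Measure Ω')
    [IsProbabilityMeasure ν] [IsProbabilityMeasure la] {T T' : Ω × Ω' → Ω''} (hT : Measurable T)
    (hT' : Measurable T')
    (h : ∀ᵐ x ∂ν, Near (la.map fun y => T (x, y)) (la.map fun y => T' (x, y)) τ) :
    Near ((ν.prod la).map T) ((ν.prod la).map T') τ := by
  intro A hA
  rw [map_measureReal_apply hT hA, map_measureReal_apply hT' hA, near_prod_real_left ν la (hT hA),
    near_prod_real_left ν la (hT' hA)]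
  have e : ∫ x, la.real {y | (x, y) ∈ T' ⁻¹' A} ∂ν + τ
      = ∫ x, (la.real {y | (x, y) ∈ T' ⁻¹' A} + τ) ∂ν := by
    rw [integral_add (near_integrable_left ν la (hT' hA)) (integrable_const τ)]; simp
  rw [e]
  refine integral_mono_ae (near_integrable_left ν la (hT hA))
    ((near_integrable_left ν la (hT' hA)).add (integrable_const τ)) ?_
  filter_upwards [h] with x hx
  have := hx A hA
  rw [map_measureReal_apply (f := fun y => T (x, y)) (hT.comp measurable_prodMk_left) hA,
    map_measureReal_apply (f := fun y => T' (x, y)) (hT'.comp measurable_prodMk_left) hA] at this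
  exact this

end Near

/-- no measurability of `A` needed (`Measure.le_map_apply`) -/
theorem real_preimage_le_map (ν : Measure Ω) [IsFiniteMeasure ν] {T : Ω → Ω'} (hT : Measurable T)
    (A : Set Ω') : ν.real (T ⁻¹' A) ≤ (ν.map T).real A := by
  exact ENNReal.toReal_mono (measure_ne_top _ _) (Measure.le_map_apply hT.aemeasurable A)

theorem real_le_of_le_smul {ν ν' : Measure Ω} [IsFiniteMeasure ν'] {C : ℝ} (hC : 0 ≤ C)
    (h : ν ≤ ENNReal.ofReal C • ν') (A : Set Ω) : ν.real A ≤ C * ν'.real A := by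
  have h1 : ν A ≤ ENNReal.ofReal C * ν' A := by
    have := Measure.le_iff'.1 h A
    simpa using this
  have h2 := ENNReal.toReal_mono (ENNReal.mul_ne_top ENNReal.ofReal_ne_top (measure_ne_top _ _)) h1
  rwa [ENNReal.toReal_mul, ENNReal.toReal_ofReal hC] at h2

theorem prod_real_le (ν : Measure Ω) (la : Measure Ω') [IsProbabilityMeasure ν]
    [IsProbabilityMeasure la] {B : Set (Ω × Ω')} (hB : MeasurableSet B) {ε : ℝ}
    (h : ∀ᵐ y ∂la, ν.real {x | (x, y) ∈ B} ≤ ε) : (ν.prod la).real B ≤ ε := by
  rw [near_prod_real_right ν la hB]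
  have := integral_mono_ae (near_integrable_right ν la hB) (integrable_const ε) h
  simpa using this

theorem prod_real_le' (ν : Measure Ω) (la : Measure Ω') [IsProbabilityMeasure ν]
    [IsProbabilityMeasure la] {B : Set (Ω × Ω')} (hB : MeasurableSet B) {ε : ℝ}
    (h : ∀ᵐ x ∂ν, la.real {y | (x, y) ∈ B} ≤ ε) : (ν.prod la).real B ≤ ε := by
  rw [near_prod_real_left ν la hB]
  have := integral_mono_ae (near_integrable_left ν la hB) (integrable_const ε) h
  simpa using this

/-- Markov for the slices -/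
theorem real_slice_le (ν : Measure Ω) (la : Measure Ω') [IsProbabilityMeasure ν]
    [IsProbabilityMeasure la] {B : Set (Ω × Ω')} (hB : MeasurableSet B) {η : ℝ} (hη : 0 < η) :
    ν.real {x | η ≤ la.real {y | (x, y) ∈ B}} ≤ (ν.prod la).real B / η := by
  rw [near_prod_real_left ν la hB, le_div_iff₀ hη, mul_comm]
  exact mul_meas_ge_le_integral_of_nonneg (ae_of_all _ fun x => measureReal_nonneg)
    (near_integrable_left ν la hB) η

theorem real_markov (ν : Measure Ω) [IsProbabilityMeasure ν] {F : Ω → ℝ} (hF : Integrable F ν)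
    (h0 : ∀ x, 0 ≤ F x) {η : ℝ} (hη : 0 < η) :
    ν.real {x | η ≤ F x} ≤ (∫ x, F x ∂ν) / η := by
  rw [le_div_iff₀ hη, mul_comm]
  exact mul_meas_ge_le_integral_of_nonneg (ae_of_all _ h0) hF η

/-- Markov for counting: each of finitely many (arbitrary) sets is small (use `toMeasurable`) -/
theorem real_count_le (ν : Measure Ω) [IsProbabilityMeasure ν] {ι : Type} (s : Finset ι)
    (B : ι → Set Ω) {ε η : ℝ} (hη : 0 < η) (h : ∀ i ∈ s, ν.real (B i) ≤ ε) :
    ν.real {x | η < ({i | i ∈ s ∧ x ∈ B i}.ncard : ℝ)} ≤ s.card * ε / η := by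
  classical
  set F : Ω → ℝ := fun x => ∑ i ∈ s, (toMeasurable ν (B i)).indicator (fun _ => (1 : ℝ)) x with hF
  have hint : ∀ i ∈ s, Integrable ((toMeasurable ν (B i)).indicator (fun _ => (1 : ℝ))) ν :=
    fun i _ => (integrable_const (1 : ℝ)).indicator (measurableSet_toMeasurable _ _)
  have hFi : Integrable F ν := integrable_finsetSum s hint
  have h0 : ∀ x, 0 ≤ F x := fun x =>
    Finset.sum_nonneg fun i _ => Set.indicator_nonneg (fun _ _ => zero_le_one) x
  have hI : ∫ x, F x ∂ν ≤ s.card * ε := by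
    rw [hF, integral_finsetSum s hint]
    calc ∑ i ∈ s, ∫ x, (toMeasurable ν (B i)).indicator (fun _ => (1 : ℝ)) x ∂ν
        ≤ ∑ i ∈ s, ε := by
          refine Finset.sum_le_sum fun i hi => ?_
          rw [integral_indicator (measurableSet_toMeasurable _ _)]
          have : ν.real (toMeasurable ν (B i)) = ν.real (B i) := by
            simp [measureReal_def, measure_toMeasurable]
          simpa [this] using h i hi
      _ = s.card * ε := by simp
  have hsub : {x | η < ({i | i ∈ s ∧ x ∈ B i}.ncard : ℝ)} ⊆ {x | η ≤ F x} := by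
    intro x hx
    simp only [Set.mem_ofPred_eq] at hx ⊢
    refine hx.le.trans ?_
    have e : {i | i ∈ s ∧ x ∈ B i} = ((s.filter fun i => x ∈ B i : Finset ι) : Set ι) := by
      ext i; simp
    rw [e, Set.ncard_coe_finset, Finset.card_filter]
    push_cast
    refine Finset.sum_le_sum fun i _ => ?_
    by_cases hx : x ∈ B i
    · simp [hx, Set.indicator_of_mem (subset_toMeasurable ν (B i) hx)]
    · simp only [hx, if_false]
      exact Set.indicator_nonneg (fun _ _ => zero_le_one) x
  calc ν.real {x | η < ({i | i ∈ s ∧ x ∈ B i}.ncard : ℝ)} ≤ ν.real {x | η ≤ F x} :=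
        measureReal_mono hsub (measure_ne_top _ _)
    _ ≤ (∫ x, F x ∂ν) / η := real_markov ν hFi h0 hη
    _ ≤ s.card * ε / η := by gcongr

theorem exists_not_mem_of_real_lt (ν : Measure Ω) [IsProbabilityMeasure ν] {A : Set Ω}
    (h : ν.real A < 1) {p : Ω → Prop} (hp : ∀ᵐ x ∂ν, p x) : ∃ x, x ∉ A ∧ p x := by
  by_contra hc
  push Not at hc
  have h1 : ∀ᵐ x ∂ν, x ∈ A := by
    filter_upwards [hp] with x hx
    by_contra hA
    exact hc x hA hx
  have h2 : ν Aᶜ = 0 := h1
  have h3 : ν Set.univ ≤ ν A + ν Aᶜ := by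
    rw [← Set.union_compl_self A]; exact measure_union_le _ _
  rw [h2, add_zero, measure_univ] at h3
  have h4 := ENNReal.toReal_mono (measure_ne_top _ _) h3
  rw [ENNReal.toReal_one] at h4
  exact absurd h (not_lt.2 h4)

end Crest.Agent.R182
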