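import Crest.Agent.R182.LN
import Crest.Agent.R182.Near

/-! Row 182: Haar measure of a subspace, norm balls, uniform measures.
Definitions only: DO NOT CHANGE (owner helper37). -/

set_option autoImplicit false

namespace Crest.Agent.R182

open MeasureTheory

variable {E : Type} [NormedAddCommGroup E] [NormedSpace ℝ E] [FiniteDimensional ℝ E]
  [MeasurableSpace E] [BorelSpace E]

/-- Haar measure of the subspace `S`, as a measure on `E` -/
noncomputable def hm (S : Submodule ℝ E) : Measure E :=
  (Measure.addHaar : Measure S).map Subtype.val

/-- the ball of radius `r` of `p` in `S` -/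
def bl (S : Submodule ℝ E) (p : E → ℝ) (r : ℝ) : Set E := {x | x ∈ S ∧ p x ≤ r}

/-- volume of the unit ball -/
noncomputable def vol (S : Submodule ℝ E) (p : E → ℝ) : ℝ := (hm S).real (bl S p 1)

/-- uniform measure on the unit ball -/
noncomputable def unif (S : Submodule ℝ E) (p : E → ℝ) : Measure E :=
  ProbabilityTheory.cond (hm S) (bl S p 1)

/-- law of the BCH product of two independent uniform elements -/
noncomputable def unif2 (N : NL E) (S : Submodule ℝ E) (p : E → ℝ) : Measure E :=
  ((unif S p).prod (unif S p)).map fun q => N.mul q.1 q.2

end Crest.Agent.R182
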