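import Crest.Agent.R182.ModelAPI
import Crest.Agent.R182.Box
import Crest.Agent.R182.HM

/-!
Row 182: a model group with generators, and all notions used in the analysis.
Definitions only: DO NOT CHANGE (owner helper37).

`a i` : `τ`-fixed letters, a basis of `L = E / ([E,E] + 𝔯)`; they generate the subalgebra `D`.
`X j` : weight vectors of weight `μ j ≠ 0`, a basis of `𝔯 / [𝔯,𝔯]`; they generate the ideal `R = 𝔯`.
-/

set_option autoImplicit false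

namespace Crest.Agent.R182

open scoped BigOperators
open MeasureTheory

structure Frame where
  d : ℕ
  k : ℕ
  m : ℕ
  p : ℕ
  M : Model d k
  a : Fin m → (Fin d → ℝ)
  a_fix : ∀ i v, M.τ v (a i) = a i
  π : (Fin d → ℝ) →ₗ[ℝ] (Fin m → ℝ)
  π_a : ∀ i, π (a i) = Pi.single i 1
  π_br : ∀ x y, π (M.nl.br x y) = 0
  π_τ : ∀ v x, π (M.τ v x) = π x
  φL : (Fin m → ℝ) →ₗ[ℝ] (Fin k → ℝ)
  φ_eq : ∀ x, M.φ x = φL (π x)
  X : Fin p → (Fin d → ℝ)
  μ : Fin p → (Fin k → ℝ) →ₗ[ℝ] ℝ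
  μ_ne : ∀ j, μ j ≠ 0
  τ_X : ∀ j v, M.τ v (X j) = Real.exp (μ j v) • X j
  π_X : ∀ j, π (X j) = 0
  ξ : Fin p → (Fin d → ℝ) →ₗ[ℝ] ℝ
  ξ_X : ∀ i j, ξ i (X j) = if i = j then 1 else 0
  ξ_mon : ∀ i (l : List (Fin p)), 2 ≤ l.length → ξ i (M.nl.mon X l) = 0
  ξ_D : ∀ i, ∀ x ∈ M.nl.idl a Set.univ, x ∈ M.nl.idl X Set.univ → ξ i x = 0
  sup_eq : M.nl.idl X Set.univ ⊔ M.nl.idl a Set.univ = ⊤
  br_a : ∀ i j, M.nl.br (a i) (X j) ∈ Submodule.span ℝ
    {x | ∃ l : List (Fin p), l ≠ [] ∧ (l.map μ).sum = μ j ∧ x = M.nl.mon X l}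
  μ_span : ∀ v, (∀ j, μ j v = 0) → v = 0
  sum_μ : ∀ n ∈ M.nl.Bs X Set.univ, ∑ j, (n j : ℝ) • μ j = 0

namespace Frame

variable (F : Frame)

abbrev G : Type := F.M.G
abbrev E : Type := Fin F.d → ℝ
abbrev V : Type := Fin F.k → ℝ
abbrev L : Type := Fin F.m → ℝ
abbrev J : Type := Fin F.p
abbrev N : NL F.E := F.M.nl

/-- `hat v = ∑ v i • a i` -/
noncomputable def hat : F.L →ₗ[ℝ] F.E := Fintype.linearCombination ℝ F.a

/-- the one-parameter subgroup in direction `v` -/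
noncomputable def lin (v : F.L) (t : ℝ) : F.G := F.M.ofE (t • F.hat v)

/-- root moves -/
noncomputable def root (j : F.J) (σ : ℝ) : F.G := F.M.ofE (σ • F.X j)

/-- the exponential radical -/
def R : Submodule ℝ F.E := F.N.idl F.X Set.univ

/-- the nilpotent subalgebra generated by the `a i` -/
def D : Submodule ℝ F.E := F.N.idl F.a Set.univ

/-- the ideal of `R` generated by the letters in `P` -/
def I (P : Set F.J) : Submodule ℝ F.E := F.N.idl F.X P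

/-- box norm on `R`, logarithmic sizes `h` -/
noncomputable def bx (h : F.J → ℝ) : F.E → ℝ := F.N.bI F.X Set.univ h

/-- box norm on `I P` -/
noncomputable def bi (P : Set F.J) (h : F.J → ℝ) : F.E → ℝ := F.N.bI F.X P h

/-- box norm on `D`, letters of size `r` -/
noncomputable def dn (r : ℝ) : F.E → ℝ := F.N.bI F.a Set.univ fun _ => Real.log r

/-- the homomorphism `G → L` -/
def pr (g : F.G) : F.L := F.π (F.M.toE g)

/-- `j ↦ μ j u` -/
def mu (u : F.V) : F.J → ℝ := fun j => F.μ j u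

/-- `j ↦ (μ j u)⁺` -/
def mup (u : F.V) : F.J → ℝ := fun j => max (F.μ j u) 0

/-- letters of positive weight -/
def Pos (u : F.V) : Set F.J := {j | 0 < F.μ j u}

/-- admissible sizes -/
def Adm (h : F.J → ℝ) : Prop :=
  ∀ (j : F.J) (l : List F.J), l ≠ [] → (l.map F.μ).sum = F.μ j → h j ≤ sz h l

/-- logarithmic volume of the box -/
noncomputable def lvol (h : F.J → ℝ) : ℝ := F.N.lvol F.X Set.univ h

/-- the invariant (polyhedral) norm on `V` -/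
noncomputable def nrm (u : F.V) : ℝ := F.lvol (F.mup u)

/-- its (finite) isometry group -/
def W : Subgroup (F.V ≃ₗ[ℝ] F.V) where
  carrier := {w | ∀ u, F.nrm (w u) = F.nrm u}
  mul_mem' {a b} ha hb u := by
    rw [LinearEquiv.mul_apply, ha, hb]
  one_mem' _ := rfl
  inv_mem' {a} ha u := by
    have := ha (a⁻¹ u)
    rw [← LinearEquiv.mul_apply, mul_inv_cancel] at this
    exact this.symm

/-- `b ∈ R` is a weight vector of weight `μ j` -/
def Wt (j : F.J) (b : F.E) : Prop := b ∈ F.R ∧ ∀ u, F.M.τ u b = Real.exp (F.μ j u) • b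

/-- `μ i` is a positive multiple of `μ j` -/
def Ray (j i : F.J) : Prop := ∃ c : ℝ, 0 < c ∧ F.μ i = c • F.μ j

/-- generic directions -/
def Gen (v : F.L) : Prop := ∀ (w : F.W) (j : F.J), F.μ j (w.1 (F.φL v)) ≠ 0

/-- endpoints of paths from `1` with at most `n` steps along which `μ j ∘ ht ≤ h j` -/
def PC (h : F.J → ℝ) (n : ℝ) : Set F.G :=
  {g | ∃ l : List F.G, (l.length : ℝ) ≤ n ∧ (∀ s ∈ l, s ∈ F.M.Q) ∧ l.prod = g ∧
    ∀ (b : ℕ) (j : F.J), F.μ j (F.M.ht (l.take b).prod) ≤ h j}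

/-- `Y` is covered by at most `n` balls of radius `ρ` -/
def Cov (Y : Set F.G) (ρ n : ℝ) : Prop :=
  ∃ Z : Finset F.G, (Z.card : ℝ) ≤ n ∧ ∀ y ∈ Y, ∃ z ∈ Z, F.M.dd z y ≤ ρ

/-- a measurable quasi-isometry with a measurable quasi-inverse -/
structure QI (K : ℝ) (f q : F.G → F.G) : Prop where
  one_le : 1 ≤ K
  mf : Measurable f
  mq : Measurable q
  lf : ∀ x y, F.M.dd (f x) (f y) ≤ K * F.M.dd x y + K
  lq : ∀ x y, F.M.dd (q x) (q y) ≤ K * F.M.dd x y + K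
  qf : ∀ x, F.M.dd (q (f x)) x ≤ K
  fq : ∀ x, F.M.dd (f (q x)) x ≤ K

/-- right translate -/
noncomputable def rt (ν : Measure F.G) (g : F.G) : Measure F.G := ν.map fun x => x * g

/-- left translate -/
noncomputable def lt (x : F.G) (ν : Measure F.G) : Measure F.G := ν.map fun y => x * y

/-- convolution -/
noncomputable def conv (ν la : Measure F.G) : Measure F.G :=
  (ν.prod la).map fun q => q.1 * q.2

def RInv (ν : Measure F.G) (g : F.G) (τ : ℝ) : Prop := Near ν (F.rt ν g) τ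

/-- nearly invariant under the box of sizes `h` -/
def BInv (ν : Measure F.G) (h : F.J → ℝ) (τ : ℝ) : Prop :=
  ∀ y ∈ F.R, F.bx h y ≤ 1 → F.RInv ν (F.M.ofE y) τ

/-- nearly invariant under the ball of radius `ρ` -/
def GInv (ν : Measure F.G) (ρ τ : ℝ) : Prop := ∀ g, F.M.len g ≤ ρ → F.RInv ν g τ

noncomputable def uR (h : F.J → ℝ) : Measure F.G := (unif F.R (F.bx h)).map F.M.ofE

noncomputable def uI (P : Set F.J) (h : F.J → ℝ) : Measure F.G :=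
  (unif (F.I P) (F.bi P h)).map F.M.ofE

/-- uniform measure on `{dn r ≤ c}` -/
noncomputable def uD (r c : ℝ) : Measure F.G := (unif F.D fun x => F.dn r x / c).map F.M.ofE

noncomputable def uD2 (r : ℝ) : Measure F.G := (unif2 F.N F.D (F.dn r)).map F.M.ofE

/-- along the lines through `x` in the directions of `𝒱`, `ht ∘ f` is `w`-linear up to `η` -/
def Good (𝒱 : Finset F.L) (f : F.G → F.G) (x : F.G) (w : F.W) (s η : ℝ) : Prop :=
  ∀ v ∈ 𝒱, ∀ t : ℤ, |(t : ℝ)| ≤ s →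
    ‖F.M.ht (f (x * F.lin v t)) - F.M.ht (f x) - (t : ℝ) • w.1 (F.φL v)‖ ≤ η

/-- the box theorem with ratio `θ` -/
def BTs (𝒱 : Finset F.L) (K θ : ℝ) : Prop :=
  ∀ ε : ℝ, 0 < ε → ∃ S₀ τ : ℝ, 0 < τ ∧ ∀ f q, F.QI K f q → ∀ S : ℝ, S₀ ≤ S →
    ∀ ν : Measure F.G, IsProbabilityMeasure ν → F.BInv ν (fun _ => S / 2) τ →
      ν.real {x | ¬∃ w, F.Good 𝒱 f x w (θ * S) (ε * S)} ≤ ε

/-- the finite set of test directions -/
structure Dirs where
  VV : Finset F.L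
  basis_mem : ∀ i, (Pi.single i 1 : F.L) ∈ VV
  sp : F.J → F.L
  sp_mem : ∀ j, sp j ∈ VV
  sp_pos : ∀ j, 0 < F.μ j (F.φL (sp j))
  sp_le : ∀ i j, F.μ i (F.φL (sp j)) ≤ F.μ i (F.φL (sp i))
  sp_lt : ∀ i j, ¬F.Ray j i → F.μ i (F.φL (sp j)) < F.μ i (F.φL (sp i))
  test : ∀ w w' : F.W, w ≠ w' → ∀ j, ∃ v ∈ VV, F.μ j (F.φL v) ≤ 0 ∧
    ∃ i, max (F.μ i (w'.1 (F.φL v))) 0 < F.μ i (w.1 (F.φL v))
  sign : ∀ (w : F.W) (j : F.J) (e : F.V), F.μ j e ≤ 0 → ∃ v ∈ VV, F.μ j (F.φL v) ≤ 0 ∧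
    ∀ i, (0 < F.μ i (w.1 e) ↔ 0 < F.μ i (w.1 (F.φL v)))

/-- the spider sizes -/
def Dirs.hS {F : Frame} (Δ : F.Dirs) (S : ℝ) : F.J → ℝ := fun j => S * F.μ j (F.φL (Δ.sp j))

end Frame

end Crest.Agent.R182
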