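import Crest.Agent.R182.Defs2
import Crest.Agent.R182.LinNrm
import Crest.Agent.R182.GeoLen

/-! Row 182, task `R182/GL`: comparison of labels (deterministic). -/

set_option autoImplicit false

namespace Crest.Agent.R182

open scoped BigOperators
open MeasureTheory

namespace Frame

variable (F : Frame)

theorem gl_fin (Δ : F.Dirs) : ∃ c : ℝ, 0 < c ∧ ∀ Q : ℝ, 0 ≤ Q → ∃ C : ℝ, 2 ≤ C ∧
    ∀ f x x' (w w' : F.W) (s η : ℝ), 0 ≤ η → C * (η + 1) ≤ s →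
      F.Good Δ.VV f x w s η → F.Good Δ.VV f x' w' s η →
      (∀ i, ∃ t : ℤ, s - 1 ≤ |(t : ℝ)| ∧ |(t : ℝ)| ≤ s ∧ ‖F.M.ht (f x') - F.M.ht (f x)‖ +
        ‖F.M.ht (f (x' * F.lin (Pi.single i 1) t)) - F.M.ht (f (x * F.lin (Pi.single i 1) t))‖ ≤
          c * s + Q * (η + 1)) → w = w' := by
  obtain ⟨c, hc, h⟩ := F.W_sep
  refine ⟨c / 4, by positivity, fun Q hQ => ⟨2 + 4 * (Q + 2) / c, le_add_of_nonneg_right (by positivity),
    fun f x x' w w' s η hη hs h1 h2 h3 => ?_⟩⟩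
  by_contra hw
  obtain ⟨i, hi⟩ := h w w' hw
  obtain ⟨t, ht1, ht2, ht3⟩ := h3 i
  have a1 := h1 _ (Δ.basis_mem i) t ht2
  have a2 := h2 _ (Δ.basis_mem i) t ht2
  have e : (t : ℝ) • (w.1 (F.φL (Pi.single i 1)) - w'.1 (F.φL (Pi.single i 1))) =
      (F.M.ht (f (x' * F.lin (Pi.single i 1) t)) - F.M.ht (f x') - (t : ℝ) • w'.1 (F.φL (Pi.single i 1))) -
      (F.M.ht (f (x * F.lin (Pi.single i 1) t)) - F.M.ht (f x) - (t : ℝ) • w.1 (F.φL (Pi.single i 1))) +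
      ((F.M.ht (f x') - F.M.ht (f x)) -
      (F.M.ht (f (x' * F.lin (Pi.single i 1) t)) - F.M.ht (f (x * F.lin (Pi.single i 1) t)))) := by
    rw [smul_sub]; abel
  have a3 := congrArg norm e
  rw [norm_smul, Real.norm_eq_abs] at a3
  have a4 := a3.trans_le ((norm_add_le _ _).trans (add_le_add (norm_sub_le _ _) (norm_sub_le _ _)))
  have a5 : (s - 1) * c ≤ |(t : ℝ)| * ‖w.1 (F.φL (Pi.single i 1)) - w'.1 (F.φL (Pi.single i 1))‖ :=
    mul_le_mul ht1 hi hc.le (abs_nonneg _)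
  have a6 := mul_le_mul_of_nonneg_left hs hc.le
  have a7 : c * ((2 + 4 * (Q + 2) / c) * (η + 1)) = (2 * c + 4 * (Q + 2)) * (η + 1) := by
    field_simp
  have a8 : 2 ≤ s := le_trans (by nlinarith [div_nonneg (by positivity : 0 ≤ 4 * (Q + 2)) hc.le]) hs
  rw [a7] at a6
  nlinarith [mul_nonneg hc.le hη, mul_nonneg hc.le (sub_nonneg.2 a8)]

theorem gl_floor {s : ℝ} (hs : 0 ≤ s) (a : ℝ) :
    ∃ t : ℤ, s - 1 ≤ |(t : ℝ)| ∧ |(t : ℝ)| ≤ s ∧ 0 ≤ t * a := by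
  have h0 : (0 : ℝ) ≤ ⌊s⌋ := by exact_mod_cast Int.floor_nonneg.2 hs
  have h1 : s - 1 ≤ |(⌊s⌋ : ℝ)| := by rw [abs_of_nonneg h0]; exact (Int.sub_one_lt_floor s).le
  have h2 : |(⌊s⌋ : ℝ)| ≤ s := by rw [abs_of_nonneg h0]; exact Int.floor_le s
  rcases le_total 0 a with h | h
  · exact ⟨⌊s⌋, h1, h2, mul_nonneg h0 h⟩
  · exact ⟨-⌊s⌋, by simpa using h1, by simpa using h2, by push_cast; nlinarith⟩

theorem gl_lip (K : ℝ) : ∃ L : ℝ, 0 ≤ L ∧ ∀ f q, F.QI K f q → ∀ x g l (B : ℝ), F.M.len g ≤ B →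
    F.M.len (l⁻¹ * g * l) ≤ B → ‖F.M.ht (f (x * g)) - F.M.ht (f x)‖ +
      ‖F.M.ht (f (x * g * l)) - F.M.ht (f (x * l))‖ ≤ L * (B + 1) := by
  obtain ⟨C, hC, h⟩ := F.qi_lip
  refine ⟨2 * (C * |K|), by positivity, fun f q H x g l B h1 h2 => ?_⟩
  have h3 := (h K f q H x g).1
  have h4 := (h K f q H (x * l) (l⁻¹ * g * l)).1
  rw [show x * l * (l⁻¹ * g * l) = x * g * l by group] at h4
  have hK : 0 ≤ C * K := mul_nonneg hC.le (zero_le_one.trans H.one_le)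
  rw [abs_of_nonneg (zero_le_one.trans H.one_le)]
  nlinarith [mul_le_mul_of_nonneg_left h1 hK, mul_le_mul_of_nonneg_left h2 hK]

/-- `W_sep`, `t = ⌊s⌋` -/
theorem G1 (Δ : F.Dirs) : ∃ C : ℝ, 1 ≤ C ∧ ∀ f x (w w' : F.W) (s η : ℝ), 0 ≤ η → C * (η + 1) ≤ s →
    F.Good Δ.VV f x w s η → F.Good Δ.VV f x w' s η → w = w' := by
  obtain ⟨c, hc, h⟩ := F.gl_fin Δ
  obtain ⟨C, hC, h⟩ := h 0 le_rfl
  refine ⟨C, by linarith, fun f x w w' s η hη hs h1 h2 => h f x x w w' s η hη hs h1 h2 fun i => ?_⟩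
  have hs0 : 0 ≤ s := le_trans (by positivity) hs
  obtain ⟨t, t1, t2, -⟩ := gl_floor hs0 0
  exact ⟨t, t1, t2, by simpa using mul_nonneg hc.le hs0⟩

/-- The lines in direction `e_i` through `x` and `x lin v t₀` diverge sublinearly (`len_conj_D` with
`r = s`, `dn_hat`): `⌊s⌋ ‖(w - w') φL e_i‖ ≤ 2 η + C K (ε s + κ s + C)`. -/
theorem G2 (Δ : F.Dirs) (K : ℝ) : ∃ κ C : ℝ, 0 < κ ∧ κ ≤ 1 ∧ 1 ≤ C ∧ ∀ f q, F.QI K f q →
    ∀ x, ∀ v ∈ Δ.VV, ∀ (t₀ : ℝ) (w w' : F.W) (s η : ℝ), 0 ≤ η → C * (η + 1) ≤ s → |t₀| ≤ κ * s →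
      F.Good Δ.VV f x w s η → F.Good Δ.VV f (x * F.lin v t₀) w' s η → w = w' := by
  obtain ⟨c, hc, h⟩ := F.gl_fin Δ
  obtain ⟨L, hL, hl⟩ := F.gl_lip K
  obtain ⟨D, hD, hd⟩ := F.dn_hat
  obtain ⟨A, hA0, hA⟩ : ∃ A : ℝ, 0 ≤ A ∧ ∀ v ∈ Δ.VV, ‖v‖ ≤ A :=
    ⟨∑ v ∈ Δ.VV, ‖v‖, by positivity, fun v hv =>
      Finset.single_le_sum (f := fun v : F.L => ‖v‖) (fun _ _ => norm_nonneg _) hv⟩
  obtain ⟨κ, C₁, hκ, hκ1, hC₁, h1⟩ := F.len_conj_D (D * A) (c / (L + 1)) (by positivity)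
  obtain ⟨C, hC, h⟩ := h (L * (C₁ + 1)) (by positivity)
  have hDA : 1 ≤ D * A + 1 := le_add_of_nonneg_left (by positivity)
  refine ⟨κ / (D * A + 1), C, by positivity, (div_le_self hκ.le hDA).trans hκ1, by linarith,
    fun f q H x v hv t₀ w w' s η hη hs ht g1 g2 => h f x _ w w' s η hη hs g1 g2 fun i => ?_⟩
  have hs0 : 0 < s := lt_of_lt_of_le (by positivity) hs
  have key : ∀ t : ℝ, |t| ≤ s → F.M.len ((F.lin (Pi.single i 1) t)⁻¹ * F.lin v t₀ *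
      F.lin (Pi.single i 1) t) ≤ c / (L + 1) * s + C₁ := by
    intro t hts
    refine h1 s hs0 _ (F.D.smul_mem _ (F.hat_mem _)) _ (F.D.smul_mem _ (F.hat_mem _))
      ((hd s hs0 _ _).trans ?_) ((hd s hs0 _ _).trans ?_)
    · rw [div_le_iff₀ hs0]
      calc D * |t| * ‖(Pi.single i 1 : F.L)‖ ≤ D * s * A := by gcongr; exact hA _ (Δ.basis_mem i)
        _ = _ := by ring
    · rw [div_le_iff₀ hs0]
      calc D * |t₀| * ‖v‖ ≤ D * (κ / (D * A + 1) * s) * A := by gcongr; exact hA v hv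
        _ = D * A / (D * A + 1) * (κ * s) := by ring
        _ ≤ 1 * (κ * s) := by gcongr; rw [div_le_one (by positivity)]; linarith
        _ = _ := one_mul _
  obtain ⟨t, t1, t2, -⟩ := gl_floor hs0.le 0
  refine ⟨t, t1, t2, (hl f q H x _ _ _ (by simpa using key 0 (by simpa using hs0.le))
    (key t t2)).trans ?_⟩
  have a1 : L * (c / (L + 1) * s) ≤ c * s := by
    calc L * (c / (L + 1) * s) = L / (L + 1) * (c * s) := by ring
      _ ≤ 1 * (c * s) := by gcongr; rw [div_le_one (by positivity)]; linarith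
      _ = _ := one_mul _
  nlinarith [mul_nonneg (mul_nonneg hL (by positivity : 0 ≤ C₁ + 1)) hη]

/-- For `e_i` choose the sign of `t = ± ⌊s⌋` with `t μ j (φL e_i) ≥ 0`; then the two lines stay within
`C (η + log s + 1)` (`conj_wt_lin`, `len_R_norm`). -/
theorem G3 (Δ : F.Dirs) (K : ℝ) : ∃ C : ℝ, 1 ≤ C ∧ ∀ f q, F.QI K f q → ∀ x j b, F.Wt j b →
    ∀ (w w' : F.W) (s η : ℝ), 0 ≤ η → C * (η + 1) ≤ s → ‖b‖ ≤ Real.exp η →
      F.Good Δ.VV f x w s η → F.Good Δ.VV f (x * F.M.ofE b) w' s η → w = w' := by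
  obtain ⟨c, hc, h⟩ := F.gl_fin Δ
  obtain ⟨L, hL, hl⟩ := F.gl_lip K
  obtain ⟨R, hR, hr⟩ := F.len_R_norm
  choose D hD hd using fun i : Fin F.m => F.conj_wt_lin (Pi.single i 1)
  obtain ⟨A, hA0, hA⟩ : ∃ A : ℝ, 0 ≤ A ∧ ∀ i, D i ≤ A :=
    ⟨∑ i, D i, Finset.sum_nonneg fun i _ => zero_le_one.trans (hD i), fun i =>
      Finset.single_le_sum (fun i _ => zero_le_one.trans (hD i)) (Finset.mem_univ i)⟩
  obtain ⟨P, hP⟩ : ∃ P, P = L * R * A := ⟨_, rfl⟩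
  have hP0 : 0 ≤ P := by rw [hP]; positivity
  obtain ⟨δ, hδ⟩ : ∃ δ, δ = c / (P + 1) := ⟨_, rfl⟩
  have hδ0 : 0 < δ := by rw [hδ]; positivity
  have hδ1 : P * δ ≤ c := by
    calc P * δ = P / (P + 1) * c := by rw [hδ]; ring
      _ ≤ 1 * c := by gcongr; rw [div_le_one (by positivity)]; linarith
      _ = _ := one_mul _
  obtain ⟨C, hC, h⟩ := h (2 * c + P * |Real.log δ| + L * R + L) (by positivity)
  refine ⟨C, by linarith, fun f q H x j b hb w w' s η hη hs hbη g1 g2 =>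
    h f x _ w w' s η hη hs g1 g2 fun i => ?_⟩
  have hs0 : 0 < s := lt_of_lt_of_le (by positivity) hs
  have hlog : 0 ≤ Real.log (2 + s) := Real.log_nonneg (by linarith)
  obtain ⟨t, t1, t2, t3⟩ := gl_floor hs0.le (F.μ j (F.φL (Pi.single i 1)))
  obtain ⟨b', hb', e, hn⟩ := hd i j b hb t
  have hS : 0 ≤ A * Real.log (2 + s) + η := by positivity
  refine ⟨t, t1, t2, (hl f q H x _ _ (R * (A * Real.log (2 + s) + η + 1))
    (hr _ hS b hb.1 (hbη.trans (Real.exp_le_exp.2 (le_add_of_nonneg_left (by positivity)))))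
    (e ▸ hr _ hS b' hb'.1 (hn.trans ?_))).trans ?_⟩
  swap
  · rw [Real.exp_add]
    refine mul_le_mul (Real.exp_le_exp.2 ((sub_le_self _ t3).trans ?_)) hbη (norm_nonneg _)
      (Real.exp_pos _).le
    exact mul_le_mul (hA i) (Real.log_le_log (by positivity) (by linarith))
      (Real.log_nonneg (by linarith [abs_nonneg (t : ℝ)])) hA0
  · have a1 : Real.log (2 + s) ≤ δ * (2 + s) + |Real.log δ| := by
      have := Real.log_le_sub_one_of_pos (by positivity : 0 < δ * (2 + s))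
      rw [Real.log_mul hδ0.ne' (by positivity)] at this
      linarith [neg_abs_le (Real.log δ)]
    have a2 := mul_le_mul_of_nonneg_left a1 hP0
    have a3 := mul_le_mul_of_nonneg_right hδ1 (by positivity : 0 ≤ 2 + s)
    have a4 : L * (R * (A * Real.log (2 + s) + η + 1) + 1) =
        P * Real.log (2 + s) + L * R * (η + 1) + L := by rw [hP]; ring
    have a5 : 0 ≤ (2 * c + P * |Real.log δ| + L) * η := by positivity
    rw [a4]
    nlinarith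

end Frame

end Crest.Agent.R182
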