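import Crest.Agent.R182.GeoPC

/-! Row 182, task `R182/GeoCov`: coverings and the counting principle. -/

set_option autoImplicit false

namespace Crest.Agent.R182

open scoped BigOperators
open MeasureTheory

namespace Frame

variable (F : Frame)

theorem Cov_mono {Y Y' : Set F.G} {ρ ρ' n n' : ℝ} (h : F.Cov Y ρ n) (hY : Y' ⊆ Y) (hρ : ρ ≤ ρ')
    (hn : n ≤ n') : F.Cov Y' ρ' n' := by
  obtain ⟨Z, hZ, hc⟩ := h
  refine ⟨Z, hZ.trans hn, fun y hy => ?_⟩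
  obtain ⟨z, hz, hd⟩ := hc y (hY hy)
  exact ⟨z, hz, hd.trans hρ⟩

theorem Cov_biUnion {ι : Type} (s : Finset ι) (Y : ι → Set F.G) {ρ n : ℝ} (hn : 0 ≤ n)
    (h : ∀ i ∈ s, F.Cov (Y i) ρ n) : F.Cov (⋃ i ∈ s, Y i) ρ (s.card * n) := by
  classical
  choose! Z hZ hc using h
  refine ⟨s.biUnion Z, ?_, fun y hy => ?_⟩
  · have h1 : ((s.biUnion Z).card : ℝ) ≤ ∑ i ∈ s, ((Z i).card : ℝ) := by
      exact_mod_cast Finset.card_biUnion_le
    refine h1.trans ((Finset.sum_le_card_nsmul _ _ n hZ).trans ?_)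
    rw [nsmul_eq_mul]
  · obtain ⟨i, hi, hy⟩ := Set.mem_iUnion₂.1 hy
    obtain ⟨z, hz, hd⟩ := hc i hi y hy
    exact ⟨z, Finset.mem_biUnion.2 ⟨i, hi, hz⟩, hd⟩

theorem Cov_left (x : F.G) {Y : Set F.G} {ρ n : ℝ} (h : F.Cov Y ρ n) :
    F.Cov ((fun y => x * y) '' Y) ρ n := by
  classical
  obtain ⟨Z, hZ, hc⟩ := h
  refine ⟨Z.image fun y => x * y, le_trans (by exact_mod_cast Finset.card_image_le) hZ, ?_⟩
  rintro _ ⟨y, hy, rfl⟩
  obtain ⟨z, hz, hd⟩ := hc y hy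
  exact ⟨x * z, Finset.mem_image_of_mem _ hz, by rwa [F.M.dd_mul_left]⟩

/-- polynomial growth of `D`: `exists_cover` with `p = dn 1`, `Y' = {dn (C n) ≤ 1}`, `IsLN.vol_le`,
`dn_scale'` -/
theorem cov_D : ∃ C : ℝ, 1 ≤ C ∧ ∀ n : ℝ, 2 ≤ n →
    F.Cov (F.M.ofE '' bl F.D (F.dn n) 1) C (Real.exp (C * Real.log n)) := by
  classical
  obtain ⟨C₀, hC₀, hcov⟩ := F.N.exists_cover
  obtain ⟨K, hK, hmul⟩ := F.N.lnm_mul
  obtain ⟨C₁, hC₁, hnorm⟩ := F.norm_le_dn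
  obtain ⟨C₂, hC₂⟩ := F.M.len_le_of_norm (C₁ * C₀)
  set D : ℕ := Module.finrank ℝ F.D with hD
  have hl2 : 0 < Real.log 2 := Real.log_pos (by norm_num)
  have hlK : 0 ≤ Real.log (2 + K) := Real.log_nonneg (by linarith)
  set C₃ : ℝ := D * (Real.log (2 + K) / Real.log 2) + D * F.N.m with hC₃
  have hC₃0 : 0 ≤ C₃ := by positivity
  refine ⟨max (max 1 C₂) C₃, le_max_of_le_left (le_max_left _ _), fun n hn => ?_⟩
  have hn0 : 0 < n := by linarith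
  have h1 := F.isLN_dn 1
  have hn' := F.isLN_dn n
  have hvol : vol F.D (F.dn n) ≤ (n ^ F.N.m) ^ D * vol F.D (F.dn 1) := by
    refine h1.vol_le hn' (by positivity) fun x hx => ?_
    simpa using F.dn_scale' one_pos (by linarith : (1 : ℝ) ≤ n) hx
  have hv1 := h1.vol_pos
  obtain ⟨Z, hZY, hZ, hc⟩ := hcov F.D (F.dn 1) h1 (bl F.D (F.dn n) 1) (bl F.D (F.dn n) (2 + K))
    ((2 + K) ^ D * ((n ^ F.N.m) ^ D * vol F.D (F.dn 1))) (by positivity) (fun x hx => hx.1)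
    (fun y hy z hz => by
      have hz1 : F.dn n z ≤ 1 := by
        have h2 := F.dn_scale one_pos (by linarith : (1 : ℝ) ≤ n) hz.1
        have h3 : 1 / n ≤ 1 := by rw [div_le_one hn0]; linarith
        have h4 := h1.nonneg hz.1
        have h5 := hz.2
        have h6 : 0 ≤ 1 / n := by positivity
        nlinarith
      refine ⟨hn'.mul_mem hy.1 hz.1, ?_⟩
      have h2 := hmul _ _ hn' y hy.1 z hz.1 hy.2 hz1
      have h3 : F.dn n y * F.dn n z ≤ 1 :=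
        mul_le_one₀ hy.2 (hn'.nonneg hz.1) hz1
      have h4 := hy.2
      nlinarith)
    (by
      rw [hn'.hm_bl (by linarith)]
      exact ENNReal.ofReal_le_ofReal (mul_le_mul_of_nonneg_left hvol (by positivity)))
  refine ⟨Z.image F.M.ofE, ?_, ?_⟩
  · have h2 : ((Z.image F.M.ofE).card : ℝ) ≤ Z.card := by exact_mod_cast Finset.card_image_le
    refine h2.trans (hZ.trans ?_)
    rw [← mul_assoc, mul_div_assoc, div_self hv1.ne', mul_one]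
    have hln : Real.log 2 ≤ Real.log n := Real.log_le_log (by norm_num) hn
    have e1 : (2 + K) ^ D * (n ^ F.N.m) ^ D =
        Real.exp (D * Real.log (2 + K) + D * F.N.m * Real.log n) := by
      rw [Real.exp_add, Real.exp_nat_mul, Real.exp_log (by linarith), mul_assoc, Real.exp_nat_mul,
        Real.exp_nat_mul, Real.exp_log hn0]
    rw [e1]
    refine Real.exp_le_exp.2 (le_trans ?_ (mul_le_mul_of_nonneg_right (le_max_right _ _)
      (hl2.le.trans hln)))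
    have h3 : Real.log (2 + K) ≤ Real.log (2 + K) / Real.log 2 * Real.log n := by
      calc Real.log (2 + K) = Real.log (2 + K) / Real.log 2 * Real.log 2 := by field_simp
        _ ≤ _ := mul_le_mul_of_nonneg_left hln (by positivity)
    have h4 := mul_le_mul_of_nonneg_left h3 (Nat.cast_nonneg (α := ℝ) D)
    rw [hC₃]
    nlinarith
  · rintro _ ⟨y, hy, rfl⟩
    obtain ⟨z, hz, hd⟩ := hc y hy
    refine ⟨F.M.ofE z, Finset.mem_image_of_mem _ hz, ?_⟩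
    have hzD : z ∈ F.D := (hZY hz).1
    have hm : F.N.mul (-z) y ∈ F.D := h1.mul_mem (F.D.neg_mem hzD) hy.1
    rw [Model.dd, F.ofE_inv_D hzD, F.ofE_mul_D _ hy.1]
    refine (hC₂ _ ?_).trans (le_max_of_le_left (le_max_right _ _))
    have h2 := (hnorm 1 le_rfl _ hm).1
    rw [one_pow, mul_one] at h2
    exact h2.trans (mul_le_mul_of_nonneg_left hd (by linarith))

/-- conjugation by `g` on `ker φ`, as a linear map -/
noncomputable def gcv_cj (g : F.G) : F.E →ₗ[ℝ] F.E :=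
  F.N.Ad (F.M.toE g) ∘ₗ F.M.τ (F.M.ht g)

theorem gcv_cj_eq (g : F.G) {y : F.E} (hy : F.M.φ y = 0) :
    g * F.M.ofE y * g⁻¹ = F.M.ofE (F.gcv_cj g y) := F.M.conj_ofE g hy

theorem gcv_cj_br (g : F.G) (x y : F.E) :
    F.gcv_cj g (F.N.br x y) = F.N.br (F.gcv_cj g x) (F.gcv_cj g y) := by
  change F.N.Ad _ (F.M.τ _ (F.M.nl.br x y)) = _
  rw [F.M.τ_br', F.N.Ad_br]
  rfl

/-- **Covering a translate of a subset of an ideal.**  Let `Y ⊆ I P` and `k ∈ G` normalising `I P`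
(`P = Pos u` or `univ`).  The points `ofE y * k` are at distance `len (k⁻¹ (-y • y') k)`.  Use
`exists_cover` with the Lie norm `p z = C ‖T z‖`, `T = ` conjugation by `k⁻¹` (an automorphism of the
Lie algebra `I P`, `conj_ofE`; `exists_isLN_norm`): `vol p = c · exp (∑ n j μ j (ht k))` for `n ∈ Bs P`
(`hm_image_idl` for `τ`, `hm_image_Ad`), with `c > 0` depending only on `P`; and the unit ball of `p`
consists of elements of norm `≤ exp (C (len k + 1))` (`conj_norm`). -/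
theorem cov_ideal : ∃ C : ℝ, 1 ≤ C ∧ ∀ P : Set F.J, (P = Set.univ ∨ ∃ u, P = F.Pos u) →
    ∀ n ∈ F.N.Bs F.X P, ∀ (k : F.G) (Y Y' : Set F.E) (V : ℝ), 0 ≤ V → Y ⊆ F.I P →
      (∀ y ∈ Y, ∀ y' ∈ F.I P, ∀ z, k * F.M.ofE z * k⁻¹ = F.M.ofE y' → ‖z‖ ≤ 1 →
        F.N.mul y y' ∈ Y') →
      hm (F.I P) Y' ≤ ENNReal.ofReal V →
      F.Cov ((fun y => F.M.ofE y * k) '' Y) C
        (C * V * Real.exp (-∑ j, (n j : ℝ) * F.μ j (F.M.ht k))) := by
  classical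
  obtain ⟨C₀, hC₀, hcov⟩ := F.N.exists_cover
  obtain ⟨C₁, hC₁, hLN⟩ := F.N.exists_isLN_norm
  obtain ⟨C₂, hC₂⟩ := F.M.len_le_of_norm C₀
  have hLP : ∀ P : Set F.J, IsLN F.N (F.I P) fun x => C₁ * ‖x‖ := fun P =>
    hLN.restrict le_top (F.isLN_bi P 0).br_mem
  set C₃ : ℝ := ∑ P : Set F.J, (vol (F.I P) fun x => C₁ * ‖x‖)⁻¹ with hC₃
  refine ⟨max (max 1 C₂) C₃, le_max_of_le_left (le_max_left _ _), ?_⟩
  intro P hP n hn k Y Y' V hV hY hYY' hvol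
  have hφ : ∀ y ∈ F.I P, F.M.φ y = 0 := fun y hy => F.φ_R (F.I_le P hy)
  have hbr : ∀ x, ∀ y ∈ F.I P, F.N.br x y ∈ F.I P := by
    intro x y hy
    rcases hP with rfl | ⟨u, rfl⟩
    · exact F.R_br x hy
    · exact F.I_br u x hy
  have hcj : ∀ g : F.G, ∀ y ∈ F.I P, F.gcv_cj g y ∈ F.I P := fun g y hy =>
    F.N.Ad_mem (hbr _) (F.τ_I P _ hy)
  have hinv : ∀ g : F.G, ∀ y ∈ F.I P, F.gcv_cj g⁻¹ (F.gcv_cj g y) = y := by
    intro g y hy
    apply F.M.ofE_injective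
    rw [← F.gcv_cj_eq g⁻¹ (hφ _ (hcj g y hy)), ← F.gcv_cj_eq g (hφ y hy)]
    group
  have hinv' : ∀ y ∈ F.I P, F.gcv_cj k (F.gcv_cj k⁻¹ y) = y := by
    intro y hy
    have := hinv k⁻¹ y hy
    rwa [inv_inv] at this
  have hp : IsLN F.N (F.I P) fun y => C₁ * ‖F.gcv_cj k⁻¹ y‖ := by
    refine ⟨(hLP P).br_mem, fun x _ y _ => ?_, fun c x _ => ?_, fun x hx h0 => ?_,
      fun x _ y _ => ?_⟩
    · rw [map_add]
      exact hLN.add_le _ trivial _ trivial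
    · rw [map_smul]
      exact hLN.smul _ _ trivial
    · have := hLN.eq_zero _ trivial h0
      rw [← hinv' x hx, this, map_zero]
    · rw [F.gcv_cj_br]
      exact hLN.br_le _ trivial _ trivial
  obtain ⟨Z, hZY, hZ, hc⟩ := hcov (F.I P) _ hp Y Y' V hV hY (fun y hy z hz => by
    refine hYY' y hy z hz.1 (F.gcv_cj k⁻¹ z) ?_ ?_
    · rw [F.gcv_cj_eq k (hφ _ (hcj _ z hz.1)), hinv' z hz.1]
    · have h1 : C₁ * ‖F.gcv_cj k⁻¹ z‖ ≤ 1 := hz.2
      nlinarith [norm_nonneg (F.gcv_cj k⁻¹ z)]) hvol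
  have hv0 := (hLP P).vol_pos
  have hlow : Real.exp (∑ j, (n j : ℝ) * F.μ j (F.M.ht k)) * vol (F.I P) (fun x => C₁ * ‖x‖) ≤
      vol (F.I P) fun y => C₁ * ‖F.gcv_cj k⁻¹ y‖ := by
    have hsub : F.N.Ad (F.M.toE k) '' (F.M.τ (F.M.ht k) '' bl (F.I P) (fun x => C₁ * ‖x‖) 1) ⊆
        bl (F.I P) (fun y => C₁ * ‖F.gcv_cj k⁻¹ y‖) 1 := by
      rintro _ ⟨_, ⟨y, hy, rfl⟩, rfl⟩
      refine ⟨hcj k y hy.1, ?_⟩
      change C₁ * ‖F.gcv_cj k⁻¹ (F.gcv_cj k y)‖ ≤ 1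
      rw [hinv k y hy.1]
      exact hy.2
    have h1 := measure_mono (μ := hm (F.I P)) hsub
    rw [hm_image_Ad F.N (F.I P) (hbr _), hp.lnm_one] at h1
    have h2 := F.N.hm_image_idl F.X (F.M.τ (F.M.ht k)) (F.M.τ_br' _) (fun j => F.μ j (F.M.ht k))
      (fun j => F.τ_X j _) hn (A := bl (F.I P) (fun x => C₁ * ‖x‖) 1) (fun x hx => hx.1)
    change hm (F.I P) _ = _ * hm (F.I P) _ at h2
    rw [h2, (hLP P).lnm_one, ← ENNReal.ofReal_mul (Real.exp_pos _).le] at h1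
    exact (ENNReal.ofReal_le_ofReal_iff hp.vol_pos.le).1 h1
  refine ⟨Z.image fun y => F.M.ofE y * k, ?_, ?_⟩
  · have h2 : ((Z.image fun y => F.M.ofE y * k).card : ℝ) ≤ Z.card := by
      exact_mod_cast Finset.card_image_le
    refine h2.trans (hZ.trans ((div_le_div_of_nonneg_left hV (by positivity) hlow).trans ?_))
    have h3 : (vol (F.I P) fun x => C₁ * ‖x‖)⁻¹ ≤ max (max 1 C₂) C₃ :=
      le_max_of_le_right (Finset.single_le_sum
        (f := fun P : Set F.J => (vol (F.I P) fun x => C₁ * ‖x‖)⁻¹)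
        (fun Q _ => (inv_pos.2 (hLP Q).vol_pos).le) (Finset.mem_univ P))
    rw [Real.exp_neg, div_eq_mul_inv, mul_inv]
    calc V * ((Real.exp (∑ j, (n j : ℝ) * F.μ j (F.M.ht k)))⁻¹ *
          (vol (F.I P) fun x => C₁ * ‖x‖)⁻¹)
        = (vol (F.I P) fun x => C₁ * ‖x‖)⁻¹ * V *
          (Real.exp (∑ j, (n j : ℝ) * F.μ j (F.M.ht k)))⁻¹ := by ring
      _ ≤ _ := by gcongr
  · rintro _ ⟨y, hy, rfl⟩
    obtain ⟨z, hz, hd⟩ := hc y hy
    refine ⟨F.M.ofE z * k, Finset.mem_image_of_mem _ hz, ?_⟩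
    have hzI : z ∈ F.I P := hY (hZY hz)
    have hm : F.N.mul (-z) y ∈ F.I P := hp.mul_mem ((F.I P).neg_mem hzI) (hY hy)
    have e : (F.M.ofE z * k)⁻¹ * (F.M.ofE y * k) = F.M.ofE (F.gcv_cj k⁻¹ (F.N.mul (-z) y)) := by
      rw [← F.gcv_cj_eq k⁻¹ (hφ _ hm), ← F.ofE_mul_R (F.R.neg_mem (F.I_le P hzI)),
        ← F.ofE_inv_R (F.I_le P hzI)]
      group
    rw [Model.dd, e]
    refine (hC₂ _ ?_).trans (le_max_of_le_left (le_max_right _ _))
    have h1 : C₁ * ‖F.gcv_cj k⁻¹ (F.N.mul (-z) y)‖ ≤ C₀ := hd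
    rw [Model.toE_ofE]
    nlinarith [norm_nonneg (F.gcv_cj k⁻¹ (F.N.mul (-z) y))]

/-- **Counting principle.**  The `y ∈ 𝒯` with `f (x y g)` in one ball of radius `ρ` have
`x y g` in a ball of radius `ρ' = 2 K ρ + 3 K` (`QI.lower`), so `Ad (-g) ((-y₀) • y)` lies in the compact set
`{z ∈ I P | len (ofE z) ≤ ρ'}` of measure `≤ C`; `hm_image_Ad`, `hm_image_mul`. -/
theorem count (K ρ : ℝ) : ∃ C : ℝ, 0 < C ∧ ∀ f q, F.QI K f q → ∀ (x b : F.G) (P : Set F.J),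
    ∀ g ∈ F.R, ∀ (Y : Set F.G) (n : ℝ), F.Cov Y ρ n → ∀ 𝒯 : Set F.E, 𝒯 ⊆ F.I P →
      (∀ y ∈ 𝒯, b⁻¹ * f (x * F.M.ofE y * F.M.ofE g) ∈ Y) →
      hm (F.I P) 𝒯 ≤ ENNReal.ofReal (C * n) := by
  classical
  set B : Set F.E := F.M.toE '' {g | F.M.len g ≤ K * (2 * ρ) + 3 * K} with hB
  have hBc : IsCompact B := (F.M.isCompact_ball _).image F.M.continuous_toE
  set C : ℝ := 1 + ∑ P : Set F.J, (hm (F.I P)).real B with hC
  have hC0 : 0 < C := by positivity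
  refine ⟨C, hC0, ?_⟩
  intro f q hq x b P g hg Y n hY 𝒯 h𝒯 hf
  obtain ⟨Z, hZ, hc⟩ := hY
  have hBP : hm (F.I P) B ≤ ENNReal.ofReal C := by
    rw [← ENNReal.ofReal_toReal hBc.measure_lt_top.ne]
    refine ENNReal.ofReal_le_ofReal ?_
    have := Finset.single_le_sum (f := fun P : Set F.J => (hm (F.I P)).real B)
      (fun Q _ => measureReal_nonneg) (Finset.mem_univ P)
    change (hm (F.I P)).real B ≤ C
    linarith
  have hsub : 𝒯 ⊆ ⋃ z ∈ Z,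
      {y | y ∈ 𝒯 ∧ F.M.dd z (b⁻¹ * f (x * F.M.ofE y * F.M.ofE g)) ≤ ρ} := by
    intro y hy
    obtain ⟨z, hz, hd⟩ := hc _ (hf y hy)
    exact Set.mem_iUnion₂.2 ⟨z, hz, hy, hd⟩
  have hone : ∀ z ∈ Z, hm (F.I P)
      {y | y ∈ 𝒯 ∧ F.M.dd z (b⁻¹ * f (x * F.M.ofE y * F.M.ofE g)) ≤ ρ} ≤ ENNReal.ofReal C := by
    intro z _
    rcases Set.eq_empty_or_nonempty
      {y | y ∈ 𝒯 ∧ F.M.dd z (b⁻¹ * f (x * F.M.ofE y * F.M.ofE g)) ≤ ρ} with h0 | ⟨y₀, hy₀, hd₀⟩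
    · rw [h0, measure_empty]
      exact zero_le
    have hy₀I := h𝒯 hy₀
    have hS := (F.isLN_bi P 0).br_mem
    refine le_trans (measure_mono (t := (fun z => F.N.mul (F.N.mul y₀ z) 0) '' (F.N.Ad g '' B)) ?_)
      ?_
    · rintro y ⟨hy, hd⟩
      have hyI := h𝒯 hy
      have hmI : F.N.mul (-y₀) y ∈ F.I P := F.N.mul_mem hS ((F.I P).neg_mem hy₀I) hyI
      refine ⟨F.N.mul (-y₀) y, ⟨F.N.Ad (-g) (F.N.mul (-y₀) y), ⟨F.M.ofE _, ?_, rfl⟩, ?_⟩, ?_⟩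
      · have h1 : F.M.dd (f (x * F.M.ofE y₀ * F.M.ofE g)) (f (x * F.M.ofE y * F.M.ofE g)) ≤
            2 * ρ := by
          rw [← F.M.dd_mul_left b⁻¹]
          have h2 := F.M.dd_triangle (b⁻¹ * f (x * F.M.ofE y₀ * F.M.ofE g)) z
            (b⁻¹ * f (x * F.M.ofE y * F.M.ofE g))
          rw [F.M.dd_comm _ z] at h2
          linarith
        have h2 := hq.lower (x * F.M.ofE y₀ * F.M.ofE g) (x * F.M.ofE y * F.M.ofE g)
        have h3 := mul_le_mul_of_nonneg_left h1 (zero_le_one.trans hq.one_le)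
        have e : (x * F.M.ofE y₀ * F.M.ofE g)⁻¹ * (x * F.M.ofE y * F.M.ofE g) =
            F.M.ofE (F.N.Ad (-g) (F.N.mul (-y₀) y)) := by
          rw [← F.conj_R (F.R.neg_mem hg) (F.I_le P hmI), ← F.ofE_inv_R hg,
            ← F.ofE_mul_R (F.R.neg_mem (F.I_le P hy₀I)), ← F.ofE_inv_R (F.I_le P hy₀I)]
          group
        rw [Model.dd, e] at h2
        exact h2.trans (by linarith)
      · rw [← F.N.Ad_mul, F.N.mul_neg', F.N.Ad_zero]
      · simp only [NL.mul_zero']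
        rw [← F.N.mul_assoc', F.N.mul_neg', F.N.zero_mul']
    · rw [hm_image_mul F.N (F.I P) hS hy₀I (F.I P).zero_mem,
        hm_image_Ad F.N (F.I P) fun y hy => F.I_br_R P hg hy]
      exact hBP
  calc hm (F.I P) 𝒯 ≤ _ := measure_mono hsub
    _ ≤ ∑ z ∈ Z, hm (F.I P)
        {y | y ∈ 𝒯 ∧ F.M.dd z (b⁻¹ * f (x * F.M.ofE y * F.M.ofE g)) ≤ ρ} :=
      measure_biUnion_finset_le _ _
    _ ≤ Z.card • ENNReal.ofReal C := Finset.sum_le_card_nsmul _ _ _ hone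
    _ = ENNReal.ofReal (C * Z.card) := by
      rw [nsmul_eq_mul, mul_comm, ENNReal.ofReal_mul hC0.le, ENNReal.ofReal_natCast]
    _ ≤ _ := ENNReal.ofReal_le_ofReal (mul_le_mul_of_nonneg_left hZ hC0.le)

/-- balls of radius `ρ` are covered by boundedly many unit balls; finite groups of points -/
theorem cov_ball (r : ℝ) : ∃ C : ℝ, 0 < C ∧ F.Cov {g | F.M.len g ≤ r} 1 C := by
  obtain ⟨Z, -, hZ⟩ := (F.M.isCompact_ball r).elim_nhds_subcover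
    (fun z => (fun y => z⁻¹ * y) ⁻¹' F.M.Q) fun z _ =>
      (continuous_const.mul continuous_id).continuousAt.preimage_mem_nhds
        (by simpa using F.M.Q_mem_nhds)
  refine ⟨Z.card + 1, by positivity, Z, by linarith, fun y hy => ?_⟩
  obtain ⟨z, hz, hy⟩ := Set.mem_iUnion₂.1 (hZ hy)
  exact ⟨z, hz, F.M.len_le_one hy⟩

end Frame

end Crest.Agent.R182
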