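import Crest.Agent.R182.GeoVC
import Crest.Agent.R182.GeoVC3Aux

/-! Row 182, task `R182/GeoVC3`: covering numbers, ideal version. -/

set_option autoImplicit false

namespace Crest.Agent.R182

open scoped BigOperators
open MeasureTheory

namespace Frame

variable (F : Frame)

/-- Let `P = Pos u`, `Λ = a + η + log n`.  For `G` in the set write (`PC_conf`, `bI_split`)
`G = i · b`, `i ∈ I P`, `b = b₀ d` with `b₀ ∈ R`, `‖b₀‖ ≤ exp (C (η + log n))` (take `b₀ = r - y`,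
`i = r • (-b₀) ∈ I P` by `mul_congr`/`mul_sub_mem`), `dn (C n) d ≤ 1`, `‖φ d‖ ≤ η`.  The `b` form a set
with covering number `exp (C (η + log n))` (it lies in `PC (C (η + log n)) (C n)`-like set; directly:
`cov_D` and `cov_ideal` with `P = univ`), with centres `c` of the same type: `b = c q`, `len q ≤ C`.
Likewise `g = i' b'` with `bi P (mup u + η + C log n) i' ≤ C`.  From `G = k⁻¹ g k'` we get
`k i k⁻¹ = i' · κ`, `κ = b' k' q⁻¹ c⁻¹ k⁻¹`, hence `κ ∈ ofE (I P)` (`conj_norm`), and `‖toE κ‖ ≤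
exp (C Λ)` since all factors have norm `≤ exp (C Λ)` and height `≤ C Λ` (`norm_mul_le`, `norm_τ_le`,
`norm_toE_le`).  By `bi_le_norm` and the hypothesis `C Λ ≤ μ i u` on `P`, `bi P (mup u) κ ≤ 1`.
So `G ∈ k⁻¹ · ofE Y · (k c) · q` with `Y = {bi P (mup u + η + C log n) ≤ C}`; `cov_ideal` with `k c`,
`vol_bI`, `lvol_le_univ`, `lvol_lip`.  Finally for `n₁ ∈ Bs P` and `n'` from `Bs_extend'`,
`-∑ n₁ j μ j (ht k) = ∑_{j ∉ P} n' j μ j (ht k) ≤ μ i₀ (ht k)` (`sum_μ`), and `‖ht c‖ ≤ η + C`. -/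
theorem VC3 : ∃ C : ℝ, 1 ≤ C ∧ ∀ (u : F.V) (h' : F.J → ℝ) (η a n : ℝ) (k : F.G) (i₀ : F.J),
    0 ≤ η → 2 ≤ n → F.M.len k ≤ a → (∀ i, F.μ i u ≤ 0 → h' i ≤ η) →
    (∀ i, 0 < F.μ i u → C * (a + η + Real.log n) ≤ F.μ i u) →
    (∀ i, F.μ i u ≤ 0 → F.μ i (F.M.ht k) ≤ 0) → F.μ i₀ u ≤ 0 →
    F.Cov {G | G ∈ F.PC h' n ∧ ‖F.M.ht G‖ ≤ η ∧ ∃ g k', G = k⁻¹ * g * k' ∧
        g ∈ F.PC (fun j => F.mup u j + η) n ∧ ‖F.M.ht g‖ ≤ η ∧ F.M.len k' ≤ a} C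
      (Real.exp (F.nrm u + F.μ i₀ (F.M.ht k) + C * (η + Real.log n))) := by
  obtain ⟨K₁, hK₁, hsplit⟩ := F.v3_split
  obtain ⟨K₂, hK₂, hsmB⟩ := F.v3_sm_B K₁ hK₁
  obtain ⟨K₃, hK₃, hcovB⟩ := F.v3_cov_B K₁ hK₁
  obtain ⟨K₄, hK₄, hlen⟩ := F.v3_sm_len
  obtain ⟨K₅, hK₅, hfive⟩ := F.v3_sm_five
  obtain ⟨K₆, hK₆, hbi⟩ := F.v3_bi_le
  obtain ⟨K₇, hK₇, hsmall⟩ := F.v3_small
  obtain ⟨K₈, hK₈, hexpo⟩ := F.v3_expo
  obtain ⟨A₁, hA₁, hm₁⟩ := v3_mul_bdd F.N K₁ (by linarith)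
  obtain ⟨A₂, hA₂, hm₂⟩ := v3_mul_bdd F.N A₁ (by linarith)
  obtain ⟨K₉, hK₉, hvol⟩ := F.v3_vol (3 * A₂) (by linarith)
  obtain ⟨C₁, hC₁, hI⟩ := F.cov_ideal
  obtain ⟨C₂, hC₂, hlip⟩ := F.N.lvol_lip F.X
  obtain ⟨C₃, -, hconj⟩ := F.conj_norm
  obtain ⟨T, hT⟩ : ∃ T, T = K₂ + 3 * K₄ + 2 * (K₄ * (2 * K₃ + 1)) := ⟨_, rfl⟩
  have hp0 : 0 ≤ K₄ * (2 * K₃ + 1) := by positivity
  have hT4 : 4 ≤ T := by rw [hT]; linarith
  have hp1 : 0 ≤ K₅ * T := by positivity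
  have hp2 : 0 ≤ K₆ * (K₁ + 3) := by positivity
  have hp3 : 0 ≤ C₁ * K₉ := by positivity
  have hp4 : 0 ≤ C₂ * K₁ := by positivity
  obtain ⟨C, hC⟩ : ∃ C, C = C₁ + 2 * K₃ + K₅ * T + 2 * K₇ + K₆ * (K₁ + 3) + 2 * (C₁ * K₉) +
    C₂ * K₁ + K₈ := ⟨_, rfl⟩
  refine ⟨C, by rw [hC]; linarith, fun u h' η a n k i₀ hη hn hk hh' hbig hneg hi₀ => ?_⟩
  have hL := v3_log hn
  have ha : 0 ≤ a := (F.M.len_nonneg k).trans hk
  obtain ⟨w, hw⟩ : ∃ w, w = η + Real.log n := ⟨_, rfl⟩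
  have hw1 : 1 / 2 ≤ w := by linarith
  obtain ⟨Λ, hΛ⟩ : ∃ Λ, Λ = a + η + Real.log n := ⟨_, rfl⟩
  have hwΛ : w ≤ Λ := by linarith
  have hΛ1 : 1 / 2 ≤ Λ := by linarith
  rw [← hΛ] at hbig
  have hnP : ∀ j, j ∉ F.Pos u → F.μ j u ≤ 0 := fun j hj => not_lt.1 hj
  obtain ⟨H, hH⟩ : ∃ H : F.J → ℝ, H = fun j => F.mup u j + η + K₁ * Real.log n := ⟨_, rfl⟩
  have hKL : 0 ≤ K₁ * Real.log n := by positivity
  have hH0 : ∀ j, 0 ≤ H j := fun j => by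
    have := le_max_right (F.μ j u) 0
    simp only [hH, mup]
    linarith
  have hHP : ∀ j ∈ F.Pos u, C * Λ ≤ H j := fun j hj => by
    have := le_max_left (F.μ j u) 0
    have := hbig j hj
    simp only [hH, mup]
    linarith
  have hHn : ∀ j, j ∉ F.Pos u → H j ≤ η + K₁ * Real.log n := fun j hj => by
    simp only [hH, mup, max_eq_right (hnP j hj)]
    linarith
  have hbi' : ∀ y ∈ F.I (F.Pos u), F.bi (F.Pos u) H y ≤ 3 * F.bx H y := by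
    refine hbi _ H (η + K₁ * Real.log n) (by linarith) hH0 hHn fun j hj => le_trans ?_ (hHP j hj)
    have b1 : η + K₁ * Real.log n + 1 ≤ (K₁ + 3) * Λ := by nlinarith
    have b2 : K₆ * (η + K₁ * Real.log n + 1) ≤ K₆ * (K₁ + 3) * Λ := by
      rw [mul_assoc]; gcongr
    refine b2.trans (mul_le_mul_of_nonneg_right (by rw [hC]; linarith) (by linarith))
  have hsm' : ∀ y ∈ F.I (F.Pos u), F.v3Sm (K₅ * (T * Λ)) (F.M.ofE y) → F.bx H y ≤ 1 := by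
    intro y hy hs
    refine hsmall _ H (K₅ * (T * Λ)) hH0 (fun j hj => le_trans ?_ (hHP j hj)) y hy hs.1
    have b1 : K₅ * (T * Λ) + K₇ ≤ (K₅ * T + 2 * K₇) * Λ := by nlinarith
    exact b1.trans (mul_le_mul_of_nonneg_right (by rw [hC]; linarith) (by linarith))
  have hT1 : 1 ≤ T * Λ := by nlinarith
  have smB : ∀ b ∈ F.v3B K₁ η n, F.v3Sm (T * Λ) b := fun b hb =>
    (hsmB η n hη hn b hb).1.mono (by
      rw [← hw]
      exact mul_le_mul (by rw [hT]; linarith) hwΛ (by linarith) (by linarith))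
  have smA : ∀ g, F.M.len g ≤ a → F.v3Sm (T * Λ) g := fun g hg =>
    (hlen g a hg).mono (by
      have b1 : K₄ * (a + 1) ≤ K₄ * (3 * Λ) := by gcongr; linarith
      have b2 : 3 * K₄ * Λ ≤ T * Λ := by gcongr; rw [hT]; linarith
      linarith)
  have smQ : ∀ g, F.M.len g ≤ 2 * K₃ → F.v3Sm (T * Λ) g := fun g hg =>
    (hlen g _ hg).mono (by
      have b2 : 2 * (K₄ * (2 * K₃ + 1)) * Λ ≤ T * Λ := by gcongr; rw [hT]; linarith
      nlinarith)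
  obtain ⟨n₁, hn₁⟩ := F.N.Bs_nonempty F.X (F.Pos u)
  obtain ⟨Z, hZ, hZB, hZc⟩ := F.v3_cov_rep (hcovB η n hη hn)
  have hLN := F.isLN_bx H
  have hone : ∀ c ∈ Z, F.Cov ((fun x => k⁻¹ * x) '' ((fun y => F.M.ofE y * (k * c)) ''
      {y | y ∈ F.I (F.Pos u) ∧ F.bx H y ≤ A₁})) C₁
      (C₁ * (K₉ * Real.exp (F.nrm u + C₂ * K₁ * w)) * Real.exp (F.μ i₀ (F.M.ht k) + K₈ * η)) := by
    intro c hc
    refine F.Cov_left _ (F.Cov_mono (hI (F.Pos u) (Or.inr ⟨u, rfl⟩) n₁ hn₁ (k * c) _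
      (bl (F.I (F.Pos u)) (F.bi (F.Pos u) H) (3 * A₂)) (K₉ * Real.exp (F.nrm u + C₂ * K₁ * w))
      (by positivity) (fun y hy => hy.1) ?_ ?_) subset_rfl le_rfl ?_)
    · intro y hy y' hy' z hz hz1
      have hmem : F.N.mul y y' ∈ F.I (F.Pos u) := (F.isLN_bi _ H).mul_mem hy.1 hy'
      refine ⟨hmem, (hbi' _ hmem).trans ?_⟩
      have a1 := (hfive _ hT1 k c (F.M.ofE z) c k (smA k hk) (smB c (hZB c hc))
        (F.v3_conj_z (F.I_le _ hy') hz hz1 (by linarith)) (smB c (hZB c hc)) (smA k hk)).2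
      rw [mul_assoc _ c⁻¹, ← mul_inv_rev, hz] at a1
      have a2 := hm₂ _ _ hLN y (F.I_le _ hy.1) y' (F.I_le _ hy') hy.2
        ((hsm' y' hy' a1).trans hA₁)
      linarith
    · refine (hvol _ _).trans (ENNReal.ofReal_le_ofReal ?_)
      have b1 := hlip (F.Pos u) H (F.mup u) (K₁ * w) (by positivity) fun j => by
        simp only [hH, hw]
        nlinarith
      have b2 : F.N.lvol F.X (F.Pos u) (F.mup u) ≤ F.nrm u :=
        F.N.lvol_le_univ F.X _ fun j => le_max_right _ _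
      gcongr
      linarith
    · have := hexpo _ n₁ hn₁ (F.M.ht k) (F.M.ht c) η i₀ hη (hsmB η n hη hn c (hZB c hc)).2
        (fun j hj => hneg j (hnP j hj)) (fun h => absurd hi₀ (not_le.2 h))
      rw [F.M.ht_mul]
      gcongr
  have hU := F.Cov_biUnion Z _ (by positivity) hone
  refine F.Cov_mono (F.v3_cov_thick (ρ' := 2 * K₃) hU ?_) subset_rfl (by rw [hC]; linarith) ?_
  · rintro G ⟨hG, hGt, g, k', hGe, hg, hgt, hk'⟩
    obtain ⟨i, hi, b, hb, hGi, -⟩ := hsplit u h' n η hη hn (fun j hj => hh' j (hnP j hj)) G hG hGt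
    obtain ⟨i', hi', b', hb', hgi, hi'1⟩ := hsplit u (fun j => F.mup u j + η) n η hη hn
      (fun j hj => by simp [mup, max_eq_right (hnP j hj)]) g hg hgt
    rw [← hH] at hi'1
    obtain ⟨c, hc, hcb⟩ := hZc b hb
    obtain ⟨y, -, hy, -, -, hyI⟩ := hconj k i (F.φ_R (F.I_le _ hi))
    have hyI := hyI u hi
    have hκI : F.N.mul (-i') y ∈ F.I (F.Pos u) :=
      (F.isLN_bi _ H).mul_mem ((F.I _).neg_mem hi') hyI
    have hκ : F.M.ofE (F.N.mul (-i') y) = b' * k' * (c⁻¹ * b)⁻¹ * c⁻¹ * k⁻¹ := by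
      rw [← F.ofE_mul_R (F.R.neg_mem (F.I_le _ hi')), ← F.ofE_inv_R (F.I_le _ hi'), ← hy]
      have e1 : F.M.ofE i = k⁻¹ * (F.M.ofE i' * b') * k' * b⁻¹ := by
        rw [← hgi, ← hGe, hGi]; group
      rw [e1]; group
    have a1 := (hfive _ hT1 b' k' (c⁻¹ * b) c k (smB b' hb') (smA k' hk') (smQ _ hcb)
      (smB c (hZB c hc)) (smA k hk)).1
    rw [← hκ] at a1
    have a2 := hm₁ _ _ hLN i' (F.I_le _ hi') _ (F.I_le _ hκI) hi'1 ((hsm' _ hκI a1).trans hK₁)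
    rw [← F.N.mul_assoc', F.N.mul_neg', F.N.zero_mul'] at a2
    refine ⟨k⁻¹ * (F.M.ofE y * (k * c)),
      Set.mem_biUnion hc ⟨_, ⟨y, ⟨hyI, a2⟩, rfl⟩, rfl⟩, ?_⟩
    have e2 : k⁻¹ * (F.M.ofE y * (k * c)) = F.M.ofE i * c := by rw [← hy]; group
    rwa [e2, hGi, F.M.dd_mul_left]
  · rw [← hw] at hZ ⊢
    have h1 := v3_le_exp (C := C₁ * K₉) hp3 hw1
    calc (Z.card : ℝ) * (C₁ * (K₉ * Real.exp (F.nrm u + C₂ * K₁ * w)) *
          Real.exp (F.μ i₀ (F.M.ht k) + K₈ * η))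
        = Z.card * (C₁ * K₉) * Real.exp (F.nrm u + C₂ * K₁ * w) *
          Real.exp (F.μ i₀ (F.M.ht k) + K₈ * η) := by ring
      _ ≤ Real.exp (K₃ * w) * Real.exp (2 * (C₁ * K₉) * w) * Real.exp (F.nrm u + C₂ * K₁ * w) *
          Real.exp (F.μ i₀ (F.M.ht k) + K₈ * η) := by gcongr
      _ ≤ _ := by
          rw [← Real.exp_add, ← Real.exp_add, ← Real.exp_add]
          refine Real.exp_le_exp.2 ?_
          have h2 : K₈ * η ≤ K₈ * w := by gcongr; linarith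
          have h3 : (K₃ + 2 * (C₁ * K₉) + C₂ * K₁ + K₈) * w ≤ C * w := by
            gcongr; rw [hC]; linarith
          linarith

end Frame

end Crest.Agent.R182
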