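import Mathlib
import Crest.Prelude.Def_Polycyclic
import Crest.Prelude.Def_WordHyperbolic

/-!
# R182, Gromov's theorem: basic notions

`PG G D`: polynomial growth of degree at most `D` (for every finite subset).
`Gen T`: `T` is a symmetric finite generating set containing `1`.
`P T`: the averaging operator `P F x = |T|⁻¹ ∑_{s ∈ T} F (x s)`; `p T n` the law of the walk.
`LH T`: Lipschitz harmonic functions vanishing at `1`.
-/

set_option autoImplicit false

namespace Crest.Agent.R182.Gro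

open Pointwise

variable {G : Type*} [Group G]

/-- Polynomial growth of degree at most `D`. -/
def PG (G : Type*) [Group G] (D : ℕ) : Prop :=
  ∀ T : Finset G, ∃ C : ℝ, ∀ n : ℕ, ((((T : Set G) ^ n).ncard : ℕ) : ℝ) ≤ C * ((n : ℝ) + 1) ^ D

theorem finite_pow (T : Finset G) (n : ℕ) : ((T : Set G) ^ n).Finite := by
  classical
  rw [← Finset.coe_pow]; exact Finset.finite_toSet _

/-- Counting form of `PG`: a finite set of products of `n` elements of `T` is small. -/
theorem PG.card_le {D : ℕ} (h : PG G D) (T : Finset G) :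
    ∃ C : ℝ, 1 ≤ C ∧ ∀ (n : ℕ) (F : Finset G), (F : Set G) ⊆ (T : Set G) ^ n →
      (F.card : ℝ) ≤ C * ((n : ℝ) + 1) ^ D := by
  obtain ⟨C, hC⟩ := h T
  have h0 := hC 0
  rw [pow_zero, show (1 : Set G) = {1} from rfl, Set.ncard_singleton] at h0
  refine ⟨C, by simpa using h0, fun n F hF => le_trans ?_ (hC n)⟩
  rw [← Set.ncard_coe_finset]
  exact_mod_cast Set.ncard_le_ncard hF (finite_pow T n)

/-- Counting form of `PG` for injective families. -/
theorem PG.card_le_of_inj {D : ℕ} (h : PG G D) (T : Finset G) :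
    ∃ C : ℝ, 1 ≤ C ∧ ∀ (n : ℕ) (ι : Type) [Fintype ι] (f : ι → G), Function.Injective f →
      (∀ i, f i ∈ (T : Set G) ^ n) → (Fintype.card ι : ℝ) ≤ C * ((n : ℝ) + 1) ^ D := by
  classical
  obtain ⟨C, hC1, hC⟩ := h.card_le T
  refine ⟨C, hC1, fun n ι _ f hf hT => ?_⟩
  have := hC n (Finset.univ.image f) (by
    intro x hx
    obtain ⟨i, -, rfl⟩ := Finset.mem_image.1 (Finset.mem_coe.1 hx)
    exact hT i)
  rwa [Finset.card_image_of_injective _ hf, Finset.card_univ] at this

theorem PG.of_injective {H : Type*} [Group H] {D : ℕ} (h : PG G D) (f : H →* G)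
    (hf : Function.Injective f) : PG H D := by
  classical
  intro T
  obtain ⟨C, hC⟩ := h (T.image f)
  refine ⟨C, fun n => ?_⟩
  have := hC n
  rwa [Finset.coe_image, ← Set.image_pow, Set.ncard_image_of_injective _ hf] at this

theorem PG.subgroup {D : ℕ} (h : PG G D) (H : Subgroup G) : PG H D :=
  h.of_injective H.subtype Subtype.val_injective

/-- A symmetric finite generating set containing `1`. -/
structure Gen (T : Finset G) : Prop where
  one_mem : (1 : G) ∈ T
  inv_mem : ∀ s ∈ T, s⁻¹ ∈ T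
  closure : Subgroup.closure (T : Set G) = ⊤

theorem exists_gen (G : Type*) [Group G] [Group.FG G] : ∃ T : Finset G, Gen T := by
  classical
  obtain ⟨S, hS⟩ := (Group.fg_def.1 (inferInstance : Group.FG G))
  refine ⟨insert 1 (S ∪ S.image (·⁻¹)), by simp, ?_, ?_⟩
  · intro s hs
    simp only [Finset.mem_insert, Finset.mem_union, Finset.mem_image] at hs ⊢
    rcases hs with rfl | hs | ⟨a, ha, rfl⟩
    · simp
    · exact Or.inr (Or.inr ⟨s, hs, rfl⟩)
    · exact Or.inr (Or.inl (by simpa using ha))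
  · rw [eq_top_iff, ← hS]
    refine Subgroup.closure_mono fun x hx => ?_
    simp [Finset.mem_coe.1 hx]

theorem Gen.card_pos {T : Finset G} (hT : Gen T) : (0 : ℝ) < T.card := by
  exact_mod_cast Finset.card_pos.2 ⟨1, hT.one_mem⟩

/-- Induction along right multiplication by generators. -/
theorem Gen.induction {T : Finset G} (hT : Gen T) {q : G → Prop} (h1 : q 1)
    (hs : ∀ x, ∀ s ∈ T, q x → q (x * s)) (x : G) : q x := by
  have hx : x ∈ Subgroup.closure (T : Set G) := by rw [hT.closure]; trivial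
  induction hx using Subgroup.closure_induction_right with
  | one => exact h1
  | mul_right x _ y hy ih => exact hs x y hy ih
  | mul_inv_cancel x _ y hy ih => exact hs x y⁻¹ (hT.inv_mem y hy) ih

theorem Gen.exists_mem_pow {T : Finset G} (hT : Gen T) (x : G) : ∃ n, x ∈ (T : Set G) ^ n := by
  refine hT.induction (q := fun x => ∃ n, x ∈ (T : Set G) ^ n) ⟨0, by simp⟩ ?_ x
  rintro x s hs ⟨n, hn⟩
  exact ⟨n + 1, by rw [pow_succ]; exact Set.mul_mem_mul hn hs⟩

theorem Gen.sum_inv {T : Finset G} (hT : Gen T) (f : G → ℝ) :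
    ∑ s ∈ T, f s⁻¹ = ∑ s ∈ T, f s :=
  Finset.sum_bij' (fun s _ => s⁻¹) (fun s _ => s⁻¹) (fun s hs => hT.inv_mem s hs)
    (fun s hs => hT.inv_mem s hs) (by simp) (by simp) (by simp)

/-- The averaging operator. -/
noncomputable def P (T : Finset G) : Module.End ℝ (G → ℝ) where
  toFun F x := (T.card : ℝ)⁻¹ * ∑ s ∈ T, F (x * s)
  map_add' F F' := by funext x; simp [Finset.sum_add_distrib, mul_add]
  map_smul' c F := by funext x; simp [← Finset.mul_sum]; ring

theorem P_apply (T : Finset G) (F : G → ℝ) (x : G) :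
    P T F x = (T.card : ℝ)⁻¹ * ∑ s ∈ T, F (x * s) := rfl

theorem P_pow_succ (T : Finset G) (n : ℕ) (F : G → ℝ) :
    (P T ^ (n + 1)) F = (P T ^ n) (P T F) := by rw [pow_succ]; rfl

theorem P_pow_succ' (T : Finset G) (n : ℕ) (F : G → ℝ) :
    (P T ^ (n + 1)) F = P T ((P T ^ n) F) := by rw [pow_succ']; rfl

theorem P_mono (T : Finset G) {F F' : G → ℝ} (h : ∀ x, F x ≤ F' x) (x : G) :
    P T F x ≤ P T F' x :=
  mul_le_mul_of_nonneg_left (Finset.sum_le_sum fun _ _ => h _) (by positivity)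

theorem P_pow_mono (T : Finset G) (n : ℕ) {F F' : G → ℝ} (h : ∀ x, F x ≤ F' x) (x : G) :
    (P T ^ n) F x ≤ (P T ^ n) F' x := by
  induction n generalizing x with
  | zero => exact h x
  | succ n ih => rw [P_pow_succ', P_pow_succ']; exact P_mono T ih x

theorem P_pow_nonneg (T : Finset G) (n : ℕ) {F : G → ℝ} (h : ∀ x, 0 ≤ F x) (x : G) :
    0 ≤ (P T ^ n) F x := by
  have := P_pow_mono T n (F := 0) (F' := F) h x
  simpa using this

theorem P_const {T : Finset G} (hT : Gen T) (c : ℝ) : P T (fun _ => c) = fun _ => c := by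
  funext x
  have := hT.card_pos
  rw [P_apply, Finset.sum_const, nsmul_eq_mul]; field_simp

theorem P_pow_fixed {T : Finset G} {u : G → ℝ} (hu : P T u = u) (n : ℕ) : (P T ^ n) u = u := by
  induction n with
  | zero => rfl
  | succ n ih => rw [P_pow_succ, hu, ih]

theorem P_pow_const {T : Finset G} (hT : Gen T) (n : ℕ) (c : ℝ) :
    (P T ^ n) (fun _ => c) = fun _ => c := P_pow_fixed (P_const hT c) n

theorem abs_P_pow_le {T : Finset G} (hT : Gen T) (n : ℕ) {F : G → ℝ} {c : ℝ}
    (h : ∀ x, |F x| ≤ c) (x : G) : |(P T ^ n) F x| ≤ c := by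
  have h1 := P_pow_mono T n (F := F) (F' := fun _ => c) (fun x => (abs_le.1 (h x)).2) x
  have h2 := P_pow_mono T n (F := fun _ => -c) (F' := F) (fun x => (abs_le.1 (h x)).1) x
  rw [P_pow_const hT] at h1 h2
  exact abs_le.2 ⟨h2, h1⟩

/-- `P` commutes with left translations. -/
theorem P_pow_left (T : Finset G) (n : ℕ) (F : G → ℝ) (g x : G) :
    (P T ^ n) (fun y => F (g * y)) x = (P T ^ n) F (g * x) := by
  induction n generalizing x with
  | zero => rfl
  | succ n ih => simp only [P_pow_succ', P_apply, ih, mul_assoc]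

/-- Locality. -/
theorem P_pow_congr (T : Finset G) (n : ℕ) {F F' : G → ℝ} (x : G)
    (h : ∀ y ∈ (T : Set G) ^ n, F (x * y) = F' (x * y)) : (P T ^ n) F x = (P T ^ n) F' x := by
  induction n generalizing x with
  | zero => simpa using h
  | succ n ih =>
    rw [P_pow_succ', P_pow_succ', P_apply, P_apply]
    congr 1
    refine Finset.sum_congr rfl fun s hs => ih _ fun y hy => ?_
    rw [mul_assoc]
    exact h _ (by rw [pow_succ']; exact Set.mul_mem_mul hs hy)

open Classical in
/-- The indicator of a point. -/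
noncomputable def ind (y : G) : G → ℝ := fun z => if z = y then 1 else 0

omit [Group G] in
theorem ind_congr {y z y' z' : G} (h : z = y ↔ z' = y') : ind y z = ind y' z' := by
  unfold ind
  by_cases h1 : z = y
  · rw [if_pos h1, if_pos (h.1 h1)]
  · rw [if_neg h1, if_neg fun h2 => h1 (h.2 h2)]

omit [Group G] in
theorem ind_self (y : G) : ind y y = 1 := by simp [ind]

omit [Group G] in
theorem ind_of_ne {y z : G} (h : z ≠ y) : ind y z = 0 := by simp [ind, h]

/-- The law of the random walk at time `n`. -/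
noncomputable def p (T : Finset G) (n : ℕ) (y : G) : ℝ := (P T ^ n) (ind y) 1

theorem p_nonneg (T : Finset G) (n : ℕ) (y : G) : 0 ≤ p T n y :=
  P_pow_nonneg T n (fun z => by unfold ind; split_ifs <;> norm_num) 1

theorem p_eq_zero (T : Finset G) (n : ℕ) {y : G} (hy : y ∉ (T : Set G) ^ n) : p T n y = 0 := by
  have := P_pow_congr T n (F := ind y) (F' := 0) 1 (fun z hz => by
    have : z ≠ y := fun h => hy (h ▸ hz)
    simp [ind, this])
  simpa [p] using this

/-- `P ^ n` as an integral against `p n`. -/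
theorem P_pow_eq_sum (T : Finset G) (n : ℕ) (F : G → ℝ) (x : G) {B : Finset G}
    (hB : (T : Set G) ^ n ⊆ B) : (P T ^ n) F x = ∑ y ∈ B, p T n y * F (x * y) := by
  classical
  have h1 := P_pow_left T n F x 1
  rw [mul_one] at h1
  rw [← h1, P_pow_congr T n (F' := ∑ y ∈ B, F (x * y) • ind y) 1]
  · rw [map_sum, Finset.sum_apply]
    refine Finset.sum_congr rfl fun y _ => ?_
    rw [map_smul, Pi.smul_apply, smul_eq_mul, mul_comm]; rfl
  · intro y hy
    have hy' : y ∈ B := hB hy
    rw [one_mul, Finset.sum_apply, Finset.sum_eq_single y]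
    · simp [ind]
    · intro b _ hb
      simp [ind, hb.symm]
    · exact fun h => absurd hy' h

theorem sum_p {T : Finset G} (hT : Gen T) (n : ℕ) {B : Finset G} (hB : (T : Set G) ^ n ⊆ B) :
    ∑ y ∈ B, p T n y = 1 := by
  have := P_pow_eq_sum T n (fun _ => 1) 1 hB
  rw [P_pow_const hT] at this
  simpa using this.symm

theorem p_zero (T : Finset G) : p T 0 = ind 1 := by
  funext y; exact ind_congr eq_comm

/-- Left recursion. -/
theorem p_succ_left (T : Finset G) (n : ℕ) (y : G) :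
    p T (n + 1) y = (T.card : ℝ)⁻¹ * ∑ s ∈ T, p T n (s⁻¹ * y) := by
  unfold p
  rw [P_pow_succ', P_apply]
  congr 1
  refine Finset.sum_congr rfl fun s _ => ?_
  rw [one_mul]
  have h1 := P_pow_left T n (ind y) s 1
  rw [mul_one] at h1
  have h2 : (fun z => ind y (s * z)) = ind (s⁻¹ * y) :=
    funext fun z => ind_congr eq_inv_mul_iff_mul_eq.symm
  rw [← h1, h2]

/-- Right recursion. -/
theorem p_succ {T : Finset G} (hT : Gen T) (n : ℕ) : p T (n + 1) = P T (p T n) := by
  funext y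
  have h1 : P T (ind y) = (T.card : ℝ)⁻¹ • ∑ s ∈ T, ind (y * s⁻¹) := by
    funext z
    rw [P_apply, Pi.smul_apply, smul_eq_mul, Finset.sum_apply]
    congr 1
    exact Finset.sum_congr rfl fun s _ => ind_congr eq_mul_inv_iff_mul_eq.symm
  rw [P_apply, ← hT.sum_inv (fun s => p T n (y * s))]
  unfold p
  rw [P_pow_succ, h1, map_smul, map_sum, Pi.smul_apply, Finset.sum_apply, smul_eq_mul]

/-- Lipschitz harmonic functions vanishing at `1`. -/
def LH (T : Finset G) : Submodule ℝ (G → ℝ) where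
  carrier := {u | u 1 = 0 ∧ P T u = u ∧ ∃ L, ∀ x, ∀ s ∈ T, |u (x * s) - u x| ≤ L}
  add_mem' := by
    rintro u v ⟨hu1, hu2, L, hL⟩ ⟨hv1, hv2, M, hM⟩
    refine ⟨by simp [hu1, hv1], by rw [map_add, hu2, hv2], L + M, fun x s hs => ?_⟩
    have h1 := hL x s hs
    have h2 := hM x s hs
    have : (u + v) (x * s) - (u + v) x = (u (x * s) - u x) + (v (x * s) - v x) := by
      simp only [Pi.add_apply]; ring
    rw [this]
    exact (abs_add_le _ _).trans (add_le_add h1 h2)
  zero_mem' := ⟨rfl, map_zero _, 0, by simp⟩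
  smul_mem' := by
    rintro c u ⟨hu1, hu2, L, hL⟩
    refine ⟨by simp [hu1], by rw [map_smul, hu2], |c| * L, fun x s hs => ?_⟩
    have : (c • u) (x * s) - (c • u) x = c * (u (x * s) - u x) := by
      simp only [Pi.smul_apply, smul_eq_mul]; ring
    rw [this, abs_mul]
    exact mul_le_mul_of_nonneg_left (hL x s hs) (abs_nonneg c)

theorem mem_LH {T : Finset G} {u : G → ℝ} :
    u ∈ LH T ↔ u 1 = 0 ∧ P T u = u ∧ ∃ L, ∀ x, ∀ s ∈ T, |u (x * s) - u x| ≤ L := Iff.rfl

/-- `ν g` is the distance from `ρ g` to `1` for a good bi-invariant metric (model: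
`ν g = ‖ρ g - 1‖`, Frobenius norm, `ρ` an orthogonal matrix representation). -/
structure Size {M : Type*} [Monoid M] (ρ : G →* M) (ν : G → ℝ) : Prop where
  nonneg : ∀ g, 0 ≤ ν g
  eq_zero : ∀ g, ν g = 0 ↔ ρ g = 1
  mul_le : ∀ a b, ν (a * b) ≤ ν a + ν b
  inv : ∀ a, ν a⁻¹ = ν a
  comm_le : ∀ a b, ν (a * b * a⁻¹ * b⁻¹) ≤ 2 * ν a * ν b
  pow_ge : ∀ (a : G) (k : ℕ), k * ν a - (k * ν a) ^ 2 ≤ ν (a ^ k)
  net : ∀ ε : ℝ, 0 < ε → ∃ F : Finset G, ∀ g, ∃ f ∈ F, ν (f⁻¹ * g) ≤ ε
  central : ∀ g k, ν k < 1 → Commute (ρ g) (ρ (g * k * g⁻¹ * k⁻¹)) → ρ (g * k * g⁻¹ * k⁻¹) = 1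

end Crest.Agent.R182.Gro
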