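import Crest.Agent.R182.GroBasic

/-!
# R182, Gromov's theorem: the entropy inequality
-/

set_option autoImplicit false

namespace Crest.Agent.R182.Gro

open Pointwise Filter Topology Crest.GroupTheory

variable {G : Type*} [Group G]

/-- Entropy of the walk. -/
noncomputable def ent (T : Finset G) (n : ℕ) : ℝ := ∑ᶠ y, Real.negMulLog (p T n y)

theorem ent_eq_sum (T : Finset G) (n : ℕ) {B : Finset G} (hB : (T : Set G) ^ n ⊆ B) :
    ent T n = ∑ y ∈ B, Real.negMulLog (p T n y) := by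
  refine finsum_eq_sum_of_support_subset _ fun y hy => ?_
  by_contra h
  exact hy (by simp only [p_eq_zero T n fun h' => h (hB h'), Real.negMulLog_zero])

theorem ent_shift {T : Finset G} (n : ℕ) {t : G} (ht : t ∈ T) {B : Finset G}
    (hB : (T : Set G) ^ (n + 1) ⊆ B) :
    ∃ B' : Finset G, (T : Set G) ^ n ⊆ B' ∧ ∀ φ : G → ℝ, ∑ y ∈ B, φ (t⁻¹ * y) = ∑ z ∈ B', φ z := by
  classical
  refine ⟨B.image (t⁻¹ * ·), fun z hz => ?_, fun φ => ?_⟩
  · refine Finset.mem_coe.2 (Finset.mem_image.2 ⟨t * z, hB ?_, by simp⟩)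
    rw [pow_succ']; exact Set.mul_mem_mul ht hz
  · rw [Finset.sum_image fun x _ y _ h => mul_left_cancel h]

theorem ent_pow_sub {T : Finset G} (hT : Gen T) (n : ℕ) :
    (T : Set G) ^ n ⊆ (T : Set G) ^ (n + 1) := fun z hz => by
  rw [pow_succ, ← mul_one z]; exact Set.mul_mem_mul hz hT.one_mem

theorem ent_negMulLog_le {q N : ℝ} (hq : 0 ≤ q) (hN : 0 < N) :
    Real.negMulLog q ≤ q * Real.log N + 1 / N - q := by
  rcases hq.eq_or_lt with rfl | hq
  · simp; positivity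
  · have h := Real.log_le_sub_one_of_pos (show 0 < 1 / (N * q) by positivity)
    rw [one_div, Real.log_inv, Real.log_mul hN.ne' hq.ne'] at h
    have h2 := mul_le_mul_of_nonneg_left h hq.le
    have e : q * ((N * q)⁻¹ - 1) = 1 / N - q := by field_simp
    rw [e] at h2
    unfold Real.negMulLog
    nlinarith

theorem ent_log_ge {a b : ℝ} (ha : 0 ≤ a) (hb : 0 ≤ b) (h : 0 < a → 0 < b) :
    (√a - √b) ^ 2 + a - b ≤ -Real.negMulLog a - a * Real.log b := by
  rcases ha.eq_or_lt with rfl | ha'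
  · simp [Real.sq_sqrt hb]
  · have hb' := h ha'
    have hsa := Real.sqrt_pos.2 ha'
    have hsb := Real.sqrt_pos.2 hb'
    have h1 := Real.log_le_sub_one_of_pos (div_pos hsb hsa)
    rw [Real.log_div hsb.ne' hsa.ne', Real.log_sqrt ha, Real.log_sqrt hb] at h1
    have h2 := mul_le_mul_of_nonneg_left h1 ha
    have e : a * (√b / √a - 1) = √a * √b - a := by
      have : a = √a * √a := (Real.mul_self_sqrt ha).symm
      rw [mul_sub, mul_one]
      congr 1
      rw [← mul_div_assoc, div_eq_iff hsa.ne']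
      nlinarith
    rw [e] at h2
    unfold Real.negMulLog
    nlinarith [Real.sq_sqrt ha, Real.sq_sqrt hb]

/-- `ent T n ≤ log |T ^ n|`: with `B = T ^ n`, `N = |B| > 0`,
`negMulLog q ≤ q * log N + 1 / N - q` for `q ≥ 0` (from `log z ≤ z - 1`, `z = 1 / (N q)`), sum
over `B` and use `sum_p`. -/
theorem ent_le {D : ℕ} (h : PG G D) {T : Finset G} (hT : Gen T) :
    ∃ c : ℝ, ∀ n : ℕ, ent T n ≤ c + D * Real.log ((n : ℝ) + 1) := by
  obtain ⟨C, hC1, hC⟩ := h.card_le T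
  refine ⟨Real.log C, fun n => ?_⟩
  set B := (finite_pow T n).toFinset with hBdef
  have hB : (T : Set G) ^ n ⊆ B := by simp [hBdef]
  have h1 := sum_p hT n hB
  have hN : (0 : ℝ) < B.card := by
    rcases B.eq_empty_or_nonempty with h0 | h0
    · rw [h0] at h1; simp at h1
    · exact_mod_cast h0.card_pos
  rw [ent_eq_sum T n hB]
  calc ∑ y ∈ B, Real.negMulLog (p T n y)
      ≤ ∑ y ∈ B, (p T n y * Real.log B.card + 1 / B.card - p T n y) :=
        Finset.sum_le_sum fun y _ => ent_negMulLog_le (p_nonneg T n y) hN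
    _ = Real.log B.card := by
        rw [Finset.sum_sub_distrib, Finset.sum_add_distrib, ← Finset.sum_mul, h1, Finset.sum_const,
          nsmul_eq_mul, mul_one_div_cancel hN.ne']
        ring
    _ ≤ Real.log (C * ((n : ℝ) + 1) ^ D) := Real.log_le_log hN (hC n B (by simp [hBdef]))
    _ = _ := by rw [Real.log_mul (by linarith) (by positivity), Real.log_pow]

/-- Otherwise `ent T n - (D + 1) * log (n + 1)` is eventually monotone
(`log (n + 2) - log (n + 1) ≤ 1 / (n + 1)`), hence bounded below, and `ent_le` bounds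
`log (n + 1)`. -/
theorem frequently_ent {D : ℕ} (h : PG G D) {T : Finset G} (hT : Gen T) :
    ∃ᶠ n : ℕ in atTop, ((n : ℝ) + 1) * (ent T (n + 1) - ent T n) ≤ D + 1 := by
  obtain ⟨c, hc⟩ := ent_le h hT
  by_contra hcon
  rw [Filter.not_frequently, Filter.eventually_atTop] at hcon
  obtain ⟨n₀, hn₀⟩ := hcon
  have hmono : ∀ k : ℕ, ent T n₀ - (D + 1) * Real.log ((n₀ : ℝ) + 1) ≤
      ent T (n₀ + k) - (D + 1) * Real.log (((n₀ + k : ℕ) : ℝ) + 1) := by
    intro k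
    induction k with
    | zero => simp
    | succ k ih =>
      refine ih.trans ?_
      set n := n₀ + k with hn
      have h1 := not_le.1 (hn₀ n (by omega))
      have hp : (0 : ℝ) < n + 1 := by positivity
      have h2 := Real.log_le_sub_one_of_pos (show (0 : ℝ) < (n + 2) / (n + 1) by positivity)
      rw [Real.log_div (by positivity) hp.ne'] at h2
      have e : ((n : ℝ) + 2) / (n + 1) - 1 = 1 / (n + 1) := by field_simp; ring
      rw [e] at h2
      have h3 : ((D : ℝ) + 1) * (1 / (n + 1)) ≤ ent T (n + 1) - ent T n := by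
        rw [mul_one_div, div_le_iff₀ hp]; linarith
      have h4 := mul_le_mul_of_nonneg_left h2 (show (0 : ℝ) ≤ D + 1 by positivity)
      have e2 : (((n₀ + (k + 1) : ℕ) : ℝ) + 1) = (n : ℝ) + 2 := by rw [hn]; push_cast; ring
      rw [e2, show n₀ + (k + 1) = n + 1 by omega]
      linarith
  obtain ⟨k, hk⟩ := exists_nat_gt (Real.exp (c - (ent T n₀ - (D + 1) * Real.log ((n₀ : ℝ) + 1))))
  have h1 := hmono k
  have h2 := hc (n₀ + k)
  have h3 : c - (ent T n₀ - (D + 1) * Real.log ((n₀ : ℝ) + 1)) <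
      Real.log (((n₀ + k : ℕ) : ℝ) + 1) := by
    rw [Real.lt_log_iff_exp_lt (by positivity)]
    push_cast
    have : (0 : ℝ) ≤ n₀ := Nat.cast_nonneg _
    linarith
  linarith

/-- Let `B = T ^ (n + 1)`, `m = |T|⁻¹`, `a t y = p n (t⁻¹ y)` and `ā y = p (n + 1) y =
m ∑ t, a t y` (`p_succ_left`).  `∑ y ∈ B, negMulLog (a t y) = ent n` for `t ∈ T`, so
`ent (n + 1) - ent n = m ∑ y, ∑ t, a t y * (log (a t y) - log (ā y))`, and
`a * (log a - log ā) ≥ 2 a - 2 √a √ā = (√a - √ā) ^ 2 + a - ā` whenever `a ≥ 0`, `ā ≥ 0` and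
`a > 0 → ā > 0` (from `log z ≤ z - 1`, `z = √ā / √a`).  Since `m ∑ t, (a t y - ā y) = 0`,
`ent (n + 1) - ent n ≥ m ∑ y, ∑ t, (√(a t y) - √(ā y)) ^ 2`.  Conclude with
`(√a_s - √a_1) ^ 2 ≤ 2 (√a_s - √ā) ^ 2 + 2 (√a_1 - √ā) ^ 2`. -/
theorem hell_le {T : Finset G} (hT : Gen T) (n : ℕ) {s : G} (hs : s ∈ T) {B : Finset G}
    (hB : (T : Set G) ^ (n + 1) ⊆ B) :
    ∑ y ∈ B, (√(p T n (s⁻¹ * y)) - √(p T n y)) ^ 2 ≤ 4 * T.card * (ent T (n + 1) - ent T n) := by
  have hm := hT.card_pos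
  have hsum : ∀ y, ∑ t ∈ T, p T n (t⁻¹ * y) = T.card * p T (n + 1) y := fun y => by
    rw [p_succ_left, mul_inv_cancel_left₀ hm.ne']
  have hent : ∀ t ∈ T, ∑ y ∈ B, Real.negMulLog (p T n (t⁻¹ * y)) = ent T n := fun t ht => by
    obtain ⟨B', h1, h2⟩ := ent_shift n ht hB
    rw [h2 fun z => Real.negMulLog (p T n z), ent_eq_sum T n h1]
  have key : ∑ t ∈ T, ∑ y ∈ B, (√(p T n (t⁻¹ * y)) - √(p T (n + 1) y)) ^ 2 ≤
      T.card * (ent T (n + 1) - ent T n) := by
    have h1 : ∀ y, ∑ t ∈ T, (√(p T n (t⁻¹ * y)) - √(p T (n + 1) y)) ^ 2 ≤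
        T.card * Real.negMulLog (p T (n + 1) y) -
          ∑ t ∈ T, Real.negMulLog (p T n (t⁻¹ * y)) := by
      intro y
      have h2 := Finset.sum_le_sum (s := T) fun t ht =>
        ent_log_ge (p_nonneg T n (t⁻¹ * y)) (p_nonneg T (n + 1) y) fun h0 => by
          have h3 := Finset.single_le_sum (f := fun t => p T n (t⁻¹ * y))
            (fun t _ => p_nonneg T n _) ht
          rw [hsum] at h3
          exact (mul_pos_iff_of_pos_left hm).1 (h0.trans_le h3)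
      simp only [Finset.sum_sub_distrib, Finset.sum_add_distrib, Finset.sum_neg_distrib,
        ← Finset.sum_mul, hsum, Finset.sum_const, nsmul_eq_mul] at h2
      unfold Real.negMulLog at h2 ⊢
      linarith
    rw [Finset.sum_comm]
    refine (Finset.sum_le_sum fun y _ => h1 y).trans (le_of_eq ?_)
    rw [Finset.sum_sub_distrib, ← Finset.mul_sum, ← ent_eq_sum T (n + 1) hB, Finset.sum_comm,
      Finset.sum_congr rfl hent, Finset.sum_const, nsmul_eq_mul, mul_sub]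
  have hone : ∀ t ∈ T, ∑ y ∈ B, (√(p T n (t⁻¹ * y)) - √(p T (n + 1) y)) ^ 2 ≤
      T.card * (ent T (n + 1) - ent T n) := fun t ht =>
    (Finset.single_le_sum (f := fun t => ∑ y ∈ B, (√(p T n (t⁻¹ * y)) - √(p T (n + 1) y)) ^ 2)
      (fun t _ => Finset.sum_nonneg fun y _ => sq_nonneg _) ht).trans key
  have h1 := hone s hs
  have h2 := hone 1 hT.one_mem
  simp only [inv_one, one_mul] at h2
  calc ∑ y ∈ B, (√(p T n (s⁻¹ * y)) - √(p T n y)) ^ 2
      ≤ ∑ y ∈ B, (2 * (√(p T n (s⁻¹ * y)) - √(p T (n + 1) y)) ^ 2 +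
          2 * (√(p T n y) - √(p T (n + 1) y)) ^ 2) :=
        Finset.sum_le_sum fun y _ => by
          nlinarith [sq_nonneg (√(p T n (s⁻¹ * y)) + √(p T n y) - 2 * √(p T (n + 1) y))]
    _ ≤ _ := by
        rw [Finset.sum_add_distrib, ← Finset.mul_sum, ← Finset.mul_sum]
        linarith

/-- With `B = T ^ (n + 1)`, `a y = p n (s⁻¹ y)`, `b y = p n y`: `(P ^ n) F s = ∑ y ∈ B, a y * F y`
and `(P ^ n) F 1 = ∑ y ∈ B, b y * F y` (`P_pow_eq_sum`; for the first apply it to the set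
`s⁻¹ B ⊇ T ^ n` and reindex).  Cauchy–Schwarz (`Finset.sum_mul_sq_le_sq_mul_sq`) for
`a - b = (√a - √b) (√a + √b)`, `(√a + √b) ^ 2 ≤ 2 (a + b)`.  `K = 8 |T| (D + 1)`. -/
theorem key_ineq {D : ℕ} (h : PG G D) {T : Finset G} (hT : Gen T) :
    ∃ K : ℝ, 0 ≤ K ∧ ∃ᶠ n : ℕ in atTop, ∀ s ∈ T, ∀ F : G → ℝ,
      ((n : ℝ) + 1) * ((P T ^ n) F s - (P T ^ n) F 1) ^ 2 ≤
        K * ((P T ^ n) (fun x => F x ^ 2) s + (P T ^ n) (fun x => F x ^ 2) 1) := by
  have hm := hT.card_pos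
  refine ⟨8 * T.card * (D + 1), by positivity, (frequently_ent h hT).mono fun n hn s hs F => ?_⟩
  set B := (finite_pow T (n + 1)).toFinset with hBdef
  have hB : (T : Set G) ^ (n + 1) ⊆ B := by simp [hBdef]
  have hB0 : (T : Set G) ^ n ⊆ B := (ent_pow_sub hT n).trans hB
  have ha : ∀ F : G → ℝ, (P T ^ n) F s = ∑ y ∈ B, p T n (s⁻¹ * y) * F y := fun F => by
    obtain ⟨B', h1, h2⟩ := ent_shift n hs hB
    rw [P_pow_eq_sum T n F s h1, ← h2 fun z => p T n z * F (s * z)]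
    simp
  have hb : ∀ F : G → ℝ, (P T ^ n) F 1 = ∑ y ∈ B, p T n y * F y := fun F => by
    rw [P_pow_eq_sum T n F 1 hB0]; simp
  rw [ha, ha, hb, hb, ← Finset.sum_sub_distrib, ← Finset.sum_add_distrib]
  have e : ∀ y, p T n (s⁻¹ * y) * F y - p T n y * F y =
      (√(p T n (s⁻¹ * y)) - √(p T n y)) * ((√(p T n (s⁻¹ * y)) + √(p T n y)) * F y) := fun y => by
    have h1 := Real.mul_self_sqrt (p_nonneg T n (s⁻¹ * y))
    have h2 := Real.mul_self_sqrt (p_nonneg T n y)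
    calc _ = (√(p T n (s⁻¹ * y)) * √(p T n (s⁻¹ * y)) - √(p T n y) * √(p T n y)) * F y := by
          rw [h1, h2]; ring
      _ = _ := by ring
  simp only [e]
  have hcs := Finset.sum_mul_sq_le_sq_mul_sq B (fun y => √(p T n (s⁻¹ * y)) - √(p T n y))
    (fun y => (√(p T n (s⁻¹ * y)) + √(p T n y)) * F y)
  have h1 := hell_le hT n hs hB
  have h2 : ∑ y ∈ B, ((√(p T n (s⁻¹ * y)) + √(p T n y)) * F y) ^ 2 ≤
      2 * ∑ y ∈ B, (p T n (s⁻¹ * y) * F y ^ 2 + p T n y * F y ^ 2) := by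
    rw [Finset.mul_sum]
    refine Finset.sum_le_sum fun y _ => ?_
    have a1 := Real.sq_sqrt (p_nonneg T n (s⁻¹ * y))
    have a2 := Real.sq_sqrt (p_nonneg T n y)
    have a3 : (√(p T n (s⁻¹ * y)) + √(p T n y)) ^ 2 ≤ 2 * (p T n (s⁻¹ * y) + p T n y) := by
      nlinarith [sq_nonneg (√(p T n (s⁻¹ * y)) - √(p T n y))]
    rw [mul_pow]
    nlinarith [mul_le_mul_of_nonneg_right a3 (sq_nonneg (F y))]
  set X := ∑ y ∈ B, (√(p T n (s⁻¹ * y)) - √(p T n y)) ^ 2 with hX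
  set Y := ∑ y ∈ B, (p T n (s⁻¹ * y) * F y ^ 2 + p T n y * F y ^ 2) with hY
  have hX0 : 0 ≤ X := Finset.sum_nonneg fun y _ => sq_nonneg _
  have hY0 : 0 ≤ Y := Finset.sum_nonneg fun y _ =>
    add_nonneg (mul_nonneg (p_nonneg _ _ _) (sq_nonneg _)) (mul_nonneg (p_nonneg _ _ _) (sq_nonneg _))
  have hp : (0 : ℝ) ≤ n + 1 := by positivity
  have h3 : ((n : ℝ) + 1) * X ≤ 4 * T.card * (D + 1) := by
    calc ((n : ℝ) + 1) * X ≤ (n + 1) * (4 * T.card * (ent T (n + 1) - ent T n)) :=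
          mul_le_mul_of_nonneg_left h1 hp
      _ = 4 * T.card * ((n + 1) * (ent T (n + 1) - ent T n)) := by ring
      _ ≤ _ := mul_le_mul_of_nonneg_left hn (by positivity)
  calc _ ≤ ((n : ℝ) + 1) * (X * (2 * Y)) :=
        mul_le_mul_of_nonneg_left (hcs.trans (mul_le_mul_of_nonneg_left h2 hX0)) hp
    _ = ((n + 1) * X) * (2 * Y) := by ring
    _ ≤ 4 * T.card * (D + 1) * (2 * Y) := mul_le_mul_of_nonneg_right h3 (by positivity)
    _ = _ := by ring

end Crest.Agent.R182.Gro
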