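import Crest.Agent.R182.GroGap

/-!
# R182, Gromov's theorem: a non-zero Lipschitz harmonic function
-/

set_option autoImplicit false

namespace Crest.Agent.R182.Gro

open Pointwise Filter Topology Crest.GroupTheory

variable {G : Type*} [Group G]

theorem exist_sum_le_finsum {φ : G → ℝ} (hφ : ∀ y, 0 ≤ φ y) (hfin : (Function.support φ).Finite)
    (B : Finset G) (x : G) : ∑ y ∈ B, φ (y * x) ≤ ∑ᶠ y, φ y := by
  classical
  have h1 : ∑ y ∈ B, φ (y * x) = ∑ z ∈ B.image (· * x), φ z := by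
    rw [Finset.sum_image]
    intro a _ b _ hab
    exact mul_right_cancel hab
  rw [h1, finsum_eq_sum_of_support_subset φ (s := B.image (· * x) ∪ hfin.toFinset)
    (fun y hy => by simp [Function.mem_support.1 hy])]
  exact Finset.sum_le_sum_of_subset_of_nonneg Finset.subset_union_left fun y _ _ => hφ y

theorem exist_cs {g : G → ℝ} (hg : (Function.support g).Finite) (ξ : G → ℝ) (B : Finset G)
    (x : G) : (∑ y ∈ B, g (y * x) * ξ y) ^ 2 ≤ (∑ᶠ y, g y ^ 2) * ∑ y ∈ B, ξ y ^ 2 := by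
  refine (Finset.sum_mul_sq_le_sq_mul_sq B (fun y => g (y * x)) ξ).trans ?_
  refine mul_le_mul_of_nonneg_right ?_ (Finset.sum_nonneg fun y _ => sq_nonneg _)
  refine exist_sum_le_finsum (φ := fun y => g y ^ 2) (fun y => sq_nonneg _) (hg.subset ?_) B x
  intro y hy h0
  exact hy (by simp [h0])

theorem exist_fin_shift {f : G → ℝ} (hf : (Function.support f).Finite) (s : G) :
    (Function.support fun y => f (y * s)).Finite :=
  hf.preimage (f := fun y => y * s) fun _ _ _ _ hab => mul_right_cancel hab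

omit [Group G] in
theorem exist_fin_sub {f g : G → ℝ} (hf : (Function.support f).Finite)
    (hg : (Function.support g).Finite) : (Function.support fun y => f y - g y).Finite := by
  refine (hf.union hg).subset fun y hy => ?_
  by_contra hn
  simp only [Set.mem_union, Function.mem_support, not_or, not_not] at hn
  exact hy (by simp [hn.1, hn.2])

theorem exist_fin_P {f : G → ℝ} (hf : (Function.support f).Finite) (T : Finset G) :
    (Function.support (P T f)).Finite := by
  refine (T.finite_toSet.biUnion fun s _ => exist_fin_shift hf s).subset fun y hy => ?_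
  by_contra hn
  simp only [Set.mem_iUnion, Function.mem_support, not_exists, not_not] at hn
  apply hy
  rw [P_apply, Finset.sum_eq_zero fun s hs => hn s hs, mul_zero]

/-- Take `f` from `exists_almost_harmonic` (with `ε ^ 2 / |T|`), `s₀ ∈ T` maximising
`N s = ∑ᶠ y, (f (y s) - f y) ^ 2` (so `N s₀ > 0`), `ξ y = f (y s₀) - f y` and
`u x = (∑ᶠ y, (f (y x) - f y) * ξ y) / N s₀`.  Then
`u (x s) - u x = (∑ᶠ y, (f (y x s) - f (y x)) * ξ y) / N s₀` and
`P u x - u x = (∑ᶠ y, (P f (y x) - f (y x)) * ξ y) / N s₀`; Cauchy–Schwarz and invariance of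
`∑ᶠ` under `y ↦ y x`.  (All sums can be taken over the finite support of `ξ`.) -/
theorem exists_approx [Infinite G] {D : ℕ} (h : PG G D) {T : Finset G} (hT : Gen T)
    (ε : ℝ) (hε : 0 < ε) :
    ∃ u : G → ℝ, u 1 = 0 ∧ (∀ x, ∀ s ∈ T, |u (x * s) - u x| ≤ 1) ∧
      (∀ x, |P T u x - u x| ≤ ε) ∧ ∃ s ∈ T, u s = 1 := by
  have hc := hT.card_pos
  obtain ⟨f, hf, hlt⟩ := exists_almost_harmonic h hT (ε ^ 2 / T.card) (by positivity)
  obtain ⟨s₀, hs₀, hmax⟩ := T.exists_max_image (fun s => ∑ᶠ y, (f (y * s) - f y) ^ 2)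
    ⟨1, hT.one_mem⟩
  have hξ : (Function.support fun y => f (y * s₀) - f y).Finite :=
    exist_fin_sub (exist_fin_shift hf s₀) hf
  obtain ⟨N, hN⟩ : ∃ N, N = ∑ y ∈ hξ.toFinset, (f (y * s₀) - f y) ^ 2 := ⟨_, rfl⟩
  have hN' : ∑ᶠ y, (f (y * s₀) - f y) ^ 2 = N := by
    rw [hN]
    refine finsum_eq_sum_of_support_subset _ fun y hy => ?_
    simp only [Set.Finite.coe_toFinset, Function.mem_support] at hy ⊢
    intro h0
    exact hy (by simp [h0])
  simp only [hN'] at hmax
  have hsum : ∑ s ∈ T, ∑ᶠ y, (f (y * s) - f y) ^ 2 ≤ T.card * N := by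
    have := Finset.sum_le_card_nsmul T _ N hmax
    rwa [nsmul_eq_mul] at this
  have hA : ∑ᶠ y, (P T f y - f y) ^ 2 < ε ^ 2 * N := by
    refine hlt.trans_le ?_
    calc ε ^ 2 / T.card * ∑ s ∈ T, ∑ᶠ y, (f (y * s) - f y) ^ 2
        ≤ ε ^ 2 / T.card * (T.card * N) := mul_le_mul_of_nonneg_left hsum (by positivity)
      _ = ε ^ 2 * N := by field_simp
  have hA0 : 0 ≤ ∑ᶠ y, (P T f y - f y) ^ 2 := finsum_nonneg fun y => sq_nonneg _
  have hNpos : 0 < N := by
    have h1 : 0 < ε ^ 2 * N := hA0.trans_lt hA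
    exact (mul_pos_iff_of_pos_left (by positivity)).1 h1
  refine ⟨fun x => (∑ y ∈ hξ.toFinset, (f (y * x) - f y) * (f (y * s₀) - f y)) / N, by simp,
    fun x s hs => ?_, fun x => ?_, s₀, hs₀, ?_⟩
  · have e : (∑ y ∈ hξ.toFinset, (f (y * (x * s)) - f y) * (f (y * s₀) - f y)) / N -
        (∑ y ∈ hξ.toFinset, (f (y * x) - f y) * (f (y * s₀) - f y)) / N =
        (∑ y ∈ hξ.toFinset, (f (y * x * s) - f (y * x)) * (f (y * s₀) - f y)) / N := by
      rw [← sub_div, ← Finset.sum_sub_distrib]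
      congr 1
      refine Finset.sum_congr rfl fun y _ => ?_
      rw [mul_assoc]
      ring
    have h1 := exist_cs (g := fun z => f (z * s) - f z) (exist_fin_sub (exist_fin_shift hf s) hf)
      (fun y => f (y * s₀) - f y) hξ.toFinset x
    rw [← hN] at h1
    have h2 := h1.trans (mul_le_mul_of_nonneg_right (hmax s hs) hNpos.le)
    rw [← sq] at h2
    have h3 := abs_le_of_sq_le_sq' h2 hNpos.le
    rw [e, abs_div, abs_of_pos hNpos, div_le_one hNpos]
    exact abs_le.2 h3
  · have e : P T (fun x => (∑ y ∈ hξ.toFinset, (f (y * x) - f y) * (f (y * s₀) - f y)) / N) x -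
        (∑ y ∈ hξ.toFinset, (f (y * x) - f y) * (f (y * s₀) - f y)) / N =
        (∑ y ∈ hξ.toFinset, (P T f (y * x) - f (y * x)) * (f (y * s₀) - f y)) / N := by
      rw [P_apply, ← Finset.sum_div, ← mul_div_assoc, ← sub_div, Finset.sum_comm, Finset.mul_sum,
        ← Finset.sum_sub_distrib]
      congr 1
      refine Finset.sum_congr rfl fun y _ => ?_
      rw [P_apply, ← Finset.sum_mul, Finset.sum_sub_distrib, Finset.sum_const, nsmul_eq_mul]
      simp only [mul_assoc y x]
      field_simp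
      ring
    have h1 := exist_cs (g := fun z => P T f z - f z) (exist_fin_sub (exist_fin_P hf T) hf)
      (fun y => f (y * s₀) - f y) hξ.toFinset x
    rw [← hN] at h1
    have h2 := h1.trans (mul_le_mul_of_nonneg_right hA.le hNpos.le)
    rw [show ε ^ 2 * N * N = (ε * N) ^ 2 by ring] at h2
    have h3 := abs_le_of_sq_le_sq' h2 (by positivity)
    rw [e, abs_div, abs_of_pos hNpos, div_le_iff₀ hNpos]
    exact abs_le.2 h3
  · simp only [← sq]
    rw [← hN, div_self hNpos.ne']

/-- Compactness.  The sets `A ε ⊆ G → ℝ` of functions as in `exists_approx` are closed, nonempty,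
decreasing, and contained in the compact set `Set.pi univ fun x => Icc (-(n x)) (n x)` where
`x ∈ T ^ (n x)` (`Gen.exists_mem_pow`, `isCompact_univ_pi`); take a point of the intersection
(`IsCompact.nonempty_iInter_of_sequence_nonempty_isCompact_isClosed`). -/
theorem exists_LH_ne_zero [Infinite G] {D : ℕ} (h : PG G D) {T : Finset G} (hT : Gen T) :
    ∃ u ∈ LH T, u ≠ 0 := by
  have hb : ∀ x : G, ∃ c : ℝ, ∀ u : G → ℝ, u 1 = 0 → (∀ x, ∀ s ∈ T, |u (x * s) - u x| ≤ 1) →
      |u x| ≤ c := by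
    intro x
    refine hT.induction (q := fun x => ∃ c : ℝ, ∀ u : G → ℝ, u 1 = 0 →
      (∀ x, ∀ s ∈ T, |u (x * s) - u x| ≤ 1) → |u x| ≤ c) ⟨0, fun u hu _ => by simp [hu]⟩ ?_ x
    rintro x s hs ⟨c, hc⟩
    refine ⟨c + 1, fun u hu hl => ?_⟩
    have h1 := abs_le.1 (hc u hu hl)
    have h2 := abs_le.1 (hl x s hs)
    exact abs_le.2 ⟨by linarith [h1.1, h2.1], by linarith [h1.2, h2.2]⟩
  choose c hc using hb
  let A : ℕ → Set (G → ℝ) := fun n => {u | u 1 = 0 ∧ (∀ x, ∀ s ∈ T, |u (x * s) - u x| ≤ 1) ∧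
      (∀ x, |P T u x - u x| ≤ 1 / ((n : ℝ) + 1)) ∧ ∃ s ∈ T, u s = 1}
  have hcl : ∀ n, IsClosed (A n) := by
    intro n
    have e : A n = {u | u 1 = 0} ∩ ((⋂ x, ⋂ s ∈ T, {u | |u (x * s) - u x| ≤ 1}) ∩
        ((⋂ x, {u | |P T u x - u x| ≤ 1 / ((n : ℝ) + 1)}) ∩ ⋃ s ∈ T, {u | u s = 1})) := by
      ext u
      simp [A]
    rw [e]
    refine (isClosed_eq (continuous_apply 1) continuous_const).inter (IsClosed.inter ?_
      (IsClosed.inter ?_ ?_))
    · exact isClosed_iInter fun x => isClosed_biInter fun s _ =>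
        isClosed_le (by fun_prop) continuous_const
    · refine isClosed_iInter fun x => isClosed_le ?_ continuous_const
      simp only [P_apply]
      fun_prop
    · exact isClosed_biUnion_finset fun s _ => isClosed_eq (continuous_apply s) continuous_const
  have hne : ∀ n, (A n).Nonempty := fun n => exists_approx h hT _ (by positivity)
  have hdec : ∀ n, A (n + 1) ⊆ A n := by
    rintro n u ⟨h1, h2, h3, h4⟩
    refine ⟨h1, h2, fun x => (h3 x).trans ?_, h4⟩
    push_cast
    exact one_div_le_one_div_of_le (by positivity) (by linarith)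
  have hco : IsCompact (A 0) := by
    refine (isCompact_univ_pi fun x => isCompact_Icc (a := -c x) (b := c x)).of_isClosed_subset
      (hcl 0) ?_
    rintro u ⟨h1, h2, -⟩ x -
    exact abs_le.1 (hc x u h1 h2)
  obtain ⟨u, hu⟩ := IsCompact.nonempty_iInter_of_sequence_nonempty_isCompact_isClosed A hdec hne
    hco hcl
  rw [Set.mem_iInter] at hu
  obtain ⟨h1, h2, -, s, -, h4⟩ := hu 0
  refine ⟨u, mem_LH.2 ⟨h1, funext fun x => ?_, 1, h2⟩, ?_⟩
  · have h5 : |P T u x - u x| ≤ 0 :=
      ge_of_tendsto' tendsto_one_div_add_atTop_nhds_zero_nat fun n => (hu n).2.2.1 x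
    exact sub_eq_zero.1 (abs_nonpos_iff.1 h5)
  · rintro rfl
    simp at h4

end Crest.Agent.R182.Gro
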