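import Crest.Agent.R182.GroBasic

/-!
# R182, Gromov's theorem: no spectral gap
-/

set_option autoImplicit false

namespace Crest.Agent.R182.Gro

open Pointwise Filter Topology Crest.GroupTheory

variable {G : Type*} [Group G]

/-- the inner product of finitely supported functions -/
noncomputable def gapIp (G : Type*) : (G →₀ ℝ) →ₗ[ℝ] (G →₀ ℝ) →ₗ[ℝ] ℝ :=
  Finsupp.lsum ℝ fun y => LinearMap.toSpanSingleton ℝ _ (Finsupp.lapply y)

omit [Group G] in
theorem gapIp_eq (f g : G →₀ ℝ) {B : Finset G} (hB : f.support ⊆ B) :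
    gapIp G f g = ∑ y ∈ B, f y * g y := by
  unfold gapIp
  rw [Finsupp.lsum_apply, Finsupp.sum_of_support_subset _ hB _ (by simp), LinearMap.sum_apply]
  simp

omit [Group G] in
theorem gapIp_comm (f g : G →₀ ℝ) : gapIp G f g = gapIp G g f := by
  classical
  rw [gapIp_eq f g (Finset.subset_union_left (s₂ := g.support)),
    gapIp_eq g f (Finset.subset_union_right (s₁ := f.support))]
  exact Finset.sum_congr rfl fun _ _ => mul_comm _ _

omit [Group G] in
theorem gapIp_sq_le (f : G →₀ ℝ) (y : G) : f y ^ 2 ≤ gapIp G f f := by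
  classical
  rw [gapIp_eq f f (Finset.subset_insert y _), sq]
  exact Finset.single_le_sum (f := fun z => f z * f z) (fun z _ => mul_self_nonneg _)
    (Finset.mem_insert_self _ _)

omit [Group G] in
theorem gapIp_nonneg (f : G →₀ ℝ) : 0 ≤ gapIp G f f := by
  rw [gapIp_eq f f subset_rfl]
  exact Finset.sum_nonneg fun z _ => mul_self_nonneg _

omit [Group G] in
theorem gapIp_finsum (f : G →₀ ℝ) : ∑ᶠ y, f y ^ 2 = gapIp G f f := by
  rw [gapIp_eq f f subset_rfl, finsum_eq_sum_of_support_subset (s := f.support)]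
  · exact Finset.sum_congr rfl fun _ _ => sq _
  · intro y hy
    simp only [Function.mem_support, ne_eq, pow_eq_zero_iff two_ne_zero] at hy
    simpa using hy

/-- right translation -/
noncomputable def gapR (s : G) : (G →₀ ℝ) →ₗ[ℝ] (G →₀ ℝ) := Finsupp.lmapDomain ℝ ℝ (· * s⁻¹)

theorem gapR_apply (s : G) (f : G →₀ ℝ) (y : G) : gapR s f y = f (y * s) := by
  have := Finsupp.mapDomain_apply (f := (· * s⁻¹)) (mul_left_injective s⁻¹) f (y * s)
  simpa [gapR] using this

theorem gapR_single (s y : G) (c : ℝ) : gapR s (Finsupp.single y c) = Finsupp.single (y * s⁻¹) c := by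
  simp [gapR]

theorem gapIp_R (s : G) (f g : G →₀ ℝ) : gapIp G (gapR s f) g = gapIp G f (gapR s⁻¹ g) := by
  induction f using Finsupp.induction_linear with
  | zero => simp
  | add f₁ f₂ h1 h2 => simp [h1, h2]
  | single y c => rw [gapR_single]; simp [gapIp, gapR_apply]

theorem gapIp_RR (s : G) (f : G →₀ ℝ) : gapIp G (gapR s f) (gapR s f) = gapIp G f f := by
  rw [gapIp_R]
  congr 1
  ext y
  simp [gapR_apply]

/-- the averaging operator on finitely supported functions -/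
noncomputable def gapQ (T : Finset G) : (G →₀ ℝ) →ₗ[ℝ] (G →₀ ℝ) :=
  (T.card : ℝ)⁻¹ • ∑ s ∈ T, gapR s

theorem gapQ_coe (T : Finset G) (f : G →₀ ℝ) : ⇑(gapQ T f) = P T f := by
  funext y
  simp [gapQ, P_apply, gapR_apply]

theorem gapIp_Q (T : Finset G) (f g : G →₀ ℝ) :
    gapIp G (gapQ T f) g = (T.card : ℝ)⁻¹ * ∑ s ∈ T, gapIp G (gapR s f) g := by
  simp [gapQ]

theorem gapIp_Q_symm {T : Finset G} (hT : Gen T) (f g : G →₀ ℝ) :
    gapIp G (gapQ T f) g = gapIp G f (gapQ T g) := by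
  rw [gapIp_comm f, gapIp_Q, gapIp_Q, ← hT.sum_inv (fun s => gapIp G (gapR s g) f)]
  congr 1
  exact Finset.sum_congr rfl fun s _ => by rw [gapIp_R, gapIp_comm]

/-- the Dirichlet form -/
noncomputable def gapE (T : Finset G) (f : G →₀ ℝ) : ℝ := gapIp G f f - gapIp G (gapQ T f) f

theorem gapE_eq {T : Finset G} (hT : Gen T) (f : G →₀ ℝ) :
    ∑ s ∈ T, gapIp G (gapR s f - f) (gapR s f - f) = 2 * T.card * gapE T f := by
  have h0 := hT.card_pos
  have : ∀ s, gapIp G (gapR s f - f) (gapR s f - f) =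
      2 * gapIp G f f - 2 * gapIp G (gapR s f) f := by
    intro s
    simp only [map_sub, LinearMap.sub_apply, gapIp_RR, gapIp_comm f (gapR s f)]
    ring
  rw [Finset.sum_congr rfl fun s _ => this s, Finset.sum_sub_distrib, Finset.sum_const,
    ← Finset.mul_sum, gapE, gapIp_Q, nsmul_eq_mul]
  field_simp

theorem gapE_nonneg {T : Finset G} (hT : Gen T) (f : G →₀ ℝ) : 0 ≤ gapE T f := by
  have h0 := hT.card_pos
  have h1 : 0 ≤ 2 * T.card * gapE T f := by
    rw [← gapE_eq hT]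
    exact Finset.sum_nonneg fun s _ => gapIp_nonneg _
  exact nonneg_of_mul_nonneg_right h1 (by positivity) |> fun h => h

theorem gap_lazy {T : Finset G} (hT : Gen T) (v : G →₀ ℝ) :
    2 * (T.card : ℝ)⁻¹ * gapIp G v v ≤ gapIp G v v + gapIp G (gapQ T v) v := by
  have h0 := hT.card_pos
  have h1 : ∀ s, gapIp G (gapR s v + v) (gapR s v + v) =
      2 * (gapIp G v v + gapIp G (gapR s v) v) := by
    intro s
    simp only [map_add, LinearMap.add_apply, gapIp_RR, gapIp_comm v (gapR s v)]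
    ring
  have h2 : gapIp G v v + gapIp G (gapR 1 v) v ≤ ∑ s ∈ T, (gapIp G v v + gapIp G (gapR s v) v) :=
    Finset.single_le_sum (f := fun s => gapIp G v v + gapIp G (gapR s v) v) (fun s _ => by
      have := gapIp_nonneg (gapR s v + v)
      rw [h1] at this
      linarith) hT.one_mem
  have h3 : gapR 1 v = v := by ext y; simp [gapR_apply]
  rw [h3, Finset.sum_add_distrib, Finset.sum_const, nsmul_eq_mul] at h2
  rw [gapIp_Q]
  have h4 := mul_le_mul_of_nonneg_left h2 (inv_pos.2 h0).le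
  rw [mul_add (T.card : ℝ)⁻¹ (T.card * _), ← mul_assoc, inv_mul_cancel₀ h0.ne', one_mul] at h4
  linarith

theorem gapE_Q {T : Finset G} (hT : Gen T) (f : G →₀ ℝ) :
    gapE T (gapQ T f) = gapE T f - (gapIp G (gapQ T f - f) (gapQ T f - f) +
      gapIp G (gapQ T (gapQ T f - f)) (gapQ T f - f)) := by
  have e1 : gapIp G (gapQ T (gapQ T f)) f = gapIp G (gapQ T f) (gapQ T f) := gapIp_Q_symm hT _ _
  simp only [gapE, map_sub, LinearMap.sub_apply, gapIp_comm f (gapQ T f), e1]
  ring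

theorem gap_a (T : Finset G) (f : G →₀ ℝ) :
    gapIp G f f - gapIp G (gapQ T f) (gapQ T f) ≤ 2 * gapE T f := by
  have := gapIp_nonneg (gapQ T f - f)
  simp only [map_sub, LinearMap.sub_apply, gapIp_comm f (gapQ T f)] at this
  rw [gapE]
  linarith

/-- the law of the walk as a finitely supported function -/
noncomputable def gapP (T : Finset G) : ℕ → G →₀ ℝ
  | 0 => Finsupp.single 1 1
  | n + 1 => gapQ T (gapP T n)

theorem gapP_coe {T : Finset G} (hT : Gen T) (n : ℕ) : ⇑(gapP T n) = p T n := by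
  classical
  induction n with
  | zero =>
    rw [p_zero]
    funext y
    by_cases h : y = 1
    · subst h; simp [gapP, ind_self]
    · rw [ind_of_ne h, gapP, Finsupp.single_eq_of_ne h]
  | succ n ih => rw [gapP, gapQ_coe, ih, p_succ hT]

open Classical in
theorem gapP_ip {T : Finset G} (hT : Gen T) (n : ℕ) :
    gapIp G (gapP T n) (gapP T n) = ∑ y ∈ T ^ n, p T n y * p T n y := by
  rw [gapIp_eq _ _ (B := T ^ n), gapP_coe hT]
  intro y hy
  by_contra hn
  rw [Finsupp.mem_support_iff, gapP_coe hT] at hy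
  exact hy (p_eq_zero T n (by rwa [← Finset.coe_pow, Finset.mem_coe]))

theorem gap_sup [Infinite G] {T : Finset G} (hT : Gen T) (n R : ℕ) :
    gapIp G (gapP T n) (gapP T n) ≤ 1 / (R + 1) + R * √(2 * T.card * gapE T (gapP T n)) := by
  classical
  set η := √(2 * T.card * gapE T (gapP T n)) with hη
  have hη0 : 0 ≤ η := Real.sqrt_nonneg _
  obtain ⟨y₀, -, hy₀⟩ := Finset.exists_max_image (T ^ n) (p T n)
    ⟨1, Finset.one_mem_pow hT.one_mem⟩
  have h1 : gapIp G (gapP T n) (gapP T n) ≤ p T n y₀ := by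
    rw [gapP_ip hT]
    calc ∑ y ∈ T ^ n, p T n y * p T n y ≤ ∑ y ∈ T ^ n, p T n y₀ * p T n y :=
          Finset.sum_le_sum fun y hy => mul_le_mul_of_nonneg_right (hy₀ y hy) (p_nonneg T n y)
      _ = p T n y₀ := by rw [← Finset.mul_sum, sum_p hT n (by rw [Finset.coe_pow]), mul_one]
  have h2 : ∀ y, ∀ s ∈ T, p T n y - η ≤ p T n (y * s) := by
    intro y s hs
    have a1 := gapIp_sq_le (gapR s (gapP T n) - gapP T n) y
    have a2 : gapIp G (gapR s (gapP T n) - gapP T n) (gapR s (gapP T n) - gapP T n) ≤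
        2 * T.card * gapE T (gapP T n) := by
      rw [← gapE_eq hT]
      exact Finset.single_le_sum
        (f := fun s => gapIp G (gapR s (gapP T n) - gapP T n) (gapR s (gapP T n) - gapP T n))
        (fun s _ => gapIp_nonneg _) hs
    have a3 := Real.abs_le_sqrt (a1.trans a2)
    rw [Finsupp.sub_apply, gapR_apply, gapP_coe hT, ← hη] at a3
    linarith [(abs_le.1 a3).1]
  have h3 : ∀ (r : ℕ), ∀ x ∈ T ^ r, p T n y₀ - r * η ≤ p T n (y₀ * x) := by
    intro r
    induction r with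
    | zero =>
      intro x hx
      rw [pow_zero, Finset.mem_one] at hx
      simp [hx]
    | succ r ih =>
      intro x hx
      rw [pow_succ] at hx
      obtain ⟨u, hu, s, hs, rfl⟩ := Finset.mem_mul.1 hx
      have := ih u hu
      have := h2 (y₀ * u) s hs
      rw [← mul_assoc]
      push_cast
      linarith
  have h4 : ∑ x ∈ T ^ R, p T n (y₀ * x) ≤ 1 := by
    rw [← Finset.sum_image (g := fun x => y₀ * x) (f := p T n)
      (fun a _ b _ hab => mul_left_cancel hab),
      ← sum_p hT n (B := T ^ n ∪ (T ^ R).image fun x => y₀ * x)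
        (by rw [Finset.coe_union, Finset.coe_pow]; exact Set.subset_union_left)]
    exact Finset.sum_le_sum_of_subset_of_nonneg Finset.subset_union_right
      fun y _ _ => p_nonneg T n y
  have h5 : ((T ^ R).card : ℝ) * (p T n y₀ - R * η) ≤ 1 := by
    refine le_trans ?_ h4
    rw [← nsmul_eq_mul, ← Finset.sum_const]
    exact Finset.sum_le_sum (h3 R)
  have h6 : (R + 1 : ℝ) ≤ (T ^ R).card := by
    exact_mod_cast Finset.add_one_le_card_pow hT.one_mem
      (by rw [hT.closure]; exact Set.infinite_univ) R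
  have h7 : p T n y₀ - R * η ≤ 1 / (R + 1) := by
    rw [le_div_iff₀ (by positivity)]
    by_cases hp : 0 ≤ p T n y₀ - R * η
    · nlinarith
    · have : (0 : ℝ) < R + 1 := by positivity
      nlinarith
  linarith

/-- Almost harmonic finitely supported functions.

Proof.  WLOG `ε ≤ 1/8`.  For finitely supported `f, g` let `⟪f, g⟫ = ∑ᶠ y, f y * g y`,
`m = |T|⁻¹`, `Δ = 1 - P`.  `P` is symmetric (reindex by `Equiv.mulRight s`, `finsum_comp_equiv`,
and `Gen.sum_inv`).  `E f := ∑ s ∈ T, ∑ᶠ y, (f (y s) - f y) ^ 2 = 2 |T| e f` with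
`e f = ⟪f, f⟫ - ⟪P f, f⟫`, and `⟪v, v⟫ + ⟪P v, v⟫ = (m / 2) ∑ s, ∑ᶠ y, (v (y s) + v y) ^ 2
≥ 2 m ⟪v, v⟫` (term `s = 1`).  Suppose `ε * E f ≤ ⟪Δ f, Δ f⟫` for all `f`.  Then
`e (P f) = e f - (⟪Δ f, Δ f⟫ + ⟪P Δ f, Δ f⟫) ≤ e f - 2 m ⟪Δ f, Δ f⟫ ≤ r * e f`, `r = 1 - 4 ε`.
For `f = p T n` (`p_succ`, support in `T ^ n`): `e (p n) ≤ r ^ n`, and `a n = ⟪p n, p n⟫` has
`a n - a (n + 1) = 2 e (p n) - ⟪Δ p n, Δ p n⟫ ≤ 2 r ^ n`, so `a k ≤ a n + 2 r ^ k / (1 - r)` for
`k ≤ n`.  Also `a n ≤ p n y₀` for a maximum point `y₀` (`sum_p`), and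
`|p n (y s) - p n y| ≤ √(E (p n))`, so `p n (y₀ x) ≥ p n y₀ - R √(E (p n))` for `x ∈ T ^ R`;
summing over `x ∈ T ^ R`, `|T ^ R| ≥ R + 1` (`Finset.add_one_le_card_pow`), gives
`a n ≤ 1 / (R + 1) + R √(2 |T| r ^ n)`.  Letting `n → ∞` and then `R → ∞`:
`a k ≤ 2 r ^ k / (1 - r)`.  But `1 = (∑ p k) ^ 2 ≤ |T ^ k| a k ≤ C (k + 1) ^ D a k`
(Cauchy–Schwarz), absurd for large `k` (`tendsto_pow_const_mul_const_pow_of_abs_lt_one`). -/
theorem exists_almost_harmonic [Infinite G] {D : ℕ} (h : PG G D) {T : Finset G} (hT : Gen T)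
    (ε : ℝ) (hε : 0 < ε) :
    ∃ f : G → ℝ, (Function.support f).Finite ∧
      ∑ᶠ y, (P T f y - f y) ^ 2 < ε * ∑ s ∈ T, ∑ᶠ y, (f (y * s) - f y) ^ 2 := by
  classical
  by_contra hn
  push Not at hn
  have h0 := hT.card_pos
  set δ := min ε (1 / 8) with hδ
  have hδ0 : 0 < δ := lt_min hε (by norm_num)
  have hδ1 : δ ≤ 1 / 8 := min_le_right _ _
  have hδ2 : δ ≤ ε := min_le_left _ _
  have hyp : ∀ f : G →₀ ℝ, δ * (2 * T.card * gapE T f) ≤ gapIp G (gapQ T f - f) (gapQ T f - f) := by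
    intro f
    have h1 := hn f f.hasFiniteSupport
    have e1 : ∑ᶠ y, (P T f y - f y) ^ 2 = gapIp G (gapQ T f - f) (gapQ T f - f) := by
      rw [← gapIp_finsum, ← gapQ_coe]; rfl
    have e2 : ∑ s ∈ T, ∑ᶠ y, (f (y * s) - f y) ^ 2 = 2 * T.card * gapE T f := by
      rw [← gapE_eq hT]
      refine Finset.sum_congr rfl fun s _ => ?_
      rw [← gapIp_finsum]
      simp only [Finsupp.sub_apply, gapR_apply]
    rw [e1, e2] at h1
    have := gapE_nonneg hT f
    exact le_trans (by gcongr) h1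
  set r := 1 - 4 * δ with hr
  have hr0 : 0 < r := by linarith
  have hr1 : r < 1 := by linarith
  have contr : ∀ f : G →₀ ℝ, gapE T (gapQ T f) ≤ r * gapE T f := by
    intro f
    have a1 := gap_lazy hT (gapQ T f - f)
    have a2 := mul_le_mul_of_nonneg_left (hyp f) (by positivity : 0 ≤ 2 * (T.card : ℝ)⁻¹)
    have a3 : 2 * (T.card : ℝ)⁻¹ * (δ * (2 * T.card * gapE T f)) = 4 * δ * gapE T f := by
      field_simp; ring
    rw [gapE_Q hT, hr]
    linarith
  have eP : ∀ n, gapE T (gapP T n) ≤ r ^ n := by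
    intro n
    induction n with
    | zero =>
      have b1 : gapIp G (gapP T 0) (gapP T 0) = 1 := by simp [gapP, gapIp]
      have b2 : 0 ≤ gapIp G (gapQ T (gapP T 0)) (gapP T 0) := by
        rw [gapIp_comm, show gapQ T (gapP T 0) = gapP T 1 from rfl]
        have : gapIp G (gapP T 0) (gapP T 1) = gapP T 1 1 := by
          rw [show gapP T 0 = Finsupp.single 1 1 from rfl]; simp [gapIp]
        rw [this, gapP_coe hT]
        exact p_nonneg T 1 1
      rw [gapE, b1, pow_zero]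
      linarith
    | succ n ih =>
      rw [gapP, pow_succ']
      exact (contr _).trans (by gcongr)
  set a : ℕ → ℝ := fun n => gapIp G (gapP T n) (gapP T n) with ha
  have tel : ∀ k j, a k ≤ a (k + j) + 2 * (r ^ k - r ^ (k + j)) / (1 - r) := by
    intro k j
    induction j with
    | zero => simp
    | succ j ih =>
      have b1 : a (k + j) - a (k + (j + 1)) ≤ 2 * r ^ (k + j) :=
        (gap_a T (gapP T (k + j))).trans (by linarith [eP (k + j)])
      have b2 : 2 * (r ^ k - r ^ (k + (j + 1))) / (1 - r) =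
          2 * (r ^ k - r ^ (k + j)) / (1 - r) + 2 * r ^ (k + j) := by
        have : 1 - r ≠ 0 := by linarith
        rw [← add_assoc, pow_succ]
        field_simp
        ring
      rw [b2]
      linarith
  have bd1 : ∀ k R : ℕ, a k ≤ 1 / (R + 1) + 2 * r ^ k / (1 - r) := by
    intro k R
    have t1 : Tendsto (fun j : ℕ => 1 / (R + 1 : ℝ) + R * √(2 * T.card * r ^ j) +
        2 * r ^ k / (1 - r)) atTop (𝓝 (1 / (R + 1 : ℝ) + R * √(2 * T.card * 0) +
        2 * r ^ k / (1 - r))) :=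
      ((((tendsto_pow_atTop_nhds_zero_of_lt_one hr0.le hr1).const_mul _).sqrt.const_mul _).const_add
        _).add_const _
    rw [mul_zero, Real.sqrt_zero, mul_zero, add_zero] at t1
    refine ge_of_tendsto' t1 fun j => ?_
    have b1 := tel k j
    have b2 := gap_sup hT (k + j) R
    have b3 : r ^ (k + j) ≤ r ^ j := pow_le_pow_of_le_one hr0.le hr1.le (by omega)
    have b4 : √(2 * T.card * gapE T (gapP T (k + j))) ≤ √(2 * T.card * r ^ j) :=
      Real.sqrt_le_sqrt (by have := (eP (k + j)).trans b3; gcongr)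
    have b5 : 2 * (r ^ k - r ^ (k + j)) / (1 - r) ≤ 2 * r ^ k / (1 - r) := by
      have : 0 < 1 - r := by linarith
      have : 0 ≤ r ^ (k + j) := by positivity
      gcongr
      linarith
    have b6 : (R : ℝ) * √(2 * T.card * gapE T (gapP T (k + j))) ≤ R * √(2 * T.card * r ^ j) := by
      gcongr
    change gapIp G (gapP T (k + j)) (gapP T (k + j)) ≤ _ at b2
    change a k ≤ gapIp G (gapP T (k + j)) (gapP T (k + j)) + _ at b1
    linarith
  have bd2 : ∀ k, a k ≤ 2 * r ^ k / (1 - r) := by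
    intro k
    have t1 := tendsto_one_div_add_atTop_nhds_zero_nat (𝕜 := ℝ).add_const (2 * r ^ k / (1 - r))
    rw [zero_add] at t1
    exact ge_of_tendsto' t1 fun R => bd1 k R
  obtain ⟨C, hC1, hC⟩ := h.card_le T
  have fin : ∀ k : ℕ, 1 ≤ C * (2 / (1 - r) / r) * (((k + 1 : ℕ) : ℝ) ^ D * r ^ (k + 1)) := by
    intro k
    have b1 := sq_sum_le_card_mul_sum_sq (s := T ^ k) (f := p T k)
    rw [sum_p hT k (by rw [Finset.coe_pow])] at b1
    have b2 : ∑ y ∈ T ^ k, p T k y ^ 2 = a k := by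
      rw [ha]; simp only [gapP_ip hT, sq]
    have b3 := hC k (T ^ k) (by rw [Finset.coe_pow])
    have b4 : 0 ≤ a k := gapIp_nonneg _
    have : 0 < 1 - r := by linarith
    rw [b2, one_pow] at b1
    calc (1 : ℝ) ≤ (T ^ k).card * a k := b1
      _ ≤ C * ((k : ℝ) + 1) ^ D * (2 * r ^ k / (1 - r)) := by gcongr; exact bd2 k
      _ = _ := by push_cast; rw [pow_succ r]; field_simp
  have t2 := ((tendsto_pow_const_mul_const_pow_of_abs_lt_one D
    (show |r| < 1 by rwa [abs_of_pos hr0])).comp (tendsto_add_atTop_nat 1)).const_mul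
      (C * (2 / (1 - r) / r))
  rw [mul_zero] at t2
  exact absurd (ge_of_tendsto' t2 fin) (by norm_num)

end Crest.Agent.R182.Gro
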