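import Crest.Agent.R182.GroEnt

/-!
# R182, Gromov's theorem: finite dimensionality
-/

set_option autoImplicit false

namespace Crest.Agent.R182.Gro

open Pointwise Filter Topology Crest.GroupTheory

variable {G : Type*} [Group G]

/-! ### Linear algebra -/

theorem kl_exists_onb {V : Type*} [AddCommGroup V] [Module ℝ V] (Q : V →ₗ[ℝ] V →ₗ[ℝ] ℝ)
    (hsymm : ∀ u v, Q u v = Q v u) (hpos : ∀ u, u ≠ 0 → 0 < Q u u) (K : ℝ)
    (hK : ∀ (N : ℕ) (e : Fin N → V), (∀ i j, Q (e i) (e j) = if i = j then 1 else 0) →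
      (N : ℝ) ≤ K) :
    ∃ (N : ℕ) (e : Fin N → V), (∀ i j, Q (e i) (e j) = if i = j then 1 else 0) ∧
      ∀ v, v = ∑ i, Q (e i) v • e i := by
  classical
  by_contra hcon
  push Not at hcon
  have hall : ∀ N : ℕ, ∃ e : Fin N → V, ∀ i j, Q (e i) (e j) = if i = j then 1 else 0 := by
    intro N
    induction N with
    | zero => exact ⟨Fin.elim0, fun i => i.elim0⟩
    | succ N ih =>
      obtain ⟨e, he⟩ := ih
      obtain ⟨v, hv⟩ := hcon N e he
      obtain ⟨w, hw⟩ : ∃ w, w = v - ∑ i, Q (e i) v • e i := ⟨_, rfl⟩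
      have hw0 : w ≠ 0 := by rw [hw]; exact sub_ne_zero.2 hv
      have hwe : ∀ j, Q (e j) w = 0 := by
        intro j
        rw [hw, map_sub, map_sum]
        simp [he]
      have hc := hpos w hw0
      have hs : 0 < √(Q w w) := Real.sqrt_pos.2 hc
      refine ⟨Fin.cons ((√(Q w w))⁻¹ • w) e, fun i j => ?_⟩
      refine Fin.cases ?_ (fun i => ?_) i <;> refine Fin.cases ?_ (fun j => ?_) j
      · simp only [Fin.cons_zero, map_smul, LinearMap.smul_apply, smul_eq_mul, if_true]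
        have := Real.mul_self_sqrt hc.le
        field_simp
        nlinarith
      · simp [hsymm w, hwe, (Fin.succ_ne_zero j).symm]
      · simp [hwe, Fin.succ_ne_zero i]
      · simp [he]
  obtain ⟨N, hN⟩ := exists_nat_gt K
  obtain ⟨e, he⟩ := hall N
  exact absurd (hK N e he) (not_le.2 hN)

open Matrix in
theorem kl_exists_matrix {V : Type*} [AddCommGroup V] [Module ℝ V] (Q : V →ₗ[ℝ] V →ₗ[ℝ] ℝ)
    (hsymm : ∀ u v, Q u v = Q v u) (hpos : ∀ u, u ≠ 0 → 0 < Q u u) (K : ℝ)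
    (hK : ∀ (N : ℕ) (e : Fin N → V), (∀ i j, Q (e i) (e j) = if i = j then 1 else 0) →
      (N : ℝ) ≤ K) (π : G →* Module.End ℝ V) (hπ : ∀ g u v, Q (π g u) (π g v) = Q u v) :
    ∃ (n : ℕ) (ρ : G →* Matrix (Fin n) (Fin n) ℝ), (∀ g, (ρ g)ᵀ = ρ g⁻¹) ∧
      ∀ g, ρ g = 1 → ∀ v, π g v = v := by
  classical
  obtain ⟨N, e, he, hsp⟩ := kl_exists_onb Q hsymm hpos K hK
  refine ⟨N, ⟨⟨fun g => Matrix.of fun i j => Q (e i) (π g (e j)), ?_⟩, ?_⟩, ?_, ?_⟩
  · ext i j
    simp [he, Matrix.one_apply]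
  · intro g k
    ext i j
    simp only [Matrix.of_apply, Matrix.mul_apply, map_mul, Module.End.mul_apply]
    conv_lhs => rw [hsp (π k (e j))]
    simp [map_sum, mul_comm]
  · intro g
    ext i j
    simp only [MonoidHom.coe_mk, OneHom.coe_mk, Matrix.transpose_apply, Matrix.of_apply]
    rw [← hπ g (e i), ← Module.End.mul_apply, ← map_mul, mul_inv_cancel, map_one, hsymm]
    rfl
  · intro g hg v
    have h1 : ∀ j, π g (e j) = e j := by
      intro j
      rw [hsp (π g (e j))]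
      have : ∀ i, Q (e i) (π g (e j)) = if i = j then 1 else 0 := by
        intro i
        have := congrFun (congrFun hg i) j
        simpa [Matrix.one_apply] using this
      simp [this]
    conv_lhs => rw [hsp v]
    rw [map_sum]
    simp only [map_smul, h1]
    exact (hsp v).symm

/-! ### The carré du champ -/

/-- Carré du champ. -/
noncomputable def klG (T : Finset G) (u v : G → ℝ) (x : G) : ℝ :=
  (T.card : ℝ)⁻¹ * ∑ s ∈ T, (u (x * s) - u x) * (v (x * s) - v x)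

theorem kl_P_mul {T : Finset G} (hT : Gen T) {u v : G → ℝ} (hu : P T u = u) (hv : P T v = v) :
    P T (u * v) = u * v + klG T u v := by
  funext x
  have h1 := congrFun hu x
  have h2 := congrFun hv x
  have hc := hT.card_pos
  rw [P_apply] at h1 h2
  have h3 : ∑ s ∈ T, (u (x * s) - u x) * (v (x * s) - v x) =
      ∑ s ∈ T, u (x * s) * v (x * s) - u x * ∑ s ∈ T, v (x * s) - v x * ∑ s ∈ T, u (x * s) +
        T.card * (u x * v x) := by
    rw [Finset.mul_sum, Finset.mul_sum, ← nsmul_eq_mul, ← Finset.sum_const,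
      ← Finset.sum_sub_distrib, ← Finset.sum_sub_distrib, ← Finset.sum_add_distrib]
    exact Finset.sum_congr rfl fun s _ => by ring
  have h4 : ∑ s ∈ T, u (x * s) = T.card * u x := by rw [← h1]; field_simp
  have h5 : ∑ s ∈ T, v (x * s) = T.card * v x := by rw [← h2]; field_simp
  simp only [P_apply, Pi.add_apply, Pi.mul_apply, klG, h3, h4, h5]
  field_simp
  ring

theorem kl_avg_le {T : Finset G} (hT : Gen T) {f : G → ℝ} {c : ℝ} (h : ∀ s ∈ T, f s ≤ c) :
    (T.card : ℝ)⁻¹ * ∑ s ∈ T, f s ≤ c := by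
  have hc := hT.card_pos
  have := Finset.sum_le_card_nsmul T f c h
  rw [nsmul_eq_mul] at this
  rw [inv_mul_le_iff₀ hc]
  exact this

theorem kl_abs_G_le {T : Finset G} (hT : Gen T) {u v : G → ℝ} {L M : ℝ}
    (hL : ∀ x, ∀ s ∈ T, |u (x * s) - u x| ≤ L) (hM : ∀ x, ∀ s ∈ T, |v (x * s) - v x| ≤ M)
    (x : G) : |klG T u v x| ≤ L * M := by
  have hc := hT.card_pos
  rw [klG, abs_mul, abs_of_pos (inv_pos.2 hc)]
  refine le_trans (mul_le_mul_of_nonneg_left (Finset.abs_sum_le_sum_abs _ _) (by positivity)) ?_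
  refine kl_avg_le hT fun s hs => ?_
  rw [abs_mul]
  exact mul_le_mul (hL x s hs) (hM x s hs) (abs_nonneg _) ((abs_nonneg _).trans (hL x s hs))

theorem kl_pow_succ {T : Finset G} (hT : Gen T) {u v : G → ℝ} (hu : P T u = u) (hv : P T v = v)
    (n : ℕ) (x : G) :
    (P T ^ (n + 1)) (u * v) x = (P T ^ n) (u * v) x + (P T ^ n) (klG T u v) x := by
  rw [P_pow_succ, kl_P_mul hT hu hv, map_add, Pi.add_apply]

theorem kl_abs_pow_le {T : Finset G} (hT : Gen T) {u v : G → ℝ} (hu : P T u = u)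
    (hv : P T v = v) {c : ℝ} (hc : ∀ x, |klG T u v x| ≤ c) (n : ℕ) (x : G) :
    |(P T ^ n) (u * v) x| ≤ |u x * v x| + n * c := by
  induction n with
  | zero => simp
  | succ n ih =>
    rw [kl_pow_succ hT hu hv]
    have := abs_P_pow_le hT n hc x
    refine (abs_add_le _ _).trans ?_
    push_cast
    linarith

/-- Normalised second moments. -/
noncomputable def klA (T : Finset G) (u v : G → ℝ) (x : G) (n : ℕ) : ℝ :=
  ((n : ℝ) + 1)⁻¹ * (P T ^ n) (u * v) x

/-- Their ultralimit. -/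
noncomputable def klL (𝒰 : Ultrafilter ℕ) (T : Finset G) (u v : G → ℝ) (x : G) : ℝ :=
  limUnder (𝒰 : Filter ℕ) (klA T u v x)

theorem kl_inv_tendsto {𝒰 : Ultrafilter ℕ} (h𝒰 : (𝒰 : Filter ℕ) ≤ atTop) :
    Tendsto (fun n : ℕ => ((n : ℝ) + 1)⁻¹) 𝒰 (𝓝 0) := by
  have := tendsto_one_div_add_atTop_nhds_zero_nat (𝕜 := ℝ)
  simp only [one_div] at this
  exact this.mono_left h𝒰

theorem kl_abs_A_le {T : Finset G} (hT : Gen T) {u v : G → ℝ} (hu : P T u = u)
    (hv : P T v = v) {c : ℝ} (hc : ∀ x, |klG T u v x| ≤ c) (x : G) (n : ℕ) :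
    |klA T u v x n| ≤ ((n : ℝ) + 1)⁻¹ * |u x * v x| + c := by
  have h0 : 0 ≤ c := (abs_nonneg _).trans (hc 1)
  have hn : (0 : ℝ) < (n : ℝ) + 1 := by positivity
  rw [klA, abs_mul, abs_of_pos (inv_pos.2 hn), inv_mul_le_iff₀ hn, mul_add,
    mul_inv_cancel_left₀ hn.ne']
  have := kl_abs_pow_le hT hu hv hc n x
  nlinarith

theorem kl_tendsto (𝒰 : Ultrafilter ℕ) {T : Finset G} (hT : Gen T) {u v : G → ℝ}
    (hu : u ∈ LH T) (hv : v ∈ LH T) (x : G) :
    Tendsto (klA T u v x) 𝒰 (𝓝 (klL 𝒰 T u v x)) := by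
  obtain ⟨-, hu, L, hL⟩ := hu
  obtain ⟨-, hv, M, hM⟩ := hv
  refine tendsto_nhds_limUnder ?_
  have hb : ∀ n, klA T u v x n ∈ Set.Icc (-(|u x * v x| + L * M)) (|u x * v x| + L * M) := by
    intro n
    have h1 := kl_abs_A_le hT hu hv (kl_abs_G_le hT hL hM) x n
    have h2 : ((n : ℝ) + 1)⁻¹ ≤ 1 := inv_le_one_of_one_le₀ (by linarith [n.cast_nonneg (α := ℝ)])
    have h3 := mul_le_mul_of_nonneg_right h2 (abs_nonneg (u x * v x))
    exact abs_le.1 (by linarith)
  obtain ⟨a, -, ha⟩ := (isCompact_Icc (a := -(|u x * v x| + L * M))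
    (b := |u x * v x| + L * M)).ultrafilter_le_nhds (𝒰.map (klA T u v x))
    (by rw [Ultrafilter.coe_map, le_principal_iff, mem_map]; exact Eventually.of_forall hb)
  exact ⟨a, ha⟩

theorem kl_liouville {T : Finset G} (hT : Gen T) {K : ℝ} (hK0 : 0 ≤ K)
    (hK : ∃ᶠ n : ℕ in atTop, ∀ s ∈ T, ∀ F : G → ℝ,
      ((n : ℝ) + 1) * ((P T ^ n) F s - (P T ^ n) F 1) ^ 2 ≤
        K * ((P T ^ n) (fun x => F x ^ 2) s + (P T ^ n) (fun x => F x ^ 2) 1))
    {F : G → ℝ} (hF : P T F = F) {c : ℝ} (hc : ∀ x, |F x| ≤ c) (x : G) : F x = F 1 := by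
  refine hT.induction (q := fun x => F x = F 1) rfl (fun x s hs ih => ?_) x
  rw [← ih]
  by_contra hne
  have hpos : 0 < (F (x * s) - F x) ^ 2 := by
    have : F (x * s) - F x ≠ 0 := sub_ne_zero.2 hne
    positivity
  obtain ⟨N, hN⟩ := exists_nat_gt (K * (c ^ 2 + c ^ 2) / (F (x * s) - F x) ^ 2)
  obtain ⟨n, hn, hNn⟩ := (hK.and_eventually (eventually_ge_atTop N)).exists
  have h1 := hn s hs (fun y => F (x * y))
  rw [P_pow_left, P_pow_left, P_pow_fixed hF, mul_one] at h1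
  have hb : ∀ y, (P T ^ n) (fun y => F (x * y) ^ 2) y ≤ c ^ 2 := fun y =>
    (le_abs_self _).trans (abs_P_pow_le hT n (fun z => by
      rw [abs_pow]; exact pow_le_pow_left₀ (abs_nonneg _) (hc _) 2) y)
  have h2 := mul_le_mul_of_nonneg_left (add_le_add (hb s) (hb 1)) hK0
  rw [div_lt_iff₀ hpos] at hN
  have h3 : (N : ℝ) ≤ n := by exact_mod_cast hNn
  nlinarith

theorem kl_L_const {𝒰 : Ultrafilter ℕ} (h𝒰 : (𝒰 : Filter ℕ) ≤ atTop) {T : Finset G} (hT : Gen T)
    {K : ℝ} (hK0 : 0 ≤ K)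
    (hK : ∃ᶠ n : ℕ in atTop, ∀ s ∈ T, ∀ F : G → ℝ,
      ((n : ℝ) + 1) * ((P T ^ n) F s - (P T ^ n) F 1) ^ 2 ≤
        K * ((P T ^ n) (fun x => F x ^ 2) s + (P T ^ n) (fun x => F x ^ 2) 1))
    {u v : G → ℝ} (hu : u ∈ LH T) (hv : v ∈ LH T) (x : G) :
    klL 𝒰 T u v x = klL 𝒰 T u v 1 := by
  have ht := kl_tendsto 𝒰 hT hu hv
  obtain ⟨-, hu, L, hL⟩ := hu
  obtain ⟨-, hv, M, hM⟩ := hv
  have hG := kl_abs_G_le hT hL hM
  refine kl_liouville hT hK0 hK (c := L * M) ?_ (fun y => ?_) x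
  · funext y
    have h1 : Tendsto (fun n => (T.card : ℝ)⁻¹ * ∑ s ∈ T, klA T u v (y * s) n) 𝒰
        (𝓝 (P T (klL 𝒰 T u v) y)) :=
      (tendsto_finsetSum T fun s _ => ht (y * s)).const_mul _
    have h2 : Tendsto (fun n : ℕ => ((n : ℝ) + 1)⁻¹ * (P T ^ n) (klG T u v) y) 𝒰 (𝓝 0) := by
      refine squeeze_zero_norm (a := fun n : ℕ => ((n : ℝ) + 1)⁻¹ * (L * M)) (fun n => ?_) ?_
      · have hn : (0 : ℝ) < (n : ℝ) + 1 := by positivity
        rw [Real.norm_eq_abs, abs_mul, abs_of_pos (inv_pos.2 hn)]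
        exact mul_le_mul_of_nonneg_left (abs_P_pow_le hT n hG y) (inv_pos.2 hn).le
      · simpa using (kl_inv_tendsto h𝒰).mul_const (L * M)
    have h3 := (ht y).add h2
    rw [add_zero] at h3
    refine tendsto_nhds_unique h1 (h3.congr fun n => ?_)
    rw [klA, ← mul_add, ← kl_pow_succ hT hu hv, P_pow_succ', P_apply]
    simp only [klA]
    rw [← Finset.mul_sum]
    ring
  · have h1 : Tendsto (fun n : ℕ => ((n : ℝ) + 1)⁻¹ * |u y * v y| + L * M) 𝒰 (𝓝 (L * M)) := by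
      simpa using ((kl_inv_tendsto h𝒰).mul_const |u y * v y|).add_const (L * M)
    exact le_of_tendsto_of_tendsto' (ht y).abs h1 (kl_abs_A_le hT hu hv hG y)

/-- The invariant form. -/
noncomputable def klQ (𝒰 : Ultrafilter ℕ) {T : Finset G} (hT : Gen T) :
    LH T →ₗ[ℝ] LH T →ₗ[ℝ] ℝ :=
  LinearMap.mk₂ ℝ (fun u v => klL 𝒰 T u v 1)
    (fun u u' v => by
      refine tendsto_nhds_unique (kl_tendsto 𝒰 hT (u + u').2 v.2 1)
        (((kl_tendsto 𝒰 hT u.2 v.2 1).add (kl_tendsto 𝒰 hT u'.2 v.2 1)).congr fun n => ?_)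
      simp [klA, add_mul, mul_add])
    (fun c u v => by
      refine tendsto_nhds_unique (kl_tendsto 𝒰 hT (c • u).2 v.2 1)
        (((kl_tendsto 𝒰 hT u.2 v.2 1).const_mul c).congr fun n => ?_)
      simp only [klA, Submodule.coe_smul, smul_mul_assoc, map_smul, Pi.smul_apply, smul_eq_mul]
      ring)
    (fun u v v' => by
      refine tendsto_nhds_unique (kl_tendsto 𝒰 hT u.2 (v + v').2 1)
        (((kl_tendsto 𝒰 hT u.2 v.2 1).add (kl_tendsto 𝒰 hT u.2 v'.2 1)).congr fun n => ?_)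
      simp [klA, mul_add])
    (fun c u v => by
      refine tendsto_nhds_unique (kl_tendsto 𝒰 hT u.2 (c • v).2 1)
        (((kl_tendsto 𝒰 hT u.2 v.2 1).const_mul c).congr fun n => ?_)
      simp only [klA, Submodule.coe_smul, mul_smul_comm, map_smul, Pi.smul_apply, smul_eq_mul]
      ring)

theorem klQ_apply (𝒰 : Ultrafilter ℕ) {T : Finset G} (hT : Gen T) (u v : LH T) :
    klQ 𝒰 hT u v = klL 𝒰 T u v 1 := rfl

theorem kl_P_left (T : Finset G) (F : G → ℝ) (g x : G) :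
    P T (fun y => F (g * y)) x = P T F (g * x) := by
  simp only [P_apply, mul_assoc]

theorem kl_act_mem {T : Finset G} (hT : Gen T) (g : G) {u : G → ℝ} (hu : u ∈ LH T) :
    (fun x => u (g * x) - u g) ∈ LH T := by
  obtain ⟨-, hu, L, hL⟩ := hu
  refine ⟨by simp, ?_, L, fun x s hs => ?_⟩
  · have : (fun x => u (g * x) - u g) = (fun x => u (g * x)) - fun _ => u g := rfl
    rw [this, map_sub, P_const hT]
    congr 1
    funext x
    rw [kl_P_left, hu]
  · simpa [mul_assoc] using hL (g * x) s hs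

/-- The action on normalised harmonic functions. -/
def klAct {T : Finset G} (hT : Gen T) : G →* Module.End ℝ (LH T) where
  toFun g :=
    { toFun := fun u => ⟨fun x => u.1 (g⁻¹ * x) - u.1 g⁻¹, kl_act_mem hT g⁻¹ u.2⟩
      map_add' := fun u v => by ext x; simp; ring
      map_smul' := fun c u => by ext x; simp; ring }
  map_one' := by
    ext u x
    simp [u.2.1]
  map_mul' g k := by
    ext u x
    simp [mul_assoc]

theorem klAct_apply {T : Finset G} (hT : Gen T) (g : G) (u : LH T) (x : G) :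
    (klAct hT g u).1 x = u.1 (g⁻¹ * x) - u.1 g⁻¹ := rfl

theorem kl_pow_act {T : Finset G} (hT : Gen T) (g : G) (u v : LH T) (n : ℕ) :
    (P T ^ n) ((klAct hT g u).1 * (klAct hT g v).1) 1 =
      (P T ^ n) (u.1 * v.1) g⁻¹ - u.1 g⁻¹ * v.1 g⁻¹ := by
  have h1 : (klAct hT g u).1 * (klAct hT g v).1 =
      (fun y => (u.1 * v.1) (g⁻¹ * y)) - u.1 g⁻¹ • (klAct hT g v).1 - v.1 g⁻¹ • (klAct hT g u).1 -
        fun _ => u.1 g⁻¹ * v.1 g⁻¹ := by
    funext y
    simp only [Pi.mul_apply, Pi.sub_apply, Pi.smul_apply, smul_eq_mul, klAct_apply]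
    ring
  rw [h1, map_sub, map_sub, map_sub, map_smul, map_smul, P_pow_fixed (klAct hT g u).2.2.1,
    P_pow_fixed (klAct hT g v).2.2.1, P_pow_const hT]
  simp only [Pi.sub_apply, Pi.smul_apply, P_pow_left, klAct_apply, mul_one, sub_self, smul_zero,
    sub_zero]

open Matrix in
/-- The Lipschitz harmonic functions carry an invariant inner product and are finite
dimensional. -/
theorem exists_rep {D : ℕ} (h : PG G D) {T : Finset G} (hT : Gen T) :
    ∃ (n : ℕ) (ρ : G →* Matrix (Fin n) (Fin n) ℝ), (∀ g, (ρ g)ᵀ = ρ g⁻¹) ∧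
      ∀ g, ρ g = 1 → ∀ u ∈ LH T, ∀ x, u (g * x) = u g + u x := by
  obtain ⟨K, hK0, hK⟩ := key_ineq h hT
  have hne := frequently_iff_neBot.1 hK
  obtain ⟨𝒰, h𝒰⟩ := Ultrafilter.exists_le (atTop ⊓ 𝓟 {n : ℕ | ∀ s ∈ T, ∀ F : G → ℝ,
      ((n : ℝ) + 1) * ((P T ^ n) F s - (P T ^ n) F 1) ^ 2 ≤
        K * ((P T ^ n) (fun x => F x ^ 2) s + (P T ^ n) (fun x => F x ^ 2) 1)})
  have h𝒰1 : (𝒰 : Filter ℕ) ≤ atTop := h𝒰.trans inf_le_left
  have h𝒰2 := le_principal_iff.1 (h𝒰.trans inf_le_right)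
  have hinv : ∀ g (u v : LH T), klQ 𝒰 hT (klAct hT g u) (klAct hT g v) = klQ 𝒰 hT u v := by
    intro g u v
    rw [klQ_apply, klQ_apply, ← kl_L_const h𝒰1 hT hK0 hK u.2 v.2 g⁻¹]
    have h1 := (kl_tendsto 𝒰 hT u.2 v.2 g⁻¹).sub
      ((kl_inv_tendsto h𝒰1).mul_const (u.1 g⁻¹ * v.1 g⁻¹))
    rw [zero_mul, sub_zero] at h1
    refine tendsto_nhds_unique (kl_tendsto 𝒰 hT (klAct hT g u).2 (klAct hT g v).2 1)
      (h1.congr fun n => ?_)
    rw [klA, klA, kl_pow_act, mul_sub]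
  have hkey1 : ∀ (u : LH T), ∀ s ∈ T, u.1 s ^ 2 ≤ 2 * K * klQ 𝒰 hT u u := by
    intro u s hs
    have h1 := ((kl_tendsto 𝒰 hT u.2 u.2 s).add (kl_tendsto 𝒰 hT u.2 u.2 1)).const_mul K
    rw [kl_L_const h𝒰1 hT hK0 hK u.2 u.2 s] at h1
    have h2 : K * (klL 𝒰 T u u 1 + klL 𝒰 T u u 1) = 2 * K * klQ 𝒰 hT u u := by
      rw [klQ_apply]; ring
    rw [← h2]
    refine ge_of_tendsto h1 ?_
    filter_upwards [h𝒰2] with n hn
    have h3 := hn s hs u.1
    rw [P_pow_fixed u.2.2.1, u.2.1, sub_zero] at h3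
    have h4 : (fun x => u.1 x ^ 2) = u.1 * u.1 := by funext x; simp [sq]
    rw [h4] at h3
    have hn : (0 : ℝ) < (n : ℝ) + 1 := by positivity
    rw [klA, klA, ← mul_add, mul_left_comm, le_inv_mul_iff₀ hn]
    exact h3
  have hkey : ∀ (u : LH T) (x : G), ∀ s ∈ T,
      (u.1 (x * s) - u.1 x) ^ 2 ≤ 2 * K * klQ 𝒰 hT u u := by
    intro u x s hs
    have := hkey1 (klAct hT x⁻¹ u) s hs
    rwa [hinv, klAct_apply, inv_inv] at this
  have hnn : ∀ u : LH T, 0 ≤ klQ 𝒰 hT u u := by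
    intro u
    refine ge_of_tendsto' (kl_tendsto 𝒰 hT u.2 u.2 1) fun n => ?_
    exact mul_nonneg (by positivity) (P_pow_nonneg T n (fun x => mul_self_nonneg _) 1)
  obtain ⟨n, ρ, h1, h2⟩ := kl_exists_matrix (klQ 𝒰 hT)
    (fun u v => by rw [klQ_apply, klQ_apply, klL, klL]; congr 1; funext n; rw [klA, klA, mul_comm u.1])
    (fun u hu => by
      refine lt_of_le_of_ne (hnn u) fun h0 => hu ?_
      ext x
      refine hT.induction (q := fun x => u.1 x = 0) u.2.1 (fun x s hs ih => ?_) x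
      have := hkey u x s hs
      rw [← h0, ih] at this
      simpa using this)
    (2 * K) (fun N e he => by
      have hG : ∀ x, ∑ i, klG T (e i).1 (e i).1 x ≤ 2 * K := by
        intro x
        simp only [klG]
        rw [← Finset.mul_sum, Finset.sum_comm]
        refine kl_avg_le hT fun s hs => ?_
        obtain ⟨c, hc⟩ : ∃ c : Fin N → ℝ, c = fun i => (e i).1 (x * s) - (e i).1 x := ⟨_, rfl⟩
        have h1 := hkey (∑ i, c i • e i) x s hs
        have h2 : klQ 𝒰 hT (∑ i, c i • e i) (∑ i, c i • e i) = ∑ i, c i * c i := by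
          simp [map_sum, LinearMap.sum_apply, he]
        have h3 : (∑ i, c i • e i).1 (x * s) - (∑ i, c i • e i).1 x = ∑ i, c i * c i := by
          simp only [Submodule.coe_sum, Submodule.coe_smul, Finset.sum_apply, Pi.smul_apply,
            smul_eq_mul]
          rw [← Finset.sum_sub_distrib]
          exact Finset.sum_congr rfl fun i _ => by rw [← mul_sub, hc]
        rw [h2, h3] at h1
        have h4 : ∑ i, ((e i).1 (x * s) - (e i).1 x) * ((e i).1 (x * s) - (e i).1 x) =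
            ∑ i, c i * c i := by rw [hc]
        rw [h4]
        by_contra hlt
        push Not at hlt
        nlinarith
      have hP : ∀ n : ℕ, ∑ i, (P T ^ n) ((e i).1 * (e i).1) 1 ≤ n * (2 * K) := by
        intro n
        induction n with
        | zero => simp [(e _).2.1]
        | succ n ih =>
          simp only [kl_pow_succ hT (e _).2.2.1 (e _).2.2.1]
          rw [Finset.sum_add_distrib]
          have h1 := P_pow_mono T n (F := ∑ i, klG T (e i).1 (e i).1) (F' := fun _ => 2 * K)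
            (fun x => by rw [Finset.sum_apply]; exact hG x) 1
          rw [P_pow_const hT, map_sum, Finset.sum_apply] at h1
          push_cast
          linarith
      have h1 := tendsto_finsetSum Finset.univ fun i _ => kl_tendsto 𝒰 hT (e i).2 (e i).2 1
      have h2 : ∑ i, klL 𝒰 T (e i) (e i) 1 = N := by
        simp only [← klQ_apply 𝒰 hT, he]
        simp
      rw [h2] at h1
      refine le_of_tendsto' h1 fun n => ?_
      have hn : (0 : ℝ) < (n : ℝ) + 1 := by positivity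
      simp only [klA]
      rw [← Finset.mul_sum, inv_mul_le_iff₀ hn]
      have := hP n
      nlinarith)
    (klAct hT) hinv
  refine ⟨n, ρ, h1, fun g hg u hu x => ?_⟩
  have h3 : ρ g⁻¹ = 1 := by rw [← h1, hg, Matrix.transpose_one]
  have h4 := congrFun (congrArg Subtype.val (h2 g⁻¹ h3 ⟨u, hu⟩)) x
  rw [klAct_apply, inv_inv] at h4
  simp only at h4
  linarith

end Crest.Agent.R182.Gro
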