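import Crest.Agent.R182.GroBasic

/-!
# R182, Gromov's theorem: the Frobenius size of an orthogonal representation
-/

set_option autoImplicit false

namespace Crest.Agent.R182.Gro

open Pointwise Filter Topology Crest.GroupTheory

variable {G : Type*} [Group G]

section
open Matrix
open scoped Matrix.Norms.Frobenius

variable {n : ℕ}

theorem nm_sq (X : Matrix (Fin n) (Fin n) ℝ) : ‖X‖ ^ 2 = ∑ i, ∑ j, X i j ^ 2 := by
  rw [frobenius_norm_def, ← Real.sqrt_eq_rpow, Real.sq_sqrt (by positivity)]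
  simp

theorem nm_trace (X Y : Matrix (Fin n) (Fin n) ℝ) :
    trace (Xᵀ * Y) = ∑ i, ∑ j, X i j * Y i j := by
  simp only [trace, diag_apply, mul_apply, transpose_apply]
  exact Finset.sum_comm

theorem nm_sq_trace (X : Matrix (Fin n) (Fin n) ℝ) : ‖X‖ ^ 2 = trace (Xᵀ * X) := by
  rw [nm_sq, nm_trace]; simp [sq]

theorem nm_cs (X Y : Matrix (Fin n) (Fin n) ℝ) : trace (Xᵀ * Y) ≤ ‖X‖ * ‖Y‖ := by
  refine (abs_le_of_sq_le_sq' ?_ (by positivity)).2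
  rw [mul_pow, nm_sq, nm_sq, nm_trace, ← Finset.sum_product', ← Finset.sum_product',
    ← Finset.sum_product']
  exact Finset.sum_mul_sq_le_sq_mul_sq _ _ _

theorem nm_left {U : Matrix (Fin n) (Fin n) ℝ} (hU : Uᵀ * U = 1) (X : Matrix (Fin n) (Fin n) ℝ) :
    ‖U * X‖ = ‖X‖ := by
  refine (sq_eq_sq₀ (norm_nonneg _) (norm_nonneg _)).1 ?_
  rw [nm_sq_trace, nm_sq_trace, transpose_mul, Matrix.mul_assoc, ← Matrix.mul_assoc Uᵀ, hU,
    Matrix.one_mul]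

theorem nm_right {U : Matrix (Fin n) (Fin n) ℝ} (hU : U * Uᵀ = 1) (X : Matrix (Fin n) (Fin n) ℝ) :
    ‖X * U‖ = ‖X‖ := by
  rw [← frobenius_norm_transpose, transpose_mul, nm_left (by simpa using hU),
    frobenius_norm_transpose]

theorem nm_size (ρ : G →* Matrix (Fin n) (Fin n) ℝ) (hρ : ∀ g, (ρ g)ᵀ = ρ g⁻¹) :
    Size ρ fun g => ‖ρ g - 1‖ := by
  have hl : ∀ g X, ‖ρ g * X‖ = ‖X‖ := fun g X =>
    nm_left (by rw [hρ, ← map_mul, inv_mul_cancel, map_one]) X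
  have hr : ∀ g X, ‖X * ρ g‖ = ‖X‖ := fun g X =>
    nm_right (by rw [hρ, ← map_mul, mul_inv_cancel, map_one]) X
  have hmul : ∀ a b, ‖ρ (a * b) - 1‖ ≤ ‖ρ a - 1‖ + ‖ρ b - 1‖ := by
    intro a b
    have : ρ (a * b) - 1 = (ρ a - 1) + ρ a * (ρ b - 1) := by rw [map_mul]; noncomm_ring
    rw [this, ← hl a (ρ b - 1)]
    exact norm_add_le _ _
  have hpow : ∀ a (k : ℕ), ‖ρ (a ^ k) - 1‖ ≤ k * ‖ρ a - 1‖ := by
    intro a k
    induction k with
    | zero => simp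
    | succ k ih =>
      rw [pow_succ]
      have := hmul (a ^ k) a
      push_cast
      linarith
  refine ⟨fun g => norm_nonneg _, fun g => by rw [norm_eq_zero, sub_eq_zero], hmul, fun a => ?_,
    fun a b => ?_, fun a k => ?_, fun ε hε => ?_, fun g k hk hc => ?_⟩
  · rw [← hρ, ← frobenius_norm_transpose (ρ a - 1), transpose_sub, transpose_one]
  · have h1 : (ρ (a * b * a⁻¹ * b⁻¹) - 1) * ρ (b * a) =
        (ρ a - 1) * (ρ b - 1) - (ρ b - 1) * (ρ a - 1) := by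
      rw [sub_mul, ← map_mul, show a * b * a⁻¹ * b⁻¹ * (b * a) = a * b by group, map_mul, map_mul]
      noncomm_ring
    rw [← hr (b * a), h1]
    refine (norm_sub_le _ _).trans ?_
    have h2 := frobenius_norm_mul (ρ a - 1) (ρ b - 1)
    have h3 := frobenius_norm_mul (ρ b - 1) (ρ a - 1)
    linarith
  · have h1 : ‖ρ (a ^ k) - 1 - (k : ℝ) • (ρ a - 1)‖ ≤ (k * ‖ρ a - 1‖) ^ 2 := by
      induction k with
      | zero => simp
      | succ k ih =>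
        have h2 : ρ (a ^ (k + 1)) - 1 - ((k + 1 : ℕ) : ℝ) • (ρ a - 1) =
            (ρ (a ^ k) - 1 - (k : ℝ) • (ρ a - 1)) + (ρ (a ^ k) - 1) * (ρ a - 1) := by
          rw [pow_succ, map_mul, Nat.cast_succ, add_smul, one_smul]
          noncomm_ring
        rw [h2]
        refine (norm_add_le _ _).trans ?_
        have h3 := frobenius_norm_mul (ρ (a ^ k) - 1) (ρ a - 1)
        have h4 := mul_le_mul_of_nonneg_right (hpow a k) (norm_nonneg (ρ a - 1))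
        have h5 : (0 : ℝ) ≤ k * (‖ρ a - 1‖ * ‖ρ a - 1‖) := by positivity
        have h6 : (0 : ℝ) ≤ ‖ρ a - 1‖ * ‖ρ a - 1‖ := by positivity
        push_cast
        nlinarith
    have h2 := norm_sub_norm_le ((k : ℝ) • (ρ a - 1)) (ρ (a ^ k) - 1)
    rw [norm_smul, Real.norm_natCast, norm_sub_rev ((k : ℝ) • (ρ a - 1))] at h2
    linarith
  · have hb : Bornology.IsBounded (Set.range ρ) := by
      refine isBounded_iff_forall_norm_le.2 ⟨‖(1 : Matrix (Fin n) (Fin n) ℝ)‖, ?_⟩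
      rintro _ ⟨g, rfl⟩
      rw [← hl g 1, mul_one]
    have htb : TotallyBounded (Set.range ρ) :=
      (Metric.isCompact_of_isClosed_isBounded isClosed_closure hb.closure).totallyBounded.subset
        subset_closure
    obtain ⟨t, ht, htf, hcov⟩ := Metric.finite_approx_of_totallyBounded htb ε hε
    have ht' : ∀ y ∈ t, ∃ g, ρ g = y := fun y hy => ht hy
    choose! c hc using ht'
    refine ⟨(htf.image c).toFinset, fun g => ?_⟩
    obtain ⟨y, hy, hgy⟩ := Set.mem_iUnion₂.1 (hcov ⟨g, rfl⟩)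
    refine ⟨c y, by simpa using ⟨y, hy, rfl⟩, ?_⟩
    rw [← hl (c y), mul_sub, ← map_mul, mul_inv_cancel_left, mul_one, hc y hy, ← dist_eq_norm]
    exact (Metric.mem_ball.1 hgy).le
  · obtain ⟨h, hh⟩ : ∃ h, h = g * k * g⁻¹ * k⁻¹ := ⟨_, rfl⟩
    rw [← hh] at hc ⊢
    obtain ⟨X, hX⟩ : ∃ X, X = ρ h - 1 := ⟨_, rfl⟩
    have hXt : Xᵀ = ρ h⁻¹ - 1 := by rw [hX, transpose_sub, hρ, transpose_one]
    have hc' : ρ g * ρ h⁻¹ = ρ h⁻¹ * ρ g := by
      have e1 : ρ h⁻¹ * ρ h = 1 := by rw [← map_mul, inv_mul_cancel, map_one]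
      have e2 : ρ h * ρ h⁻¹ = 1 := by rw [← map_mul, mul_inv_cancel, map_one]
      calc ρ g * ρ h⁻¹ = (ρ h⁻¹ * ρ h) * ρ g * ρ h⁻¹ := by rw [e1, one_mul]
        _ = ρ h⁻¹ * (ρ h * ρ g) * ρ h⁻¹ := by simp only [mul_assoc]
        _ = ρ h⁻¹ * (ρ g * ρ h) * ρ h⁻¹ := by rw [hc.eq]
        _ = ρ h⁻¹ * ρ g * (ρ h * ρ h⁻¹) := by simp only [mul_assoc]
        _ = ρ h⁻¹ * ρ g := by rw [e2, mul_one]
    have hgX : ρ g * Xᵀ = Xᵀ * ρ g := by rw [hXt, mul_sub, sub_mul, hc', mul_one, one_mul]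
    have e1 : ρ g⁻¹ * ρ g = 1 := by rw [← map_mul, inv_mul_cancel, map_one]
    have e2 : ρ g * ρ k * ρ g⁻¹ = ρ h * ρ k := by
      rw [← map_mul, ← map_mul, ← map_mul, hh]; congr 1; group
    have h1 : trace (Xᵀ * ρ k) = trace (Xᵀ * (ρ h * ρ k)) := by
      calc trace (Xᵀ * ρ k) = trace (ρ g⁻¹ * (ρ g * Xᵀ * ρ k)) := by
            rw [mul_assoc (ρ g), ← mul_assoc (ρ g⁻¹), e1, one_mul]
        _ = trace (ρ g * Xᵀ * ρ k * ρ g⁻¹) := trace_mul_comm _ _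
        _ = trace (Xᵀ * (ρ h * ρ k)) := by rw [hgX, ← e2]; simp only [mul_assoc]
    have h2 : trace (Xᵀ * (X * (1 - ρ k))) = ‖X‖ ^ 2 := by
      have : X * (1 - ρ k) = X - (ρ h * ρ k - ρ k) := by rw [hX]; noncomm_ring
      rw [this, mul_sub, mul_sub, trace_sub, trace_sub, ← h1, sub_self, sub_zero, nm_sq_trace]
    have h3 := nm_cs X (X * (1 - ρ k))
    have h4 := frobenius_norm_mul X (1 - ρ k)
    rw [norm_sub_rev] at h4
    have h5 : ‖X‖ = 0 := by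
      by_contra h0
      have hp : 0 < ‖X‖ := lt_of_le_of_ne (norm_nonneg _) (Ne.symm h0)
      have h6 := mul_le_mul_of_nonneg_left h4 hp.le
      have h7 : 0 < ‖X‖ * ‖X‖ := mul_pos hp hp
      have hk' : ‖ρ k - 1‖ < 1 := hk
      nlinarith
    rwa [norm_eq_zero, hX, sub_eq_zero] at h5

end

open Matrix in
/-- Take `ν g = ‖ρ g - 1‖` for the Frobenius norm (`open scoped Matrix.Norms.Frobenius`,
`Matrix.frobenius_norm_mul`, `Matrix.frobenius_norm_transpose`; `‖X‖ ^ 2 = trace (Xᵀ * X)`, so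
`‖ρ g * X‖ = ‖X‖ = ‖X * ρ g‖`).
`mul_le`: `A B - 1 = A (B - 1) + (A - 1)`.  `comm_le`: `A B A⁻¹ B⁻¹ - 1 = (A B - B A) A⁻¹ B⁻¹`,
`A B - B A = (A - 1) (B - 1) - (B - 1) (A - 1)`.  `pow_ge`: by induction
`‖A ^ k - 1 - k • (A - 1)‖ ≤ (k ν) ^ 2`, as the increment is `(A ^ k - 1) (A - 1)` and
`‖A ^ k - 1‖ ≤ k ν`.  `net`: the range of `ρ` is bounded in a finite-dimensional space, hence
totally bounded; use `Metric.finite_approx_of_totallyBounded` (centres in the set) and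
`‖ρ (f⁻¹ g) - 1‖ = ‖ρ g - ρ f‖`.  `central`: let `A = ρ g`, `Kk = ρ k`, `Hh = ρ (g k g⁻¹ k⁻¹)`,
`X = Hh - 1`.  `A Kk A⁻¹ = Hh Kk` and `A` commutes with `Xᵀ = Hh⁻¹ - 1`, so
`trace (Xᵀ Kk) = trace (A Xᵀ Kk A⁻¹) = trace (Xᵀ Hh Kk)`, i.e. `trace (Xᵀ X Kk) = 0`.  Hence
`‖X‖ ^ 2 = trace (Xᵀ (X (1 - Kk))) ≤ ‖X‖ ‖X (1 - Kk)‖ ≤ ‖X‖ ^ 2 ν k` (Cauchy–Schwarz), so
`X = 0`. -/
theorem exists_size {n : ℕ} (ρ : G →* Matrix (Fin n) (Fin n) ℝ) (hρ : ∀ g, (ρ g)ᵀ = ρ g⁻¹) :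
    ∃ ν : G → ℝ, Size ρ ν :=
  ⟨_, nm_size ρ hρ⟩

end Crest.Agent.R182.Gro
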