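import Crest.Agent.R182.GroBasic

/-!
# R182, Gromov's theorem: small elements commute
-/

set_option autoImplicit false

namespace Crest.Agent.R182.Gro

open Pointwise Filter Topology Crest.GroupTheory

variable {G : Type*} [Group G]

/-- the chain of commutators -/
def shH (g k : G) : ℕ → G
  | 0 => k
  | i + 1 => g * shH g k i * g⁻¹ * (shH g k i)⁻¹

/-- the words -/
def shW (g k : G) : ℕ → List ℕ → G
  | _, [] => 1
  | i, a :: l => shH g k i ^ a * shW g k (i + 1) l

theorem sh_one {M : Type*} [Monoid M] {ρ : G →* M} {ν : G → ℝ} (hν : Size ρ ν) : ν 1 = 0 :=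
  (hν.eq_zero 1).2 (map_one ρ)

theorem sh_pow_le {M : Type*} [Monoid M] {ρ : G →* M} {ν : G → ℝ} (hν : Size ρ ν) (a : G)
    (n : ℕ) : ν (a ^ n) ≤ n * ν a := by
  induction n with
  | zero => simp [sh_one hν]
  | succ n ih =>
    rw [pow_succ]
    have := hν.mul_le (a ^ n) a
    push_cast
    linarith

theorem sh_commute_of {M : Type*} [Monoid M] (ρ : G →* M) {g k : G}
    (h : ρ (g * k * g⁻¹ * k⁻¹) = 1) : Commute (ρ g) (ρ k) := by
  have e : g * k = g * k * g⁻¹ * k⁻¹ * (k * g) := by group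
  change ρ g * ρ k = ρ k * ρ g
  rw [← map_mul, e, map_mul, h, one_mul, map_mul]

theorem shH_mem (g k : G) {T : Set G} (hg : g ∈ T) (hg' : g⁻¹ ∈ T) (hk : k ∈ T) (hk' : k⁻¹ ∈ T)
    (i : ℕ) : ∃ n, n + 2 = 3 * 2 ^ i ∧ shH g k i ∈ T ^ n ∧ (shH g k i)⁻¹ ∈ T ^ n := by
  induction i with
  | zero => exact ⟨1, by norm_num, by simpa [shH] using hk, by simpa [shH] using hk'⟩
  | succ i ih =>
    obtain ⟨n, h1, h2, h3⟩ := ih
    refine ⟨1 + n + 1 + n, by rw [pow_succ]; omega, ?_, ?_⟩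
    · rw [pow_add, pow_add, pow_add, pow_one]
      exact Set.mul_mem_mul (Set.mul_mem_mul (Set.mul_mem_mul hg h2) hg') h3
    · have e : (shH g k (i + 1))⁻¹ = shH g k i * g * (shH g k i)⁻¹ * g⁻¹ := by
        rw [shH]; group
      rw [e, show 1 + n + 1 + n = n + 1 + n + 1 by omega, pow_add, pow_add, pow_add, pow_one]
      exact Set.mul_mem_mul (Set.mul_mem_mul (Set.mul_mem_mul h2 hg) h3) hg'

theorem shW_mem (g k : G) {T : Set G} (h1 : (1 : G) ∈ T) (hg : g ∈ T) (hg' : g⁻¹ ∈ T)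
    (hk : k ∈ T) (hk' : k⁻¹ ∈ T) (K : ℕ) (l : List ℕ) (hl : ∀ a ∈ l, a < K) (i N : ℕ)
    (hN : 3 * K * 2 ^ (i + l.length) ≤ N + 3 * K * 2 ^ i) : shW g k i l ∈ T ^ N := by
  induction l generalizing i N with
  | nil => exact Set.one_mem_pow h1
  | cons a l ih =>
    obtain ⟨n, e1, e2, -⟩ := shH_mem g k hg hg' hk hk' i
    have ha : a < K := hl a (by simp)
    have hp : 2 ^ (i + 1) ≤ 2 ^ (i + 1 + l.length) := Nat.pow_le_pow_right (by norm_num) (by omega)
    have hN' : 3 * K * 2 ^ (i + 1 + l.length) ≤ N + 3 * K * 2 ^ i := by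
      rwa [List.length_cons, show i + (l.length + 1) = i + 1 + l.length by omega] at hN
    have hp' : 3 * K * 2 ^ (i + 1) ≤ 3 * K * 2 ^ (i + 1 + l.length) := Nat.mul_le_mul_left _ hp
    have e3 : 3 * K * 2 ^ (i + 1) = 3 * K * 2 ^ i + 3 * K * 2 ^ i := by rw [pow_succ]; ring
    obtain ⟨N', rfl⟩ : ∃ N', N = 3 * K * 2 ^ i + N' := ⟨N - 3 * K * 2 ^ i, by omega⟩
    rw [shW, pow_add]
    refine Set.mul_mem_mul ?_ (ih (fun b hb => hl b (List.mem_cons_of_mem _ hb)) (i + 1) N'
      (by omega))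
    have e4 : shH g k i ^ a ∈ T ^ (n * a) := by
      rw [pow_mul]; exact Set.pow_mem_pow e2
    refine Set.pow_subset_pow_right h1 ?_ e4
    calc n * a ≤ (3 * 2 ^ i) * K := Nat.mul_le_mul (by omega) ha.le
      _ = 3 * K * 2 ^ i := by ring

/-- Let `K = 2 ^ (D + 1)`, `ε = 1 / (20 K)`.  Suppose `ν g, ν k ≤ ε` and `ρ g`, `ρ k` do not
commute.  Put `h 0 = k`, `h (i + 1) = g * h i * g⁻¹ * (h i)⁻¹`, `δ i = ν (h i)`.  Inductively
`δ i ≤ ε`, `δ (i + 1) ≤ 2 ε δ i` and `ρ g` does not commute with `ρ (h i)` (if `ρ g` commutes with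
`ρ (h (i + 1))` then `ρ (h (i + 1)) = 1` by `central`, i.e. `ρ g` commutes with `ρ (h i)`); in
particular `δ i > 0`.  For lists `l` of naturals `< K` let `W i [] = 1`,
`W i (a :: l) = h i ^ a * W (i + 1) l`.  Then `ν (W i l) ≤ 2 K δ i`, and `W i` is injective on
lists of a fixed length: if `a < b` and `h i ^ a * w = h i ^ b * w'` then
`h i ^ (b - a) = w * w'⁻¹` has `ν ≤ 4 K δ (i + 1) ≤ 0.4 δ i`, against `pow_ge`
(`≥ (b - a) δ i (1 - K ε) ≥ 0.95 δ i`).  With `T = {1, g, g⁻¹, k, k⁻¹}`: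
`h i, (h i)⁻¹ ∈ T ^ (3 * 2 ^ i - 2)`, so `W 0 l ∈ T ^ (3 K 2 ^ m)` for `l` of length `m`, and
`K ^ m ≤ C (3 K 2 ^ m + 1) ^ D ≤ C (4 K) ^ D 2 ^ (m D)`, i.e. `2 ^ m ≤ C (4 K) ^ D` for all `m`
(`PG.card_le_of_inj` with `ι = Fin m → Fin K`, `List.ofFn`), absurd. -/
theorem small_commute {D : ℕ} (h : PG G D) {M : Type*} [Monoid M] (ρ : G →* M) (ν : G → ℝ)
    (hν : Size ρ ν) :
    ∃ ε : ℝ, 0 < ε ∧ ∀ g k, ν g ≤ ε → ν k ≤ ε → Commute (ρ g) (ρ k) := by
  classical
  set K : ℕ := 2 ^ (D + 1) with hK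
  have hK1 : (1 : ℝ) ≤ K := by exact_mod_cast Nat.one_le_two_pow
  set ε : ℝ := 1 / (20 * K) with hε
  have hε0 : 0 < ε := by positivity
  have hKε : K * ε = 1 / 20 := by rw [hε]; field_simp
  have hε1 : ε ≤ 1 / 20 := by nlinarith
  refine ⟨ε, hε0, fun g k hg hk => ?_⟩
  by_contra hc
  have step : ∀ i, ν (shH g k (i + 1)) ≤ 2 * ε * ν (shH g k i) := by
    intro i
    refine (hν.comm_le g _).trans ?_
    have := hν.nonneg (shH g k i)
    gcongr
  have small : ∀ i, ν (shH g k i) ≤ ε := by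
    intro i
    induction i with
    | zero => exact hk
    | succ i ih =>
      have := step i
      have := hν.nonneg (shH g k i)
      nlinarith
  have nc : ∀ i, ¬ Commute (ρ g) (ρ (shH g k i)) := by
    intro i
    induction i with
    | zero => exact hc
    | succ i ih =>
      intro hh
      exact ih (sh_commute_of ρ (hν.central g _ (by linarith [small i]) hh))
  have pos : ∀ i, 0 < ν (shH g k i) := by
    intro i
    refine lt_of_le_of_ne (hν.nonneg _) fun e => nc i ?_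
    rw [(hν.eq_zero _).1 e.symm]
    exact Commute.one_right _
  have wle : ∀ l : List ℕ, (∀ a ∈ l, a < K) → ∀ i, ν (shW g k i l) ≤ 2 * K * ν (shH g k i) := by
    intro l
    induction l with
    | nil =>
      intro _ i
      rw [shW, sh_one hν]
      have := pos i
      positivity
    | cons a l ih =>
      intro hl i
      have h1 := ih (fun b hb => hl b (List.mem_cons_of_mem _ hb)) (i + 1)
      have h2 := hν.mul_le (shH g k i ^ a) (shW g k (i + 1) l)
      have h3 := sh_pow_le hν (shH g k i) a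
      have h4 : (a : ℝ) ≤ K := by exact_mod_cast (hl a (by simp)).le
      have h5 := step i
      have h6 := pos i
      have h7 : 2 * K * ν (shH g k (i + 1)) ≤ 2 * K * (2 * ε * ν (shH g k i)) := by gcongr
      have h8 : 2 * K * (2 * ε * ν (shH g k i)) = 1 / 5 * ν (shH g k i) := by
        rw [show 2 * K * (2 * ε * ν (shH g k i)) = 4 * (K * ε) * ν (shH g k i) by ring, hKε]; ring
      have h9 : a * ν (shH g k i) ≤ K * ν (shH g k i) := by gcongr
      have h10 : ν (shH g k i) ≤ K * ν (shH g k i) := le_mul_of_one_le_left h6.le hK1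
      rw [shW]
      linarith
  have lt_case : ∀ (i a b : ℕ) (l l' : List ℕ), (∀ c ∈ l, c < K) → (∀ c ∈ l', c < K) → b < K →
      a < b → shW g k i (a :: l) ≠ shW g k i (b :: l') := by
    intro i a b l l' hl hl' hb hab he
    obtain ⟨c, rfl⟩ : ∃ c, b = a + (c + 1) := ⟨b - a - 1, by omega⟩
    rw [shW, shW, pow_add, mul_assoc, mul_right_inj] at he
    have e : shH g k i ^ (c + 1) = shW g k (i + 1) l * (shW g k (i + 1) l')⁻¹ := by
      rw [he]; group
    have h1 := hν.pow_ge (shH g k i) (c + 1)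
    have h2 := hν.mul_le (shW g k (i + 1) l) (shW g k (i + 1) l')⁻¹
    rw [hν.inv, ← e] at h2
    have h3 := wle l hl (i + 1)
    have h4 := wle l' hl' (i + 1)
    have h5 := step i
    have h6 := pos i
    have h7 : 2 * K * ν (shH g k (i + 1)) ≤ 2 * K * (2 * ε * ν (shH g k i)) := by gcongr
    have h8 : 2 * K * (2 * ε * ν (shH g k i)) = 1 / 5 * ν (shH g k i) := by
      rw [show 2 * K * (2 * ε * ν (shH g k i)) = 4 * (K * ε) * ν (shH g k i) by ring, hKε]; ring
    have h9 : ((c + 1 : ℕ) : ℝ) ≤ K := by exact_mod_cast (by omega : c + 1 ≤ K)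
    have h10 : (1 : ℝ) ≤ ((c + 1 : ℕ) : ℝ) := by exact_mod_cast (by omega : 1 ≤ c + 1)
    have h11 : ((c + 1 : ℕ) : ℝ) * ν (shH g k i) ≤ 1 / 20 := by
      rw [← hKε]
      have := small i
      gcongr
    have h12 : ν (shH g k i) ≤ ((c + 1 : ℕ) : ℝ) * ν (shH g k i) := le_mul_of_one_le_left h6.le h10
    generalize ((c + 1 : ℕ) : ℝ) * ν (shH g k i) = x at h1 h11 h12
    nlinarith
  have inj : ∀ (l l' : List ℕ), (∀ c ∈ l, c < K) → (∀ c ∈ l', c < K) → l.length = l'.length →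
      ∀ i, shW g k i l = shW g k i l' → l = l' := by
    intro l
    induction l with
    | nil => intro l' _ _ hlen _ _; exact (List.length_eq_zero_iff.1 hlen.symm).symm
    | cons a l ih =>
      intro l' hl hl' hlen i he
      cases l' with
      | nil => simp at hlen
      | cons b l' =>
        have t1 : ∀ c ∈ l, c < K := fun c hc => hl c (List.mem_cons_of_mem _ hc)
        have t2 : ∀ c ∈ l', c < K := fun c hc => hl' c (List.mem_cons_of_mem _ hc)
        rcases lt_trichotomy a b with hab | rfl | hab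
        · exact absurd he (lt_case i a b l l' t1 t2 (hl' b (by simp)) hab)
        · rw [shW, shW, mul_right_inj] at he
          rw [ih l' t1 t2 (by simpa using hlen) (i + 1) he]
        · exact absurd he.symm (lt_case i b a l' l t2 t1 (hl a (by simp)) hab)
  obtain ⟨C, hC1, hC⟩ := h.card_le_of_inj {1, g, g⁻¹, k, k⁻¹}
  have bound : ∀ m : ℕ, (2 : ℝ) ^ m ≤ C * (4 * K) ^ D := by
    intro m
    have hlt : ∀ (f : Fin m → Fin K), ∀ c ∈ List.ofFn (fun j => (f j : ℕ)), c < K := by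
      intro f c hc
      obtain ⟨j, rfl⟩ := List.mem_ofFn.1 hc
      exact (f j).2
    have h1 := hC (3 * K * 2 ^ m) (Fin m → Fin K)
      (fun f => shW g k 0 (List.ofFn fun j => (f j : ℕ))) (by
        intro f f' he
        have := inj _ _ (hlt f) (hlt f') (by simp) 0 he
        funext j
        exact Fin.ext (congrFun (List.ofFn_injective this) j)) (by
        intro f
        refine shW_mem g k (by simp) (by simp) (by simp) (by simp) (by simp) K _ (hlt f) 0 _ ?_
        simp)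
    rw [Fintype.card_fun, Fintype.card_fin, Fintype.card_fin] at h1
    push_cast at h1
    have h2 : (1 : ℝ) ≤ 2 ^ m := one_le_pow₀ (by norm_num)
    have h3 : (3 * K * 2 ^ m + 1 : ℝ) ≤ 4 * K * 2 ^ m := by nlinarith
    have h4 : (3 * K * 2 ^ m + 1 : ℝ) ^ D ≤ (4 * K * 2 ^ m) ^ D := by gcongr
    have h5 : (K : ℝ) ^ m = 2 ^ m * (2 ^ m) ^ D := by
      rw [hK]; push_cast
      rw [← pow_mul, ← pow_mul, ← pow_add]; congr 1; ring
    have h6 : (2 : ℝ) ^ m * (2 ^ m) ^ D ≤ C * (4 * K) ^ D * (2 ^ m) ^ D := by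
      rw [← h5, mul_assoc, ← mul_pow]
      exact h1.trans (by gcongr)
    exact le_of_mul_le_mul_right h6 (by positivity)
  obtain ⟨m, hm⟩ := pow_unbounded_of_one_lt (C * (4 * K) ^ D) (by norm_num : (1 : ℝ) < 2)
  exact absurd (bound m) (not_le.2 hm)

/-- `H = closure {g | ν g ≤ ε}`; finite index by `net` (`F → G ⧸ H` is onto); commutation by
`Subgroup.closure_induction₂` (`Commute (ρ a) y → Commute (ρ a⁻¹) y`: use `ρ.toHomUnits` or
multiply by `ρ a`). -/
theorem exists_abelian {D : ℕ} (h : PG G D) {M : Type*} [Monoid M] (ρ : G →* M) (ν : G → ℝ)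
    (hν : Size ρ ν) :
    ∃ H : Subgroup G, H.FiniteIndex ∧ ∀ a ∈ H, ∀ b ∈ H, Commute (ρ a) (ρ b) := by
  obtain ⟨ε, hε, hc⟩ := small_commute h ρ ν hν
  obtain ⟨F, hF⟩ := hν.net ε hε
  have cinv : ∀ (a : G) (y : M), Commute (ρ a) y → Commute (ρ a⁻¹) y := by
    intro a y hy
    have e1 : ρ a⁻¹ * ρ a = 1 := by rw [← map_mul, inv_mul_cancel, map_one]
    have e2 : ρ a * ρ a⁻¹ = 1 := by rw [← map_mul, mul_inv_cancel, map_one]
    change ρ a⁻¹ * y = y * ρ a⁻¹
    calc ρ a⁻¹ * y = ρ a⁻¹ * (y * ρ a) * ρ a⁻¹ := by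
          rw [mul_assoc, mul_assoc, e2, mul_one]
      _ = ρ a⁻¹ * (ρ a * y) * ρ a⁻¹ := by rw [hy.eq]
      _ = y * ρ a⁻¹ := by rw [← mul_assoc, e1, one_mul]
  refine ⟨Subgroup.closure {g | ν g ≤ ε}, ?_, ?_⟩
  · have : Finite (G ⧸ Subgroup.closure {g | ν g ≤ ε}) := by
      refine Finite.of_surjective (fun f : F => (QuotientGroup.mk (f : G) :
        G ⧸ Subgroup.closure {g | ν g ≤ ε})) ?_
      intro q
      obtain ⟨g, rfl⟩ := QuotientGroup.mk_surjective q
      obtain ⟨f, hf, hfg⟩ := hF g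
      exact ⟨⟨f, hf⟩, QuotientGroup.eq.2 (Subgroup.subset_closure hfg)⟩
    exact Subgroup.finiteIndex_of_finite_quotient
  · have k1 : ∀ b, ν b ≤ ε → ∀ a ∈ Subgroup.closure {g | ν g ≤ ε}, Commute (ρ a) (ρ b) := by
      intro b hb a ha
      induction ha using Subgroup.closure_induction with
      | mem x hx => exact hc x b hx hb
      | one => rw [map_one]; exact Commute.one_left _
      | mul x y _ _ hx hy => rw [map_mul]; exact hx.mul_left hy
      | inv x _ hx => exact cinv x _ hx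
    intro a ha b hb
    induction hb using Subgroup.closure_induction with
    | mem x hx => exact k1 x hx a ha
    | one => rw [map_one]; exact Commute.one_right _
    | mul x y _ _ hx hy => rw [map_mul]; exact hx.mul_right hy
    | inv x _ hx => exact (cinv x _ hx.symm).symm

end Crest.Agent.R182.Gro
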