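import Crest.Agent.R182.GroExist
import Crest.Agent.R182.GroKleiner
import Crest.Agent.R182.GroNorm
import Crest.Agent.R182.GroShalom

/-!
# R182, Gromov's theorem: virtual indicability
-/

set_option autoImplicit false

namespace Crest.Agent.R182.Gro

open Pointwise Filter Topology Crest.GroupTheory

variable {G : Type*} [Group G]

/-- `A = Additive (Abelianization H)` is a finitely generated abelian group, infinite since
`ψ.toHomUnits` kills the commutator subgroup and has infinite range.  So `A` is not torsion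
(`AddCommGroup.finite_of_fg_torsion` / `Module.finite_of_fg_torsion`), `A ⧸ torsion` is a
nontrivial finite free `ℤ`-module (`Module.free_of_finite_type_torsion_free'`) and a coordinate
of a basis is a surjection onto `ℤ`. -/
theorem exists_surj_int {H : Type*} [Group H] [Group.FG H] {M : Type*} [Monoid M] (ψ : H →* M)
    (hc : ∀ a b, Commute (ψ a) (ψ b)) (hinf : (Set.range ψ).Infinite) :
    ∃ φ : H →* Multiplicative ℤ, Function.Surjective φ := by
  classical
  let A := ψ.toHomUnits.range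
  let _ : CommGroup A := { (inferInstance : Group A) with
    mul_comm := by
      rintro ⟨_, a, rfl⟩ ⟨_, b, rfl⟩
      ext
      simpa using (hc a b).eq }
  have hA : Infinite A := by
    by_contra hfin
    rw [not_infinite_iff_finite] at hfin
    refine hinf ((Set.finite_range fun a : A => ((a : Mˣ) : M)).subset ?_)
    rintro _ ⟨a, rfl⟩
    exact ⟨⟨ψ.toHomUnits a, a, rfl⟩, rfl⟩
  have hfg : Group.FG A := Group.fg_range _
  obtain ⟨ι, j, _, _, q, hq, e, ⟨E⟩⟩ := CommGroup.equiv_free_prod_prod_multiplicative_zmod A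
  rcases isEmpty_or_nonempty j with hj | ⟨⟨i⟩⟩
  · have : ∀ i, NeZero (q i ^ e i) := fun i => ⟨pow_ne_zero _ (hq i).ne_zero⟩
    have : Finite A := Finite.of_equiv _ E.symm.toEquiv
    exact (not_finite A).elim
  · refine ⟨((Pi.evalMonoidHom (fun _ : j => Multiplicative ℤ) i).comp (MonoidHom.fst _ _)).comp
      (E.toMonoidHom.comp ψ.toHomUnits.rangeRestrict), fun z => ?_⟩
    obtain ⟨a, ha⟩ := E.surjective (fun _ => z, 1)
    obtain ⟨x, rfl⟩ := ψ.toHomUnits.rangeRestrict_surjective a
    exact ⟨x, by simp [ha]⟩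

/-- Maximum principle: the set of maximum points is stable under right multiplication by `T`
(`Gen.induction` for `x ↦ u (x₀ * x) = u x₀`). -/
theorem harmonic_const_of_finite_range {T : Finset G} (hT : Gen T) {u : G → ℝ}
    (hu : P T u = u) (hfin : (Set.range u).Finite) (x y : G) : u x = u y := by
  obtain ⟨_, ⟨x₀, rfl⟩, hmax⟩ := Set.exists_max_image _ id hfin ⟨_, 1, rfl⟩
  have hle : ∀ z, u z ≤ u x₀ := fun z => hmax _ ⟨z, rfl⟩
  have key : ∀ z, u (x₀ * z) = u x₀ := by
    refine hT.induction (by rw [mul_one]) fun z s hs ih => ?_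
    have h1 := congrFun hu (x₀ * z)
    have hc := hT.card_pos
    rw [P_apply, ih, inv_mul_eq_iff_eq_mul₀ hc.ne'] at h1
    have h2 : ∑ t ∈ T, (u x₀ - u (x₀ * z * t)) = 0 := by
      rw [Finset.sum_sub_distrib, h1, Finset.sum_const, nsmul_eq_mul, sub_self]
    have h3 := (Finset.sum_eq_zero_iff_of_nonneg fun t _ => sub_nonneg.2 (hle _)).1 h2 s hs
    rw [← mul_assoc]
    linarith
  have h1 := key (x₀⁻¹ * x)
  have h2 := key (x₀⁻¹ * y)
  rw [mul_inv_cancel_left] at h1 h2
  rw [h1, h2]

/-- Take `T` (`exists_gen`), `0 ≠ u ∈ LH T`, `ρ` (`exists_rep`), `ν`, `H` (`exists_abelian`);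
finite-index subgroups are finitely generated (instance `Subgroup.fg_of_index_ne_zero`).  If
`ρ` has infinite range on `H`, use `exists_surj_int`.  Otherwise `H₁ = H ⊓ ρ.ker` (use
`ρ.toHomUnits.ker`) has finite index and `χ : H₁ →* Multiplicative ℝ`, `χ g = ofAdd (u g)` is a
homomorphism.  If `u g ≠ 0` for some `g ∈ H₁`, `χ` has infinite range (`u (g ^ n) = n * u g`), use
`exists_surj_int`.  Otherwise `u (g x) = u x` for `g ∈ H₁`, so `x ↦ u x⁻¹` factors through the
finite type `G ⧸ H₁`, `u` has finite range, so `u` is constant `= u 1 = 0`. -/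
theorem exists_indicable [Group.FG G] [Infinite G] {D : ℕ} (h : PG G D) :
    ∃ H : Subgroup G, H.FiniteIndex ∧ ∃ φ : H →* Multiplicative ℤ, Function.Surjective φ := by
  obtain ⟨T, hT⟩ := exists_gen G
  obtain ⟨u, hu, hu0⟩ := exists_LH_ne_zero h hT
  obtain ⟨n, ρ, hρ, hker⟩ := exists_rep h hT
  obtain ⟨ν, hν⟩ := exists_size ρ hρ
  obtain ⟨H, hH, hcomm⟩ := exists_abelian h ρ ν hν
  by_cases hinf : (Set.range (ρ.comp H.subtype)).Infinite
  · exact ⟨H, hH, exists_surj_int _ (fun a b => hcomm a a.2 b b.2) hinf⟩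
  rw [Set.not_infinite] at hinf
  let ψ := (ρ.comp H.subtype).toHomUnits
  have hfin : Finite ψ.range := by
    have : Finite (Set.range (ρ.comp H.subtype)) := hinf
    refine Finite.of_injective (β := Set.range (ρ.comp H.subtype))
      (fun a => ⟨(a : (Matrix (Fin n) (Fin n) ℝ)ˣ), ?_⟩) fun a b hab => ?_
    · obtain ⟨_, a, rfl⟩ := a
      exact ⟨a, rfl⟩
    · exact Subtype.ext (Units.ext (congrArg Subtype.val hab))
  have hfi : ψ.ker.FiniteIndex := Subgroup.finiteIndex_ker ψ
  let H₁ : Subgroup G := ψ.ker.map H.subtype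
  have hH₁ : H₁.FiniteIndex := ⟨by
    rw [Subgroup.index_map_subtype]
    exact mul_ne_zero hfi.index_ne_zero hH.index_ne_zero⟩
  have hadd : ∀ g ∈ H₁, ∀ x, u (g * x) = u g + u x := by
    rintro _ ⟨a, ha, rfl⟩
    exact hker _ (congrArg Units.val (MonoidHom.mem_ker.1 ha)) u hu
  let χ : H₁ →* Multiplicative ℝ := MonoidHom.mk' (fun g => Multiplicative.ofAdd (u g))
    fun a b => by rw [← ofAdd_add, ← hadd a a.2]; rfl
  by_cases hχ : ∃ g : H₁, u g ≠ 0
  · obtain ⟨g, hg⟩ := hχ
    refine ⟨H₁, hH₁, exists_surj_int χ (fun a b => Commute.all _ _) ?_⟩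
    refine Set.infinite_of_injective_forall_mem (f := fun k : ℕ => χ (g ^ k)) (fun k l hkl => ?_)
      fun k => ⟨_, rfl⟩
    simp only [map_pow] at hkl
    have := congrArg Multiplicative.toAdd hkl
    rw [toAdd_pow, toAdd_pow, nsmul_eq_mul, nsmul_eq_mul] at this
    exact_mod_cast mul_right_cancel₀ (b := (χ g).toAdd) hg this
  · push Not at hχ
    exfalso
    have hr : (Set.range u).Finite := by
      refine (Set.finite_range fun q : G ⧸ H₁ => u (q.out)⁻¹).subset ?_
      rintro _ ⟨x, rfl⟩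
      refine ⟨(x⁻¹ : G), ?_⟩
      obtain ⟨k, hk⟩ := QuotientGroup.mk_out_eq_mul H₁ x⁻¹
      simp only
      rw [hk, mul_inv_rev, inv_inv, hadd _ (H₁.inv_mem k.2)]
      have := hχ k⁻¹
      rw [Subgroup.coe_inv] at this
      rw [this, zero_add]
    exact hu0 (funext fun x => (harmonic_const_of_finite_range hT hu.2.1 hr x 1).trans hu.1)

end Crest.Agent.R182.Gro
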