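import Crest.Agent.R182.GL
import Crest.Agent.R182.GeoAd

/-! Row 182, task `R182/LL`: long lines. -/

set_option autoImplicit false

namespace Crest.Agent.R182

open scoped BigOperators
open MeasureTheory

namespace Frame

variable (F : Frame)

theorem ll_log {C : ℝ} (hC : 0 < C) (c : ℝ) :
    ∃ T₁ : ℝ, ∀ T, T₁ ≤ T → ∀ t : ℝ, 0 ≤ t → t ≤ c * T → C * Real.log (2 + t) ≤ T / 2 := by
  set δ : ℝ := 1 / (4 * C * (|c| + 1)) with hδ
  have hδ0 : 0 < δ := by positivity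
  refine ⟨max 0 (4 * (C * (2 * δ - Real.log δ))), fun T hT t ht htc => ?_⟩
  have hT0 : 0 ≤ T := (le_max_left _ _).trans hT
  have hT1 := (le_max_right _ _).trans hT
  have h1 := Real.log_le_sub_one_of_pos (mul_pos hδ0 (by linarith : 0 < 2 + t))
  rw [Real.log_mul hδ0.ne' (by linarith : (2 + t) ≠ 0)] at h1
  have h2 : t ≤ (|c| + 1) * T := htc.trans (mul_le_mul_of_nonneg_right (by linarith [le_abs_self c]) hT0)
  have h3 : C * δ * ((|c| + 1) * T) = T / 4 := by
    rw [hδ]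
    field_simp
  have h4 : C * δ * t ≤ T / 4 := h3 ▸ mul_le_mul_of_nonneg_left h2 (by positivity)
  have h5 : Real.log (2 + t) ≤ 2 * δ - Real.log δ + δ * t := by linarith
  have h6 := mul_le_mul_of_nonneg_left h5 hC.le
  nlinarith

/-- the deterministic part: add up the increments -/
theorem ll_chain {VV : Finset F.L} {f : F.G → F.G} {x : F.G} {v : F.L} (hv : v ∈ VV) {s η : ℝ}
    (hη : 0 ≤ η) (σ n : ℕ) (hσ : (σ : ℝ) ≤ s)
    (hG : ∀ (y : F.G) (t₀ : ℝ) (w w' : F.W), |t₀| ≤ σ → F.Good VV f y w s η →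
      F.Good VV f (y * F.lin v t₀) w' s η → w = w') (N : ℕ)
    (hg : ∀ i ≤ N, ∃ w, F.Good VV f (x * F.lin v (min (i * σ) n : ℕ)) w s η) {w : F.W}
    (hw : F.Good VV f x w s η) (i : ℕ) (hi : i ≤ N) :
    F.Good VV f (x * F.lin v (min (i * σ) n : ℕ)) w s η ∧ ∀ t : ℕ, t ≤ min (i * σ) n →
      ‖F.M.ht (f (x * F.lin v t)) - F.M.ht (f x) - (t : ℝ) • w.1 (F.φL v)‖ ≤ i * η := by
  induction i with
  | zero =>
    refine ⟨by simpa using hw, fun t ht => ?_⟩
    obtain rfl : t = 0 := by omega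
    simp
  | succ i ih =>
    obtain ⟨h1, h2⟩ := ih (by omega)
    set a : ℕ := min (i * σ) n with ha
    have key : ∀ t : ℕ, a ≤ t → t ≤ min ((i + 1) * σ) n → ∃ u : ℕ, u ≤ σ ∧ t = a + u := by
      intro t h3 h4
      refine ⟨t - a, ?_, by omega⟩
      rw [add_mul, one_mul] at h4
      omega
    have hlin : ∀ u : ℕ, x * F.lin v (a + u : ℕ) = x * F.lin v a * F.lin v u := fun u => by
      rw [Nat.cast_add, F.lin_add, mul_assoc]
    constructor
    · obtain ⟨w', hw'⟩ := hg (i + 1) hi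
      obtain ⟨u, hu, e⟩ := key (min ((i + 1) * σ) n) (by rw [add_mul, one_mul]; omega) le_rfl
      rw [e] at hw' ⊢
      rwa [hG _ u w w' (by rw [Nat.abs_cast]; exact_mod_cast hu) h1 (hlin u ▸ hw')]
    · intro t ht
      rw [Nat.cast_add, Nat.cast_one, add_mul, one_mul]
      by_cases hta : t ≤ a
      · linarith [h2 t hta]
      · obtain ⟨u, hu, rfl⟩ := key t (by omega) ht
        have h3 := h1 v hv u (by
          rw [Int.cast_natCast, Nat.abs_cast]
          exact le_trans (by exact_mod_cast hu) hσ)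
        rw [Int.cast_natCast, ← hlin] at h3
        refine le_trans (le_of_eq ?_) ((norm_add_le _ _).trans (add_le_add (h2 a le_rfl) h3))
        congr 1
        rw [Nat.cast_add, add_smul]
        abel

/-- Step `σ = ⌊κ θ T⌋` (`κ` from `G2`); the times `0, σ, 2σ, …` below `s`, and `s`: at most
`N = C₄ / (κ θ / 2) + 2` times `t_i`.  `rt ν (lin v t_i)` is `BInv (T / 2)` (`binv_lin`; the function
`t ↦ h j - t μ j` is affine, so `≥ T` on `[0, s]`), so by `hBT` with `ε' ≪ ε / N` all points `x lin v t_i`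
are good (`real_le_rt`); `G2` identifies the labels; add up the increments. -/
theorem LL (Δ : F.Dirs) {K θ : ℝ} (hθ : 0 < θ) (hBT : F.BTs Δ.VV K θ) (C₄ ε : ℝ) (hε : 0 < ε) :
    ∃ T₀ τ : ℝ, 0 < τ ∧ ∀ f q, F.QI K f q → ∀ T : ℝ, T₀ ≤ T → ∀ ν : Measure F.G,
      IsProbabilityMeasure ν → ∀ h, F.Adm h → F.BInv ν h τ → ∀ v ∈ Δ.VV, ∀ s : ℕ,
      (s : ℝ) ≤ C₄ * T → (∀ j, T ≤ h j) → (∀ j, T ≤ h j - s * F.μ j (F.φL v)) →
      ν.real {x | ¬∃ w, F.Good Δ.VV f x w (θ * T) (ε * T) ∧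
        F.Good Δ.VV f (x * F.lin v s) w (θ * T) (ε * T) ∧ ∀ t : ℕ, t ≤ s →
          ‖F.M.ht (f (x * F.lin v t)) - F.M.ht (f x) - (t : ℝ) • w.1 (F.φL v)‖ ≤ ε * T} ≤ ε := by
  obtain ⟨κ, C, hκ, hκ1, hC, hG2⟩ := F.G2 Δ K
  choose Cv hCv1 hCv using F.binv_lin
  set Cb : ℝ := 1 + ∑ v ∈ Δ.VV, Cv v with hCb
  have hsum : 0 ≤ ∑ v ∈ Δ.VV, Cv v := Finset.sum_nonneg fun v _ => zero_le_one.trans (hCv1 v)
  have hCb0 : 0 < Cb := by linarith
  have hCvb : ∀ v ∈ Δ.VV, Cv v ≤ Cb := fun v hv => by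
    have := Finset.single_le_sum (f := Cv) (fun v _ => zero_le_one.trans (hCv1 v)) hv
    linarith
  obtain ⟨T₁, hT₁⟩ := ll_log hCb0 C₄
  have ha : 0 < κ * θ := mul_pos hκ hθ
  set N : ℕ := ⌈2 * C₄ / (κ * θ)⌉₊ with hN
  set ε' : ℝ := min (ε / (N + 1)) (θ / (2 * C)) with hε'
  have hε'0 : 0 < ε' := lt_min (by positivity) (by positivity)
  have hε'1 : (N + 1) * ε' ≤ ε := by
    rw [← le_div_iff₀' (by positivity)]
    exact min_le_left _ _
  have hε'2 : 2 * C * ε' ≤ θ := by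
    rw [← le_div_iff₀' (by positivity)]
    exact min_le_right _ _
  obtain ⟨S₀, τ, hτ, hB⟩ := hBT ε' hε'0
  refine ⟨max (max S₀ T₁) (max (2 / (κ * θ)) (2 * C / θ)), τ, hτ,
    fun f q hq T hT ν hν h hh hb v hv s hs h1 h2 => ?_⟩
  have hT0 : S₀ ≤ T := ((le_max_left _ _).trans (le_max_left _ _)).trans hT
  have hT1 : T₁ ≤ T := ((le_max_right _ _).trans (le_max_left _ _)).trans hT
  have hT2 : 2 ≤ κ * θ * T := by
    rw [← div_le_iff₀' ha]
    exact ((le_max_left _ _).trans (le_max_right _ _)).trans hT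
  have hT3 : 2 * C ≤ θ * T := by
    rw [← div_le_iff₀' hθ]
    exact ((le_max_right _ _).trans (le_max_right _ _)).trans hT
  have hTpos : 0 < T := by
    by_contra hn
    nlinarith [mul_nonpos_of_nonneg_of_nonpos hθ.le (not_lt.1 hn)]
  set σ : ℕ := ⌊κ * θ * T⌋₊ with hσ
  have hσ1 : (σ : ℝ) ≤ κ * (θ * T) := by
    rw [← mul_assoc]
    exact Nat.floor_le (by linarith)
  have hσ2 : κ * θ * T / 2 ≤ σ := by linarith [Nat.lt_floor_add_one (κ * θ * T)]
  have hNσ : s ≤ N * σ := by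
    have h3 : 2 * C₄ ≤ κ * θ * N := by
      rw [← div_le_iff₀' ha]
      exact Nat.le_ceil _
    have h4 : (N : ℝ) * (κ * θ * T / 2) ≤ N * σ := mul_le_mul_of_nonneg_left hσ2 (Nat.cast_nonneg _)
    have h5 := mul_le_mul_of_nonneg_right h3 hTpos.le
    have h6 : (s : ℝ) ≤ N * σ := by linarith
    exact_mod_cast h6
  have hA : ∀ t : ℕ, t ≤ s →
      ν.real {x | x * F.lin v t ∈ {x | ¬∃ w, F.Good Δ.VV f x w (θ * T) (ε' * T)}} ≤ ε' := by
    intro t ht
    rw [F.real_le_rt]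
    refine hB f q hq T hT0 _ inferInstance (hCv v ν h τ hh hb t _ fun j => ?_)
    have ht' : (t : ℝ) ≤ s := by exact_mod_cast ht
    have h3 := hT₁ T hT1 t (Nat.cast_nonneg t) (ht'.trans hs)
    have h4 : Cv v * Real.log (2 + t) ≤ Cb * Real.log (2 + t) :=
      mul_le_mul_of_nonneg_right (hCvb v hv) (Real.log_nonneg (by linarith [Nat.cast_nonneg (α := ℝ) t]))
    have h5 : T ≤ h j - t * F.μ j (F.φL v) := by
      rcases le_total 0 (F.μ j (F.φL v)) with h6 | h6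
      · linarith [h2 j, mul_le_mul_of_nonneg_right ht' h6]
      · linarith [h1 j, mul_nonpos_of_nonneg_of_nonpos (Nat.cast_nonneg (α := ℝ) t) h6]
    rw [Nat.abs_cast]
    linarith
  have hεT : 0 ≤ ε' * T := by positivity
  have hle : ε' * T ≤ ε * T := by
    refine mul_le_mul_of_nonneg_right ?_ hTpos.le
    nlinarith [mul_nonneg (Nat.cast_nonneg (α := ℝ) N) hε'0.le]
  calc _ ≤ ν.real (⋃ i ∈ Finset.range (N + 1), {x | x * F.lin v (min (i * σ) s : ℕ) ∈
        {x | ¬∃ w, F.Good Δ.VV f x w (θ * T) (ε' * T)}}) := by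
        refine measureReal_mono (fun x hx => ?_) (measure_ne_top _ _)
        by_contra hn
        simp only [Set.mem_iUnion, Finset.mem_range, Set.mem_ofPred_eq, not_exists, not_forall,
          not_not] at hn
        have hg : ∀ i ≤ N, ∃ w, F.Good Δ.VV f (x * F.lin v (min (i * σ) s : ℕ)) w (θ * T) (ε' * T) :=
          fun i hi => hn i (Nat.lt_succ_of_le hi)
        obtain ⟨w, hw⟩ := hg 0 (Nat.zero_le _)
        have hw' : F.Good Δ.VV f x w (θ * T) (ε' * T) := by simpa using hw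
        obtain ⟨h3, h4⟩ := F.ll_chain hv hεT σ s
          (hσ1.trans (mul_le_of_le_one_left (by positivity) hκ1))
          (fun y t₀ w w' ht₀ => hG2 f q hq y v hv t₀ w w' _ _ hεT (by nlinarith) (ht₀.trans hσ1))
          N hg hw' N le_rfl
        rw [min_eq_right hNσ] at h3 h4
        refine hx ⟨w, hw'.mono le_rfl hle, h3.mono le_rfl hle, fun t ht => (h4 t ht).trans ?_⟩
        nlinarith
    _ ≤ ∑ i ∈ Finset.range (N + 1), ε' :=
        (measureReal_biUnion_finset_le _ _).trans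
          (Finset.sum_le_sum fun i _ => hA _ (min_le_right _ _))
    _ ≤ ε := by simpa using hε'1

end Frame

end Crest.Agent.R182
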