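import Crest.Agent.R182.BCH

/-!
Row 182, task `R182/LN`: Lie norms on subalgebras and uniform estimates for the BCH product.
All constants depend only on `N` (not on the subalgebra `S` or the norm `p`), because
`N.mul_formula` expresses `mul x y - x - y` by a fixed finite list of Lie words of `X`- and `Y`-degree
`≥ 1`; a word of degrees `(a, b)` satisfies `p (w x y) ≤ p x ^ a * p y ^ b`.
The definition `IsLN` must not change.
-/

set_option autoImplicit false

namespace Crest.Agent.R182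

open scoped BigOperators

variable {E : Type} [AddCommGroup E] [Module ℝ E]

/-- `p` is a norm on the subalgebra `S` with `p [x, y] ≤ p x * p y` -/
structure IsLN (N : NL E) (S : Submodule ℝ E) (p : E → ℝ) : Prop where
  br_mem : ∀ x ∈ S, ∀ y ∈ S, N.br x y ∈ S
  add_le : ∀ x ∈ S, ∀ y ∈ S, p (x + y) ≤ p x + p y
  smul : ∀ (c : ℝ), ∀ x ∈ S, p (c • x) = |c| * p x
  eq_zero : ∀ x ∈ S, p x = 0 → x = 0
  br_le : ∀ x ∈ S, ∀ y ∈ S, p (N.br x y) ≤ p x * p y

namespace IsLN

variable {N : NL E} {S : Submodule ℝ E} {p : E → ℝ}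

theorem zero (h : IsLN N S p) : p 0 = 0 := by
  simpa using h.smul 0 0 S.zero_mem

theorem neg (h : IsLN N S p) {x : E} (hx : x ∈ S) : p (-x) = p x := by
  simpa using h.smul (-1) x hx

theorem nonneg (h : IsLN N S p) {x : E} (hx : x ∈ S) : 0 ≤ p x := by
  have h1 := h.add_le x hx (-x) (S.neg_mem hx)
  rw [add_neg_cancel, h.zero, h.neg hx] at h1
  linarith

theorem sub_le (h : IsLN N S p) {x y : E} (hx : x ∈ S) (hy : y ∈ S) : p (x - y) ≤ p x + p y := by
  rw [sub_eq_add_neg, ← h.neg hy]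
  exact h.add_le x hx (-y) (S.neg_mem hy)

theorem sum_le (h : IsLN N S p) {ι : Type} (s : Finset ι) {x : ι → E} (hx : ∀ i ∈ s, x i ∈ S) :
    p (∑ i ∈ s, x i) ≤ ∑ i ∈ s, p (x i) := by
  classical
  induction s using Finset.induction_on with
  | empty => simp [h.zero]
  | insert a s ha ih =>
    rw [Finset.sum_insert ha, Finset.sum_insert ha]
    have h1 : ∀ i ∈ s, x i ∈ S := fun i hi => hx i (Finset.mem_insert_of_mem hi)
    have h2 := h.add_le _ (hx a (Finset.mem_insert_self _ _)) _ (S.sum_mem h1)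
    linarith [ih h1]

theorem mul_mem (h : IsLN N S p) {x y : E} (hx : x ∈ S) (hy : y ∈ S) : N.mul x y ∈ S :=
  N.mul_mem h.br_mem hx hy

theorem prod_mem (h : IsLN N S p) {l : List E} (hl : ∀ x ∈ l, x ∈ S) : N.prod l ∈ S := by
  induction l with
  | nil => exact S.zero_mem
  | cons a l ih =>
    rw [N.prod_cons]
    exact h.mul_mem (hl a List.mem_cons_self) (ih fun x hx => hl x (List.mem_cons_of_mem _ hx))

theorem Ad_mem (h : IsLN N S p) {x y : E} (hx : x ∈ S) (hy : y ∈ S) : N.Ad x y ∈ S :=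
  N.Ad_mem (fun z hz => h.br_mem x hx z hz) hy

/-- smaller balls -/
theorem div (h : IsLN N S p) {c : ℝ} (hc : 0 < c) (hc1 : c ≤ 1) :
    IsLN N S fun x => p x / c := by
  refine ⟨h.br_mem, fun x hx y hy => ?_, fun a x hx => ?_, fun x hx h0 => ?_, fun x hx y hy => ?_⟩
  · rw [← add_div]
    exact div_le_div_of_nonneg_right (h.add_le x hx y hy) hc.le
  · rw [h.smul a x hx, mul_div_assoc]
  · exact h.eq_zero x hx ((div_eq_zero_iff.1 h0).resolve_right hc.ne')
  · have h1 := h.br_le x hx y hy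
    have h2 : 0 ≤ p x * p y := mul_nonneg (h.nonneg hx) (h.nonneg hy)
    rw [div_mul_div_comm, div_le_div_iff₀ hc (mul_pos hc hc)]
    calc p (N.br x y) * (c * c) ≤ p x * p y * (c * c) :=
          mul_le_mul_of_nonneg_right h1 (mul_pos hc hc).le
      _ ≤ p x * p y * c := mul_le_mul_of_nonneg_left (by nlinarith) h2

theorem restrict (h : IsLN N S p) {S' : Submodule ℝ E} (hS : S' ≤ S)
    (hS' : ∀ x ∈ S', ∀ y ∈ S', N.br x y ∈ S') : IsLN N S' p := by
  exact ⟨hS', fun x hx y hy => h.add_le x (hS hx) y (hS hy), fun c x hx => h.smul c x (hS hx),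
    fun x hx => h.eq_zero x (hS hx), fun x hx y hy => h.br_le x (hS hx) y (hS hy)⟩

theorem ln0_eval_mem (h : IsLN N S p) {x y : E} (hx : x ∈ S) (hy : y ∈ S) (w : LW) :
    w.eval N.br x y ∈ S := by
  induction w with
  | X => exact hx
  | Y => exact hy
  | br a b iha ihb => exact h.br_mem _ iha _ ihb

theorem ln0_eval_le (h : IsLN N S p) {x y : E} (hx : x ∈ S) (hy : y ∈ S) (w : LW) :
    p (w.eval N.br x y) ≤ p x ^ w.degX * p y ^ w.degY := by
  induction w with
  | X => simp [LW.eval, LW.degX, LW.degY]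
  | Y => simp [LW.eval, LW.degX, LW.degY]
  | br a b iha ihb =>
    have ha := h.ln0_eval_mem hx hy a
    have hb := h.ln0_eval_mem hx hy b
    have h0 := h.nonneg hx
    have h1 := h.nonneg hy
    calc p ((LW.br a b).eval N.br x y) ≤ p (a.eval N.br x y) * p (b.eval N.br x y) :=
          h.br_le _ ha _ hb
      _ ≤ (p x ^ a.degX * p y ^ a.degY) * (p x ^ b.degX * p y ^ b.degY) :=
          mul_le_mul iha ihb (h.nonneg hb) (by positivity)
      _ = _ := by simp only [LW.degX, LW.degY]; ring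

/-- number of brackets -/
def ln0_d : LW → ℕ
  | .X => 0
  | .Y => 0
  | .br a b => ln0_d a + ln0_d b + 1

theorem ln0_d_add_one (w : LW) : ln0_d w + 1 = w.degX + w.degY := by
  induction w with
  | X => rfl
  | Y => rfl
  | br a b iha ihb => simp only [ln0_d, LW.degX, LW.degY]; omega

theorem ln0_eval_le' (h : IsLN N S p) {x y : E} (hx : x ∈ S) (hy : y ∈ S) {A : ℝ} (hxA : p x ≤ A)
    (hyA : p y ≤ A) (w : LW) : p (w.eval N.br x y) ≤ A ^ (ln0_d w + 1) := by
  have h0 := h.nonneg hx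
  have h1 := h.nonneg hy
  refine (h.ln0_eval_le hx hy w).trans ?_
  rw [ln0_d_add_one, pow_add]
  exact mul_le_mul (pow_le_pow_left₀ h0 hxA _) (pow_le_pow_left₀ h1 hyA _) (by positivity)
    (pow_nonneg (h0.trans hxA) _)

theorem ln0_eval_lip (h : IsLN N S p) {x y x' y' : E} (hx : x ∈ S) (hy : y ∈ S) (hx' : x' ∈ S)
    (hy' : y' ∈ S) {A : ℝ} (hxA : p x ≤ A) (hyA : p y ≤ A) (hxA' : p x' ≤ A) (hyA' : p y' ≤ A)
    (w : LW) : p (w.eval N.br x y - w.eval N.br x' y') ≤
      (ln0_d w + 1) * A ^ ln0_d w * (p (x - x') + p (y - y')) := by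
  have hA : 0 ≤ A := (h.nonneg hx).trans hxA
  have d1 := h.nonneg (S.sub_mem hx hx')
  have d2 := h.nonneg (S.sub_mem hy hy')
  induction w with
  | X => simp only [LW.eval, ln0_d]; simpa using d2
  | Y => simp only [LW.eval, ln0_d]; simpa using d1
  | br a b iha ihb =>
    have ha := h.ln0_eval_mem hx hy a
    have hb := h.ln0_eval_mem hx hy b
    have ha' := h.ln0_eval_mem hx' hy' a
    have hb' := h.ln0_eval_mem hx' hy' b
    have e1 := h.ln0_eval_le' hx hy hxA hyA a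
    have e2 := h.ln0_eval_le' hx' hy' hxA' hyA' b
    simp only [LW.eval]
    rw [N.bch2_br_sub]
    set D := p (x - x') + p (y - y') with hD
    have hD0 : 0 ≤ D := add_nonneg d1 d2
    calc _ ≤ p (N.br (a.eval N.br x y) (b.eval N.br x y - b.eval N.br x' y')) +
          p (N.br (b.eval N.br x' y') (a.eval N.br x y - a.eval N.br x' y')) :=
          h.sub_le (h.br_mem _ ha _ (S.sub_mem hb hb')) (h.br_mem _ hb' _ (S.sub_mem ha ha'))
      _ ≤ p (a.eval N.br x y) * p (b.eval N.br x y - b.eval N.br x' y') +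
          p (b.eval N.br x' y') * p (a.eval N.br x y - a.eval N.br x' y') :=
          add_le_add (h.br_le _ ha _ (S.sub_mem hb hb')) (h.br_le _ hb' _ (S.sub_mem ha ha'))
      _ ≤ A ^ (ln0_d a + 1) * ((ln0_d b + 1) * A ^ ln0_d b * D) +
          A ^ (ln0_d b + 1) * ((ln0_d a + 1) * A ^ ln0_d a * D) :=
          add_le_add (mul_le_mul e1 ihb (h.nonneg (S.sub_mem hb hb')) (by positivity))
            (mul_le_mul e2 iha (h.nonneg (S.sub_mem ha ha')) (by positivity))
      _ = _ := by simp only [ln0_d]; push_cast; ring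

theorem ln0_sum_mem (h : IsLN N S p) {x y : E} (hx : x ∈ S) (hy : y ∈ S) (l : List (ℝ × LW)) :
    (l.map fun q => q.1 • q.2.eval N.br x y).sum ∈ S := by
  induction l with
  | nil => exact S.zero_mem
  | cons a l ih =>
    rw [List.map_cons, List.sum_cons]
    exact S.add_mem (S.smul_mem _ (h.ln0_eval_mem hx hy _)) ih

end IsLN

namespace NL

variable (N : NL E)

theorem ln0_list_le (l : List (ℝ × LW)) (hl : ∀ q ∈ l, 1 ≤ q.2.degX ∧ 1 ≤ q.2.degY) :
    ∃ (C : ℝ) (e : ℕ), 1 ≤ C ∧ ∀ S p, IsLN N S p → ∀ x ∈ S, ∀ y ∈ S,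
      p (l.map fun q => q.1 • q.2.eval N.br x y).sum ≤ C * (1 + p x + p y) ^ e * (p x * p y) := by
  induction l with
  | nil =>
    refine ⟨1, 0, le_rfl, fun S p h x hx y hy => ?_⟩
    have := mul_nonneg (h.nonneg hx) (h.nonneg hy)
    simpa [h.zero] using this
  | cons a l ih =>
    obtain ⟨C, e, hC, ih⟩ := ih fun q hq => hl q (List.mem_cons_of_mem _ hq)
    obtain ⟨h1, h2⟩ := hl a List.mem_cons_self
    obtain ⟨i, hi⟩ := Nat.exists_eq_add_of_le' h1
    obtain ⟨j, hj⟩ := Nat.exists_eq_add_of_le' h2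
    refine ⟨|a.1| + C, e + (i + j), by linarith [abs_nonneg a.1], fun S p h x hx y hy => ?_⟩
    have h0 := h.nonneg hx
    have h0' := h.nonneg hy
    set B := 1 + p x + p y with hB
    have hB1 : 1 ≤ B := by linarith
    rw [List.map_cons, List.sum_cons]
    have e1 := h.add_le _ (S.smul_mem a.1 (h.ln0_eval_mem hx hy a.2)) _ (h.ln0_sum_mem hx hy l)
    rw [h.smul _ _ (h.ln0_eval_mem hx hy a.2)] at e1
    have e2 : p (a.2.eval N.br x y) ≤ B ^ (e + (i + j)) * (p x * p y) := by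
      refine (h.ln0_eval_le hx hy a.2).trans ?_
      rw [hi, hj]
      calc p x ^ (i + 1) * p y ^ (j + 1) = (p x ^ i * p y ^ j) * (p x * p y) := by ring
        _ ≤ (B ^ i * B ^ j) * (p x * p y) := by
          gcongr
          · linarith
          · linarith
        _ ≤ _ := by
          rw [← pow_add]
          exact mul_le_mul_of_nonneg_right (pow_le_pow_right₀ hB1 (by omega)) (by positivity)
    have e3 : C * B ^ e * (p x * p y) ≤ C * B ^ (e + (i + j)) * (p x * p y) := by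
      gcongr
      omega
    have e4 := mul_le_mul_of_nonneg_left e2 (abs_nonneg a.1)
    have e5 := ih S p h x hx y hy
    calc _ ≤ _ := e1
      _ ≤ |a.1| * (B ^ (e + (i + j)) * (p x * p y)) + C * B ^ (e + (i + j)) * (p x * p y) :=
          add_le_add e4 (e5.trans e3)
      _ = _ := by ring

theorem ln0_list_lip (l : List (ℝ × LW)) (hl : ∀ q ∈ l, 1 ≤ q.2.degX ∧ 1 ≤ q.2.degY) :
    ∃ (C : ℝ) (e : ℕ), 1 ≤ C ∧ ∀ S p, IsLN N S p → ∀ x ∈ S, ∀ y ∈ S, ∀ x' ∈ S,
    ∀ y' ∈ S, ∀ A : ℝ, p x ≤ A → p y ≤ A → p x' ≤ A → p y' ≤ A →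
      p ((l.map fun q => q.1 • q.2.eval N.br x y).sum -
        (l.map fun q => q.1 • q.2.eval N.br x' y').sum) ≤
        C * (1 + A) ^ e * A * (p (x - x') + p (y - y')) := by
  induction l with
  | nil =>
    refine ⟨1, 0, le_rfl, fun S p h x hx y hy x' hx' y' hy' A hxA _ _ _ => ?_⟩
    have := mul_nonneg ((h.nonneg hx).trans hxA)
      (add_nonneg (h.nonneg (S.sub_mem hx hx')) (h.nonneg (S.sub_mem hy hy')))
    simpa [h.zero] using this
  | cons a l ih =>
    obtain ⟨C, e, hC, ih⟩ := ih fun q hq => hl q (List.mem_cons_of_mem _ hq)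
    obtain ⟨h1, h2⟩ := hl a List.mem_cons_self
    have hd : 1 ≤ IsLN.ln0_d a.2 := by have := IsLN.ln0_d_add_one a.2; omega
    obtain ⟨i, hi⟩ := Nat.exists_eq_add_of_le' hd
    have hpos : 0 ≤ |a.1| * ((i : ℝ) + 2) := by positivity
    refine ⟨|a.1| * ((i : ℝ) + 2) + C, e + i, by linarith,
      fun S p h x hx y hy x' hx' y' hy' A hxA hyA hxA' hyA' => ?_⟩
    have hA : 0 ≤ A := (h.nonneg hx).trans hxA
    have d1 := h.nonneg (S.sub_mem hx hx')
    have d2 := h.nonneg (S.sub_mem hy hy')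
    set D := p (x - x') + p (y - y') with hD
    have hD0 : 0 ≤ D := add_nonneg d1 d2
    have hB1 : 1 ≤ 1 + A := by linarith
    rw [List.map_cons, List.sum_cons, List.map_cons, List.sum_cons, add_sub_add_comm, ← smul_sub]
    have m1 := S.sub_mem (h.ln0_eval_mem hx hy a.2) (h.ln0_eval_mem hx' hy' a.2)
    have e1 := h.add_le _ (S.smul_mem a.1 m1) _
      (S.sub_mem (h.ln0_sum_mem hx hy l) (h.ln0_sum_mem hx' hy' l))
    rw [h.smul _ _ m1] at e1
    have e2 : p (a.2.eval N.br x y - a.2.eval N.br x' y') ≤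
        ((i : ℝ) + 2) * (1 + A) ^ (e + i) * A * D := by
      refine (h.ln0_eval_lip hx hy hx' hy' hxA hyA hxA' hyA' a.2).trans ?_
      rw [hi]
      calc (((i + 1 : ℕ) : ℝ) + 1) * A ^ (i + 1) * D = ((i : ℝ) + 2) * A ^ i * A * D := by
            push_cast; ring
        _ ≤ ((i : ℝ) + 2) * (1 + A) ^ i * A * D := by
          gcongr
          linarith
        _ ≤ _ := by
          gcongr
          omega
    have e3 : C * (1 + A) ^ e * A * D ≤ C * (1 + A) ^ (e + i) * A * D := by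
      gcongr
      omega
    have e4 := mul_le_mul_of_nonneg_left e2 (abs_nonneg a.1)
    have e5 := ih S p h x hx y hy x' hx' y' hy' A hxA hyA hxA' hyA'
    calc _ ≤ _ := e1
      _ ≤ |a.1| * (((i : ℝ) + 2) * (1 + A) ^ (e + i) * A * D) + C * (1 + A) ^ (e + i) * A * D :=
          add_le_add e4 (e5.trans e3)
      _ = _ := by ring

theorem ln_mul_sub : ∃ (C : ℝ) (e : ℕ), 1 ≤ C ∧ ∀ S p, IsLN N S p → ∀ x ∈ S, ∀ y ∈ S,
    p (N.mul x y - x - y) ≤ C * (1 + p x + p y) ^ e * (p x * p y) := by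
  obtain ⟨l, hl, hm⟩ := N.mul_formula
  obtain ⟨C, e, hC, h⟩ := N.ln0_list_le l hl
  refine ⟨C, e, hC, fun S p hp x hx y hy => ?_⟩
  rw [hm, add_assoc, add_sub_cancel_left, add_sub_cancel_left]
  exact h S p hp x hx y hy

/-- Lipschitz bound for the nonlinear part (telescoping in each word) -/
theorem ln_mul_lip : ∃ (C : ℝ) (e : ℕ), 1 ≤ C ∧ ∀ S p, IsLN N S p → ∀ x ∈ S, ∀ y ∈ S, ∀ x' ∈ S,
    ∀ y' ∈ S, ∀ A : ℝ, p x ≤ A → p y ≤ A → p x' ≤ A → p y' ≤ A →
      p ((N.mul x y - x - y) - (N.mul x' y' - x' - y')) ≤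
        C * (1 + A) ^ e * A * (p (x - x') + p (y - y')) := by
  obtain ⟨l, hl, hm⟩ := N.mul_formula
  obtain ⟨C, e, hC, h⟩ := N.ln0_list_lip l hl
  refine ⟨C, e, hC, fun S p hp x hx y hy x' hx' y' hy' A => ?_⟩
  rw [hm, hm, add_assoc, add_sub_cancel_left, add_sub_cancel_left, add_assoc, add_sub_cancel_left,
    add_sub_cancel_left]
  exact h S p hp x hx y hy x' hx' y' hy' A

/-- `(-x) • y = (-x) • y - (-x) • x`, and similarly on the other side -/
theorem ln_neg_mul : ∃ (C : ℝ) (e : ℕ), 1 ≤ C ∧ ∀ S p, IsLN N S p → ∀ x ∈ S, ∀ y ∈ S, ∀ A : ℝ,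
    p x ≤ A → p y ≤ A → p (N.mul (-x) y) ≤ C * (1 + A) ^ e * p (y - x) ∧
      p (N.mul y (-x)) ≤ C * (1 + A) ^ e * p (y - x) := by
  obtain ⟨C, e, hC, h⟩ := N.ln_mul_lip
  refine ⟨1 + C, e + 1, by linarith, fun S p hp x hx y hy A hxA hyA => ?_⟩
  have hA : 0 ≤ A := (hp.nonneg hx).trans hxA
  have hnx : -x ∈ S := S.neg_mem hx
  have hnA : p (-x) ≤ A := by rwa [hp.neg hx]
  have hD := hp.nonneg (S.sub_mem hy hx)
  have key : ∀ z ∈ S, p z ≤ C * (1 + A) ^ e * A * p (y - x) →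
      p (y - x + z) ≤ (1 + C) * (1 + A) ^ (e + 1) * p (y - x) := by
    intro z hz hz'
    have e1 := hp.add_le _ (S.sub_mem hy hx) _ hz
    have e2 : C * (1 + A) ^ e * A * p (y - x) ≤ C * (1 + A) ^ e * (1 + A) * p (y - x) := by
      gcongr
      linarith
    have e3 : 1 * p (y - x) ≤ (1 + A) ^ (e + 1) * p (y - x) :=
      mul_le_mul_of_nonneg_right (one_le_pow₀ (by linarith)) hD
    calc _ ≤ _ := e1
      _ ≤ (1 + A) ^ (e + 1) * p (y - x) + C * (1 + A) ^ e * (1 + A) * p (y - x) :=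
          add_le_add (by linarith) (hz'.trans e2)
      _ = _ := by ring
  constructor
  · have h1 := h S p hp (-x) hnx y hy (-x) hnx x hx A hnA hyA hnA hxA
    rw [N.neg_mul', sub_self, hp.zero, zero_add] at h1
    have e : N.mul (-x) y = y - x + (N.mul (-x) y - -x - y - (0 - -x - x)) := by abel
    rw [e]
    refine key _ ?_ h1
    exact S.sub_mem (S.sub_mem (S.sub_mem (hp.mul_mem hnx hy) hnx) hy)
      (S.sub_mem (S.sub_mem S.zero_mem hnx) hx)
  · have h1 := h S p hp y hy (-x) hnx x hx (-x) hnx A hyA hnA hxA hnA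
    rw [N.mul_neg', sub_self, hp.zero, add_zero] at h1
    have e : N.mul y (-x) = y - x + (N.mul y (-x) - y - -x - (0 - x - -x)) := by abel
    rw [e]
    refine key _ ?_ h1
    exact S.sub_mem (S.sub_mem (S.sub_mem (hp.mul_mem hy hnx) hy) hnx)
      (S.sub_mem (S.sub_mem S.zero_mem hx) hnx)

/-- `Ad x` on an `ad x`-invariant subspace with a seminorm -/
theorem ln_Ad (I : Submodule ℝ E) (q : E → ℝ) (hadd : ∀ y ∈ I, ∀ z ∈ I, q (y + z) ≤ q y + q z)
    (hsmul : ∀ (c : ℝ), ∀ y ∈ I, q (c • y) = |c| * q y) (x : E) {A : ℝ} (hA : 0 ≤ A)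
    (hx : ∀ y ∈ I, N.br x y ∈ I ∧ q (N.br x y) ≤ A * q y) {y : E} (hy : y ∈ I) :
    q (N.Ad x y) ≤ (1 + A) ^ N.m * q y := by
  classical
  have q0 : q 0 = 0 := by simpa using hsmul 0 0 I.zero_mem
  have qy : 0 ≤ q y := by
    have h1 := hadd y hy (-y) (I.neg_mem hy)
    have h2 : q (-y) = q y := by simpa using hsmul (-1) y hy
    rw [add_neg_cancel, q0, h2] at h1
    linarith
  have hpow : ∀ i : ℕ, (N.br x ^ i) y ∈ I ∧ q ((N.br x ^ i) y) ≤ A ^ i * q y := by
    intro i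
    induction i with
    | zero => simpa using hy
    | succ i ih =>
      rw [pow_succ', Module.End.mul_apply]
      refine ⟨(hx _ ih.1).1, (hx _ ih.1).2.trans ?_⟩
      rw [pow_succ', mul_assoc]
      exact mul_le_mul_of_nonneg_left ih.2 hA
  have hsum : ∀ (s : Finset ℕ) (f : ℕ → E), (∀ i ∈ s, f i ∈ I) →
      q (∑ i ∈ s, f i) ≤ ∑ i ∈ s, q (f i) := by
    intro s f hf
    induction s using Finset.induction_on with
    | empty => simp [q0]
    | insert a s ha ih =>
      rw [Finset.sum_insert ha, Finset.sum_insert ha]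
      have h1 : ∀ i ∈ s, f i ∈ I := fun i hi => hf i (Finset.mem_insert_of_mem hi)
      have h2 := hadd _ (hf a (Finset.mem_insert_self _ _)) _ (I.sum_mem h1)
      linarith [ih h1]
  rw [N.Ad_apply]
  refine (hsum _ _ fun i _ => I.smul_mem _ (hpow i).1).trans ?_
  rw [add_comm 1 A, add_pow, Finset.sum_mul]
  refine Finset.sum_le_sum fun i hi => ?_
  rw [hsmul _ _ (hpow i).1, one_pow, mul_one]
  have h1 : |((i.factorial : ℝ))⁻¹| ≤ 1 := by
    rw [abs_of_nonneg (by positivity)]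
    exact inv_le_one_of_one_le₀ (by exact_mod_cast Nat.succ_le_of_lt i.factorial_pos)
  have h2 : (1 : ℝ) ≤ N.m.choose i := by
    exact_mod_cast Nat.succ_le_of_lt (Nat.choose_pos (Nat.lt_succ_iff.1 (Finset.mem_range.1 hi)))
  have h3 : 0 ≤ A ^ i * q y := by positivity
  calc _ ≤ |((i.factorial : ℝ))⁻¹| * (A ^ i * q y) :=
        mul_le_mul_of_nonneg_left (hpow i).2 (abs_nonneg _)
    _ ≤ (N.m.choose i : ℝ) * (A ^ i * q y) := mul_le_mul_of_nonneg_right (h1.trans h2) h3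
    _ = _ := by ring

/-- short products (discrete Gronwall) -/
theorem ln_prod_small : ∃ c : ℝ, 0 < c ∧ c ≤ 1 ∧ ∀ S p, IsLN N S p → ∀ l : List E,
    (∀ x ∈ l, x ∈ S) → (l.map p).sum ≤ c → p (N.prod l) ≤ 2 * (l.map p).sum := by
  obtain ⟨C, e, hC, h⟩ := N.ln_mul_sub
  have h3 : (1 : ℝ) ≤ 3 ^ e := one_le_pow₀ (by norm_num)
  have hK : 1 ≤ 2 * (C * 3 ^ e) := by nlinarith
  refine ⟨(2 * (C * 3 ^ e))⁻¹, by positivity, inv_le_one_of_one_le₀ hK, fun S p hp l => ?_⟩
  induction l with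
  | nil => intro _ _; simp [hp.zero]
  | cons x l ih =>
    intro hl hs
    have hx := hl x List.mem_cons_self
    have hl' : ∀ z ∈ l, z ∈ S := fun z hz => hl z (List.mem_cons_of_mem _ hz)
    rw [List.map_cons, List.sum_cons] at hs ⊢
    have hx0 := hp.nonneg hx
    have hP := hp.prod_mem hl'
    have hP0 := hp.nonneg hP
    have ih' := ih hl' (by linarith)
    set s := (l.map p).sum with hs_def
    set P := N.prod l with hP_def
    have hc1 := inv_le_one_of_one_le₀ hK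
    have e1 : 1 + p x + p P ≤ 3 := by linarith
    have e2 : s * (2 * (C * 3 ^ e)) ≤ 1 := by
      have : s ≤ (2 * (C * 3 ^ e))⁻¹ := by linarith
      calc _ ≤ (2 * (C * 3 ^ e))⁻¹ * (2 * (C * 3 ^ e)) :=
            mul_le_mul_of_nonneg_right this (by linarith)
        _ = 1 := inv_mul_cancel₀ (by linarith)
    have e3 : p (N.mul x P - x - P) ≤ p x := by
      refine (h S p hp x hx P hP).trans ?_
      calc C * (1 + p x + p P) ^ e * (p x * p P) ≤ C * 3 ^ e * (p x * (2 * s)) := by gcongr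
        _ = p x * (s * (2 * (C * 3 ^ e))) := by ring
        _ ≤ p x * 1 := mul_le_mul_of_nonneg_left e2 hx0
        _ = p x := mul_one _
    have e4 : N.prod (x :: l) = (x + P) + (N.mul x P - x - P) := by rw [N.prod_cons]; abel
    rw [e4]
    have e5 := hp.add_le _ (S.add_mem hx hP) _ (S.sub_mem (S.sub_mem (hp.mul_mem hx hP) hx) hP)
    have e6 := hp.add_le _ hx _ hP
    linarith

/-- products of boundedly many elements -/
theorem ln_prod_bdd (n : ℕ) : ∃ (C : ℝ) (e : ℕ), 1 ≤ C ∧ ∀ S p, IsLN N S p → ∀ l : List E,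
    l.length ≤ n → ∀ A : ℝ, 0 ≤ A → (∀ x ∈ l, x ∈ S ∧ p x ≤ A) →
      p (N.prod l) ≤ C * (1 + A) ^ e * A := by
  obtain ⟨C0, e0, hC0, h0⟩ := N.ln_mul_sub
  induction n with
  | zero =>
    refine ⟨1, 0, le_rfl, fun S p hp l hl A hA _ => ?_⟩
    rw [List.length_eq_zero_iff.1 (Nat.le_zero.1 hl)]
    simpa [hp.zero] using hA
  | succ n ih =>
    obtain ⟨C, e, hC, ih⟩ := ih
    have hK : 0 ≤ C0 * (1 + C) ^ e0 * C := by positivity
    refine ⟨1 + C + C0 * (1 + C) ^ e0 * C, (e + 1) * (e0 + 1), by linarith,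
      fun S p hp l hl A hA hlA => ?_⟩
    have hB1 : 1 ≤ 1 + A := by linarith
    cases l with
    | nil =>
      rw [N.prod_nil, hp.zero]
      positivity
    | cons x l =>
      obtain ⟨hx, hxA⟩ := hlA x List.mem_cons_self
      have hl' : ∀ z ∈ l, z ∈ S ∧ p z ≤ A := fun z hz => hlA z (List.mem_cons_of_mem _ hz)
      have hP := hp.prod_mem fun z hz => (hl' z hz).1
      have hx0 := hp.nonneg hx
      have hP0 := hp.nonneg hP
      have ih' := ih S p hp l (by simpa using hl) A hA hl'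
      set P := N.prod l with hP_def
      set T := (1 + A) ^ (e + 1) with hT
      have hT1 : 1 + A ≤ T := le_self_pow₀ hB1 (by omega)
      have hT2 : (1 + A) ^ e ≤ T := pow_le_pow_right₀ hB1 (by omega)
      have hT3 : T ≤ T ^ (e0 + 1) := le_self_pow₀ (by linarith) (by omega)
      have f1 : p P ≤ C * T := by
        refine ih'.trans ?_
        rw [hT, pow_succ, ← mul_assoc]
        gcongr
        linarith
      have f2 : 1 + p x + p P ≤ (1 + C) * T := by linarith
      have f3 : p (N.mul x P - x - P) ≤ C0 * (1 + C) ^ e0 * C * T ^ (e0 + 1) * A := by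
        refine (h0 S p hp x hx P hP).trans ?_
        calc C0 * (1 + p x + p P) ^ e0 * (p x * p P) ≤ C0 * ((1 + C) * T) ^ e0 * (A * (C * T)) := by
              gcongr
          _ = _ := by rw [mul_pow]; ring
      have f4 : p P ≤ C * T ^ (e0 + 1) * A := by
        refine ih'.trans ?_
        gcongr
        exact hT2.trans hT3
      have f5 : p x ≤ T ^ (e0 + 1) * A := by
        have : 1 * A ≤ T ^ (e0 + 1) * A := mul_le_mul_of_nonneg_right (by linarith) hA
        linarith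
      have e4 : N.prod (x :: l) = (x + P) + (N.mul x P - x - P) := by rw [N.prod_cons]; abel
      have e5 := hp.add_le _ (S.add_mem hx hP) _ (S.sub_mem (S.sub_mem (hp.mul_mem hx hP) hx) hP)
      have e6 := hp.add_le _ hx _ hP
      rw [e4, pow_mul, ← hT]
      calc _ ≤ T ^ (e0 + 1) * A + C * T ^ (e0 + 1) * A +
            C0 * (1 + C) ^ e0 * C * T ^ (e0 + 1) * A := by linarith
        _ = _ := by ring

end NL

section Normed

variable {E : Type} [NormedAddCommGroup E] [NormedSpace ℝ E] [FiniteDimensional ℝ E]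

theorem NL.ln0_norm_br (N : NL E) : ∃ C : ℝ, 1 ≤ C ∧ ∀ x y, ‖N.br x y‖ ≤ C * ‖x‖ * ‖y‖ := by
  let B : E →L[ℝ] E →L[ℝ] E := LinearMap.toContinuousLinearMap
    ((LinearMap.toContinuousLinearMap : (E →ₗ[ℝ] E) ≃ₗ[ℝ] (E →L[ℝ] E)).toLinearMap ∘ₗ N.br)
  refine ⟨max 1 ‖B‖, le_max_left _ _, fun x y => ?_⟩
  have h1 : ‖N.br x y‖ ≤ ‖B‖ * ‖x‖ * ‖y‖ := B.le_opNorm₂ x y
  refine h1.trans ?_
  gcongr
  exact le_max_right _ _

/-- a multiple of the ambient norm is a Lie norm -/
theorem NL.exists_isLN_norm (N : NL E) : ∃ C : ℝ, 1 ≤ C ∧ IsLN N ⊤ fun x => C * ‖x‖ := by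
  obtain ⟨C, hC, h⟩ := N.ln0_norm_br
  have hC0 : 0 < C := by linarith
  refine ⟨C, hC, fun _ _ _ _ => trivial, fun x _ y _ => ?_, fun c x _ => ?_, fun x _ h0 => ?_,
    fun x _ y _ => ?_⟩
  · rw [← mul_add]
    exact mul_le_mul_of_nonneg_left (norm_add_le x y) hC0.le
  · rw [norm_smul, Real.norm_eq_abs]; ring
  · exact norm_eq_zero.1 ((mul_eq_zero.1 h0).resolve_left hC0.ne')
  · calc C * ‖N.br x y‖ ≤ C * (C * ‖x‖ * ‖y‖) := mul_le_mul_of_nonneg_left (h x y) hC0.le
      _ = _ := by ring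

theorem IsLN.ln0_le_norm {N : NL E} {S : Submodule ℝ E} {p : E → ℝ} (h : IsLN N S p) :
    ∃ C : ℝ, 0 < C ∧ ∀ x ∈ S, p x ≤ C * ‖x‖ := by
  let b := Module.finBasis ℝ S
  let c : Fin (Module.finrank ℝ S) → S →L[ℝ] ℝ := fun i => LinearMap.toContinuousLinearMap (b.coord i)
  have hpos : 0 ≤ ∑ i, ‖c i‖ * p (b i) :=
    Finset.sum_nonneg fun i _ => mul_nonneg (c i).opNorm_nonneg (h.nonneg (b i).2)
  refine ⟨1 + ∑ i, ‖c i‖ * p (b i), by linarith, fun x hx => ?_⟩
  have e1 : x = ∑ i, b.repr ⟨x, hx⟩ i • (b i : E) := by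
    have := congrArg Subtype.val (b.sum_repr ⟨x, hx⟩)
    rw [Submodule.coe_sum] at this
    exact this.symm
  have e2 : p x ≤ ∑ i, ‖c i‖ * p (b i) * ‖x‖ := by
    conv_lhs => rw [e1]
    refine (h.sum_le _ fun i _ => S.smul_mem _ (b i).2).trans (Finset.sum_le_sum fun i _ => ?_)
    rw [h.smul _ _ (b i).2]
    have h1 : |b.repr ⟨x, hx⟩ i| ≤ ‖c i‖ * ‖x‖ := (c i).le_opNorm ⟨x, hx⟩
    calc _ ≤ ‖c i‖ * ‖x‖ * p (b i) := mul_le_mul_of_nonneg_right h1 (h.nonneg (b i).2)
      _ = _ := by ring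
  rw [← Finset.sum_mul] at e2
  nlinarith [norm_nonneg x]

theorem IsLN.continuousOn {N : NL E} {S : Submodule ℝ E} {p : E → ℝ} (h : IsLN N S p) :
    ContinuousOn p S := by
  obtain ⟨C, hC, hle⟩ := h.ln0_le_norm
  have key : ∀ x ∈ S, ∀ y ∈ S, p x - p y ≤ C * dist x y := by
    intro x hx y hy
    have h1 := h.add_le _ (S.sub_mem hx hy) _ hy
    rw [sub_add_cancel] at h1
    have h2 := hle _ (S.sub_mem hx hy)
    rw [dist_eq_norm]
    linarith
  have hl : LipschitzOnWith ⟨C, hC.le⟩ p S := by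
    refine LipschitzOnWith.of_le_add_mul _ fun x hx y hy => ?_
    have := key x hx y hy
    change p x ≤ p y + C * dist x y
    linarith
  exact hl.continuousOn

theorem IsLN.exists_norm_le {N : NL E} {S : Submodule ℝ E} {p : E → ℝ} (h : IsLN N S p) :
    ∃ C : ℝ, 0 < C ∧ ∀ x ∈ S, ‖x‖ ≤ C * p x ∧ p x ≤ C * ‖x‖ := by
  obtain ⟨C, hC, hle⟩ := h.ln0_le_norm
  have hK : IsCompact (Metric.sphere (0 : E) 1 ∩ S) :=
    (isCompact_sphere 0 1).inter_right S.closed_of_finiteDimensional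
  obtain ⟨δ, hδ, hlow⟩ : ∃ δ : ℝ, 0 < δ ∧ ∀ x ∈ Metric.sphere (0 : E) 1 ∩ S, δ ≤ p x := by
    rcases (Metric.sphere (0 : E) 1 ∩ S).eq_empty_or_nonempty with he | hne
    · exact ⟨1, one_pos, fun x hx => by rw [he] at hx; exact hx.elim⟩
    · obtain ⟨z, hz, hmin⟩ := hK.exists_isMinOn hne (h.continuousOn.mono Set.inter_subset_right)
      refine ⟨p z, lt_of_le_of_ne (h.nonneg hz.2) fun h0 => ?_, fun x hx => hmin hx⟩
      have h1 := h.eq_zero z hz.2 h0.symm
      have h2 := hz.1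
      rw [h1] at h2
      simp at h2
  refine ⟨max C δ⁻¹, lt_max_of_lt_left hC, fun x hx => ⟨?_, ?_⟩⟩
  · rcases eq_or_ne x 0 with rfl | hx0
    · simp [h.zero]
    · have hn : 0 < ‖x‖ := norm_pos_iff.2 hx0
      have h1 := hlow (‖x‖⁻¹ • x) ⟨by simp [norm_smul, hn.ne'], S.smul_mem _ hx⟩
      rw [h.smul _ _ hx, abs_of_pos (inv_pos.2 hn), ← div_eq_inv_mul, le_div_iff₀ hn] at h1
      calc ‖x‖ = δ⁻¹ * (δ * ‖x‖) := by field_simp
        _ ≤ δ⁻¹ * p x := mul_le_mul_of_nonneg_left h1 (inv_pos.2 hδ).le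
        _ ≤ _ := mul_le_mul_of_nonneg_right (le_max_right _ _) (h.nonneg hx)
  · exact (hle x hx).trans (mul_le_mul_of_nonneg_right (le_max_left _ _) (norm_nonneg _))

theorem NL.norm_mul_le (N : NL E) : ∃ (C : ℝ) (e : ℕ), 1 ≤ C ∧ ∀ x y,
    ‖N.mul x y‖ ≤ C * (1 + ‖x‖ + ‖y‖) ^ e := by
  obtain ⟨C, hC, hp⟩ := N.exists_isLN_norm
  obtain ⟨C0, e, hC0, h⟩ := N.ln_mul_sub
  have hK : 0 ≤ C0 * C ^ (e + 2) := by positivity
  refine ⟨1 + C0 * C ^ (e + 2), e + 2, by linarith, fun x y => ?_⟩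
  have h1 : C * ‖N.mul x y - x - y‖ ≤ C0 * (1 + C * ‖x‖ + C * ‖y‖) ^ e * (C * ‖x‖ * (C * ‖y‖)) :=
    h ⊤ _ hp x trivial y trivial
  have hx := norm_nonneg x
  have hy := norm_nonneg y
  set B := 1 + ‖x‖ + ‖y‖ with hB
  have hB1 : 1 ≤ B := by linarith
  have h2 : ‖N.mul x y - x - y‖ ≤ C0 * C ^ (e + 2) * B ^ (e + 2) := by
    calc _ = 1 * ‖N.mul x y - x - y‖ := (one_mul _).symm
      _ ≤ C * ‖N.mul x y - x - y‖ := mul_le_mul_of_nonneg_right hC (norm_nonneg _)
      _ ≤ _ := h1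
      _ ≤ C0 * (C * B) ^ e * (C * B * (C * B)) := by
        gcongr
        · rw [hB]; linarith
        · linarith
        · linarith
      _ = _ := by rw [mul_pow]; ring
  have h3 : ‖N.mul x y‖ ≤ ‖x‖ + ‖y‖ + ‖N.mul x y - x - y‖ := by
    have e4 : N.mul x y = (x + y) + (N.mul x y - x - y) := by abel
    conv_lhs => rw [e4]
    exact (norm_add_le _ _).trans (add_le_add_left (norm_add_le _ _) _)
  have h4 : B ≤ B ^ (e + 2) := le_self_pow₀ hB1 (by omega)
  calc _ ≤ B ^ (e + 2) + C0 * C ^ (e + 2) * B ^ (e + 2) := by linarith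
    _ = _ := by ring

theorem NL.norm_Ad_le (N : NL E) : ∃ (C : ℝ) (e : ℕ), 1 ≤ C ∧ ∀ x y,
    ‖N.Ad x y‖ ≤ C * (1 + ‖x‖) ^ e * ‖y‖ := by
  obtain ⟨C, hC, h⟩ := N.ln0_norm_br
  refine ⟨C ^ N.m, N.m, one_le_pow₀ hC, fun x y => ?_⟩
  have hx := norm_nonneg x
  have h1 := N.ln_Ad ⊤ (fun z => ‖z‖) (fun y _ z _ => norm_add_le y z)
    (fun c y _ => by rw [norm_smul, Real.norm_eq_abs]) x (A := C * ‖x‖) (by positivity)
    (fun y _ => ⟨trivial, h x y⟩) (y := y) trivial
  refine h1.trans ?_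
  rw [← mul_pow]
  gcongr
  linarith

/-- Auerbach basis: uniform coordinates for an arbitrary norm (maximise `|det|` on the compact
`p`-unit ball) -/
theorem IsLN.exists_auerbach {N : NL E} {S : Submodule ℝ E} {p : E → ℝ} (h : IsLN N S p) :
    ∃ b : Module.Basis (Fin (Module.finrank ℝ S)) ℝ S,
      (∀ i, p (b i) ≤ 1) ∧ ∀ (x : S) i, |b.repr x i| ≤ p x := by
  classical
  obtain ⟨C, hC, hle⟩ := h.exists_norm_le
  let b0 := Module.finBasis ℝ S
  have hpc : Continuous fun x : S => p x := h.continuousOn.domRestrict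
  have hB : IsCompact {x : S | p x ≤ 1} := by
    refine (isCompact_closedBall (0 : S) C).of_isClosed_subset
      (isClosed_le hpc continuous_const) fun x hx => ?_
    rw [mem_closedBall_zero_iff]
    have h1 := (hle x x.2).1
    have h2 : p x ≤ 1 := hx
    change ‖(x : E)‖ ≤ C
    nlinarith
  have hK : IsCompact (Set.pi Set.univ fun _ : Fin (Module.finrank ℝ S) => {x : S | p x ≤ 1}) :=
    isCompact_univ_pi fun _ => hB
  have hdc : Continuous fun v : Fin (Module.finrank ℝ S) → S => |b0.det v| := by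
    refine Continuous.abs ?_
    change Continuous fun v => Matrix.det (b0.toMatrix v)
    refine Continuous.matrix_det (continuous_matrix fun i j => ?_)
    exact (b0.coord i).continuous_of_finiteDimensional.comp (continuous_apply j)
  have hscale : ∀ x : S, p ((1 + p x)⁻¹ • x : S) ≤ 1 := by
    intro x
    have h0 := h.nonneg x.2
    change p ((1 + p x)⁻¹ • (x : E)) ≤ 1
    rw [h.smul _ _ x.2, abs_of_pos (by positivity), ← div_eq_inv_mul, div_le_one (by positivity)]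
    linarith
  have hmem : (fun i => (1 + p (b0 i))⁻¹ • b0 i) ∈
      Set.pi Set.univ fun _ : Fin (Module.finrank ℝ S) => {x : S | p x ≤ 1} :=
    fun i _ => hscale _
  obtain ⟨v, hv, hmax⟩ := hK.exists_isMaxOn ⟨_, hmem⟩ hdc.continuousOn
  have hpos : 0 < |b0.det v| := by
    refine lt_of_lt_of_le ?_ (hmax hmem)
    have h1 : b0.det (fun i => (1 + p (b0 i))⁻¹ • b0 i) = ∏ i, (1 + p (b0 i))⁻¹ := by
      have := b0.det.map_smul_univ (fun i => (1 + p (b0 i))⁻¹) b0
      rw [this, b0.det_self, smul_eq_mul, mul_one]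
    change 0 < |b0.det (fun i => (1 + p (b0 i))⁻¹ • b0 i)|
    rw [h1]
    refine abs_pos.2 (Finset.prod_pos fun i _ => ?_).ne'
    have := h.nonneg (b0 i).2
    positivity
  obtain ⟨hli, hsp⟩ := (b0.is_basis_iff_det (v := v)).2 (isUnit_iff_ne_zero.2 (abs_pos.1 hpos))
  refine ⟨Module.Basis.mk hli hsp.ge, fun i => ?_, fun x i => ?_⟩
  · rw [Module.Basis.mk_apply]
    exact hv i trivial
  · have hcr : ∀ z : S, b0.det v * (Module.Basis.mk hli hsp.ge).repr z i =
        b0.det (Function.update v i z) := fun z =>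
      LinearMap.congr_fun (b0.det_smul_mk_coord_eq_det_update hli hsp.ge i) z
    have hone : ∀ z : S, p z ≤ 1 → |(Module.Basis.mk hli hsp.ge).repr z i| ≤ 1 := by
      intro z hz
      have hm : Function.update v i z ∈
          Set.pi Set.univ fun _ : Fin (Module.finrank ℝ S) => {x : S | p x ≤ 1} := by
        intro j _
        rcases eq_or_ne j i with rfl | hj
        · rw [Function.update_self]; exact hz
        · rw [Function.update_of_ne hj]; exact hv j trivial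
      have h1 : |b0.det (Function.update v i z)| ≤ |b0.det v| := hmax hm
      rw [← hcr, abs_mul] at h1
      exact (mul_le_iff_le_one_right hpos).1 h1
    rcases (h.nonneg x.2).eq_or_lt with h0 | h0
    · have : x = 0 := Subtype.ext (h.eq_zero x x.2 h0.symm)
      rw [← h0, this, map_zero, Finsupp.zero_apply, abs_zero]
    · have h1 := hone ((p x)⁻¹ • x) (by
        change p ((p x)⁻¹ • (x : E)) ≤ 1
        rw [h.smul _ _ x.2, abs_of_pos (inv_pos.2 h0), inv_mul_cancel₀ h0.ne'])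
      rw [map_smul, Finsupp.smul_apply, smul_eq_mul, abs_mul, abs_of_pos (inv_pos.2 h0),
        ← div_eq_inv_mul, div_le_one h0] at h1
      exact h1

end Normed

end Crest.Agent.R182
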