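import Crest.Agent.R182.LL
import Crest.Agent.R182.CL

/-! Row 182, task `R182/MV`: moves inside a box. -/

set_option autoImplicit false

namespace Crest.Agent.R182

open scoped BigOperators
open MeasureTheory

namespace Frame

variable (F : Frame)

theorem mv_log (A B δ : ℝ) (hA : 0 ≤ A) (hδ : 0 < δ) :
    ∀ᶠ T : ℝ in Filter.atTop, ∀ s : ℝ, 0 ≤ s → s ≤ B * T → A * (Real.log (s + 2) + 1) ≤ δ * T := by
  set c : ℝ := δ / (2 * (A * |B| + 1)) with hc
  have hc0 : 0 < c := by positivity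
  filter_upwards [Filter.eventually_ge_atTop 0,
    Filter.eventually_ge_atTop (2 * (A * (2 * c - Real.log c)) / δ)] with T hT0 hT s hs hsT
  have h1 : Real.log (s + 2) ≤ c * (s + 2) - 1 - Real.log c := by
    have h2 := Real.log_le_sub_one_of_pos (x := c * (s + 2)) (by positivity)
    rw [Real.log_mul hc0.ne' (by positivity)] at h2
    linarith
  have h2 : s ≤ |B| * T := hsT.trans (mul_le_mul_of_nonneg_right (le_abs_self B) hT0)
  have h3 : A * |B| * c ≤ δ / 2 := by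
    rw [hc, mul_div_assoc', div_le_div_iff₀ (by positivity) (by positivity)]
    nlinarith [mul_nonneg hA (abs_nonneg B)]
  rw [div_le_iff₀ hδ] at hT
  have h4 : A * (c * s) ≤ δ / 2 * T :=
    calc A * (c * s) ≤ A * (c * (|B| * T)) := by gcongr
      _ = A * |B| * c * T := by ring
      _ ≤ δ / 2 * T := by gcongr
  have h5 : A * (Real.log (s + 2) + 1) ≤ A * (c * s + (2 * c - Real.log c)) := by
    refine mul_le_mul_of_nonneg_left ?_ hA
    linarith
  nlinarith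

/-- `cl_move` without the restriction `2 ≤ n` -/
theorem mv_move (K : ℝ) (v : F.L) : ∃ C : ℝ, 1 ≤ C ∧ ∀ f q, F.QI K f q → ∀ (n : ℕ) (x : F.G)
    (j : F.J) (σ E : ℝ) (Φ : ℕ → F.V) (h : F.J → ℝ), 0 ≤ E → (∀ i, 0 ≤ h i) →
    |σ| ≤ Real.exp (F.mup ((n : ℝ) • F.φL v) j) →
    (∀ t ≤ n, ‖F.M.ht (f (x * F.lin v t)) - F.M.ht (f x) - Φ t‖ ≤ E) →
    (∀ t ≤ n, ‖F.M.ht (f (x * F.root j σ * F.lin v t)) - F.M.ht (f (x * F.root j σ)) - Φ t‖ ≤ E) →
    (∀ t ≤ n, ∀ i, F.μ i (Φ t) ≤ h i) →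
      ‖F.M.ht (f (x * F.root j σ)) - F.M.ht (f x)‖ ≤ C * (E + (Real.log (n + 2) + 1)) ∧
      (f x)⁻¹ * f (x * F.root j σ) ∈
        F.PC (fun i => h i + C * (E + (Real.log (n + 2) + 1))) (C * (n + 1)) := by
  obtain ⟨C1, hC1, H1⟩ := F.cl_move K v
  obtain ⟨C2, hC2, H2⟩ := F.len_R_norm
  obtain ⟨C3, hC3, H3⟩ := F.PC_of_len
  obtain ⟨C4, hC4, H4⟩ := F.M.norm_ht_le
  obtain ⟨C5, hC5, H5⟩ := F.norm_mu_le
  set S : ℝ := C5 * ‖F.φL v‖ + ‖F.X‖ with hS
  have hS0 : 0 ≤ S := by positivity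
  set a : ℝ := |K| * (C2 * (S + 1)) + |K| with ha
  have ha0 : 0 ≤ a := by positivity
  refine ⟨C1 + (C3 + C4) * a, by nlinarith [mul_nonneg (add_nonneg (zero_le_one.trans hC3) hC4.le) ha0],
    fun f q hf n x j σ E Φ h hE h0 hσ h1 h2 h3 => ?_⟩
  have hn0 : (0 : ℝ) ≤ n := n.cast_nonneg
  have hlog : 0 ≤ Real.log (n + 2) := Real.log_nonneg (by linarith)
  have hC34 : 0 ≤ (C3 + C4) * a := by positivity
  rcases le_or_gt 2 n with hn | hn
  · obtain ⟨e1, e2⟩ := H1 f q hf n x j σ E Φ h hE hn hσ h1 h2 h3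
    have hn' : (2 : ℝ) ≤ n := by exact_mod_cast hn
    have hl : Real.log n ≤ Real.log (n + 2) := Real.log_le_log (by linarith) (by linarith)
    have hl0 : 0 ≤ Real.log n := Real.log_nonneg (by linarith)
    have key : C1 * (E + Real.log n) ≤ (C1 + (C3 + C4) * a) * (E + (Real.log (n + 2) + 1)) := by
      gcongr <;> linarith
    refine ⟨e1.trans key, F.PC_mono (fun i => by linarith) ?_ e2⟩
    gcongr <;> linarith
  · have hn1 : (n : ℝ) ≤ 1 := by exact_mod_cast Nat.lt_succ_iff.1 hn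
    have hm : F.mup ((n : ℝ) • F.φL v) j ≤ C5 * ‖F.φL v‖ := by
      refine max_le ?_ (by positivity)
      refine ((le_abs_self _).trans (H5 j _)).trans ?_
      rw [norm_smul, Real.norm_of_nonneg hn0]
      gcongr
      exact mul_le_of_le_one_left (norm_nonneg _) hn1
    have hb : ‖σ • F.X j‖ ≤ Real.exp S := by
      rw [norm_smul, hS, Real.exp_add, Real.norm_eq_abs]
      refine mul_le_mul (hσ.trans (Real.exp_le_exp.2 hm)) ?_ (norm_nonneg _) (Real.exp_pos _).le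
      have := Real.add_one_le_exp ‖F.X‖
      linarith [norm_le_pi_norm F.X j]
    have hlen : F.M.len (F.root j σ) ≤ C2 * (S + 1) := H2 S hS0 _ (F.wt_X j σ).1 hb
    have hd : F.M.len ((f x)⁻¹ * f (x * F.root j σ)) ≤ a := by
      have h4 := hf.lf x (x * F.root j σ)
      rw [F.M.dd_mul_right] at h4
      have hK : |K| = K := abs_of_nonneg (zero_le_one.trans hf.one_le)
      refine le_trans h4 ?_
      rw [ha, hK]
      have := zero_le_one.trans hf.one_le
      gcongr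
    have h1' : 1 ≤ E + (Real.log (n + 2) + 1) := by linarith
    have hC3a : 0 ≤ C3 * a := by positivity
    have hC4a : 0 ≤ C4 * a := by positivity
    have hle : C1 + (C3 + C4) * a ≤ (C1 + (C3 + C4) * a) * (E + (Real.log (n + 2) + 1)) :=
      le_mul_of_one_le_right (by linarith) h1'
    constructor
    · have h5 := H4 ((f x)⁻¹ * f (x * F.root j σ))
      rw [F.M.ht_mul, F.M.ht_inv, neg_add_eq_sub] at h5
      have h6 : C4 * F.M.len ((f x)⁻¹ * f (x * F.root j σ)) ≤ C4 * a := by gcongr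
      nlinarith
    · refine F.PC_mono (fun i => ?_) ?_ (H3 _ a hd)
      · have := h0 i
        nlinarith
      · have h7 : a ≤ C3 * a := le_mul_of_one_le_left ha0 hC3
        have h8 : C1 + (C3 + C4) * a ≤ (C1 + (C3 + C4) * a) * (n + 1) :=
          le_mul_of_one_le_right (by linarith) (by linarith)
        nlinarith

/-- the labels before and after a root move agree -/
theorem mv_lab (Δ : F.Dirs) (K : ℝ) : ∃ C : ℝ, 1 ≤ C ∧ ∀ v, ∃ C' : ℝ, 1 ≤ C' ∧ ∀ f q, F.QI K f q →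
    ∀ (n : ℕ) (x : F.G) (j : F.J) (σ : ℝ) (w w' : F.W) (s η : ℝ), C * (η + 1) ≤ s →
      C' * (Real.log (n + 2) + 1) ≤ η → |σ| ≤ Real.exp (F.mup ((n : ℝ) • F.φL v) j) →
      F.Good Δ.VV f x w s η → F.Good Δ.VV f (x * F.lin v n) w s η →
      F.Good Δ.VV f (x * F.root j σ) w' s η → F.Good Δ.VV f (x * F.root j σ * F.lin v n) w' s η →
      w = w' := by
  obtain ⟨C, hC, H⟩ := F.G3 Δ K
  refine ⟨C, hC, fun v => ?_⟩
  obtain ⟨C1, hC1, H1⟩ := F.conj_wt_lin v
  refine ⟨C1 + ‖F.X‖, by linarith [norm_nonneg F.X],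
    fun f q hf n x j σ w w' s η hs hη hσ g1 g2 g3 g4 => ?_⟩
  have hn0 : (0 : ℝ) ≤ n := n.cast_nonneg
  have hlog : 0 ≤ Real.log (n + 2) := Real.log_nonneg (by linarith)
  have hX0 := norm_nonneg F.X
  have hX : ‖F.X j‖ ≤ Real.exp ‖F.X‖ := by
    have := Real.add_one_le_exp ‖F.X‖
    linarith [norm_le_pi_norm F.X j]
  have hη1 : C1 * Real.log (n + 2) + ‖F.X‖ ≤ η := by nlinarith [mul_nonneg hX0 hlog]
  have hC1l : 0 ≤ C1 * Real.log (n + 2) := by positivity
  have hη0 : 0 ≤ η := by linarith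
  rcases le_total (F.μ j ((n : ℝ) • F.φL v)) 0 with hm | hm
  · refine H f q hf x j _ (F.wt_X j σ) w w' s η hη0 hs ?_ g1 g3
    rw [Frame.mup, max_eq_right hm, Real.exp_zero] at hσ
    rw [norm_smul, Real.norm_eq_abs]
    refine (mul_le_of_le_one_left (norm_nonneg _) hσ).trans (hX.trans (Real.exp_le_exp.2 ?_))
    linarith
  · obtain ⟨b', hb', e1, e2⟩ := H1 j _ (F.wt_X j σ) n
    refine H f q hf (x * F.lin v n) j b' hb' w w' s η hη0 hs ?_ g2 ?_
    · rw [Frame.mup, max_eq_left hm, map_smul, smul_eq_mul] at hσ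
      refine e2.trans ?_
      rw [norm_smul, Real.norm_eq_abs, abs_of_nonneg hn0, add_comm (2 : ℝ)]
      calc _ ≤ Real.exp (C1 * Real.log (n + 2) - n * F.μ j (F.φL v)) *
            (Real.exp (n * F.μ j (F.φL v)) * Real.exp ‖F.X‖) := by gcongr
        _ = Real.exp (C1 * Real.log (n + 2) + ‖F.X‖) := by
            rw [← Real.exp_add, ← Real.exp_add]; congr 1; ring
        _ ≤ Real.exp η := Real.exp_le_exp.2 hη1
    · rw [← e1]
      convert g4 using 1
      simp only [Frame.root, mul_assoc, mul_inv_cancel_left]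

/-- chaining moves -/
theorem mv_chain {Cμ D Lm : ℝ} (hμ : ∀ j u, |F.μ j u| ≤ Cμ * ‖u‖) (hCμ : 0 ≤ Cμ) (hD : 0 ≤ D)
    (f : F.G → F.G) (h : F.J → ℝ) (h0 : ∀ j, 0 ≤ h j) (Q P S : F.G → Prop)
    (step : ∀ x g, S g → Q x → P (x * g) → Q (x * g) ∧ ‖F.M.ht (f (x * g)) - F.M.ht (f x)‖ ≤ D ∧
      (f x)⁻¹ * f (x * g) ∈ F.PC (fun j => h j + D) Lm) (l : List F.G) :
    (∀ g ∈ l, S g) → ∀ x, Q x → (∀ b ≤ l.length, P (x * (l.take b).prod)) →
      Q (x * l.prod) ∧ ‖F.M.ht (f (x * l.prod)) - F.M.ht (f x)‖ ≤ l.length * D ∧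
      (f x)⁻¹ * f (x * l.prod) ∈ F.PC (fun j => h j + (Cμ * l.length + 1) * D) (l.length * Lm) := by
  induction l with
  | nil =>
    intro _ x hx _
    refine ⟨by simpa using hx, by simp, ?_⟩
    rw [List.prod_nil, mul_one, inv_mul_cancel]
    exact F.one_mem_PC (fun j => by have := h0 j; positivity) (by simp)
  | cons g l ih =>
    intro hS x hx hP
    obtain ⟨e1, e2, e3⟩ := step x g (hS g (by simp)) hx (by simpa using hP 1 (by simp))
    obtain ⟨e4, e5, e6⟩ := ih (fun g' hg' => hS g' (by simp [hg'])) (x * g) e1 fun b hb => by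
      simpa [mul_assoc] using hP (b + 1) (by simpa using hb)
    rw [List.prod_cons, ← mul_assoc, List.length_cons]
    push_cast
    have hl : (0 : ℝ) ≤ l.length := Nat.cast_nonneg _
    refine ⟨e4, ?_, ?_⟩
    · have := norm_sub_le_norm_sub_add_norm_sub (F.M.ht (f (x * g * l.prod))) (F.M.ht (f (x * g)))
        (F.M.ht (f x))
      linarith
    · have h1 : 0 ≤ Cμ * (l.length + 1) * D := by positivity
      have h2 := F.PC_trans (h := fun j => h j + (Cμ * (l.length + 1) + 1) * D)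
        (F.PC_mono (fun j => by linarith) le_rfl e3) e6 (fun j => by
          have h3 := (le_abs_self _).trans (hμ j (F.M.ht (f (x * g)) - F.M.ht (f x)))
          have h4 : Cμ * ‖F.M.ht (f (x * g)) - F.M.ht (f x)‖ ≤ Cμ * D := by gcongr
          linarith)
      refine F.PC_mono (fun j => le_rfl) (le_of_eq ?_) h2
      ring

/-- `fac_R'`: `ofE y = root₁ ⋯ root_p`, partial products `z_i` with `bx h z_i ≤ 1`, so `RInv ν z_i τ`
and most `x` have the conclusion of `LL` (tolerance `ε'`) at all points `x z_i` (`RInv.real_le`).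
Consecutive points: at time `t₁ ∈ {0, s}` they differ by a weight vector of norm `≤ poly s ≤ exp (ε' T)`
(`conj_wt_lin`), so the labels agree by `G3`; `cl_move` with `Φ t = t • w (φL v)` (for `s < 2` the move is
bounded: `len_R`, `PC_of_len`), `PC_trans`. -/
theorem MV (Δ : F.Dirs) {K θ : ℝ} (hθ : 0 < θ) (hBT : F.BTs Δ.VV K θ) (C₄ ε : ℝ) (hε : 0 < ε) :
    ∃ T₀ τ : ℝ, 0 < τ ∧ ∀ f q, F.QI K f q → ∀ T : ℝ, T₀ ≤ T → ∀ ν : Measure F.G,
      IsProbabilityMeasure ν → ∀ h, F.Adm h → F.BInv ν h τ → ∀ v ∈ Δ.VV, ∀ s : ℕ,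
      (s : ℝ) ≤ C₄ * T → (∀ j, T ≤ h j) → (∀ j, T ≤ h j - s * F.μ j (F.φL v)) →
      ∀ y ∈ F.R, F.bx (F.mup ((s : ℝ) • F.φL v)) y ≤ 1 →
      ν.real {x | ¬∃ w, F.Good Δ.VV f x w (θ * T) (ε * T) ∧
        F.Good Δ.VV f (x * F.M.ofE y) w (θ * T) (ε * T) ∧
        ‖F.M.ht (f (x * F.M.ofE y)) - F.M.ht (f x)‖ ≤ ε * T ∧
        (f x)⁻¹ * f (x * F.M.ofE y) ∈
          F.PC (fun j => F.mup ((s : ℝ) • w.1 (F.φL v)) j + ε * T) (T ^ 2)} ≤ ε := by
  obtain ⟨n₀, C₁, hC₁, Hfac⟩ := F.fac_R'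
  obtain ⟨Cμ, hCμ, Hμ⟩ := F.norm_mu_le
  obtain ⟨C₃, hC₃, Hlab⟩ := F.mv_lab Δ K
  choose Cl hCl Hlab using Hlab
  choose Cm hCm Hmove using F.mv_move K
  obtain ⟨C, hC⟩ := (Δ.VV.finite_toSet.image fun v => Cl v + Cm v).bddAbove
  set C' : ℝ := max C 1 with hC'
  have hC'1 : 1 ≤ C' := le_max_right _ _
  have hCl' : ∀ v ∈ Δ.VV, Cl v ≤ C' := fun v hv => by
    have h1 : Cl v + Cm v ≤ C := hC ⟨v, hv, rfl⟩
    linarith [hCm v, le_max_left C 1]
  have hCm' : ∀ v ∈ Δ.VV, Cm v ≤ C' := fun v hv => by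
    have h1 : Cl v + Cm v ≤ C := hC ⟨v, hv, rfl⟩
    linarith [hCl v, le_max_left C 1]
  have hN : (0 : ℝ) ≤ n₀ := Nat.cast_nonneg _
  set M : ℝ := (Cμ + 1) * (n₀ + 1) with hM
  have hM1 : (n₀ : ℝ) + 1 ≤ M := le_mul_of_one_le_left (by linarith) (by linarith)
  have hM0 : 0 < M := by linarith
  set ε' : ℝ := min (ε / (2 * M * C')) (θ / (2 * C₃)) with hε'
  have hε'0 : 0 < ε' := lt_min (by positivity) (by positivity)
  have hε'1 : C' * ε' ≤ ε / (2 * M) :=
    calc C' * ε' ≤ C' * (ε / (2 * M * C')) := by gcongr; exact min_le_left _ _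
      _ = ε / (2 * M) := by field_simp
  have hε'2 : ε' ≤ ε / (2 * M) := (le_mul_of_one_le_left hε'0.le hC'1).trans hε'1
  have hε'3 : C₃ * ε' ≤ θ / 2 :=
    calc C₃ * ε' ≤ C₃ * (θ / (2 * C₃)) := by gcongr; exact min_le_right _ _
      _ = θ / 2 := by field_simp
  have hεM : ε / (2 * M) ≤ ε := div_le_self hε.le (by linarith)
  obtain ⟨T₁, τ₁, hτ₁, HLL⟩ := F.LL Δ hθ hBT C₄ ε' hε'0
  obtain ⟨T₀, hT₀⟩ := Filter.eventually_atTop.1
    ((Filter.eventually_ge_atTop T₁).and <| (Filter.eventually_ge_atTop C₁).and <|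
      (Filter.eventually_ge_atTop 1).and <| (Filter.eventually_ge_atTop (2 * C₃ / θ)).and <|
      (Filter.eventually_ge_atTop (n₀ * (C' * (|C₄| + 1)))).and <|
      mv_log C' C₄ ε' (by linarith) hε'0)
  refine ⟨T₀, min τ₁ ε', lt_min hτ₁ hε'0, ?_⟩
  intro f q hf T hT ν hν h hadm hinv v hv s hs hh hh' y hy hy1
  obtain ⟨hT1, hT2, hT3, hT4, hT5, hT6⟩ := hT₀ T hT
  have hs0 : (0 : ℝ) ≤ s := Nat.cast_nonneg _
  have hlog := hT6 s hs0 hs
  have hlog0 : 0 ≤ Real.log (s + 2) + 1 := by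
    have := Real.log_nonneg (show (1 : ℝ) ≤ s + 2 by linarith)
    linarith
  have hA := HLL f q hf T hT1 ν hν h hadm (BInv.mono hinv (fun _ => le_rfl) (min_le_left _ _)) v hv s
    hs hh hh'
  obtain ⟨l, hl1, hl2, hl3, hl4⟩ := Hfac _ y hy hy1
  choose z hz1 hz2 hz3 using hl4
  obtain ⟨Q, hQ⟩ : ∃ Q : F.W → F.G → Prop, ∀ w x, Q w x ↔ F.Good Δ.VV f x w (θ * T) (ε' * T) ∧
      F.Good Δ.VV f (x * F.lin v s) w (θ * T) (ε' * T) ∧ ∀ t : ℕ, t ≤ s →
        ‖F.M.ht (f (x * F.lin v t)) - F.M.ht (f x) - (t : ℝ) • w.1 (F.φL v)‖ ≤ ε' * T :=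
    ⟨_, fun _ _ => Iff.rfl⟩
  simp only [← hQ] at hA
  have hz4 : ∀ b, ν.real {x | x * F.M.ofE (z b) ∈ {x | ¬∃ w, Q w x}} ≤ ε' + ε' := by
    intro b
    have h1 : F.bx h (z b) ≤ 1 := by
      refine le_trans (F.N.bI_mono F.X Set.univ (fun j => ?_) (hz1 b)) (hz2 b)
      have h2 := hh j
      have h3 := hh' j
      have h4 : F.mup ((s : ℝ) • F.φL v) j ≤ h j - T := by
        refine max_le ?_ (by linarith)
        rw [map_smul, smul_eq_mul]
        linarith
      linarith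
    have h2 := RInv.real_le (hinv _ (hz1 b) h1) {x | ¬∃ w, Q w x}
    have h3 : min τ₁ ε' ≤ ε' := min_le_right _ _
    linarith
  have hsub : {x | ¬∃ w, F.Good Δ.VV f x w (θ * T) (ε * T) ∧
        F.Good Δ.VV f (x * F.M.ofE y) w (θ * T) (ε * T) ∧
        ‖F.M.ht (f (x * F.M.ofE y)) - F.M.ht (f x)‖ ≤ ε * T ∧
        (f x)⁻¹ * f (x * F.M.ofE y) ∈
          F.PC (fun j => F.mup ((s : ℝ) • w.1 (F.φL v)) j + ε * T) (T ^ 2)} ⊆
      ⋃ b ∈ Finset.range (n₀ + 1), {x | x * F.M.ofE (z b) ∈ {x | ¬∃ w, Q w x}} := by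
    intro x hx
    by_contra hc
    apply hx
    have hP : ∀ b ≤ n₀, ∃ w, Q w (x * ((l.map fun q => F.root q.1 q.2).take b).prod) := by
      intro b hb
      by_contra hc'
      refine hc (Set.mem_iUnion₂.2 ⟨b, Finset.mem_range.2 (Nat.lt_succ_of_le hb), ?_⟩)
      rw [← List.map_take, hz3 b] at hc'
      exact hc'
    obtain ⟨w, hw⟩ := hP 0 (Nat.zero_le _)
    rw [List.take_zero, List.prod_nil, mul_one] at hw
    set D : ℝ := ε / M * T with hD
    have hD0 : 0 ≤ D := by positivity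
    have hD1 : Cm v * (ε' * T + (Real.log (s + 2) + 1)) ≤ D := by
      have h1 : C' * ε' * T ≤ ε / (2 * M) * T := by gcongr
      have h2 : ε' * T ≤ ε / (2 * M) * T := by gcongr
      calc Cm v * (ε' * T + (Real.log (s + 2) + 1))
          ≤ C' * (ε' * T + (Real.log (s + 2) + 1)) := by gcongr; exact hCm' v hv
        _ = C' * ε' * T + C' * (Real.log (s + 2) + 1) := by ring
        _ ≤ ε / (2 * M) * T + ε / (2 * M) * T := by linarith
        _ = D := by rw [hD]; field_simp; ring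
    obtain ⟨e1, e2, e3⟩ := F.mv_chain (D := D) (Lm := C' * (s + 1)) Hμ hCμ.le hD0 f
      (F.mup ((s : ℝ) • w.1 (F.φL v))) (fun j => le_max_right _ _) (Q w) (fun x => ∃ w, Q w x)
      (fun g => ∃ j σ, |σ| ≤ Real.exp (F.mup ((s : ℝ) • F.φL v) j) ∧ g = F.root j σ)
      (by
        rintro x _ ⟨j, σ, hσ, rfl⟩ hx ⟨w', hx''⟩
        have hx' := (hQ _ _).1 hx''
        rw [hQ] at hx
        obtain rfl : w = w' := by
          refine Hlab v f q hf s x j σ w w' (θ * T) (ε' * T) ?_ ?_ hσ hx.1 hx.2.1 hx'.1 hx'.2.1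
          · rw [div_le_iff₀ hθ] at hT4
            have h1 : C₃ * ε' * T ≤ θ / 2 * T := by gcongr
            nlinarith
          · refine le_trans ?_ hlog
            gcongr
            exact hCl' v hv
        obtain ⟨e1, e2⟩ := Hmove v f q hf s x j σ (ε' * T) (fun t => (t : ℝ) • w.1 (F.φL v))
          (F.mup ((s : ℝ) • w.1 (F.φL v))) (by positivity) (fun j => le_max_right _ _) hσ hx.2.2
          hx'.2.2 (fun t ht i => by
            have ht' : (t : ℝ) ≤ s := by exact_mod_cast ht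
            have ht0 : (0 : ℝ) ≤ t := Nat.cast_nonneg _
            simp only [Frame.mup, map_smul, smul_eq_mul]
            rcases le_total 0 (F.μ i (w.1 (F.φL v))) with h1 | h1
            · exact le_max_of_le_left (mul_le_mul_of_nonneg_right ht' h1)
            · exact le_max_of_le_right (mul_nonpos_of_nonneg_of_nonpos ht0 h1))
        refine ⟨hx'', e1.trans hD1, F.PC_mono (fun j => by linarith) ?_ e2⟩
        gcongr
        exact hCm' v hv)
      (l.map fun q => F.root q.1 q.2)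
      (by
        intro g hg
        obtain ⟨q, hq, rfl⟩ := List.mem_map.1 hg
        exact ⟨q.1, q.2, hl2 q hq, rfl⟩)
      x hw (by
        intro b hb
        rw [List.length_map] at hb
        exact hP b (hb.trans hl1))
    rw [hl3] at e1 e2 e3
    rw [hQ] at hw e1
    rw [List.length_map] at e2 e3
    have hl1' : (l.length : ℝ) ≤ n₀ := by exact_mod_cast hl1
    have hl0 : (0 : ℝ) ≤ l.length := Nat.cast_nonneg _
    have hMD : M * D = ε * T := by rw [hD]; field_simp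
    have hεT : ε' * T ≤ ε * T := by gcongr; exact hε'2.trans hεM
    refine ⟨w, Good.mono hw.1 le_rfl hεT, Good.mono e1.1 le_rfl hεT, e2.trans ?_,
      F.PC_mono (fun j => ?_) ?_ e3⟩
    · rw [← hMD]
      gcongr
      linarith
    · rw [← hMD]
      gcongr
      have h1 : Cμ * l.length ≤ Cμ * n₀ := by gcongr
      rw [hM]
      nlinarith
    · have h1 : (s : ℝ) + 1 ≤ (|C₄| + 1) * T := by
        have := mul_le_mul_of_nonneg_right (le_abs_self C₄) (zero_le_one.trans hT3)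
        linarith
      calc (l.length : ℝ) * (C' * (s + 1)) ≤ n₀ * (C' * ((|C₄| + 1) * T)) := by gcongr
        _ = n₀ * (C' * (|C₄| + 1)) * T := by ring
        _ ≤ T * T := by gcongr
        _ = T ^ 2 := by ring
  refine (measureReal_mono hsub (measure_ne_top _ _)).trans
    ((measureReal_biUnion_finset_le _ _).trans ?_)
  refine (Finset.sum_le_sum fun b _ => hz4 b).trans ?_
  rw [Finset.sum_const, Finset.card_range, nsmul_eq_mul]
  push_cast
  calc ((n₀ : ℝ) + 1) * (ε' + ε') ≤ M * (ε / (2 * M) + ε / (2 * M)) := by gcongr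
    _ = ε := by field_simp; ring

end Frame

end Crest.Agent.R182
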