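import Crest.Agent.R182.ExModel
import Crest.Agent.R182.ExFrame
import Crest.Agent.R182.ERed
import Crest.Agent.R182.EReiter
import Crest.Agent.R182.EMean
import Crest.Agent.R182.ESlab
import Crest.Agent.R182.EConn
import Crest.Agent.R182.EAlg3

/-! Row 182: quasi-isometric rigidity of virtually polycyclic groups (assembly). -/

set_option autoImplicit false

namespace Crest.Agent.R182

open Crest.GroupTheory Crest.Geometry

theorem main (P H : Type*) [Group P] [Group H] (S : Finset P)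
    (hS : Subgroup.closure (S : Set P) = ⊤) (T : Finset H) (hT : Subgroup.closure (T : Set H) = ⊤)
    (hP : IsVirtuallyPolycyclic P) (Φ : H → P)
    (hΦ : IsQuasiIsometry (wordDist (T : Set H)) (wordDist (S : Set P)) Φ) :
    IsVirtuallyPolycyclic H := by
  obtain ⟨d, k, M, hM⟩ := exists_model S hS hP
  obtain ⟨F, Φ', hΦ'⟩ := exists_frame M (fun d k M => ∃ Φ' : P → M.G,
    IsQuasiIsometry (wordDist (S : Set P)) (wordDist M.Q) Φ') hM
  obtain ⟨K, hα⟩ := F.hqi_of_comp S T hT Φ hΦ Φ' hΦ'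
  obtain ⟨H', hfi, hA, hB⟩ := F.exists_subgroup hα
  obtain ⟨T', K', hα', hA', hB'⟩ := F.hqi_subgroup hα H' hA hB
  obtain ⟨ψ, hψ, hψA, hψB⟩ := F.exists_psi hα' (F.reiter hα') hA' hB'
  exact vpoly_of_finiteIndex H'
    (vpoly_of_slab hα'.gen hψ (F.slab_growth hα' hψB) (F.slab_conn hα' hψ hψA))

end Crest.Agent.R182
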