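import Crest.Agent.R182.Line
import Crest.Agent.R182.CL

/-! Row 182, task `R182/Mono`: bits are nearly monotone along lines. -/

set_option autoImplicit false

namespace Crest.Agent.R182

open scoped BigOperators
open MeasureTheory

private theorem mono_sum {Ω ι : Type} [MeasurableSpace Ω] (ν : Measure Ω) [IsProbabilityMeasure ν]
    (s : Finset ι) (B : ι → Set Ω) (hB : ∀ i, MeasurableSet (B i)) {Z : Set Ω} {δ M : ℝ}
    (hZ : ν.real Z ≤ δ) (hM : 0 ≤ M) (h : ∀ x, x ∉ Z → ({i | i ∈ s ∧ x ∈ B i}.ncard : ℝ) ≤ M) :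
    ∑ i ∈ s, ν.real (B i) ≤ s.card * δ + M := by
  classical
  have hm : ∀ i, MeasurableSet (B i \ toMeasurable ν Z) := fun i =>
    (hB i).diff (measurableSet_toMeasurable _ _)
  have hint : ∀ i ∈ s, Integrable ((B i \ toMeasurable ν Z).indicator fun _ => (1 : ℝ)) ν :=
    fun i _ => (integrable_const (1 : ℝ)).indicator (hm i)
  have h1 : ∀ i ∈ s, ν.real (B i) ≤
      δ + ∫ x, (B i \ toMeasurable ν Z).indicator (fun _ => (1 : ℝ)) x ∂ν := by
    intro i _
    rw [integral_indicator_const _ (hm i), smul_eq_mul, mul_one]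
    rw [Measure.real, ← measure_toMeasurable, ← Measure.real] at hZ
    refine le_trans ?_ (add_le_add hZ le_rfl)
    refine (measureReal_mono (fun x hx => ?_) (measure_ne_top _ _)).trans (measureReal_union_le _ _)
    by_cases hz : x ∈ toMeasurable ν Z
    · exact Or.inl hz
    · exact Or.inr ⟨hx, hz⟩
  refine (Finset.sum_le_sum h1).trans ?_
  rw [Finset.sum_add_distrib, Finset.sum_const, nsmul_eq_mul, ← integral_finsetSum s hint]
  refine add_le_add le_rfl ((integral_mono (integrable_finsetSum s hint) (integrable_const M)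
    fun x => ?_).trans (by simp))
  by_cases hz : x ∈ toMeasurable ν Z
  · simpa [Set.indicator, hz] using hM
  · refine le_trans (le_of_eq ?_) (h x fun h' => hz (subset_toMeasurable _ _ h'))
    have e : {i | i ∈ s ∧ x ∈ B i} = (s.filter fun i => x ∈ B i : Finset ι) := by
      ext i; simp
    rw [e, Set.ncard_coe_finset, Finset.card_filter]
    simp [Set.indicator, hz]

namespace Frame

variable (F : Frame)

/-- For all `x` outside a set of measure `δ + ε / η'` we have `Big f v n (η' n) x` (`CL`) and at most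
`η' n` unlabelled points on the line (`real_count_le`); for those `x`, `line_sum`, `switch_count` and
`gen_margin` bound the number of `s` by `C (ε n + η' n + r₁)`.  The sum is the integral of this number
(the sets are measurable), which is always `≤ n`. -/
theorem mono_bits (K : ℝ) (v : F.L) : ∃ A r₀ : ℝ, 1 ≤ A ∧ ∀ η : ℝ, 0 < η → ∃ ε : ℝ, 0 < ε ∧
    ∀ r₁ : ℝ, ∃ (n₀ : ℕ) (τ : ℝ), 0 < τ ∧ ∀ f q, F.QI K f q → ∀ n : ℕ, n₀ ≤ n →
      ∀ ν : Measure F.G, IsProbabilityMeasure ν → F.BInv ν (fun _ => A * n) τ →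
      ∀ (r : ℝ) (𝒢 : F.W → Set F.G), r₀ ≤ r → r ≤ r₁ → F.Lab f r ε 𝒢 →
        (∀ s : ℕ, s < n → ν.real {x | x * F.lin v s ∉ ⋃ w, 𝒢 w} ≤ ε) →
        ∀ (j : F.J) (t : ℕ), ∑ s ∈ Finset.range (n - t),
          ν.real {x | x * F.lin v s ∈ F.Down 𝒢 j v ∧ x * F.lin v ((s + t : ℕ) : ℝ) ∈ F.Up 𝒢 j v} ≤
            η * n := by
  classical
  obtain ⟨A, hA, hCL⟩ := F.CL K v
  obtain ⟨C₁, hC₁, hls⟩ := F.line_sum K v
  obtain ⟨C₂, hC₂, hsw⟩ := F.switch_count
  obtain ⟨c, hc, hgm⟩ := F.gen_margin {v}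
  refine ⟨A, C₁, hA, fun η hη => ?_⟩
  obtain ⟨η', hη', hη'e⟩ : ∃ η' : ℝ, 0 < η' ∧ C₂ * (3 * C₁ + 1) * η' = c * (η / 2) :=
    ⟨c * (η / 2) / (C₂ * (3 * C₁ + 1)), by positivity, by field_simp⟩
  refine ⟨min η' (η / 4 * η'), by positivity, fun r₁ => ?_⟩
  obtain ⟨n₀, τ, hτ, hcl⟩ := hCL η' (η / 4) hη' (by positivity)
  refine ⟨max n₀ (⌈r₁ / η'⌉₊ + 1), τ, hτ, ?_⟩
  intro f q hf n hn ν hν hinv r 𝒢 hr hr₁ hlab hun j t
  have hn0 : (0 : ℝ) < n := by
    have := (le_max_right _ _).trans hn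
    exact_mod_cast (by omega : 0 < n)
  have hrn : r ≤ η' * n := by
    have h1 : ((⌈r₁ / η'⌉₊ : ℕ) : ℝ) ≤ n := by
      have := (le_max_right _ _).trans hn
      exact_mod_cast (by omega : ⌈r₁ / η'⌉₊ ≤ n)
    have h2 := (Nat.le_ceil _).trans h1
    rw [div_le_iff₀ hη'] at h2
    linarith
  have hε0 : 0 < min η' (η / 4 * η') := by positivity
  have hε1 : min η' (η / 4 * η') ≤ η' := min_le_left _ _
  have hε2 : min η' (η / 4 * η') ≤ η / 4 * η' := min_le_right _ _
  generalize min η' (η / 4 * η') = ε at *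
  have hZ1 := hcl f q hf n ((le_max_left _ _).trans hn) ν hν hinv
  have hZ2 := real_count_le ν (Finset.range n) (fun s => {x | x * F.lin v s ∉ ⋃ w, 𝒢 w})
    (mul_pos hη' hn0) fun s hs => hun s (Finset.mem_range.1 hs)
  have hZ3 : ((Finset.range n).card : ℝ) * ε / (η' * n) ≤ η / 4 := by
    rw [Finset.card_range, div_le_iff₀ (mul_pos hη' hn0)]
    nlinarith
  have hZ := (measureReal_union_le (μ := ν) _ _).trans (add_le_add hZ1 (hZ2.trans hZ3))
  have hmeas : ∀ P : F.W → Prop, MeasurableSet {x | ∃ w, x ∈ 𝒢 w ∧ P w} := by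
    intro P
    rw [Set.ofPred_exists]
    exact MeasurableSet.iUnion fun w => (hlab.1 w).inter (MeasurableSet.const _)
  refine (mono_sum ν (Finset.range (n - t))
    (fun s => {x | x * F.lin v s ∈ F.Down 𝒢 j v ∧ x * F.lin v ((s + t : ℕ) : ℝ) ∈ F.Up 𝒢 j v})
    (fun s => ((measurable_mul_const _) (hmeas _)).inter ((measurable_mul_const _) (hmeas _)))
    hZ (M := η / 2 * n) (by positivity) ?_).trans ?_
  swap
  · have h1 : ((Finset.range (n - t)).card : ℝ) ≤ n := by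
      rw [Finset.card_range]; exact_mod_cast Nat.sub_le n t
    have h2 := mul_le_mul_of_nonneg_right h1 (by positivity : 0 ≤ η / 4 + η / 4)
    linarith
  · intro x hx
    simp only [Set.mem_union, Set.mem_ofPred_eq, not_or, not_not, not_lt, Finset.mem_range] at hx
    obtain ⟨a, ha1, ha2⟩ : ∃ a : ℕ → F.V, (∀ (s : ℕ) w, x * F.lin v s ∈ 𝒢 w → a s = w.1 (F.φL v)) ∧
        ∀ s : ℕ, x * F.lin v s ∉ ⋃ w, 𝒢 w → a s = 0 := by
      refine ⟨fun s => if h : ∃ w, x * F.lin v s ∈ 𝒢 w then h.choose.1 (F.φL v) else 0,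
        fun s w hw => ?_, fun s hs => dif_neg fun h => hs (Set.mem_iUnion.2 h)⟩
      have h : ∃ w, x * F.lin v s ∈ 𝒢 w := ⟨w, hw⟩
      simp only [dif_pos h]
      rw [(hlab.2 _ _ _ _ h.choose_spec hw (by rw [F.M.dd_self]; linarith)).1]
    have ha3 : ∀ s, a s = 0 ∨ ∃ w : F.W, a s = w.1 (F.φL v) := by
      intro s
      by_cases h : x * F.lin v s ∈ ⋃ w, 𝒢 w
      · obtain ⟨w, hw⟩ := Set.mem_iUnion.1 h
        exact Or.inr ⟨w, ha1 s w hw⟩
      · exact Or.inl (ha2 s h)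
    have hr0 : 0 ≤ r := by linarith
    have h1 := hls f q hf r ε (η' * n) 𝒢 hr hε0.le hlab x n a ha1 ha2 hx.2
    have h2 := hsw n a (fun t => F.M.ht (f (x * F.lin v t)) - F.M.ht (f x)) (F.nrm (F.φL v)) _
      (η' * n) c hc (by positivity) (by positivity) (fun s _ => ?_) (fun s _ i hi => ?_) h1 hx.1 j t
    · have h3 : {s | s ∈ Finset.range (n - t) ∧ x ∈ {x | x * F.lin v s ∈ F.Down 𝒢 j v ∧
          x * F.lin v ((s + t : ℕ) : ℝ) ∈ F.Up 𝒢 j v}} ⊆
          {s : ℕ | s + t < n ∧ F.μ j (a s) < 0 ∧ 0 < F.μ j (a (s + t))} := by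
        rintro s ⟨hs, ⟨w, hw, hw'⟩, w', hu, hu'⟩
        rw [Finset.mem_range] at hs
        exact ⟨by omega, by rwa [ha1 s w hw], by rwa [ha1 _ w' hu]⟩
      have h4 := Set.ncard_le_ncard h3 ((Set.finite_lt_nat n).subset fun s hs =>
        lt_of_le_of_lt (Nat.le_add_right s t) hs.1)
      refine (Nat.cast_le.2 h4).trans (le_of_mul_le_mul_left (h2.trans ?_) hc)
      calc _ ≤ C₂ * (C₁ * (η' * n + η' * n + η' * n) + η' * n) := by gcongr
        _ = C₂ * (3 * C₁ + 1) * η' * n := by ring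
        _ = _ := by rw [hη'e]; ring
    · rcases ha3 s with h | ⟨w, h⟩
      · rw [h, lnr_nrm_zero]; exact F.nrm_nonneg _
      · rw [h, nrm_W]
    · rcases ha3 s with h | ⟨w, h⟩
      · exact absurd (by rw [h, map_zero]) hi
      · rw [h] at hi ⊢
        exact hgm v (Finset.mem_singleton_self v) w i hi

end Frame

end Crest.Agent.R182
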