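import Crest.Agent.R182.RL1

/-! Row 182, task `R182/RL`: crossing a face; moves slightly beyond a box. -/

set_option autoImplicit false

namespace Crest.Agent.R182

open scoped BigOperators
open MeasureTheory

namespace Frame

variable (F : Frame)

theorem rl_log (a b : ℝ) {η : ℝ} (hη : 0 < η) :
    ∃ S₁ : ℝ, ∀ S, S₁ ≤ S → ∀ s, 0 ≤ s → s ≤ S → a * Real.log (2 + s) + b ≤ η * S := by
  obtain ⟨y, hy⟩ : ∃ y, y = 2 * (|a| + 1) / η := ⟨_, rfl⟩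
  have hy0 : 0 < y := by rw [hy]; positivity
  refine ⟨2 * (|a| * |Real.log y| + b + η) / η, fun S hS s h0 hs => ?_⟩
  rw [div_le_iff₀ hη] at hS
  have h1 := Real.log_le_sub_one_of_pos (show 0 < (2 + s) / y by positivity)
  rw [Real.log_div (by positivity) hy0.ne'] at h1
  have h2 : |a| * ((2 + s) / y) ≤ η / 2 * (2 + S) := by
    rw [hy, div_div_eq_mul_div, ← mul_div_assoc, div_le_iff₀ (by positivity)]
    have : |a| * (2 + s) ≤ (|a| + 1) * (2 + S) := by gcongr; linarith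
    nlinarith
  have h3 : a * Real.log (2 + s) ≤ |a| * ((2 + s) / y + |Real.log y|) :=
    mul_le_mul (le_abs_self a) (by linarith [le_abs_self (Real.log y)])
      (Real.log_nonneg (by linarith)) (abs_nonneg a)
  linarith

theorem rl_le2 {Ω : Type} [MeasurableSpace Ω] {ν : Measure Ω} [IsFiniteMeasure ν]
    {P Q R : Ω → Prop} {a b : ℝ} (hP : ν.real {x | ¬P x} ≤ a) (hQ : ν.real {x | ¬Q x} ≤ b)
    (h : ∀ x, P x → Q x → R x) : ν.real {x | ¬R x} ≤ a + b := by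
  refine (measureReal_mono (s₂ := {x | ¬P x} ∪ {x | ¬Q x}) fun x hx => ?_).trans
    ((measureReal_union_le _ _).trans (add_le_add hP hQ))
  by_contra hc
  simp only [Set.mem_union, Set.mem_ofPred_eq, not_or, not_not] at hc
  exact hx (h x hc.1 hc.2)

theorem rl_rt {ν : Measure F.G} [IsProbabilityMeasure ν] {g : F.G} {P : F.G → Prop} {a : ℝ}
    (h : (F.rt ν g).real {x | ¬P x} ≤ a) : ν.real {x | ¬P (x * g)} ≤ a :=
  (F.real_le_rt ν g {x | ¬P x}).trans_le h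

/-- `G1` in the form used here -/
theorem rl_G1 (Δ : F.Dirs) {θ : ℝ} (hθ : 0 < θ) : ∃ ε₀ T₀ : ℝ, 0 < ε₀ ∧ 0 < T₀ ∧
    ∀ {f x} {w w' : F.W} {T η : ℝ}, T₀ ≤ T → 0 ≤ η → η ≤ ε₀ * T →
      F.Good Δ.VV f x w (θ * T) η → F.Good Δ.VV f x w' (θ * T) η → w = w' := by
  obtain ⟨C, hC, h⟩ := F.G1 Δ
  refine ⟨θ / (2 * C), 2 * C / θ, by positivity, by positivity,
    fun {f x w w' T η} hT h0 hη => h f x w w' _ η h0 ?_⟩
  rw [div_le_iff₀ hθ] at hT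
  rw [div_mul_eq_mul_div, le_div_iff₀ (by positivity)] at hη
  linarith

theorem rl_sign (Δ : F.Dirs) : ∃ C : ℝ, 1 ≤ C ∧ ∀ (j₀ : F.J) (w : F.W) (D : F.V) (η : ℝ), 0 ≤ η →
    (∀ D' : F.V, D' = D ∨ D' = -D → ∀ v ∈ Δ.VV, F.μ j₀ (F.φL v) ≤ 0 →
      (∀ i, F.μ i (w.1 (F.φL v)) ≤ 0 → F.μ i D' ≤ 0) →
      ∀ i, F.μ i (w.1 (F.φL v)) ≤ 0 → -η ≤ F.μ i D') → ‖D‖ ≤ C * η := by
  obtain ⟨C, hC, h⟩ := F.norm_le_of_mu'
  refine ⟨C, hC, fun j₀ w D η hη H => ?_⟩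
  have key : ∀ D' : F.V, D' = D ∨ D' = -D → F.μ j₀ (w.1.symm D') ≤ 0 → ‖D'‖ ≤ C * η := by
    intro D' hD h0
    obtain ⟨v, hv, h1, h2⟩ := Δ.sign w j₀ _ h0
    rw [LinearEquiv.apply_symm_apply] at h2
    refine h D' η hη fun i => ?_
    rcases le_or_gt (F.μ i (w.1 (F.φL v))) 0 with h3 | h3
    · exact H D' hD v hv h1 (fun i hi => not_lt.1 fun h' => not_lt.2 hi ((h2 i).1 h')) i h3
    · linarith [(h2 i).2 h3]
  rcases le_total (F.μ j₀ (w.1.symm D)) 0 with h0 | h0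
  · exact key D (Or.inl rfl) h0
  · rw [← norm_neg]
    exact key _ (Or.inr rfl) (by rwa [map_neg, map_neg, neg_nonpos])

/-- `RL1` for `(ν, g)` and for `(rt ν g, -g)`.  Let `Δ₀ = ht (f (p g)) - ht (f p)`, `e = w⁻¹ Δ₀`.  If
`μ j₀ e ≤ 0`, `Dirs.sign` gives `v` with the sign pattern of `Δ₀`, so `μ i Δ₀ ≥ -ε' T` for all `i`
and `norm_le_of_mu'` applies.  Otherwise use `-e` and the second instance (`G1` identifies labels). -/
theorem RLs (Δ : F.Dirs) {K θ : ℝ} (hθ : 0 < θ) (hBT : F.BTs Δ.VV K θ) (C₁ : ℝ) : ∃ C₃ : ℝ, 1 ≤ C₃ ∧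
    ∀ ε : ℝ, 0 < ε → ∃ T₀ τ : ℝ, 0 < τ ∧ ∀ f q, F.QI K f q → ∀ T : ℝ, T₀ ≤ T → ∀ (j₀ : F.J)
      (ν : Measure F.G), IsProbabilityMeasure ν → ∀ h h', F.Adm h → F.Adm h' → ∀ g ∈ F.R,
      ‖g‖ ≤ Real.exp (C₁ * T) → F.BInv ν h τ → F.BInv (F.rt ν (F.M.ofE g)) h' τ →
      (∀ j, T ≤ h j ∧ T ≤ h' j) → (∀ j, ¬F.Ray j₀ j → C₃ * T ≤ h j ∧ C₃ * T ≤ h' j) →
      ν.real {p | ¬∃ w, F.Good Δ.VV f p w (θ * T) (ε * T) ∧
        F.Good Δ.VV f (p * F.M.ofE g) w (θ * T) (ε * T) ∧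
        ‖F.M.ht (f (p * F.M.ofE g)) - F.M.ht (f p)‖ ≤ ε * T} ≤ ε := by
  obtain ⟨C₃, hC₃, H⟩ := F.RL1 Δ hθ hBT C₁
  obtain ⟨ε₀, T₁, hε₀, hT₁, hG⟩ := F.rl_G1 Δ hθ
  obtain ⟨C, hC, hs⟩ := F.rl_sign Δ
  refine ⟨C₃, hC₃, fun ε hε => ?_⟩
  obtain ⟨ε', hε', h1, h2⟩ : ∃ ε', 0 < ε' ∧ ε' ≤ ε₀ ∧ 2 * C * ε' ≤ ε :=
    ⟨min ε₀ (ε / (2 * C)), by positivity, min_le_left _ _, by
      rw [mul_comm, ← le_div_iff₀ (by positivity)]; exact min_le_right _ _⟩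
  obtain ⟨T₀, τ, hτ, H⟩ := H ε' hε'
  refine ⟨max T₀ T₁, τ, hτ, fun f q hq T hT j₀ ν hν h h' ha ha' g hg hn hb hb' hT1 hT2 => ?_⟩
  have hT0 : 0 < T := hT₁.trans_le (le_of_max_le_right hT)
  have e : F.M.ofE g * F.M.ofE (-g) = 1 := by rw [← F.ofE_inv_R hg, mul_inv_cancel]
  have A1 := H f q hq T (le_of_max_le_left hT) j₀ ν hν h h' ha ha' g hg hn hb hb' hT1 hT2
  have A2 := F.rl_rt (H f q hq T (le_of_max_le_left hT) j₀ (F.rt ν (F.M.ofE g)) inferInstance h' h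
    ha' ha (-g) (F.R.neg_mem hg) (by rwa [norm_neg]) hb' (by rwa [rt_rt, e, rt_one])
    (fun j => (hT1 j).symm) fun j hj => (hT2 j hj).symm)
  have h3 : ε' * T ≤ ε * T := by gcongr; nlinarith
  refine (rl_le2 A1 A2 ?_).trans (by nlinarith)
  rintro x ⟨w, g1, g2, k1⟩ ⟨w', g3, -, k2⟩
  obtain rfl := hG (le_of_max_le_right hT) (by positivity) (by gcongr) g2 g3
  rw [mul_assoc, e, mul_one, ← neg_sub] at k2
  refine ⟨w, g1.mono le_rfl h3, g2.mono le_rfl h3, (hs j₀ w _ (ε' * T) (by positivity) ?_).trans ?_⟩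
  · rintro _ (rfl | rfl)
    exacts [k1, k2]
  · rw [← mul_assoc]; gcongr; nlinarith

/-- One root move beyond the box.  `T = δ S`, `k = lin (sp j) s` with `s = ⌊S - C T⌋`.  `rt ν k` and
`rt (rt ν (root j σ)) k` are `BInv (hS (S - T) - mu (s • φL (sp j)))` (`binv_lin`; admissible by
`adm_hS`, `Adm.sub_mu`); these sizes are `≥ T`, and `≥ c S / 2 ≥ C₃ T` off the ray (`sp_le`,
`Dirs.exists_bounds`).  `g' = k⁻¹ root k` has norm `≤ exp (C₁ T)` with `C₁` depending only on `A`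
(`conj_wt_lin`).  `LL` (`C₄ = 1 / δ`) at `x` and at `x root`, `RLs` at `x k`, `G1`. -/
theorem RL_root (Δ : F.Dirs) {K θ : ℝ} (hθ : 0 < θ) (hBT : F.BTs Δ.VV K θ) (A : ℝ) :
    ∃ δ₀ : ℝ, 0 < δ₀ ∧ ∀ δ : ℝ, 0 < δ → δ ≤ δ₀ → ∀ ε : ℝ, 0 < ε → ∃ S₀ τ : ℝ, 0 < τ ∧ ∀ f q,
      F.QI K f q → ∀ S : ℝ, S₀ ≤ S → ∀ ν : Measure F.G, IsProbabilityMeasure ν →
      ∀ (j : F.J) (σ : ℝ), |σ| ≤ Real.exp (Δ.hS S j + A * (δ * S)) → F.BInv ν (Δ.hS S) τ →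
      F.BInv (F.rt ν (F.root j σ)) (Δ.hS S) τ →
      ν.real {x | ¬∃ w, F.Good Δ.VV f x w (θ * (δ * S)) (ε * S) ∧
        F.Good Δ.VV f (x * F.root j σ) w (θ * (δ * S)) (ε * S) ∧
        ‖F.M.ht (f (x * F.root j σ)) - F.M.ht (f x)‖ ≤ ε * S} ≤ ε := by
  obtain ⟨c, C, hc, hc1, hC, b1, b2, -, -⟩ := Δ.exists_bounds
  choose C₁ _ h₁ using fun j => F.binv_lin (Δ.sp j)
  choose C₂ _ h₂ using fun j => F.conj_wt_lin (Δ.sp j)
  obtain ⟨B, hB⟩ : ∃ B, B = 1 + 1 / c := ⟨_, rfl⟩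
  have hBc : B * c = c + 1 := by rw [hB]; field_simp
  have hB0 : 0 < B := by rw [hB]; positivity
  obtain ⟨C₃, hC₃, H⟩ := F.RLs Δ hθ hBT (B * C + A + 1)
  obtain ⟨ε₀, T₁, hε₀, hT₁, hG⟩ := F.rl_G1 Δ hθ
  refine ⟨c / (2 * (c + 1 + C₃)), by positivity, fun δ hδ hδ₀ ε hε => ?_⟩
  rw [le_div_iff₀ (by positivity)] at hδ₀
  obtain ⟨ε', hε', h1, h2⟩ : ∃ ε', 0 < ε' ∧ ε' ≤ ε₀ ∧ 3 * ε' ≤ ε :=
    ⟨min ε₀ (ε / 3), by positivity, min_le_left _ _, by linarith [min_le_right ε₀ (ε / 3)]⟩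
  obtain ⟨T₀, τ, hτ, H⟩ := H ε' hε'
  obtain ⟨T₀', τ', hτ', H'⟩ := F.LL Δ hθ hBT (1 / δ) ε' hε'
  choose S₁ hS₁ using fun j => rl_log (C₁ j) 0 (mul_pos hc hδ)
  choose S₂ hS₂ using fun j => rl_log (C₂ j) (C + ‖F.X j‖) hδ
  obtain ⟨S₃, hS₃⟩ := Finite.exists_le fun j => max (S₁ j) (S₂ j)
  refine ⟨max (max S₃ 2) (max (max T₀ T₀') T₁ / δ), min τ τ', lt_min hτ hτ',
    fun f q hq S hS ν hν j σ hσ hb hb' => ?_⟩
  simp only [max_le_iff, div_le_iff₀' hδ] at hS hS₃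
  obtain ⟨⟨s1, s2⟩, ⟨s3, s4⟩, s5⟩ := hS
  obtain ⟨T, hT⟩ : ∃ T, T = δ * S := ⟨_, rfl⟩
  rw [← hT] at s3 s4 s5 hσ ⊢
  have hT0 : 0 < T := hT₁.trans_le s5
  have hS0 : 0 ≤ S := by linarith
  have hTS : 2 * (c + 1 + C₃) * T ≤ c * S := by
    rw [hT]; linarith [mul_le_mul_of_nonneg_right hδ₀ hS0]
  have m1 : B * c * T = (c + 1) * T := by rw [hBc]
  have m2 := mul_pos hc hT0
  have m3 := mul_pos (one_pos.trans_le hC₃) hT0
  have m4 : T ≤ B * T := le_mul_of_one_le_left hT0.le (by rw [hB]; simp [hc.le])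
  have hBT' : B * T ≤ S := le_of_mul_le_mul_left (by linarith) hc
  obtain ⟨s, hs⟩ : ∃ s : ℕ, s = ⌊S - B * T⌋₊ := ⟨_, rfl⟩
  have t1 : (s : ℝ) ≤ S - B * T := hs ▸ Nat.floor_le (by linarith)
  have t2 : S - B * T < s + 1 := hs ▸ Nat.lt_floor_add_one _
  have t0 : (0 : ℝ) ≤ s := s.cast_nonneg
  have t3 : (s : ℝ) ≤ S := by linarith
  have hTS' : T ≤ S := by linarith
  -- the sizes after the move
  have ha := (F.adm_hS Δ (sub_nonneg.2 hTS')).sub_mu ((s : ℝ) • F.φL (Δ.sp j))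
  obtain ⟨h', hh⟩ : ∃ h', h' = Δ.hS (S - T) - F.mu ((s : ℝ) • F.φL (Δ.sp j)) := ⟨_, rfl⟩
  have hh' : ∀ i, h' i = (S - T) * F.μ i (F.φL (Δ.sp i)) - s * F.μ i (F.φL (Δ.sp j)) := fun i => by
    rw [hh, Pi.sub_apply, mu, map_smul]; rfl
  rw [← hh] at ha
  have u0 : c * T + T ≤ (S - s) * c := by linarith [mul_le_mul_of_nonneg_right t1 hc.le]
  have u1 : ∀ i, T ≤ h' i := fun i => by
    have := mul_le_mul_of_nonneg_left (Δ.sp_le i j) t0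
    have := mul_le_mul_of_nonneg_left (b1 i).1 (show 0 ≤ S - T - s by linarith)
    rw [hh']
    linarith
  have u2 : ∀ i, ¬F.Ray j i → C₃ * T ≤ h' i := fun i hi => by
    have := mul_le_mul_of_nonneg_left (b2 i j hi) t0
    have := mul_nonneg ((b1 i).1.trans' hc.le) (show 0 ≤ S - T - s by linarith)
    have := mul_le_mul_of_nonneg_left t2.le hc.le
    have := mul_le_mul_of_nonneg_left s2 hc.le
    rw [hh']
    linarith
  have u3 : ∀ ν', F.BInv ν' (Δ.hS S) (min τ τ') → F.BInv (F.rt ν' (F.lin (Δ.sp j) s)) h' τ :=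
    fun ν' hν' => h₁ j ν' _ τ (F.adm_hS Δ hS0) (hν'.mono (fun _ => le_rfl)
      (min_le_left _ _)) s h' fun i => by
        have := hS₁ j S ((hS₃ j).1.trans s1) s t0 t3
        have := mul_le_mul_of_nonneg_left (b1 i).1 hT0.le
        have : c * δ * S = c * T := by rw [hT, mul_assoc]
        rw [hh', abs_of_nonneg t0, Dirs.hS]
        linarith
  have u4 : ∀ ν', IsProbabilityMeasure ν' → F.BInv ν' (Δ.hS S) (min τ τ') → _ := fun ν' hν' hb =>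
    H' f q hq T s4 ν' hν' _ (F.adm_hS Δ hS0) (hb.mono (fun _ => le_rfl)
      (min_le_right _ _)) _ (Δ.sp_mem j) s (by rw [hT]; field_simp; exact t3)
      (fun i => by
        have := mul_le_mul_of_nonneg_left (b1 i).1 hS0
        rw [Dirs.hS]; linarith)
      fun i => by
        have := u1 i
        have := mul_nonneg ((b1 i).1.trans' hc.le) hT0.le
        rw [hh'] at *; rw [Dirs.hS]; linarith
  obtain ⟨b', hw, he, hn⟩ := h₂ j j _ (F.wt_X j σ) s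
  have he' : F.lin (Δ.sp j) s * F.M.ofE b' = F.root j σ * F.lin (Δ.sp j) s := by
    rw [← he, root]; group
  have u5 : ‖b'‖ ≤ Real.exp ((B * C + A + 1) * T) := by
    refine hn.trans ?_
    have v1 : ‖F.X j‖ ≤ Real.exp ‖F.X j‖ := by linarith [Real.add_one_le_exp ‖F.X j‖]
    rw [norm_smul, Real.norm_eq_abs]
    refine (mul_le_mul_of_nonneg_left (mul_le_mul hσ v1 (norm_nonneg _) (Real.exp_pos _).le)
      (Real.exp_pos _).le).trans ?_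
    rw [← Real.exp_add, ← Real.exp_add, Real.exp_le_exp, abs_of_nonneg t0, Dirs.hS]
    have := hS₂ j S ((hS₃ j).2.trans s1) s t0 t3
    have := mul_le_mul (show S - s ≤ B * T + 1 by linarith) (b1 j).2 ((b1 j).1.trans' hc.le)
      (by positivity)
    linarith
  have A0 := F.rl_rt (H f q hq T s3 j (F.rt ν (F.lin (Δ.sp j) s)) inferInstance h' h' ha ha b' hw.1
    u5 (u3 ν hb) (by rw [rt_rt, he', ← rt_rt]; exact u3 _ hb') (fun i => ⟨u1 i, u1 i⟩)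
    fun i hi => ⟨u2 i hi, u2 i hi⟩)
  have A1 := u4 ν hν hb
  have A2 := F.rl_rt (u4 _ inferInstance hb')
  have h3 : 3 * (ε' * T) ≤ ε * S := by
    rw [← mul_assoc]; exact mul_le_mul h2 hTS' hT0.le hε.le
  have h4 : 0 ≤ ε' * T := by positivity
  refine (rl_le2 A0 (rl_le2 A1 A2 fun _ => And.intro) ?_).trans (by linarith)
  rintro x ⟨w, g1, g2, k0⟩ ⟨⟨w₁, g3, g4, k1⟩, w₂, g5, g6, k2⟩
  rw [mul_assoc x, he', ← mul_assoc] at g2 k0
  obtain rfl := hG s5 h4 (by gcongr) g1 g4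
  obtain rfl := hG s5 h4 (by gcongr) g2 g6
  refine ⟨w, g3.mono le_rfl (by linarith), g5.mono le_rfl (by linarith), ?_⟩
  have k3 := (norm_add_le _ _).trans (add_le_add k0 (k1 s le_rfl))
  have k4 := (norm_sub_le _ _).trans (add_le_add k3 (k2 s le_rfl))
  refine le_trans (le_of_eq (congrArg _ (by abel))) (k4.trans (by linarith))

/-- `fac_R'`; the partial products `z_i` have `bx (hS S + C δ S) z_i ≤ 1`, so `rt ν z_i` is
`BInv (hS S₁)` with `S₁ = (1 - C' δ) S` (`binv_R`).  Apply `RL_root` at scale `S₁` with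
`δ₁ = δ S / S₁ ≤ 2 δ` (a constant) and chain with `G1` (if `g = 0` or `J` is empty use `hBT`). -/
theorem RL (Δ : F.Dirs) {K θ : ℝ} (hθ : 0 < θ) (hBT : F.BTs Δ.VV K θ) :
    ∃ δ₀ : ℝ, 0 < δ₀ ∧ ∀ δ : ℝ, 0 < δ → δ ≤ δ₀ → ∀ ε : ℝ, 0 < ε → ∃ S₀ τ : ℝ, 0 < τ ∧ ∀ f q,
      F.QI K f q → ∀ S : ℝ, S₀ ≤ S → ∀ ν : Measure F.G, IsProbabilityMeasure ν →
      F.BInv ν (Δ.hS S) τ → ∀ g ∈ F.R, F.bx (Δ.hS ((1 + δ) * S)) g ≤ 1 →
      ν.real {x | ¬∃ w, F.Good Δ.VV f x w (θ * (δ * S)) (ε * S) ∧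
        F.Good Δ.VV f (x * F.M.ofE g) w (θ * (δ * S)) (ε * S) ∧
        ‖F.M.ht (f (x * F.M.ofE g)) - F.M.ht (f x)‖ ≤ ε * S} ≤ ε := by
  obtain ⟨c, C, hc, hc1, hC, b1, -⟩ := Δ.exists_bounds
  obtain ⟨n₀, C₀, hC₀, hfac⟩ := F.fac_R'
  obtain ⟨C₁, hC₁, hR⟩ := F.binv_R
  obtain ⟨B, hB⟩ : ∃ B, B = C₁ * (C + 1) / c := ⟨_, rfl⟩
  have hBc : B * c = C₁ * (C + 1) := by rw [hB]; field_simp
  have hB0 : 0 < B := by rw [hB]; positivity
  obtain ⟨δ₁, hδ₁, H⟩ := F.RL_root Δ hθ hBT ((1 + B) * C)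
  obtain ⟨ε₀, T₁, hε₀, hT₁, hG⟩ := F.rl_G1 Δ hθ
  refine ⟨min (min (δ₁ / 2) (1 / (2 * B))) c, by positivity, fun δ hδ hδ₀ ε hε => ?_⟩
  simp only [le_min_iff] at hδ₀
  obtain ⟨⟨d1, d2⟩, d3⟩ := hδ₀
  rw [le_div_iff₀ (by positivity)] at d2
  have d4 : 0 < 1 - B * δ := by linarith
  obtain ⟨ε', hε', h1, h2⟩ : ∃ ε', 0 < ε' ∧ ε' ≤ ε₀ * δ ∧ (n₀ + 1) * ε' ≤ ε :=
    ⟨min (ε₀ * δ) (ε / (n₀ + 1)), by positivity, min_le_left _ _, by
      rw [mul_comm, ← le_div_iff₀ (by positivity)]; exact min_le_right _ _⟩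
  obtain ⟨S₁, τ, hτ, H⟩ := H (δ / (1 - B * δ)) (by positivity)
    (by rw [div_le_iff₀ d4]; linarith [mul_le_mul_of_nonneg_left d2 hδ₁.le]) ε' hε'
  obtain ⟨T₀, τ', hτ', H'⟩ := hBT ε' hε'
  refine ⟨max (S₁ / (1 - B * δ)) (max (max T₀ T₁) (C₀ + 1) / δ), min τ τ', lt_min hτ hτ',
    fun f q hq S hS ν hν hb g hg hg1 => ?_⟩
  simp only [max_le_iff, div_le_iff₀' hδ, div_le_iff₀' d4] at hS
  obtain ⟨s1, ⟨s2, s3⟩, s4⟩ := hS
  have hS0 : 0 < S := (mul_pos_iff_of_pos_left hδ).1 (hT₁.trans_le s3)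
  obtain ⟨l, l1, l2, l3, l4⟩ := hfac _ g hg hg1
  have u1 : ∀ b : ℕ, F.BInv (F.rt ν ((l.map fun q => F.root q.1 q.2).take b).prod)
      (Δ.hS ((1 - B * δ) * S)) τ := fun b => by
    obtain ⟨z, hz, z1, z2⟩ := l4 b
    rw [← List.map_take, z2]
    refine hR ν _ τ (hb.mono (fun _ => le_rfl) (min_le_left _ _)) (C * (δ * S) + C₀)
      (by positivity) z hz ((F.N.bI_mono F.X _ (fun j => ?_) hz).trans z1) _ fun j => ?_
    · have := mul_le_mul_of_nonneg_left (b1 j).2 (mul_pos hδ hS0).le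
      simp only [Dirs.hS]; linarith
    · have := mul_le_mul_of_nonneg_left (b1 j).1 (mul_pos hB0 (mul_pos hδ hS0)).le
      have := mul_le_mul_of_nonneg_left s4 (zero_le_one.trans hC₁)
      have : B * c * (δ * S) = _ := congrArg (· * (δ * S)) hBc
      simp only [Dirs.hS]; linarith
  have e1 : δ / (1 - B * δ) * ((1 - B * δ) * S) = δ * S := by
    rw [← mul_assoc, div_mul_cancel₀ _ d4.ne']
  have e2 : ε' * ((1 - B * δ) * S) ≤ ε' * S := by gcongr; linarith [mul_pos hB0 (mul_pos hδ hS0)]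
  have e3 : 0 ≤ ε' * S := by positivity
  have e4 : ε' * S ≤ ε₀ * (δ * S) := by rw [← mul_assoc]; gcongr
  have key : ∀ b : ℕ, b ≤ l.length → ν.real {x | ¬∃ w, F.Good Δ.VV f x w (θ * (δ * S)) (ε' * S) ∧
      F.Good Δ.VV f (x * ((l.map fun q => F.root q.1 q.2).take b).prod) w (θ * (δ * S)) (ε' * S) ∧
      ‖F.M.ht (f (x * ((l.map fun q => F.root q.1 q.2).take b).prod)) - F.M.ht (f x)‖ ≤
        b * (ε' * S)} ≤ (b + 1) * ε' := by
    intro b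
    induction b with
    | zero =>
      intro _
      have A0 := H' f q hq (δ * S) s2 ν hν (hb.mono (fun j => by
        have := mul_le_mul_of_nonneg_left (d3.trans (b1 j).1) hS0.le
        rw [Dirs.hS]; linarith [mul_pos hδ hS0]) (min_le_right _ _))
      refine (measureReal_mono fun x hx ⟨w, hw⟩ => hx ?_).trans (A0.trans (by simp))
      have := hw.mono le_rfl (show _ ≤ ε' * S by
        gcongr; exact mul_le_of_le_one_left hS0.le (d3.trans hc1))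
      exact ⟨w, this, by simpa using this, by simp⟩
    | succ b ih =>
      intro hb'
      have hl : b < (l.map fun q => F.root q.1 q.2).length := by rwa [List.length_map]
      have u2 := u1 (b + 1)
      rw [List.prod_take_succ _ _ hl, List.getElem_map] at u2 ⊢
      rw [← rt_rt] at u2
      have A1 := F.rl_rt (H f q hq _ s1 _ inferInstance _ _ ((l2 _ (List.getElem_mem hb')).trans (by
        have := mul_le_mul_of_nonneg_left (b1 (l[b]).1).2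
          (show 0 ≤ (1 + B) * (δ * S) by positivity)
        rw [e1, Real.exp_le_exp]
        simp only [Dirs.hS]; linarith)) (u1 b) u2)
      rw [e1] at A1
      refine (rl_le2 (ih (Nat.le_of_succ_le hb')) A1 ?_).trans (by push_cast; linarith)
      rintro x ⟨w, g1, g2, k1⟩ ⟨w', g3, g4, k2⟩
      obtain rfl := hG s3 e3 e4 g2 (g3.mono le_rfl e2)
      rw [← mul_assoc x]
      refine ⟨w, g1, g4.mono le_rfl e2, ?_⟩
      have k3 := (norm_add_le _ _).trans (add_le_add k2 k1)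
      rw [sub_add_sub_cancel] at k3
      push_cast; linarith
  have l5 : (l.length : ℝ) ≤ n₀ := by exact_mod_cast l1
  have key' := key _ le_rfl
  rw [← List.length_map (fun q => F.root q.1 q.2), List.take_length, l3, List.length_map] at key'
  have e5 : (n₀ + 1) * (ε' * S) ≤ ε * S := by rw [← mul_assoc]; gcongr
  have e6 := mul_nonneg (Nat.cast_nonneg (α := ℝ) n₀) e3
  refine (measureReal_mono fun x hx ⟨w, g1, g2, k⟩ => hx ⟨w, g1.mono le_rfl (by linarith),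
    g2.mono le_rfl (by linarith), k.trans ?_⟩).trans (key'.trans (le_trans (by gcongr) h2))
  linarith [mul_le_mul_of_nonneg_right l5 e3]

end Frame

end Crest.Agent.R182
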