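import Crest.Agent.R182.GeoVC3
import Crest.Agent.R182.LinDirs

/-! Row 182, task `R182/RL0`: deterministic counting across a bounded jump. -/

set_option autoImplicit false

namespace Crest.Agent.R182

open scoped BigOperators
open MeasureTheory

namespace Frame

variable (F : Frame)

/-- lower bound for the measure of a subset of the ideal box (`IsLN.unif_real_le`, `vol_bI`,
`lvol_univ_le` with `η = 0`) -/
theorem hm_half : ∃ c : ℝ, 0 < c ∧ ∀ (u : F.V) (A : Set F.G),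
    1 / 2 ≤ (F.uI (F.Pos u) (F.mup u)).real A → MeasurableSet A →
      ENNReal.ofReal (c * Real.exp (F.nrm u)) ≤
        hm (F.I (F.Pos u)) {y | y ∈ F.I (F.Pos u) ∧ F.M.ofE y ∈ A} := by
  obtain ⟨C, hC, h1⟩ := F.N.vol_bI F.X
  obtain ⟨C', -, h2⟩ := F.N.lvol_univ_le F.X
  refine ⟨1 / 2 / C, by positivity, fun u A hA _ => ?_⟩
  have a1 := (h1 (F.Pos u) (F.mup u)).1
  have a2 := h2 (F.Pos u) (F.mup u) 0 le_rfl (fun j => le_max_right _ _)
    fun j hj => max_le (not_lt.1 hj) le_rfl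
  have a3 := (F.isLN_bi (F.Pos u) (F.mup u)).unif_real_le A
  have a4 := (F.isLN_bi (F.Pos u) (F.mup u)).vol_pos
  rw [uI, F.gb_map] at hA
  refine le_trans (ENNReal.ofReal_le_ofReal ?_) (a3.trans (measure_mono fun y hy => ⟨hy.2.1, hy.1⟩))
  have a5 : Real.exp (F.nrm u) ≤ C * vol (F.I (F.Pos u)) (F.bi (F.Pos u) (F.mup u)) :=
    (Real.exp_le_exp.2 (by rw [mul_zero, add_zero] at a2; exact a2)).trans a1
  calc 1 / 2 / C * Real.exp (F.nrm u)
      ≤ 1 / 2 / C * (C * vol (F.I (F.Pos u)) (F.bi (F.Pos u) (F.mup u))) :=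
        mul_le_mul_of_nonneg_left a5 (by positivity)
    _ = 1 / 2 * vol (F.I (F.Pos u)) (F.bi (F.Pos u) (F.mup u)) := by field_simp
    _ ≤ _ := mul_le_mul_of_nonneg_right hA a4.le

theorem rl0_log {c C A B : ℝ} (hc : 0 < c) (hC : 0 < C)
    (h : ENNReal.ofReal (c * Real.exp A) ≤ ENNReal.ofReal (C * Real.exp B)) :
    A ≤ B + |Real.log (C / c)| := by
  rw [ENNReal.ofReal_le_ofReal_iff (by positivity)] at h
  have h1 := Real.log_le_log (by positivity) h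
  rw [Real.log_mul hc.ne' (Real.exp_pos _).ne', Real.log_mul hC.ne' (Real.exp_pos _).ne',
    Real.log_exp, Real.log_exp] at h1
  have h2 := le_abs_self (Real.log (C / c))
  rw [Real.log_div hC.ne' hc.ne'] at h2 ⊢
  linarith

theorem rl0_len {K : ℝ} {f q : F.G → F.G} (h : F.QI K f q) (x g : F.G) {a : ℝ} (ha : 1 ≤ a)
    (hg : F.M.len g ≤ a) : F.M.len ((f x)⁻¹ * f (x * g)) ≤ 2 * K * a := by
  have h1 := h.lf x (x * g)
  have h2 := h.one_le
  have h3 : F.M.dd x (x * g) = F.M.len g := by rw [Model.dd, inv_mul_cancel_left]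
  rw [h3] at h1
  have h4 : K * F.M.len g ≤ K * a := mul_le_mul_of_nonneg_left hg (by linarith)
  have h5 : K * 1 ≤ K * a := mul_le_mul_of_nonneg_left ha (by linarith)
  change F.M.dd _ _ ≤ _
  linarith

theorem rl0_ht (x y : F.G) : F.M.ht (x⁻¹ * y) = F.M.ht y - F.M.ht x := by
  rw [F.M.ht_mul, F.M.ht_inv]; abel

/-- **Labels.**  For `m ∈ A`, `(f p)⁻¹ f (p m)` lies in `PC (mup (s w φ v) + η)` and, going
`f p → f (p g) → f (p m g) → f (p m)` (`PC_of_len`, `PC_trans`), in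
`PC (mup (s' w' φ v) + η + C a)`.  `VC2`, `count` (with `g = 0`), `hm_half`, `nrm_W`, `lvol_le_add`. -/
theorem rl_label (K : ℝ) : ∃ C : ℝ, 1 ≤ C ∧ ∀ f q, F.QI K f q → ∀ (p g : F.G) (u u' : F.V)
    (w w' : F.W) (η a n : ℝ) (A : Set F.G), 0 ≤ η → 1 ≤ a → 2 ≤ n → a ≤ n → F.M.len g ≤ a →
      MeasurableSet A → 1 / 2 ≤ (F.uI (F.Pos u) (F.mup u)).real A →
      (∀ m ∈ A, (f p)⁻¹ * f (p * m) ∈ F.PC (fun j => F.mup (w.1 u) j + η) n ∧
        (f (p * g))⁻¹ * f (p * m * g) ∈ F.PC (fun j => F.mup (w'.1 u') j + η) n) →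
      ∀ i, F.μ i (w.1 u) ≤ F.mup (w'.1 u') i + C * (a + η + Real.log n) := by
  by_cases hK : 1 ≤ K
  swap
  · exact ⟨1, le_rfl, fun f q h => absurd h.one_le hK⟩
  obtain ⟨C1, hC1, h1⟩ := F.PC_of_len
  obtain ⟨C2, hC2, h2⟩ := F.VC2
  obtain ⟨C3, hC3, h3⟩ := F.count K C2
  obtain ⟨C4, hC4, h4⟩ := F.lvol_le_add
  obtain ⟨c, hc, h5⟩ := F.hm_half
  have hL := abs_nonneg (Real.log (C3 / c))
  set L := |Real.log (C3 / c)| with hLd
  have p1 : 0 ≤ C1 * K := by positivity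
  have p2 : 0 ≤ C2 * K := by positivity
  refine ⟨4 * (C1 * K) + L + C4 + 4 * (C2 * K) + C2, by linarith,
    fun f q hf p g u u' w w' η a n A hη ha hn han hg hA hA' hm i => ?_⟩
  have hn' : n ≤ (1 + 4 * K) * n := by nlinarith
  have p3 : 0 ≤ C1 * (2 * K * a) := by positivity
  have key : ∀ m ∈ A, (f p)⁻¹ * f (p * m) ∈
      F.PC (fun j => F.mup (w.1 u) j + η) ((1 + 4 * K) * n) ∩
      F.PC (fun j => F.mup (w'.1 u') j + η + 2 * (C1 * (2 * K * a))) ((1 + 4 * K) * n) := by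
    intro m hmA
    obtain ⟨b1, b2⟩ := hm m hmA
    refine ⟨F.PC_mono (fun _ => le_rfl) hn' b1, ?_⟩
    have b0 := F.PC_nonneg b2
    have b3 := h1 _ _ (F.rl0_len hf p g ha hg)
    have b4 : (f (p * m * g))⁻¹ * f (p * m) ∈ F.PC (fun _ => C1 * (2 * K * a)) (2 * K * a) := by
      refine h1 _ _ ?_
      rw [← F.M.len_inv, mul_inv_rev, inv_inv]
      exact F.rl0_len hf (p * m) g ha hg
    have b5 : (f p)⁻¹ * f (p * m * g) ∈
        F.PC (fun j => F.mup (w'.1 u') j + η + C1 * (2 * K * a)) (2 * K * a + n) := by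
      refine F.PC_trans (F.PC_mono (fun j => ?_) le_rfl b3) b2 fun j => ?_
      · have := b0 j
        linarith
      · have := F.PC_ht b3 j
        rw [F.rl0_ht] at this
        linarith
    have b6 := F.PC_trans (h := fun j => F.mup (w'.1 u') j + η + 2 * (C1 * (2 * K * a)))
      (F.PC_mono (fun j => by linarith) le_rfl b5) b4 fun j => by
        have := F.PC_ht b5 j
        rw [F.rl0_ht] at this
        linarith
    exact F.PC_mono (fun _ => le_rfl) (by nlinarith) b6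
  have d1 := h3 f q hf p (f p) (F.Pos u) 0 F.R.zero_mem _ _ (h2 _ _ _ i (hn.trans hn'))
    {y | y ∈ F.I (F.Pos u) ∧ F.M.ofE y ∈ A} (fun y hy => hy.1) fun y hy => by
      rw [F.M.ofE_zero, mul_one]
      exact key _ hy.2
  have d2 := rl0_log hc hC3 ((h5 u A hA' hA).trans d1)
  have d3 : F.lvol (fun j => F.mup (w.1 u) j + η) ≤ F.nrm u + C4 * η := by
    rw [← F.nrm_W w u]
    exact h4 _ _ η hη fun _ => le_rfl
  have d4 : Real.log ((1 + 4 * K) * n) ≤ 4 * K + Real.log n := by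
    rw [Real.log_mul (by positivity) (by positivity)]
    have := Real.log_le_sub_one_of_pos (show 0 < 1 + 4 * K by positivity)
    linarith
  have d5 : F.μ i (w.1 u) ≤ F.mup (w.1 u) i := le_max_left _ _
  have d6 : 0 ≤ Real.log n := Real.log_nonneg (by linarith)
  have d7 := mul_le_mul_of_nonneg_left d4 (show 0 ≤ C2 by linarith)
  have e1 : C1 * K * a ≤ C1 * K * (a + η + Real.log n) :=
    mul_le_mul_of_nonneg_left (by linarith) p1
  have e2 : L * 1 ≤ L * (a + η + Real.log n) := mul_le_mul_of_nonneg_left (by linarith) hL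
  have e3 : C4 * η ≤ C4 * (a + η + Real.log n) :=
    mul_le_mul_of_nonneg_left (by linarith) (by linarith)
  have e4 : C2 * K * 1 ≤ C2 * K * (a + η + Real.log n) :=
    mul_le_mul_of_nonneg_left (by linarith) p2
  have e5 : C2 * Real.log n ≤ C2 * (a + η + Real.log n) :=
    mul_le_mul_of_nonneg_left (by linarith) (by linarith)
  linarith

/-- **Offsets.**  `VC3` with `k = (f p)⁻¹ f (p g)`, `G = (f (p g))⁻¹ f (p m g)`,
`k' = (f (p m))⁻¹ f (p m g)`; `count` with `g`; `hm_half`. -/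
theorem rl_offset (K : ℝ) : ∃ C : ℝ, 1 ≤ C ∧ ∀ f q, F.QI K f q → ∀ (p : F.G), ∀ g ∈ F.R,
    ∀ (u : F.V) (w : F.W) (h' : F.J → ℝ) (η a n : ℝ) (A : Set F.G), 0 ≤ η → 1 ≤ a → 2 ≤ n →
      F.M.len (F.M.ofE g) ≤ a → MeasurableSet A → 1 / 2 ≤ (F.uI (F.Pos u) (F.mup u)).real A →
      (∀ i, F.μ i (w.1 u) ≤ 0 → h' i ≤ η) →
      (∀ i, 0 < F.μ i (w.1 u) → C * (a + η + Real.log n) ≤ F.μ i (w.1 u)) →
      (∀ m ∈ A, (f p)⁻¹ * f (p * m) ∈ F.PC (fun j => F.mup (w.1 u) j + η) n ∧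
        ‖F.M.ht (f (p * m)) - F.M.ht (f p)‖ ≤ η ∧
        (f (p * F.M.ofE g))⁻¹ * f (p * m * F.M.ofE g) ∈ F.PC h' n ∧
        ‖F.M.ht (f (p * m * F.M.ofE g)) - F.M.ht (f (p * F.M.ofE g))‖ ≤ η) →
      (∀ i, F.μ i (w.1 u) ≤ 0 → F.μ i (F.M.ht (f (p * F.M.ofE g)) - F.M.ht (f p)) ≤ 0) →
      ∀ i, F.μ i (w.1 u) ≤ 0 →
        -(C * (η + Real.log n)) ≤ F.μ i (F.M.ht (f (p * F.M.ofE g)) - F.M.ht (f p)) := by
  by_cases hK : 1 ≤ K
  swap
  · exact ⟨1, le_rfl, fun f q h => absurd h.one_le hK⟩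
  obtain ⟨C2, hC2, h2⟩ := F.VC3
  obtain ⟨C3, hC3, h3⟩ := F.count K C2
  obtain ⟨c, hc, h5⟩ := F.hm_half
  have hL := abs_nonneg (Real.log (C3 / c))
  set L := |Real.log (C3 / c)| with hLd
  have p2 : 0 ≤ C2 * K := by positivity
  refine ⟨2 * (C2 * K) + 2 * L + C2, by linarith,
    fun f q hf p g hgR u w h' η a n A hη ha hn hg hA hA' hh' hbig hm hneg i hi => ?_⟩
  have d6 : 1 / 2 ≤ Real.log n := by
    have := Real.log_two_gt_d9
    have := Real.log_le_log two_pos hn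
    linarith
  have d0 := h2 (w.1 u) h' η (2 * K * a) n ((f p)⁻¹ * f (p * F.M.ofE g)) i hη hn
    (F.rl0_len hf p _ ha hg) hh' (fun j hj => le_trans (by
      have e1 : 0 ≤ C2 * K * (η + Real.log n) := mul_nonneg p2 (by linarith)
      have e2 : 0 ≤ L * (a + η + Real.log n) := mul_nonneg hL (by linarith)
      have e3 : 0 ≤ C2 * a := by positivity
      linarith) (hbig j hj))
    (fun j hj => by rw [F.rl0_ht]; exact hneg j hj) hi
  have d1 := h3 f q hf p (f (p * F.M.ofE g)) (F.Pos u) g hgR _ _ d0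
    {y | y ∈ F.I (F.Pos u) ∧ F.M.ofE y ∈ A} (fun y hy => hy.1) fun y hy => by
      obtain ⟨b1, b2, b3, b4⟩ := hm _ hy.2
      refine ⟨b3, by rw [F.rl0_ht]; exact b4, _, _, ?_, b1, by rw [F.rl0_ht]; exact b2,
        F.rl0_len hf (p * F.M.ofE y) _ ha hg⟩
      group
  have d2 := rl0_log hc hC3 ((h5 u A hA' hA).trans d1)
  rw [F.nrm_W, F.rl0_ht] at d2
  have e1 : 0 ≤ C2 * K * (η + Real.log n) := mul_nonneg p2 (by linarith)
  have e2 : L * (1 / 2) ≤ L * (η + Real.log n) := mul_le_mul_of_nonneg_left (by linarith) hL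
  linarith

end Frame

end Crest.Agent.R182
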