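import Crest.Agent.R182.RL0
import Crest.Agent.R182.MV

/-! Row 182, task `R182/RL1`: crossing a face, one-sided version. -/

set_option autoImplicit false

namespace Crest.Agent.R182

open scoped BigOperators
open MeasureTheory

namespace Frame

variable (F : Frame)

theorem rl1_log {δ : ℝ} (hδ : 0 < δ) : ∀ᶠ T : ℝ in Filter.atTop, Real.log (T ^ 2) ≤ δ * T := by
  filter_upwards [Real.isLittleO_log_id_atTop.bound (half_pos hδ), Filter.eventually_ge_atTop 0]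
    with T h h0
  rw [Real.norm_eq_abs, Real.norm_eq_abs, id, abs_of_nonneg h0] at h
  rw [Real.log_pow]
  push_cast
  linarith [le_abs_self (Real.log T)]

theorem rl1_mup (a : ℝ) (u : F.V) (j : F.J) : F.mup (a • u) j = max (a * F.μ j u) 0 := by
  simp [mup]

theorem rl1_conj (Δ : F.Dirs) (C₁ : ℝ) : ∃ C₆ : ℝ, 0 ≤ C₆ ∧ ∀ᶠ T : ℝ in Filter.atTop,
    ∀ v ∈ Δ.VV, ∀ s k : ℕ, C₆ * T ≤ k → ∀ g ∈ F.R, ‖g‖ ≤ Real.exp (C₁ * T) →
      ∀ y ∈ F.I (F.Pos ((s : ℝ) • F.φL v)),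
        F.bi (F.Pos ((s : ℝ) • F.φL v)) (F.mup ((s : ℝ) • F.φL v)) y ≤ 1 →
        F.N.Ad (-g) y ∈ F.R ∧ F.bx (F.mup (((s + k : ℕ) : ℝ) • F.φL v)) (F.N.Ad (-g) y) ≤ 1 := by
  obtain ⟨c, Cb, hc, -, -, -, -, hb, -⟩ := Dirs.exists_bounds F Δ
  obtain ⟨Cn, hCn, Hn⟩ := F.norm_le_bi
  refine ⟨(F.N.m + 1) * (|C₁| + 1) / c, by positivity, ?_⟩
  filter_upwards [Filter.eventually_ge_atTop Cn, Filter.eventually_ge_atTop (2 ^ F.N.m : ℝ)]
    with T hT1 hT2 v hv s k hk g hg hgn y hy hy1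
  have hT0 : 0 ≤ T := by linarith
  have hS0 : 0 ≤ (|C₁| + 1) * T := by positivity
  have hexp : ∀ x : ℝ, x ≤ T → x * Real.exp (-T) ≤ 1 := by
    intro x hx
    rw [Real.exp_neg, ← div_eq_mul_inv, div_le_one (Real.exp_pos _)]
    linarith [Real.add_one_le_exp T]
  set u := (s : ℝ) • F.φL v with hu
  set S := (|C₁| + 1) * T with hS
  have hng := F.R.neg_mem hg
  obtain ⟨m₁, b₁⟩ := F.conj_bi (F.Pos u) (fun j => F.mup u j + S) hng hy
  have b₂ : F.bx (fun j => F.mup u j + S) (-g) ≤ 1 := by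
    have h1 := (Hn Set.univ (fun j => F.mup u j + S) S hS0 (-g) hng).2 fun j => by
      have : 0 ≤ F.mup u j := le_max_right _ _
      linarith
    refine h1.trans (le_trans ?_ (hexp Cn hT1))
    rw [norm_neg, mul_assoc]
    refine mul_le_mul_of_nonneg_left ?_ (by linarith)
    calc Real.exp (-S) * ‖g‖ ≤ Real.exp (-S) * Real.exp (C₁ * T) := by gcongr
      _ ≤ _ := by
        rw [← Real.exp_add, Real.exp_le_exp, hS]
        nlinarith [le_abs_self C₁]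
  have b₃ : F.bi (F.Pos u) (fun j => F.mup u j + S) y ≤ Real.exp (-T) := by
    calc _ ≤ Real.exp (-S) * F.bi (F.Pos u) (F.mup u) y :=
          F.N.bI_shift F.X _ hS0 (fun j => le_rfl) hy
      _ ≤ Real.exp (-S) * 1 := by gcongr
      _ ≤ _ := by
        rw [mul_one, Real.exp_le_exp, hS]
        nlinarith [abs_nonneg C₁]
  have b₄ : F.bi (F.Pos u) (fun j => F.mup u j + S) (F.N.Ad (-g) y) ≤ 1 := by
    refine b₁.trans (le_trans ?_ (hexp _ hT2))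
    have h0 := F.gA_bx_nonneg (fun j => F.mup u j + S) (-g)
    exact mul_le_mul (pow_le_pow_left₀ (by linarith) (by linarith) _) b₃
      (F.N.bI_nonneg F.X _ _ _) (by positivity)
  refine ⟨F.I_le _ m₁, (F.N.bI_anti F.X (Set.subset_univ _) _ m₁).trans
    (le_trans (F.N.bI_absorb F.X _ hS0 (fun j hj => ?_) (fun j => ?_) m₁) b₄)⟩
  · have h1 : 0 < (s : ℝ) * F.μ j (F.φL v) := by
      have : 0 < F.μ j u := hj
      rwa [hu, map_smul, smul_eq_mul] at this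
    have h2 : 0 < F.μ j (F.φL v) := by
      by_contra h
      exact absurd h1 (not_lt.2 (mul_nonpos_of_nonneg_of_nonpos (by positivity) (not_lt.1 h)))
    have h3 : c ≤ F.μ j (F.φL v) := ((hb v hv).2 1 j).2 h2
    have h4 : (F.N.m + 1) * S ≤ k * c := by
      rw [div_mul_eq_mul_div, div_le_iff₀ hc] at hk
      rw [hS]
      linarith
    have h5 : (k : ℝ) * c ≤ k * F.μ j (F.φL v) := by gcongr
    rw [hu, F.rl1_mup, F.rl1_mup, max_eq_left h1.le]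
    refine le_trans ?_ (le_max_left _ _)
    push_cast
    linarith
  · rw [hu, F.rl1_mup, F.rl1_mup]
    refine add_le_add (max_le ?_ (le_max_right _ _)) le_rfl
    rcases le_total 0 (F.μ j (F.φL v)) with h | h
    · refine le_trans ?_ (le_max_left _ _)
      push_cast
      nlinarith [mul_nonneg (Nat.cast_nonneg (α := ℝ) k) h]
    · exact le_trans (mul_nonpos_of_nonneg_of_nonpos (by positivity) h) (le_max_right _ _)

/-- the conclusion of `MV` for a pair of points -/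
def rl1M (𝒱 : Finset F.L) (f : F.G → F.G) (σ η n : ℝ) (u : F.V) : Set (F.G × F.G) :=
  {z | ∃ w : F.W, F.Good 𝒱 f z.1 w σ η ∧ F.Good 𝒱 f z.2 w σ η ∧
    ‖F.M.ht (f z.2) - F.M.ht (f z.1)‖ ≤ η ∧
      (f z.1)⁻¹ * f z.2 ∈ F.PC (fun j => F.mup (w.1 u) j + η) n}

theorem rl1M_meas (𝒱 : Finset F.L) {f : F.G → F.G} (hf : Measurable f) (σ η n : ℝ) (u : F.V) :
    MeasurableSet (F.rl1M 𝒱 f σ η n u) := by
  have h1 : Measurable fun z : F.G × F.G => f z.1 := hf.comp measurable_fst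
  have h2 : Measurable fun z : F.G × F.G => f z.2 := hf.comp measurable_snd
  have h3 := F.M.continuous_ht.measurable
  unfold rl1M
  rw [Set.ofPred_exists]
  refine MeasurableSet.iUnion fun w => ?_
  exact (measurable_fst (F.measurableSet_good 𝒱 hf w σ η)).inter
    ((measurable_snd (F.measurableSet_good 𝒱 hf w σ η)).inter
      ((measurableSet_le ((h3.comp h2).sub (h3.comp h1)).norm measurable_const).inter
        ((h1.inv.mul h2) (F.measurableSet_PC _ _))))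

set_option maxHeartbeats 1000000 in
/-- `a = len`-bound `C (C₁ + 1) T` for `g` (`len_R_norm`); `s = ⌈C₅ T⌉`, `s' = s + ⌈C₆ T⌉`, with `C₆`, then
`C₅`, then `C₃` large (`Dirs.exists_bounds`).  Fix `v ∈ VV` with `μ j₀ (φL v) ≤ 0` (so `μ j (φL v) ≤ 0` on
the ray of `j₀`), `u = s • φL v`, `P = Pos u`.  For fixed `m = ofE y` in the support of `uI P (mup u)`:
`MV` for `(ν, h, v, s, y)` (`bI_anti`) and for `(rt ν g, h', v, s', y' = Ad (-g) y)`; here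
`p m g = p g · ofE y'`, and `bx (mup (s' • φL v)) y' ≤ 1` by `conj_bi` (sizes `mup u + (C₁ + 1) T`),
`norm_le_bi`, `bI_shift`, `bI_absorb`.  For each `w, w'` the event is jointly measurable in `(p, m)`
(`measurableSet_good`, `measurableSet_PC`); with `G1` the labels are those of `p` and `p g`.
`prod_real_le`, `real_slice_le`: for most `p`, all such `v` have a set `A` of good `m` of measure
`≥ 1/2`.  `rl_label` and `Dirs.test` give `w = w'` (if there is no admissible `v` use `hBT` directly;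
`test` provides `v` whenever `w ≠ w'`); `rl_offset` with `h' = mup (s' • w φL v) + ε' T`. -/
theorem RL1 (Δ : F.Dirs) {K θ : ℝ} (hθ : 0 < θ) (hBT : F.BTs Δ.VV K θ) (C₁ : ℝ) : ∃ C₃ : ℝ, 1 ≤ C₃ ∧
    ∀ ε : ℝ, 0 < ε → ∃ T₀ τ : ℝ, 0 < τ ∧ ∀ f q, F.QI K f q → ∀ T : ℝ, T₀ ≤ T → ∀ (j₀ : F.J)
      (ν : Measure F.G), IsProbabilityMeasure ν → ∀ h h', F.Adm h → F.Adm h' → ∀ g ∈ F.R,
      ‖g‖ ≤ Real.exp (C₁ * T) → F.BInv ν h τ → F.BInv (F.rt ν (F.M.ofE g)) h' τ →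
      (∀ j, T ≤ h j ∧ T ≤ h' j) → (∀ j, ¬F.Ray j₀ j → C₃ * T ≤ h j ∧ C₃ * T ≤ h' j) →
      ν.real {p | ¬∃ w, F.Good Δ.VV f p w (θ * T) (ε * T) ∧
        F.Good Δ.VV f (p * F.M.ofE g) w (θ * T) (ε * T) ∧
        ∀ v ∈ Δ.VV, F.μ j₀ (F.φL v) ≤ 0 →
          (∀ i, F.μ i (w.1 (F.φL v)) ≤ 0 →
            F.μ i (F.M.ht (f (p * F.M.ofE g)) - F.M.ht (f p)) ≤ 0) →
          ∀ i, F.μ i (w.1 (F.φL v)) ≤ 0 →
            -(ε * T) ≤ F.μ i (F.M.ht (f (p * F.M.ofE g)) - F.M.ht (f p))} ≤ ε := by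
  classical
  obtain ⟨c, Cb, hc, -, hCb, -, -, hb, hgap⟩ := Dirs.exists_bounds F Δ
  obtain ⟨CL, hCL, HL⟩ := F.len_R_norm
  obtain ⟨Cl, hCl, Hl⟩ := F.rl_label K
  obtain ⟨Co, hCo, Ho⟩ := F.rl_offset K
  obtain ⟨Cg, hCg, Hg⟩ := F.G1 Δ
  obtain ⟨C₆, hC₆, H₆⟩ := F.rl1_conj Δ C₁
  obtain ⟨A₀, hA₀, HA⟩ : ∃ A₀ : ℝ, 1 ≤ A₀ ∧ ∀ T : ℝ, 1 ≤ T → ∀ g ∈ F.R, ‖g‖ ≤ Real.exp (C₁ * T) →
      F.M.len (F.M.ofE g) ≤ A₀ * T := by
    have h0 := abs_nonneg C₁
    refine ⟨CL * (|C₁| + 1), by nlinarith, fun T hT g hg hgn => ?_⟩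
    refine (HL (|C₁| * T) (by positivity) g hg (hgn.trans (Real.exp_le_exp.2 ?_))).trans ?_
    · nlinarith [le_abs_self C₁]
    · rw [mul_assoc]
      exact mul_le_mul_of_nonneg_left (by nlinarith) (by linarith)
  obtain ⟨C₅, hC₅, h₅⟩ : ∃ C₅ : ℝ, 0 < C₅ ∧
      C₅ * c = (C₆ + 1) * Cb + Cl * (A₀ + 3) + Co * (A₀ + 3) + 1 :=
    ⟨_ / c, by positivity, div_mul_cancel₀ _ hc.ne'⟩
  refine ⟨(C₅ + C₆ + 2) * Cb + 1, by nlinarith, fun ε hε => ?_⟩
  obtain ⟨ε', hε', e1, e2, e3, e4⟩ : ∃ ε' : ℝ, 0 < ε' ∧ ε' ≤ 1 ∧ ε' * (2 + 4 * Δ.VV.card) ≤ ε ∧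
      ε' * (2 * Co) ≤ ε ∧ ε' * (2 * Cg) ≤ θ := by
    refine ⟨min (min 1 (ε / (2 + 4 * Δ.VV.card))) (min (ε / (2 * Co)) (θ / (2 * Cg))),
      by positivity, (min_le_left _ _).trans (min_le_left _ _), ?_, ?_, ?_⟩
    · rw [← le_div_iff₀ (by positivity)]
      exact (min_le_left _ _).trans (min_le_right _ _)
    · rw [← le_div_iff₀ (by positivity)]
      exact (min_le_right _ _).trans (min_le_left _ _)
    · rw [← le_div_iff₀ (by positivity)]
      exact (min_le_right _ _).trans (min_le_right _ _)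
  have e5 : ε' ≤ ε := by
    have : (0 : ℝ) ≤ Δ.VV.card := by positivity
    nlinarith
  obtain ⟨S₀, τ₁, hτ₁, HB⟩ := hBT ε' hε'
  obtain ⟨T₁, τ₂, hτ₂, HM⟩ := F.MV Δ hθ hBT (C₅ + C₆ + 2) ε' hε'
  obtain ⟨T₀, HT⟩ := Filter.eventually_atTop.1 (H₆.and ((rl1_log (δ := ε / (2 * Co)) (by positivity)).and
    ((Filter.eventually_ge_atTop 2).and ((Filter.eventually_ge_atTop A₀).and
      ((Filter.eventually_ge_atTop (2 * Cg / θ)).and
        ((Filter.eventually_ge_atTop S₀).and (Filter.eventually_ge_atTop T₁)))))))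
  refine ⟨T₀, min τ₁ τ₂, lt_min hτ₁ hτ₂, ?_⟩
  intro f q hQ T hT j₀ ν hν h h' hh hh' g hg hgn hb1 hb2 hT1 hT3
  obtain ⟨H₆, hlog, hT2, hTA, hTg, hTS, hTT⟩ := HT T hT
  have hT0 : 0 < T := by linarith
  have hη : 0 ≤ ε' * T := by positivity
  have hG : Cg * (ε' * T + 1) ≤ θ * T := by
    rw [div_le_iff₀ hθ] at hTg
    linarith [mul_le_mul_of_nonneg_right e4 hT0.le]
  have hlog2 : Real.log (T ^ 2) ≤ 2 * T := by
    rw [Real.log_pow]
    push_cast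
    linarith [Real.log_le_sub_one_of_pos hT0]
  have hlen := HA T (by linarith) g hg hgn
  have hsum : A₀ * T + ε' * T + Real.log (T ^ 2) ≤ (A₀ + 3) * T := by
    linarith [mul_le_mul_of_nonneg_right e1 hT0.le]
  have hn2 : 2 ≤ T ^ 2 := by nlinarith
  have ha1 : 1 ≤ A₀ * T := by nlinarith
  obtain ⟨s, hs1, hs2⟩ : ∃ s : ℕ, C₅ * T ≤ s ∧ (s : ℝ) ≤ (C₅ + 1) * T :=
    ⟨⌈C₅ * T⌉₊, Nat.le_ceil _, by
      linarith [Nat.ceil_lt_add_one (by positivity : 0 ≤ C₅ * T)]⟩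
  obtain ⟨k, hk1, hk2⟩ : ∃ k : ℕ, C₆ * T ≤ k ∧ (k : ℝ) ≤ (C₆ + 1) * T :=
    ⟨⌈C₆ * T⌉₊, Nat.le_ceil _, by
      linarith [Nat.ceil_lt_add_one (by positivity : 0 ≤ C₆ * T)]⟩
  have hs0 : (0 : ℝ) < s := lt_of_lt_of_le (by positivity) hs1
  have hk0 : (0 : ℝ) ≤ k := by positivity
  have hs3 : (s : ℝ) ≤ (C₅ + C₆ + 2) * T :=
    hs2.trans (mul_le_mul_of_nonneg_right (by linarith) hT0.le)
  have haT : A₀ * T ≤ T ^ 2 := by
    rw [sq]
    exact mul_le_mul_of_nonneg_right hTA hT0.le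
  have hsc : ((C₆ + 1) * Cb + Cl * (A₀ + 3) + Co * (A₀ + 3) + 1) * T ≤ s * c := by
    rw [← h₅]
    linarith [mul_le_mul_of_nonneg_right hs1 hc.le]
  have hht : ∀ H : F.J → ℝ, (∀ j, T ≤ H j) →
      (∀ j, ¬F.Ray j₀ j → ((C₅ + C₆ + 2) * Cb + 1) * T ≤ H j) → ∀ v ∈ Δ.VV,
      F.μ j₀ (F.φL v) ≤ 0 → ∀ n : ℕ, (n : ℝ) ≤ (C₅ + C₆ + 2) * T → ∀ j,
        T ≤ H j - n * F.μ j (F.φL v) := by
    intro H h1 h2 v hv hv0 n hn j
    by_cases hr : F.Ray j₀ j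
    · obtain ⟨a, ha, e⟩ := hr
      have h3 : F.μ j (F.φL v) ≤ 0 := by
        rw [e, LinearMap.smul_apply, smul_eq_mul]
        exact mul_nonpos_of_nonneg_of_nonpos ha.le hv0
      have := mul_nonpos_of_nonneg_of_nonpos (Nat.cast_nonneg (α := ℝ) n) h3
      linarith [h1 j]
    · have h3 : F.μ j (F.φL v) ≤ Cb := (le_abs_self _).trans ((hb v hv).2 1 j).1
      have h4 : (n : ℝ) * F.μ j (F.φL v) ≤ (C₅ + C₆ + 2) * T * Cb :=
        le_trans (by gcongr) (mul_le_mul_of_nonneg_right hn (by linarith))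
      linarith [h2 j hr]
  -- the bad sets
  let B : F.L → Set (F.G × F.G) := fun v =>
    {z | (z.1, z.1 * z.2) ∉ F.rl1M Δ.VV f (θ * T) (ε' * T) (T ^ 2) ((s : ℝ) • F.φL v) ∨
      (z.1 * F.M.ofE g, z.1 * z.2 * F.M.ofE g) ∉
        F.rl1M Δ.VV f (θ * T) (ε' * T) (T ^ 2) (((s + k : ℕ) : ℝ) • F.φL v)}
  have hBm : ∀ v, MeasurableSet (B v) := fun v =>
    ((measurable_fst.prodMk (measurable_fst.mul measurable_snd))
      (F.rl1M_meas _ hQ.mf _ _ _ _).compl).union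
      (((measurable_fst.mul_const _).prodMk ((measurable_fst.mul measurable_snd).mul_const _))
        (F.rl1M_meas _ hQ.mf _ _ _ _).compl)
  let la : F.L → Measure F.G := fun v =>
    F.uI (F.Pos ((s : ℝ) • F.φL v)) (F.mup ((s : ℝ) • F.φL v))
  have hB : ∀ v ∈ Δ.VV, F.μ j₀ (F.φL v) ≤ 0 →
      ν.real {p | 1 / 2 ≤ (la v).real {m | (p, m) ∈ B v}} ≤ 4 * ε' := by
    intro v hv hv0
    refine (real_slice_le ν (la v) (hBm v) (by norm_num)).trans ?_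
    rw [div_le_iff₀ (by norm_num)]
    refine (prod_real_le ν (la v) (hBm v) (ε := ε' + ε') ?_).trans (by linarith)
    filter_upwards [F.uI_ae _ _] with m hm
    obtain ⟨y, hy0⟩ : ∃ y, m = F.M.ofE y := ⟨F.M.toE m, rfl⟩
    rw [hy0, Model.toE_ofE] at hm
    rw [hy0]
    have hy := F.I_le _ hm.1
    have a1 := HM f q hQ T hTT ν hν h hh (hb1.mono (fun _ => le_rfl) (min_le_right _ _)) v hv s
      hs3 (fun j => (hT1 j).1)
      (hht h (fun j => (hT1 j).1) (fun j hj => (hT3 j hj).1) v hv hv0 s hs3) y hy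
      ((F.N.bI_anti F.X (Set.subset_univ _) _ hm.1).trans hm.2)
    obtain ⟨m', b'⟩ := H₆ v hv s k hk1 g hg hgn y hm.1 hm.2
    have hsk : ((s + k : ℕ) : ℝ) ≤ (C₅ + C₆ + 2) * T := by push_cast; linarith
    have a2 := HM f q hQ T hTT (F.rt ν (F.M.ofE g)) inferInstance h' hh'
      (hb2.mono (fun _ => le_rfl) (min_le_right _ _)) v hv (s + k) hsk (fun j => (hT1 j).2)
      (hht h' (fun j => (hT1 j).2) (fun j hj => (hT3 j hj).2) v hv hv0 _ hsk) _ m' b'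
    rw [← F.real_le_rt] at a2
    have e : ∀ p : F.G, p * F.M.ofE g * F.M.ofE (F.N.Ad (-g) y) = p * F.M.ofE y * F.M.ofE g := by
      intro p
      rw [← F.conj_R (F.R.neg_mem hg) hy, ← F.ofE_inv_R hg]
      group
    refine le_trans (measureReal_mono (fun p hp => ?_)) ((measureReal_union_le _ _).trans
      (add_le_add a1 a2))
    rcases hp with hp | hp
    · left
      simpa only [rl1M, map_smul, Set.mem_ofPred_eq] using hp
    · right
      simpa only [rl1M, map_smul, Set.mem_ofPred_eq, e] using hp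
  have b1 := HB f q hQ T hTS ν hν (hb1.mono (fun j => by linarith [(hT1 j).1]) (min_le_left _ _))
  have b2 := HB f q hQ T hTS (F.rt ν (F.M.ofE g)) inferInstance
    (hb2.mono (fun j => by linarith [(hT1 j).2]) (min_le_left _ _))
  rw [← F.real_le_rt] at b2
  have b3 : ν.real (⋃ v ∈ Δ.VV.filter (fun v => F.μ j₀ (F.φL v) ≤ 0),
      {p | 1 / 2 ≤ (la v).real {m | (p, m) ∈ B v}}) ≤ Δ.VV.card * (4 * ε') := by
    refine (measureReal_biUnion_finset_le _ _).trans ?_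
    refine (Finset.sum_le_card_nsmul _ _ (4 * ε') fun v hv =>
      hB v (Finset.mem_filter.1 hv).1 (Finset.mem_filter.1 hv).2).trans ?_
    rw [nsmul_eq_mul]
    gcongr
    exact Finset.filter_subset _ _
  refine le_trans (measureReal_mono (fun p hp => ?_)) (((measureReal_union_le _ _).trans
    (add_le_add ((measureReal_union_le _ _).trans (add_le_add b1 b2)) b3)).trans (by linarith))
  by_contra hcon
  simp only [Set.mem_union, Set.mem_ofPred_eq, not_or, not_not] at hcon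
  obtain ⟨⟨⟨w, hw⟩, w', hw'⟩, hA⟩ := hcon
  simp only [Set.mem_iUnion, Set.mem_ofPred_eq, not_exists, Finset.mem_filter, not_le,
    and_imp] at hA
  have key : ∀ v ∈ Δ.VV, F.μ j₀ (F.φL v) ≤ 0 → ∃ A : Set F.G, MeasurableSet A ∧
      1 / 2 ≤ (la v).real A ∧ ∀ m ∈ A,
        ((f p)⁻¹ * f (p * m) ∈ F.PC (fun j => F.mup (w.1 ((s : ℝ) • F.φL v)) j + ε' * T) (T ^ 2) ∧
          ‖F.M.ht (f (p * m)) - F.M.ht (f p)‖ ≤ ε' * T) ∧
        (f (p * F.M.ofE g))⁻¹ * f (p * m * F.M.ofE g) ∈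
          F.PC (fun j => F.mup (w'.1 (((s + k : ℕ) : ℝ) • F.φL v)) j + ε' * T) (T ^ 2) ∧
          ‖F.M.ht (f (p * m * F.M.ofE g)) - F.M.ht (f (p * F.M.ofE g))‖ ≤ ε' * T := by
    intro v hv hv0
    have hm : MeasurableSet {m | (p, m) ∈ B v} := measurable_prodMk_left (hBm v)
    refine ⟨{m | (p, m) ∈ B v}ᶜ, hm.compl, ?_, fun m hm' => ?_⟩
    · rw [probReal_compl_eq_one_sub hm]
      linarith [hA v hv hv0]
    · simp only [B, Set.mem_compl_iff, Set.mem_ofPred_eq, not_or, not_not] at hm'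
      obtain ⟨⟨w₁, g₁, -, n₁, p₁⟩, w₂, g₂, -, n₂, p₂⟩ := hm'
      obtain rfl := Hg f p w w₁ _ _ hη hG hw g₁
      obtain rfl := Hg f _ w' w₂ _ _ hη hG hw' g₂
      exact ⟨⟨p₁, n₁⟩, p₂, n₂⟩
  have hww : w = w' := by
    by_contra hne
    obtain ⟨v, hv, hv0, i, hi⟩ := Δ.test w w' hne j₀
    obtain ⟨A, hAm, hA1, hA2⟩ := key v hv hv0
    have h1 := Hl f q hQ p (F.M.ofE g) _ _ w w' (ε' * T) (A₀ * T) (T ^ 2) A hη ha1 hn2
      haT hlen hAm hA1 (fun m hm => ⟨(hA2 m hm).1.1, (hA2 m hm).2.1⟩) i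
    have h2 := hgap v hv w w' i hi
    have h3 : max (F.μ i (w'.1 (F.φL v))) 0 ≤ Cb :=
      max_le ((le_abs_self _).trans ((hb v hv).2 w' i).1) (by linarith)
    have h4 : F.mup (w'.1 (((s + k : ℕ) : ℝ) • F.φL v)) i =
        (s + k) * max (F.μ i (w'.1 (F.φL v))) 0 := by
      rw [map_smul, F.rl1_mup, mul_max_of_nonneg _ _ (by positivity), mul_zero, Nat.cast_add]
    rw [h4, map_smul, map_smul, smul_eq_mul] at h1
    have h5 : 0 ≤ max (F.μ i (w'.1 (F.φL v))) 0 := le_max_right _ _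
    generalize max (F.μ i (w'.1 (F.φL v))) 0 = M at *
    have h6 := mul_le_mul_of_nonneg_left h2 hs0.le
    have h7 : k * M ≤ (C₆ + 1) * T * Cb := mul_le_mul hk2 h3 h5 (by positivity)
    have h8 := mul_le_mul_of_nonneg_left hsum (by linarith : 0 ≤ Cl)
    have h9 : 0 ≤ Co * (A₀ + 3) * T := by positivity
    linarith
  subst hww
  have hεT : ε' * T ≤ ε * T := by gcongr
  refine hp ⟨w, hw.mono le_rfl hεT, hw'.mono le_rfl hεT, fun v hv hv0 hΔ i hi => ?_⟩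
  obtain ⟨A, hAm, hA1, hA2⟩ := key v hv hv0
  have hsg : ∀ i, F.μ i (w.1 ((s : ℝ) • F.φL v)) = s * F.μ i (w.1 (F.φL v)) := fun i => by
    rw [map_smul, map_smul, smul_eq_mul]
  have hneg : ∀ i, F.μ i (w.1 ((s : ℝ) • F.φL v)) ≤ 0 → F.μ i (w.1 (F.φL v)) ≤ 0 := by
    intro i hi
    rw [hsg] at hi
    exact nonpos_of_mul_nonpos_right hi hs0
  have h1 := Ho f q hQ p g hg _ w
    (fun j => F.mup (w.1 (((s + k : ℕ) : ℝ) • F.φL v)) j + ε' * T) (ε' * T) (A₀ * T) (T ^ 2) A hη ha1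
    hn2 hlen hAm hA1
    (fun i hi => by
      rw [map_smul, F.rl1_mup, max_eq_right
        (mul_nonpos_of_nonneg_of_nonpos (by positivity) (hneg i hi)), zero_add])
    (fun i hi => by
      rw [hsg] at hi ⊢
      have a1 := ((hb v hv).2 w i).2 ((mul_pos_iff_of_pos_left hs0).1 hi)
      have a2 := mul_le_mul_of_nonneg_left a1 hs0.le
      have a3 := mul_le_mul_of_nonneg_left hsum (by linarith : 0 ≤ Co)
      have a4 : 0 ≤ ((C₆ + 1) * Cb + Cl * (A₀ + 3) + 1) * T := by positivity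
      linarith)
    (fun m hm => ⟨(hA2 m hm).1.1, (hA2 m hm).1.2, (hA2 m hm).2.1, (hA2 m hm).2.2⟩)
    (fun i hi => hΔ i (hneg i hi)) i
    (by rw [hsg]; exact mul_nonpos_of_nonneg_of_nonpos hs0.le hi)
  refine le_trans (neg_le_neg ?_) h1
  have a1 : Co * Real.log (T ^ 2) ≤ ε * T / 2 := by
    calc Co * Real.log (T ^ 2) ≤ Co * (ε / (2 * Co) * T) := by gcongr
      _ = _ := by field_simp
  linarith [mul_le_mul_of_nonneg_right e3 hT0.le]

end Frame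

end Crest.Agent.R182
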