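import Crest.Agent.R182.RL

/-! Row 182, task `R182/U1`: one label and one offset for each box. -/

set_option autoImplicit false

namespace Crest.Agent.R182

open scoped BigOperators
open MeasureTheory

namespace Frame

variable (F : Frame)

/-- both points are good with one label and their images have close heights -/
def u1E (𝒱 : Finset F.L) (f : F.G → F.G) (s η : ℝ) (x x' : F.G) : Prop :=
  ∃ w, F.Good 𝒱 f x w s η ∧ F.Good 𝒱 f x' w s η ∧ ‖F.M.ht (f x') - F.M.ht (f x)‖ ≤ η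

theorem u1_meas (𝒱 : Finset F.L) {f : F.G → F.G} (hf : Measurable f) (s η : ℝ) :
    MeasurableSet {p : F.G × F.G | ¬F.u1E 𝒱 f s η p.1 (p.1 * p.2)} := by
  refine MeasurableSet.compl (s := {p : F.G × F.G | F.u1E 𝒱 f s η p.1 (p.1 * p.2)}) ?_
  simp only [u1E, Set.ofPred_exists]
  refine MeasurableSet.iUnion fun w => ?_
  have h := F.M.continuous_ht.measurable.comp hf
  have h3 : MeasurableSet {p : F.G × F.G | ‖F.M.ht (f (p.1 * p.2)) - F.M.ht (f p.1)‖ ≤ η} :=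
    measurableSet_le ((h.comp measurable_mul).sub (h.comp measurable_fst)).norm measurable_const
  exact (measurable_fst (F.measurableSet_good 𝒱 hf w s η)).inter
    ((measurable_mul (F.measurableSet_good 𝒱 hf w s η)).inter h3)

theorem u1_large {a C t : ℝ} (ha : 0 < a) (ht : 0 < t) :
    ∀ᶠ S : ℝ in Filter.atTop, C * Real.exp (-(a * S)) ≤ t := by
  have h1 : Filter.Tendsto (fun S : ℝ => C * Real.exp (-(a * S))) Filter.atTop (nhds (C * 0)) :=
    (Real.tendsto_exp_neg_atTop_nhds_zero.comp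
      (Filter.tendsto_id.const_mul_atTop ha)).const_mul C
  rw [mul_zero] at h1
  exact h1.eventually (ge_mem_nhds ht)

/-- Let `la = uR (hS ((1 + δ) S))`, `ν'' = lt x la`, and `E (x', x'')`: both are good with one label and
their images have heights within `ε' S` (measurable).  For `ν` as in the statement, `RL` and
`prod_real_le` give `(ν ⊗ la) {¬ E (x', x' g)} ≤ ε'`; for `x' = x y`, `lt x' la` is near `ν''`
(`near_lt_uR`, `bI_shift`).  So `ν {x' | ν'' {¬ E (x', ·)} ≥ 1/2}` is small (`real_slice_le` with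
threshold `1/4`).  First use this for `ν₀ = lt x (uR (hS ((1 + δ/4) S)))` (`binv_uR`) to get one point
`x₀`; `w`, `c` are its label and `ht (f x₀)`.  Two points `x', x₀` have a common partner `x''`; `G1`. -/
theorem U1 (Δ : F.Dirs) {K θ : ℝ} (hθ : 0 < θ) (hBT : F.BTs Δ.VV K θ) :
    ∃ δ₀ : ℝ, 0 < δ₀ ∧ ∀ δ : ℝ, 0 < δ → δ ≤ δ₀ → ∀ ε : ℝ, 0 < ε → ∃ S₀ τ : ℝ, 0 < τ ∧ ∀ f q,
      F.QI K f q → ∀ S : ℝ, S₀ ≤ S → ∀ x : F.G, ∃ (w : F.W) (c : F.V), ∀ ν : Measure F.G, IsProbabilityMeasure ν →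
        F.BInv ν (Δ.hS S) τ →
        (∀ᵐ x' ∂ν, ∃ y ∈ F.R, F.bx (Δ.hS ((1 + δ / 2) * S)) y ≤ 1 ∧ x' = x * F.M.ofE y) →
        ν.real {x' | ¬(F.Good Δ.VV f x' w (θ * (δ * S)) (ε * S) ∧
          ‖F.M.ht (f x') - c‖ ≤ ε * S)} ≤ ε := by
  obtain ⟨δ₀, hδ₀, hRL⟩ := F.RL Δ hθ hBT
  obtain ⟨CG, hCG, hG1⟩ := F.G1 Δ
  obtain ⟨c, Cc, hc, -, -, hcb, -⟩ := Δ.exists_bounds
  obtain ⟨Cb, hCb, hbinv⟩ := F.binv_uR
  obtain ⟨Cn, hCn, hnear⟩ := F.near_lt_uR
  refine ⟨δ₀, hδ₀, fun δ hδ hδ1 ε hε => ?_⟩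
  obtain ⟨ε', hε', he1, he2, he3⟩ : ∃ ε' : ℝ, 0 < ε' ∧ 4 * ε' ≤ ε ∧ ε' ≤ 1 / 8 ∧
      2 * CG * ε' ≤ θ * δ := by
    refine ⟨min (ε / 4) (min (1 / 8) (θ * δ / (2 * CG))), by positivity, ?_, ?_, ?_⟩
    · linarith [min_le_left (ε / 4) (min (1 / 8) (θ * δ / (2 * CG)))]
    · exact (min_le_right _ _).trans (min_le_left _ _)
    · rw [mul_comm, ← le_div_iff₀ (by positivity)]
      exact (min_le_right _ _).trans (min_le_right _ _)
  obtain ⟨S₀, τ, hτ, hRL⟩ := hRL δ hδ hδ1 ε' hε'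
  obtain ⟨S₁, hS₁⟩ := Filter.eventually_atTop.1
    ((Filter.eventually_ge_atTop S₀).and ((Filter.eventually_ge_atTop (2 * CG / (θ * δ))).and
      ((u1_large (C := Cn) (a := c * (δ / 2)) (t := 1 / 8) (by positivity) (by norm_num)).and
        (u1_large (C := Cb) (a := c * (δ / 4)) (by positivity) hτ))))
  refine ⟨S₁, τ, hτ, fun f q hfq S hS x => ?_⟩
  obtain ⟨hS0, hS1, hS2, hS3⟩ := hS₁ S hS
  have hSpos : 0 < S := lt_of_lt_of_le (by positivity) hS1
  rw [div_le_iff₀ (by positivity)] at hS1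
  have hsep : CG * (ε' * S + 1) ≤ θ * (δ * S) := by nlinarith
  have hshift : ∀ (a b : ℝ), 0 ≤ b → ∀ j, Δ.hS (a * S) j + c * b * S ≤ Δ.hS ((a + b) * S) j := by
    intro a b hb j
    have := mul_le_mul_of_nonneg_left (hcb j).1 (mul_nonneg hb hSpos.le)
    simp only [Dirs.hS]
    nlinarith
  set la := F.uR (Δ.hS ((1 + δ) * S)) with hla
  set E := F.u1E Δ.VV f (θ * (δ * S)) (ε' * S) with hE
  let Gd : F.G → Prop := fun x' => (F.lt x la).real {x'' | ¬E x' x''} < 1 / 2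
  have key : ∀ ν : Measure F.G, IsProbabilityMeasure ν → F.BInv ν (Δ.hS S) τ →
      (∀ᵐ x' ∂ν, ∃ y ∈ F.R, F.bx (Δ.hS ((1 + δ / 2) * S)) y ≤ 1 ∧ x' = x * F.M.ofE y) →
      ν.real {x' | ¬Gd x'} ≤ 4 * ε' := by
    intro ν hν hinv hsupp
    have hB := F.u1_meas Δ.VV hfq.mf (θ * (δ * S)) (ε' * S)
    have h1 : (ν.prod la).real {p : F.G × F.G | ¬E p.1 (p.1 * p.2)} ≤ ε' := by
      refine prod_real_le ν la hB ?_
      filter_upwards [F.uR_ae (Δ.hS ((1 + δ) * S))] with g hg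
      exact hRL f q hfq S hS0 ν hν hinv _ hg.1 hg.2
    have h2 := real_slice_le ν la hB (η := 1 / 4) (by norm_num)
    have h3 : ν.real {x' | ¬Gd x'} ≤ ν.real {x' | 1 / 4 ≤ la.real {g | ¬E x' (x' * g)}} := by
      refine ENNReal.toReal_mono (measure_ne_top _ _) (measure_mono_ae ?_)
      filter_upwards [hsupp] with x' hx' hbad
      obtain ⟨y, hy, hy1, rfl⟩ := hx'
      have e1 : F.bx (Δ.hS ((1 + δ) * S)) y ≤ Real.exp (-(c * (δ / 2) * S)) := by
        have := F.N.bI_shift F.X Set.univ (c := c * (δ / 2) * S) (by positivity)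
          (hshift (1 + δ / 2) (δ / 2) (by positivity)) hy
        rw [show 1 + δ / 2 + δ / 2 = 1 + δ by ring] at this
        exact this.trans (mul_le_of_le_one_right (Real.exp_pos _).le hy1)
      have e2 : Real.exp (-(c * (δ / 2) * S)) ≤ 1 :=
        Real.exp_le_one_iff.2 (neg_nonpos.2 (by positivity))
      have e3 := (hnear x _ y hy (e1.trans e2)).le_all {x'' | ¬E (x * F.M.ofE y) x''}
      have e4 : (F.lt (x * F.M.ofE y) la).real {x'' | ¬E (x * F.M.ofE y) x''} =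
          la.real {g | ¬E (x * F.M.ofE y) (x * F.M.ofE y * g)} := by
        rw [measureReal_def, measureReal_def, lt, (measurableEmbedding_mulLeft _).map_apply]; rfl
      have e5 : Cn * F.bx (Δ.hS ((1 + δ) * S)) y ≤ 1 / 8 :=
        (mul_le_mul_of_nonneg_left e1 (by linarith)).trans hS2
      have e6 : 1 / 2 ≤ (F.lt x la).real {x'' | ¬E (x * F.M.ofE y) x''} := not_lt.1 hbad
      change 1 / 4 ≤ la.real {g | ¬E (x * F.M.ofE y) (x * F.M.ofE y * g)}
      rw [← hla] at e3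
      linarith
    have h4 : (ν.prod la).real {p : F.G × F.G | ¬E p.1 (p.1 * p.2)} / (1 / 4) ≤ 4 * ε' := by
      linarith
    exact h3.trans (h2.trans h4)
  have h0 := key (F.lt x (F.uR (Δ.hS ((1 + δ / 4) * S)))) inferInstance
    ((hbinv x _ _ (c * (δ / 4) * S) (by positivity) (by
      simpa using hshift 1 (δ / 4) (by positivity))).mono (fun _ => le_rfl) hS3) (by
      rw [lt, (measurableEmbedding_mulLeft x).ae_map_iff]
      filter_upwards [F.uR_ae (Δ.hS ((1 + δ / 4) * S))] with g hg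
      refine ⟨_, hg.1, (F.N.bI_mono F.X Set.univ (fun j => ?_) hg.1).trans hg.2, rfl⟩
      have := hshift (1 + δ / 4) (δ / 4) (by positivity) j
      rw [show 1 + δ / 4 + δ / 4 = 1 + δ / 2 by ring] at this
      have h1 : 0 ≤ c * (δ / 4) * S := by positivity
      linarith)
  obtain ⟨x₀, hx₀, -⟩ := exists_not_mem_of_real_lt _ (h0.trans_lt (by linarith))
    (p := fun _ => True) (by simp)
  have hx₀' : Gd x₀ := not_not.1 hx₀
  have hpair : ∀ x', Gd x' → ∃ x'', E x' x'' ∧ E x₀ x'' := by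
    intro x' hx'
    have h1 : (F.lt x la).real ({x'' | ¬E x' x''} ∪ {x'' | ¬E x₀ x''}) < 1 :=
      (measureReal_union_le _ _).trans_lt (by
        have a1 : _ < _ := hx'
        have a2 : _ < _ := hx₀'
        linarith)
    obtain ⟨x'', h2, -⟩ := exists_not_mem_of_real_lt _ h1 (p := fun _ => True) (by simp)
    simp only [Set.mem_union, Set.mem_ofPred_eq, not_or, not_not] at h2
    exact ⟨x'', h2⟩
  obtain ⟨-, ⟨w₀, hw₀, -⟩, -⟩ := hpair x₀ hx₀'
  refine ⟨w₀, F.M.ht (f x₀), fun ν hν hinv hsupp => ?_⟩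
  refine le_trans (measureReal_mono ?_ (measure_ne_top _ _)) ((key ν hν hinv hsupp).trans he1)
  intro x' hx' hG
  apply hx'
  obtain ⟨x'', ⟨w₁, a1, a2, a3⟩, ⟨w₂, b1, b2, b3⟩⟩ := hpair x' hG
  have hη : 0 ≤ ε' * S := by positivity
  have e1 := hG1 f x'' w₁ w₂ _ _ hη hsep a2 b2
  have e2 := hG1 f x₀ w₂ w₀ _ _ hη hsep b1 hw₀
  subst e1 e2
  have hεS : 4 * ε' * S ≤ ε * S := mul_le_mul_of_nonneg_right he1 hSpos.le
  refine ⟨a1.mono le_rfl (by linarith), ?_⟩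
  have e3 : F.M.ht (f x') - F.M.ht (f x₀) =
      (F.M.ht (f x'') - F.M.ht (f x₀)) - (F.M.ht (f x'') - F.M.ht (f x')) := by abel
  rw [e3]
  linarith [norm_sub_le (F.M.ht (f x'') - F.M.ht (f x₀)) (F.M.ht (f x'') - F.M.ht (f x'))]

end Frame

end Crest.Agent.R182
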