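import Crest.Agent.R182.U1
import Crest.Agent.R182.GeoPC
import Crest.Agent.R182.GeoAd
import Crest.Agent.R182.GL

/-! Row 182, task `R182/U2`: the uniform linear approximation of heights. -/

set_option autoImplicit false

namespace Crest.Agent.R182

open scoped BigOperators
open MeasureTheory

namespace Frame

variable (F : Frame)

theorem u2_min (Δ : F.Dirs) : ∃ c : ℝ, 0 < c ∧ ∀ j, c ≤ F.μ j (F.φL (Δ.sp j)) := by
  rcases isEmpty_or_nonempty F.J with hι | hι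
  · exact ⟨1, one_pos, fun i => isEmptyElim i⟩
  · obtain ⟨i, hi⟩ := Finite.exists_min fun j => F.μ j (F.φL (Δ.sp j))
    exact ⟨_, Δ.sp_pos i, hi⟩

theorem u2_hS_mono (Δ : F.Dirs) {S S' : ℝ} (h : S ≤ S') (j : F.J) : Δ.hS S j ≤ Δ.hS S' j :=
  mul_le_mul_of_nonneg_right h (Δ.sp_pos j).le

theorem u2_ae (x : F.G) {h h' : F.J → ℝ} (hh : ∀ j, h j ≤ h' j) :
    ∀ᵐ x' ∂F.lt x (F.uR h), ∃ y ∈ F.R, F.bx h' y ≤ 1 ∧ x' = x * F.M.ofE y := by
  rw [Frame.lt, (measurableEmbedding_mulLeft x).ae_map_iff]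
  filter_upwards [F.uR_ae h] with g hg
  exact ⟨F.M.toE g, hg.1, (F.N.bI_mono F.X _ hh hg.1).trans hg.2, rfl⟩

/-- Scales `S_i = (1 + δ/8)^i S₀`, data `(w_i, c_i)` from `U1` at `(x, S_i)`.  The measure
`lt x (uR (hS ((1 + δ/4) S_i)))` is admissible for `S_i` and `S_{i+1}` (`binv_uR`, `uR_ae`, `bI_mono`), so
`w_i = w_{i+1}` (`G1`, `Good.mono`) and `‖c_i - c_{i+1}‖ ≤ 3 ε' S_i`; `‖c_0 - ht (f x)‖ ≤ C (S₀)` (`len_R`,
`qi_lip`).  Hence `‖c_i - ht (f x)‖ ≤ C + C ε' S_i / δ`; in the conclusion `w` does not depend on `i`. -/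
theorem U2 (Δ : F.Dirs) {K θ : ℝ} (hθ : 0 < θ) (hBT : F.BTs Δ.VV K θ) :
    ∃ δ₀ : ℝ, 0 < δ₀ ∧ ∀ δ : ℝ, 0 < δ → δ ≤ δ₀ → ∀ ε : ℝ, 0 < ε →
      ∃ S₀ τ C : ℝ, 1 ≤ S₀ ∧ 0 < τ ∧ 0 ≤ C ∧ ∀ f q,
      F.QI K f q → ∀ x : F.G, ∃ w : F.W, ∀ i : ℕ, ∀ ν : Measure F.G, IsProbabilityMeasure ν →
        F.BInv ν (Δ.hS ((1 + δ / 8) ^ i * S₀)) τ →
        (∀ᵐ x' ∂ν, ∃ y ∈ F.R, F.bx (Δ.hS ((1 + δ / 2) * ((1 + δ / 8) ^ i * S₀))) y ≤ 1 ∧
          x' = x * F.M.ofE y) →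
        ν.real {x' | ¬(F.Good Δ.VV f x' w (θ * (δ * ((1 + δ / 8) ^ i * S₀)))
            (ε * ((1 + δ / 8) ^ i * S₀)) ∧
          ‖F.M.ht (f x') - F.M.ht (f x)‖ ≤ ε * ((1 + δ / 8) ^ i * S₀) + C)} ≤ ε := by
  obtain ⟨δ₀, hδ₀, hU⟩ := F.U1 Δ hθ hBT
  obtain ⟨C₁, hC₁, hG1⟩ := F.G1 Δ
  obtain ⟨Cb, hCb, hbinv⟩ := F.binv_uR
  obtain ⟨CR, hCR, hlen⟩ := F.len_R
  obtain ⟨Cq, hCq, hlip⟩ := F.qi_lip
  obtain ⟨m, hm, hmle⟩ := F.u2_min Δ
  refine ⟨δ₀, hδ₀, fun δ hδ hδle ε hε => ?_⟩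
  set P : ℝ := (2 + δ / 8) * (8 / δ) with hP
  have hP0 : 0 < P := by positivity
  set ε' : ℝ := min (min (1 / 3) (ε / (1 + P))) (θ * δ / (2 * (C₁ * (1 + δ / 8)))) with hε'd
  have hε' : 0 < ε' := by positivity
  have e1 : ε' ≤ 1 / 3 := (min_le_left _ _).trans (min_le_left _ _)
  have e2 : ε' * (1 + P) ≤ ε := by
    have : ε' ≤ ε / (1 + P) := (min_le_left _ _).trans (min_le_right _ _)
    rwa [le_div_iff₀ (by positivity)] at this
  have e3 : ε' * (2 * (C₁ * (1 + δ / 8))) ≤ θ * δ := by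
    have : ε' ≤ θ * δ / (2 * (C₁ * (1 + δ / 8))) := min_le_right _ _
    rwa [le_div_iff₀ (by positivity)] at this
  have e4 : ε' ≤ ε := by nlinarith
  obtain ⟨S₁, τ, hτ, hU⟩ := hU δ hδ hδle ε' hε'
  obtain ⟨S₀, s1, s2, s3, s4⟩ : ∃ S₀ : ℝ, S₁ ≤ S₀ ∧ 1 ≤ S₀ ∧ 2 * C₁ ≤ θ * δ * S₀ ∧
      Real.log (Cb / τ) ≤ δ / 8 * m * S₀ := by
    refine ⟨max (max S₁ 1) (max (2 * C₁ / (θ * δ)) (Real.log (Cb / τ) / (δ / 8 * m))),
      (le_max_left _ _).trans (le_max_left _ _), (le_max_right _ _).trans (le_max_left _ _), ?_, ?_⟩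
    · rw [mul_comm (θ * δ), ← div_le_iff₀ (by positivity)]
      exact (le_max_left _ _).trans (le_max_right _ _)
    · rw [mul_comm (δ / 8 * m), ← div_le_iff₀ (by positivity)]
      exact (le_max_right _ _).trans (le_max_right _ _)
  set S : ℕ → ℝ := fun i => (1 + δ / 8) ^ i * S₀ with hS
  have hS0 : ∀ i, S₀ ≤ S i := fun i =>
    le_mul_of_one_le_left (by linarith) (one_le_pow₀ (by linarith))
  have hSp : ∀ i, 0 < S i := fun i => by linarith [hS0 i]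
  have hSs : ∀ i, S (i + 1) = (1 + δ / 8) * S i := fun i => by
    simp only [hS]; ring
  have hSz : S 0 = S₀ := by simp [hS]
  have hsum : 0 ≤ ∑ j, F.μ j (F.φL (Δ.sp j)) := Finset.sum_nonneg fun j _ => (Δ.sp_pos j).le
  set M : ℝ := (1 + δ / 2) * S₀ * ∑ j, F.μ j (F.φL (Δ.sp j)) with hM
  have hM0 : 0 ≤ M := by positivity
  refine ⟨S₀, τ, ε' * S₀ + Cq * |K| * (CR * (M + 1) + 1), s2, hτ, by positivity,
    fun f q hf x => ?_⟩
  choose w c hwc using fun i => hU f q hf (S i) (s1.trans (hS0 i)) x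
  -- a point which is good at two consecutive scales
  have key : ∀ i, ∃ x', (F.Good Δ.VV f x' (w i) (θ * (δ * S i)) (ε' * S i) ∧
      ‖F.M.ht (f x') - c i‖ ≤ ε' * S i) ∧
      (F.Good Δ.VV f x' (w (i + 1)) (θ * (δ * S (i + 1))) (ε' * S (i + 1)) ∧
        ‖F.M.ht (f x') - c (i + 1)‖ ≤ ε' * S (i + 1)) ∧
      ∃ y ∈ F.R, F.bx (Δ.hS ((1 + δ / 2) * S i)) y ≤ 1 ∧ x' = x * F.M.ofE y := by
    intro i
    have hp := hSp i
    have b1 : F.BInv (F.lt x (F.uR (Δ.hS ((1 + δ / 4) * S i)))) (Δ.hS (S (i + 1))) τ := by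
      refine (hbinv x _ _ (δ / 8 * m * S₀) (by positivity) fun j => ?_).mono (fun _ => le_rfl) ?_
      · simp only [Dirs.hS, hSs]
        have h1 : m * S₀ ≤ F.μ j (F.φL (Δ.sp j)) * S i :=
          mul_le_mul (hmle j) (hS0 i) (by linarith) (Δ.sp_pos j).le
        nlinarith
      · have h1 : Real.exp (-(δ / 8 * m * S₀)) ≤ Real.exp (-Real.log (Cb / τ)) :=
          Real.exp_le_exp.2 (by linarith)
        rw [Real.exp_neg (Real.log _), Real.exp_log (by positivity), inv_div,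
          le_div_iff₀ (by linarith)] at h1
        linarith
    have hle : S i ≤ S (i + 1) := by rw [hSs]; nlinarith
    have b0 : F.BInv (F.lt x (F.uR (Δ.hS ((1 + δ / 4) * S i)))) (Δ.hS (S i)) τ :=
      b1.mono (F.u2_hS_mono Δ hle) le_rfl
    have a0 := F.u2_ae x (F.u2_hS_mono Δ (S := (1 + δ / 4) * S i) (S' := (1 + δ / 2) * S i)
      (by nlinarith))
    have a1 := F.u2_ae x (F.u2_hS_mono Δ (S := (1 + δ / 4) * S i) (S' := (1 + δ / 2) * S (i + 1))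
      (by nlinarith))
    have m0 := hwc i _ inferInstance b0 a0
    have m1 := hwc (i + 1) _ inferInstance b1 a1
    have m2 := (measureReal_union_le _ _).trans (add_le_add m0 m1)
    obtain ⟨x', hx', hy⟩ := exists_not_mem_of_real_lt _ (m2.trans_lt (by linarith)) a0
    exact ⟨x', not_not.1 fun h => hx' (Or.inl h), not_not.1 fun h => hx' (Or.inr h), hy⟩
  have hw : ∀ i, w i = w 0 := by
    intro i
    induction i with
    | zero => rfl
    | succ i ih =>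
      obtain ⟨x', ⟨g0, -⟩, ⟨g1, -⟩, -⟩ := key i
      have hp := hSp i
      have hle : S i ≤ S (i + 1) := by rw [hSs]; nlinarith
      rw [← ih]
      refine hG1 f x' _ _ (θ * (δ * S i)) (ε' * S (i + 1)) (by have := hSp (i + 1); positivity) ?_
        (g1.mono (by gcongr) le_rfl) (g0.mono le_rfl (by gcongr))
      have h1 : θ * δ * S₀ ≤ θ * δ * S i := mul_le_mul_of_nonneg_left (hS0 i) (by positivity)
      have h2 := mul_le_mul_of_nonneg_right e3 hp.le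
      rw [hSs]
      nlinarith
  have hc : ∀ i, ‖c i - c 0‖ ≤ ε' * P * S i := by
    intro i
    induction i with
    | zero => have := hSp 0; rw [sub_self, norm_zero]; positivity
    | succ i ih =>
      obtain ⟨x', ⟨-, g0⟩, ⟨-, g1⟩, -⟩ := key i
      have t1 := norm_sub_le_norm_sub_add_norm_sub (c (i + 1)) (c i) (c 0)
      have t2 := norm_sub_le_norm_sub_add_norm_sub (c (i + 1)) (F.M.ht (f x')) (c i)
      rw [norm_sub_rev (c (i + 1)) (F.M.ht (f x'))] at t2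
      have e : ε' * P * S (i + 1) = ε' * P * S i + (ε' * S i + ε' * S (i + 1)) := by
        rw [hSs, hP]
        field_simp
        ring
      linarith
  have hc0 : ‖c 0 - F.M.ht (f x)‖ ≤ ε' * S₀ + Cq * |K| * (CR * (M + 1) + 1) := by
    obtain ⟨x', ⟨-, g0⟩, -, y, hy, hy1, rfl⟩ := key 0
    rw [hSz] at g0 hy1
    have h1 : F.M.len (F.M.ofE y) ≤ CR * (M + 1) := by
      refine hlen M hM0 y hy ((F.N.bI_mono F.X _ (fun j => ?_) hy).trans hy1)
      exact mul_le_mul_of_nonneg_left (Finset.single_le_sum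
        (f := fun j => F.μ j (F.φL (Δ.sp j))) (fun j _ => (Δ.sp_pos j).le) (Finset.mem_univ j))
        (by positivity)
    have h2 := (hlip K f q hf x (F.M.ofE y)).1
    have h3 : Cq * K * (F.M.len (F.M.ofE y) + 1) ≤ Cq * |K| * (CR * (M + 1) + 1) := by
      have := F.M.len_nonneg (F.M.ofE y)
      gcongr
      exact le_abs_self K
    have t2 := norm_sub_le_norm_sub_add_norm_sub (c 0) (F.M.ht (f (x * F.M.ofE y))) (F.M.ht (f x))
    rw [norm_sub_rev (c 0) (F.M.ht (f (x * F.M.ofE y)))] at t2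
    linarith
  refine ⟨w 0, fun i ν hν hb hae => le_trans (measureReal_mono ?_ (measure_ne_top _ _))
    ((hwc i ν hν hb hae).trans e4)⟩
  rintro x' hx' ⟨g0, g1⟩
  apply hx'
  have hp := hSp i
  rw [hw i] at g0
  refine ⟨g0.mono le_rfl (mul_le_mul_of_nonneg_right e4 hp.le), ?_⟩
  have t1 := norm_sub_le_norm_sub_add_norm_sub (F.M.ht (f x')) (c i) (F.M.ht (f x))
  have t2 := norm_sub_le_norm_sub_add_norm_sub (c i) (c 0) (F.M.ht (f x))
  have t3 := mul_le_mul_of_nonneg_right e2 hp.le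
  have t4 := hc i
  change _ ≤ ε * S i + _
  nlinarith

end Frame

end Crest.Agent.R182
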